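import Crest.Agent.R238.SchFrozen
import Crest.Agent.R238.BootC
import Crest.Agent.R238.RegNL
import Crest.Agent.R238.SchMain

-- ▼ part R273/CRegA_933
section

/-!
# R273 (S0416), Part C, C-REG (helper933), file A: the difference quotient step

Families `F z : E n → ℝ`, `‖z‖ ≤ δ`: `Bd` (bounded in `C^a`), `Sm` (`O(‖z‖)` in `C^a`).
`dq_step`: if the differences `v(·+z) - v` solve uniformly elliptic equations with Hölder
coefficients and right hand sides of size `O(‖z‖)` on a ball, then the second derivatives of `v`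
are `C^{1,a}` on a smaller ball.
-/

set_option autoImplicit false

open MeasureTheory Set Filter Metric
open scoped ContDiff Topology

namespace Crest.Agent.R273.CReg_933

open Crest.Agent.R238 Crest.Agent.R238.Boot

variable {n : ℕ}

/-- family bounded in `C^a` for `‖z‖ ≤ δ` -/
def Bd (a δ : ℝ) (F : E n → E n → ℝ) : Prop := ∃ C, ∀ z, ‖z‖ ≤ δ → HB a C (F z)

/-- family of size `O(‖z‖)` in `C^a` -/
def Sm (a δ : ℝ) (F : E n → E n → ℝ) : Prop := ∃ C, ∀ z, ‖z‖ ≤ δ → HB a (C * ‖z‖) (F z)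

theorem Bd.of_hb {a δ M : ℝ} {f : E n → ℝ} (h : HB a M f) : Bd a δ (fun _ => f) :=
  ⟨M, fun _ _ => h⟩

theorem Bd.add {a δ : ℝ} {F G : E n → E n → ℝ} (h : Bd a δ F) (h' : Bd a δ G) :
    Bd a δ (fun z x => F z x + G z x) := by
  obtain ⟨C, hC⟩ := h
  obtain ⟨C', hC'⟩ := h'
  exact ⟨C + C', fun z hz => Boot.HB.add (hC z hz) (hC' z hz)⟩

theorem Bd.mul {a δ : ℝ} {F G : E n → E n → ℝ} (h : Bd a δ F) (h' : Bd a δ G) :
    Bd a δ (fun z x => F z x * G z x) := by
  obtain ⟨C, hC⟩ := h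
  obtain ⟨C', hC'⟩ := h'
  exact ⟨2 * (C * C'), fun z hz => Boot.HB.mul (hC z hz) (hC' z hz)⟩

theorem Sm.add {a δ : ℝ} {F G : E n → E n → ℝ} (h : Sm a δ F) (h' : Sm a δ G) :
    Sm a δ (fun z x => F z x + G z x) := by
  obtain ⟨C, hC⟩ := h
  obtain ⟨C', hC'⟩ := h'
  refine ⟨C + C', fun z hz => ?_⟩
  rw [add_mul]
  exact Boot.HB.add (hC z hz) (hC' z hz)

theorem Sm.neg {a δ : ℝ} {F : E n → E n → ℝ} (h : Sm a δ F) :
    Sm a δ (fun z x => - F z x) := by
  obtain ⟨C, hC⟩ := h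
  exact ⟨C, fun z hz => Boot.HB.neg (hC z hz)⟩

theorem Sm.sub {a δ : ℝ} {F G : E n → E n → ℝ} (h : Sm a δ F) (h' : Sm a δ G) :
    Sm a δ (fun z x => F z x - G z x) := by
  simpa only [sub_eq_add_neg] using h.add h'.neg

theorem Bd.mul_sm {a δ : ℝ} {F G : E n → E n → ℝ} (h : Bd a δ F) (h' : Sm a δ G) :
    Sm a δ (fun z x => F z x * G z x) := by
  obtain ⟨C, hC⟩ := h
  obtain ⟨C', hC'⟩ := h'
  refine ⟨2 * (C * C'), fun z hz => ?_⟩
  have := Boot.HB.mul (hC z hz) (hC' z hz)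
  convert this using 1
  ring

theorem Sm.mul_bd {a δ : ℝ} {F G : E n → E n → ℝ} (h : Sm a δ F) (h' : Bd a δ G) :
    Sm a δ (fun z x => F z x * G z x) := by
  simpa only [mul_comm] using h'.mul_sm h

theorem Sm.sum {a δ : ℝ} {ι : Type*} (s : Finset ι) {F : ι → E n → E n → ℝ}
    (h : ∀ i ∈ s, Sm a δ (F i)) : Sm a δ (fun z x => ∑ i ∈ s, F i z x) := by
  classical
  induction s using Finset.induction_on with
  | empty =>
    refine ⟨0, fun z _ => ?_⟩
    simp only [Finset.sum_empty, zero_mul]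
    have := hb_const (n := n) a 0
    rwa [abs_zero] at this
  | insert i s hi ih =>
    have h1 := (h i (by simp)).add (ih fun j hj => h j (by simp [hj]))
    simpa only [Finset.sum_insert hi] using h1

theorem Sm.congr {a δ : ℝ} {F G : E n → E n → ℝ} (h : Sm a δ F)
    (he : ∀ z, ‖z‖ ≤ δ → ∀ x, G z x = F z x) : Sm a δ G := by
  obtain ⟨C, hC⟩ := h
  exact ⟨C, fun z hz => by
    have : G z = F z := funext (he z hz)
    rw [this]; exact hC z hz⟩

theorem Sm.bd {a δ : ℝ} {F : E n → E n → ℝ} (h : Sm a δ F) : Bd a δ F := by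
  obtain ⟨C, hC⟩ := h
  refine ⟨|C| * δ, fun z hz => Boot.HB.mono (hC z hz) ?_⟩
  exact (mul_le_mul_of_nonneg_right (le_abs_self C) (norm_nonneg z)).trans
    (mul_le_mul_of_nonneg_left hz (abs_nonneg C))

/-! ### differences of `CK` functions -/


theorem hb_dir {a M : ℝ} {f : E n → ℝ} (h : ∀ i, HB a M (fun x => Boot.pd i f x)) (z : E n) :
    HB a (n * M * ‖z‖) (fun x => fderiv ℝ f x z) := by
  have e : (fun x => fderiv ℝ f x z) = fun x => ∑ i, z i * Boot.pd i f x := by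
    funext x; exact fderiv_eq_sum_pd _ _ _
  rw [e]
  rcases Nat.eq_zero_or_pos n with hn | hn
  · subst hn
    simp only [Finset.univ_eq_empty, Finset.sum_empty, Nat.cast_zero, zero_mul]
    have := hb_const (n := 0) a 0
    rwa [abs_zero] at this
  have hM : 0 ≤ M := Boot.HB.nonneg (h ⟨0, hn⟩)
  refine ⟨fun x => ?_, fun x y => ?_⟩
  · calc |∑ i, z i * Boot.pd i f x| ≤ ∑ i, |z i * Boot.pd i f x| := Finset.abs_sum_le_sum_abs _ _
      _ ≤ ∑ _i : Fin n, ‖z‖ * M := Finset.sum_le_sum fun i _ => by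
          rw [abs_mul]
          exact mul_le_mul (abs_coord_le z i) ((h i).1 x) (abs_nonneg _) (norm_nonneg _)
      _ = n * M * ‖z‖ := by
          rw [Finset.sum_const, Finset.card_univ, Fintype.card_fin, nsmul_eq_mul]; ring
  · rw [← Finset.sum_sub_distrib]
    calc |∑ i, (z i * Boot.pd i f x - z i * Boot.pd i f y)|
        ≤ ∑ i, |z i * Boot.pd i f x - z i * Boot.pd i f y| := Finset.abs_sum_le_sum_abs _ _
      _ ≤ ∑ _i : Fin n, ‖z‖ * (M * ‖x - y‖ ^ a) := Finset.sum_le_sum fun i _ => by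
          rw [← mul_sub, abs_mul]
          exact mul_le_mul (abs_coord_le z i) ((h i).2 x y) (abs_nonneg _) (norm_nonneg _)
      _ = n * M * ‖z‖ * ‖x - y‖ ^ a := by
          rw [Finset.sum_const, Finset.card_univ, Fintype.card_fin, nsmul_eq_mul]; ring

theorem hb_unif {a : ℝ} {ι : Type*} [Fintype ι] {F : ι → E n → ℝ} (h : ∀ i, ∃ M, HB a M (F i)) :
    ∃ M, 0 ≤ M ∧ ∀ i, HB a M (F i) := by
  choose M hM using h
  have h0 : ∀ i, 0 ≤ M i := fun i => Boot.HB.nonneg (hM i)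
  exact ⟨∑ i, M i, Finset.sum_nonneg fun i _ => h0 i, fun i => Boot.HB.mono (hM i)
    (Finset.single_le_sum (fun j _ => h0 j) (Finset.mem_univ i))⟩

theorem sm_dq {a δ : ℝ} {f : E n → ℝ} (h : CK a 1 f) : Sm a δ (fun z => dq z f) := by
  obtain ⟨M, -, hM⟩ := hb_unif (fun i => (h.pd i : CK a 0 _).hb)
  exact ⟨n * M, fun z _ => NL.HB_dq h.diff (hb_dir hM z)⟩

theorem ck_pd_dq {a : ℝ} {k : ℕ} {f : E n → ℝ} (h : CK a (k + 1) f) (z : E n) (i : Fin n) :
    Boot.pd i (dq z f) = dq z (Boot.pd i f) := by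
  funext x
  unfold Boot.pd
  rw [NL.fderiv_dq h.diff]
  rfl

theorem ck_translate {a : ℝ} {k : ℕ} {f : E n → ℝ} (h : CK a k f) (z : E n) :
    CK a k (fun x => f (x + z)) := by
  induction k generalizing f with
  | zero =>
    obtain ⟨M, hM⟩ := h
    exact ⟨M, Boot.HB.comp_add hM z⟩
  | succ k ih =>
    obtain ⟨M, hM⟩ := h.hb
    refine ⟨⟨M, Boot.HB.comp_add hM z⟩, ?_, fun i => ?_⟩
    · exact fun x => ((hasFDerivAt_comp_add_right z).2 (h.diff (x + z)).hasFDerivAt).differentiableAt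
    · have e : (fun x => fderiv ℝ (fun x => f (x + z)) x (ee i))
          = fun x => Boot.pd i f (x + z) := by
        funext x
        rw [fderiv_comp_add_right]
        rfl
      rw [e]
      exact ih (h.pd i)

theorem ck_dq {a : ℝ} {k : ℕ} {f : E n → ℝ} (h : CK a k f) (z : E n) : CK a k (dq z f) :=
  CK.sub (ck_translate h z) h

theorem ck_hs {a : ℝ} {k : ℕ} (ha : 0 < a) {f : E n → ℝ} (h : CK a (k + 2) f) (i j : Fin n) :
    CK a k (fun x => Hs f x i j) := by
  have h2 : ContDiff ℝ 2 f := by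
    exact_mod_cast CK.contDiff ha (h.of_le (by omega : 2 ≤ k + 2))
  have e : (fun x => Hs f x i j) = Boot.pd i (Boot.pd j f) := by
    funext x; exact (pd_pd_eq h2 i j x).symm
  rw [e]
  exact (h.pd j).pd i

/-- smooth compactly supported functions are in all classes -/
theorem ck_smooth {a : ℝ} (ha : 0 < a) (ha1 : a ≤ 1) (k : ℕ) {f : E n → ℝ}
    (hf : ContDiff ℝ ∞ f) (hc : HasCompactSupport f) : CK a k f := by
  induction k generalizing f with
  | zero => exact SF.hb_of_c1 ha.le ha1 (hf.of_le (by simp)) hc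
  | succ k ih =>
    refine ⟨SF.hb_of_c1 ha.le ha1 (hf.of_le (by simp)) hc, hf.differentiable (by simp),
      fun i => ih ?_ ?_⟩
    · exact (hf.fderiv_right (m := ∞) (by simp)).clm_apply contDiff_const
    · refine (hc.fderiv (𝕜 := ℝ)).mono ?_
      intro x hx
      simp only [Function.mem_support] at hx ⊢
      intro h; apply hx; simp [h]

/-! ### the difference quotient step -/

theorem ell_weaken {lo hi lo' hi' : ℝ} (h1 : lo' ≤ lo) (h2 : hi ≤ hi')
    {A : Matrix (Fin n) (Fin n) ℝ} (h : Ell lo hi A) : Ell lo' hi' A := by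
  refine ⟨h.1, fun z => ?_⟩
  have hs : 0 ≤ ∑ i, z i ^ 2 := Finset.sum_nonneg fun i _ => sq_nonneg _
  exact ⟨(mul_le_mul_of_nonneg_right h1 hs).trans (h.2 z).1,
    (h.2 z).2.trans (mul_le_mul_of_nonneg_right h2 hs)⟩

theorem ell_one {lo hi : ℝ} (h1 : lo ≤ 1) (h2 : 1 ≤ hi) :
    Ell lo hi (1 : Matrix (Fin n) (Fin n) ℝ) :=
  Sch.ell_one' h1 h2

theorem ell_convex {lo hi t : ℝ} (ht0 : 0 ≤ t) (ht1 : t ≤ 1) {A B : Matrix (Fin n) (Fin n) ℝ}
    (hA : Ell lo hi A) (hB : Ell lo hi B) :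
    Ell lo hi (fun i j => t * A i j + (1 - t) * B i j) := by
  refine ⟨fun i j => by simp only; rw [hA.1 i j, hB.1 i j], fun z => ?_⟩
  have e : ∑ i, ∑ j, (t * A i j + (1 - t) * B i j) * z i * z j
      = t * (∑ i, ∑ j, A i j * z i * z j) + (1 - t) * ∑ i, ∑ j, B i j * z i * z j := by
    simp only [Finset.mul_sum, ← Finset.sum_add_distrib]
    exact Finset.sum_congr rfl fun i _ => Finset.sum_congr rfl fun j _ => by ring
  rw [e]
  obtain ⟨a1, a2⟩ := hA.2 z
  obtain ⟨b1, b2⟩ := hB.2 z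
  have h1 := sub_nonneg.2 ht1
  constructor
  · nlinarith [mul_le_mul_of_nonneg_left a1 ht0, mul_le_mul_of_nonneg_left b1 h1]
  · nlinarith [mul_le_mul_of_nonneg_left a2 ht0, mul_le_mul_of_nonneg_left b2 h1]

/-- **the difference quotient step** -/
theorem dq_step {a : ℝ} (ha : 0 < a) (ha1 : a < 1) {x0 : E n} {r : ℝ} (hr : 0 < r)
    {v : E n → ℝ} (hv : CK a 2 v) {δ : ℝ} (hδ : 0 < δ)
    {A : E n → E n → Matrix (Fin n) (Fin n) ℝ} {G : E n → E n → ℝ} {lo hi K N : ℝ}
    (hlo : 0 < lo) (hlohi : lo ≤ hi)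
    (hell : ∀ z, ‖z‖ ≤ δ → ∀ x ∈ ball x0 (4 * r), Ell lo hi (A z x))
    (hA : ∀ z, ‖z‖ ≤ δ → ∀ i j, SF.HBon a K (ball x0 (4 * r)) (fun x => A z x i j))
    (hG : ∀ z, ‖z‖ ≤ δ → SF.HBon a (N * ‖z‖) (ball x0 (4 * r)) (G z))
    (heq : ∀ z, ‖z‖ ≤ δ → ∀ x ∈ ball x0 (4 * r),
      ∑ i, ∑ j, A z x i j * Hs (dq z v) x i j = G z x) (i j : Fin n) :
    ∃ F : E n → ℝ, CK a 1 F ∧ ∀ x ∈ ball x0 (r / 2), F x = Hs v x i j := by
  have hv2 : ContDiff ℝ 2 v := by exact_mod_cast CK.contDiff ha hv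
  -- cut-offs
  let χ : ContDiffBump x0 := ⟨r, 2 * r, hr, by linarith⟩
  let η : ContDiffBump x0 := ⟨2 * r, 3 * r, by linarith, by linarith⟩
  let ζ : ContDiffBump x0 := ⟨r / 2, r, by linarith, by linarith⟩
  have hχ : ContDiff ℝ ∞ (χ : E n → ℝ) := χ.contDiff
  have hη : ContDiff ℝ ∞ (η : E n → ℝ) := η.contDiff
  have hζ : ContDiff ℝ ∞ (ζ : E n → ℝ) := ζ.contDiff
  have hχ2 : ContDiff ℝ 2 (χ : E n → ℝ) := χ.contDiff
  have hχk : ∀ k, CK a k (χ : E n → ℝ) := fun k => ck_smooth ha ha1.le k hχ χ.hasCompactSupport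
  have hηk : ∀ k, CK a k (η : E n → ℝ) := fun k => ck_smooth ha ha1.le k hη η.hasCompactSupport
  have hζk : ∀ k, CK a k (ζ : E n → ℝ) := fun k => ck_smooth ha ha1.le k hζ ζ.hasCompactSupport
  have hη1 : ∀ x ∈ closedBall x0 (2 * r), η x = 1 := fun x hx => η.one_of_mem_closedBall hx
  have hη0 : ∀ x ∉ ball x0 (4 * r), η x = 0 := fun x hx => η.zero_of_le_dist (by
    rw [mem_ball, not_lt] at hx
    show 3 * r ≤ _
    linarith)
  have hχ1 : ∀ x ∈ closedBall x0 r, χ x = 1 := fun x hx => χ.one_of_mem_closedBall hx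
  have hχout : ∀ x ∉ closedBall x0 (2 * r), (χ : E n → ℝ) =ᶠ[𝓝 x] fun _ => 0 := by
    intro x hx
    have ho : IsOpen (closedBall x0 (2 * r))ᶜ := isClosed_closedBall.isOpen_compl
    filter_upwards [ho.mem_nhds hx] with y hy
    apply χ.zero_of_le_dist
    simp only [mem_compl_iff, mem_closedBall, not_le] at hy
    exact hy.le
  have hcb : closedBall x0 (2 * r) ⊆ ball x0 (4 * r) := closedBall_subset_ball (by linarith)
  -- the extended coefficients
  set τ : E n → E n → Matrix (Fin n) (Fin n) ℝ := fun z x i j =>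
    η x * A z x i j + (1 - η x) * (1 : Matrix (Fin n) (Fin n) ℝ) i j with hτ
  have hτell : ∀ z, ‖z‖ ≤ δ → ∀ x, Ell (min lo 1) (max hi 1) (τ z x) := by
    intro z hz x
    by_cases hx : x ∈ ball x0 (4 * r)
    · exact ell_convex η.nonneg η.le_one
        (ell_weaken (min_le_left _ _) (le_max_left _ _) (hell z hz x hx))
        (ell_one (min_le_right _ _) (le_max_right _ _))
    · have e : τ z x = 1 := by
        ext i j; simp [hτ, hη0 x hx]
      rw [e]
      exact ell_one (min_le_right _ _) (le_max_right _ _)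
  obtain ⟨Xη, hXη⟩ := (hηk 0).hb
  have hK' : ∃ K', 0 ≤ K' ∧ ∀ z, ‖z‖ ≤ δ → ∀ i j, HB a K' (fun x => τ z x i j) := by
    refine ⟨2 * (|K| * Xη) + 2 * ((1 + Xη) * 1), ?_, fun z hz i j => ?_⟩
    · have := Boot.HB.nonneg hXη
      positivity
    have h1 : HB a (2 * (|K| * Xη)) (fun x => A z x i j * η x) := by
      refine SF.HBon.mul (abs_nonneg K) ?_ hXη hη0
      exact ⟨fun x hx => ((hA z hz i j).1 x hx).trans (le_abs_self K), fun x hx y hy =>
        ((hA z hz i j).2 x hx y hy).trans (mul_le_mul_of_nonneg_right (le_abs_self K)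
          (Real.rpow_nonneg (norm_nonneg _) _))⟩
    have h2 : HB a (|(1:ℝ)| + Xη) (fun x => (1 : ℝ) - η x) := Boot.HB.sub (hb_const a 1) hXη
    rw [abs_one] at h2
    have h3 : HB a |(1 : Matrix (Fin n) (Fin n) ℝ) i j|
        (fun _ : E n => (1 : Matrix (Fin n) (Fin n) ℝ) i j) := hb_const a _
    have h3' : HB a 1 (fun _ : E n => (1 : Matrix (Fin n) (Fin n) ℝ) i j) := by
      refine Boot.HB.mono h3 ?_
      by_cases hij : i = j <;> simp [Matrix.one_apply, hij]
    have h4 := Boot.HB.add h1 (Boot.HB.mul h2 h3')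
    refine Boot.HB.mono (M := 2 * (|K| * Xη) + 2 * ((1 + Xη) * 1)) ?_ le_rfl
    convert h4 using 2 with x
    simp only [hτ]
    ring
  obtain ⟨K', hK'0, hτK⟩ := hK'
  have hfar : ∀ ε₀ : ℝ, 0 < ε₀ → ∀ z, ‖z‖ ≤ δ → Apr.Far a ε₀ (‖x0‖ + 4 * r) (τ z) := by
    intro ε₀ hε₀ z hz x y hx hy i j
    have hout : ∀ w : E n, ‖x0‖ + 4 * r ≤ ‖w‖ → w ∉ ball x0 (4 * r) := by
      intro w hw hwb
      rw [mem_ball, dist_eq_norm] at hwb
      have := norm_sub_norm_le w x0
      linarith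
    have e : ∀ w : E n, ‖x0‖ + 4 * r ≤ ‖w‖ → τ z w i j = (1 : Matrix (Fin n) (Fin n) ℝ) i j := by
      intro w hw
      simp [hτ, hη0 w (hout w hw)]
    rw [e x hx, e y hy]
    simp only [sub_self, abs_zero]
    exact ⟨hε₀.le, mul_nonneg hε₀.le (Real.rpow_nonneg (norm_nonneg _) _)⟩
  obtain ⟨ε₀, hε₀, HS⟩ := Sch.schStmt n a (min lo 1) (max hi 1) ha ha1 (lt_min hlo one_pos)
    ((min_le_left _ _).trans (hlohi.trans (le_max_left _ _)))
  obtain ⟨C, R', hC, HS⟩ := HS K' (‖x0‖ + 4 * r)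
  -- the cut function
  have hwk : ∀ z, CK a 2 (dq z v) := fun z => ck_dq hv z
  have hw2 : ∀ z, ContDiff ℝ 2 (dq z v) := fun z => NL.contDiff_dq hv2 z
  have hhk : ∀ z, CK a 2 (fun x => χ x * dq z v x) := fun z => CK.mul (hχk 2) (hwk z)
  have hh2 : ∀ z, ContDiff ℝ 2 (fun x => χ x * dq z v x) := fun z => hχ2.mul (hw2 z)
  -- small families
  have sw : Sm a δ (fun z => dq z v) := sm_dq (hv.of_le (by norm_num))
  have sdw : ∀ i, Sm a δ (fun z x => SF.dd (dq z v) x i) := by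
    intro i
    have h1 : Sm a δ (fun z => dq z (Boot.pd i v)) := sm_dq (hv.pd i)
    refine h1.congr fun z _ x => ?_
    have := congrFun (ck_pd_dq (k := 1) hv z i) x
    exact this
  have bχ1 : ∀ i, Bd a δ (fun _ x => SF.dd (χ : E n → ℝ) x i) := fun i => by
    obtain ⟨M, hM⟩ := ((hχk 1).pd i : CK a 0 _).hb
    exact Bd.of_hb hM
  have bχ2 : ∀ i j, Bd a δ (fun _ x => Hs (χ : E n → ℝ) x i j) := fun i j => by
    obtain ⟨M, hM⟩ := (ck_hs (k := 0) ha (hχk 2) i j).hb
    exact Bd.of_hb hM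
  have bτ : ∀ i j, Bd a δ (fun z x => τ z x i j) := fun i j => ⟨K', fun z hz => hτK z hz i j⟩
  have bx : ∀ i, Bd a δ (fun _ x => x i * χ x) := fun i => by
    have h1 : CK a 0 (fun x : E n => x i * χ x) := by
      refine ck_smooth ha ha1.le 0 ?_ ?_
      · exact ((EuclideanSpace.proj i : E n →L[ℝ] ℝ).contDiff).mul hχ
      · exact χ.hasCompactSupport.mul_left
    obtain ⟨M, hM⟩ := h1.hb
    exact Bd.of_hb hM
  have bx1 : Bd a δ (fun _ x => fderiv ℝ (χ : E n → ℝ) x x) := by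
    have h1 : CK a 0 (fun x : E n => fderiv ℝ (χ : E n → ℝ) x x) := by
      refine ck_smooth ha ha1.le 0 ?_ ?_
      · exact (hχ.fderiv_right (m := ∞) (by simp)).clm_apply contDiff_id
      · refine (χ.hasCompactSupport.fderiv (𝕜 := ℝ)).mono ?_
        intro x hx
        simp only [Function.mem_support] at hx ⊢
        intro h; apply hx; simp [h]
    obtain ⟨M, hM⟩ := h1.hb
    exact Bd.of_hb hM
  -- the main term
  have sG : Sm a δ (fun z x => G z x * χ x) := by
    obtain ⟨X, hX⟩ := (hχk 0).hb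
    refine ⟨2 * (|N| * X), fun z hz => ?_⟩
    have h1 : HB a (2 * (|N| * ‖z‖ * X)) (fun x => G z x * χ x) := by
      refine SF.HBon.mul (by positivity) ?_ hX (S := ball x0 (4 * r)) fun x hx => ?_
      · have hN : N * ‖z‖ ≤ |N| * ‖z‖ :=
          mul_le_mul_of_nonneg_right (le_abs_self N) (norm_nonneg z)
        exact ⟨fun x hx => ((hG z hz).1 x hx).trans hN, fun x hx y hy =>
          ((hG z hz).2 x hx y hy).trans (mul_le_mul_of_nonneg_right hN
            (Real.rpow_nonneg (norm_nonneg _) _))⟩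
      · have : x ∉ closedBall x0 (2 * r) := fun h => hx (hcb h)
        exact (hχout x this).self_of_nhds
    exact Boot.HB.mono h1 (by linarith)
  have hLA : Sm a δ (fun z => fun x => LA (τ z) (fun x => χ x * dq z v x) x
      + 0 * (χ x * dq z v x)) := by
    have T : Sm a δ (fun z x => G z x * χ x
        + (∑ i, ∑ j, τ z x i j * (SF.dd (χ : E n → ℝ) x i * SF.dd (dq z v) x j))
        + (∑ i, ∑ j, τ z x i j * (SF.dd (χ : E n → ℝ) x j * SF.dd (dq z v) x i))
        + (∑ i, ∑ j, τ z x i j * (Hs (χ : E n → ℝ) x i j * dq z v x))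
        - (∑ i, (x i * χ x) * SF.dd (dq z v) x i)
        - fderiv ℝ (χ : E n → ℝ) x x * dq z v x) := by
      refine Sm.sub (Sm.sub (Sm.add (Sm.add (Sm.add sG ?_) ?_) ?_) ?_) (bx1.mul_sm sw)
      · exact Sm.sum _ fun i _ => Sm.sum _ fun j _ => (bτ i j).mul_sm ((bχ1 i).mul_sm (sdw j))
      · exact Sm.sum _ fun i _ => Sm.sum _ fun j _ => (bτ i j).mul_sm ((bχ1 j).mul_sm (sdw i))
      · exact Sm.sum _ fun i _ => Sm.sum _ fun j _ => (bτ i j).mul_sm ((bχ2 i j).mul_sm sw)
      · exact Sm.sum _ fun i _ => (bx i).mul_sm (sdw i)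
    refine T.congr fun z hz x => ?_
    rw [zero_mul, add_zero]
    unfold LA
    rw [SF.fderiv_mul_apply hχ2 (hw2 z)]
    have e1 : ∑ i, ∑ j, τ z x i j * Hs (fun x => χ x * dq z v x) x i j
        = χ x * (∑ i, ∑ j, τ z x i j * Hs (dq z v) x i j)
        + (∑ i, ∑ j, τ z x i j * (SF.dd (χ : E n → ℝ) x i * SF.dd (dq z v) x j))
        + (∑ i, ∑ j, τ z x i j * (SF.dd (χ : E n → ℝ) x j * SF.dd (dq z v) x i))
        + (∑ i, ∑ j, τ z x i j * (Hs (χ : E n → ℝ) x i j * dq z v x)) := by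
      simp only [Finset.mul_sum, ← Finset.sum_add_distrib]
      refine Finset.sum_congr rfl fun i _ => Finset.sum_congr rfl fun j _ => ?_
      rw [SF.Hs_mul hχ2 (hw2 z)]
      ring
    have e2 : χ x * (∑ i, ∑ j, τ z x i j * Hs (dq z v) x i j) = G z x * χ x := by
      by_cases hx : x ∈ closedBall x0 (2 * r)
      · have h1 : ∑ i, ∑ j, τ z x i j * Hs (dq z v) x i j
            = ∑ i, ∑ j, A z x i j * Hs (dq z v) x i j := by
          refine Finset.sum_congr rfl fun i _ => Finset.sum_congr rfl fun j _ => ?_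
          simp [hτ, hη1 x hx]
        rw [h1, heq z hz x (hcb hx), mul_comm]
      · have : χ x = 0 := (hχout x hx).self_of_nhds
        rw [this]; ring
    have e3 : fderiv ℝ (dq z v) x x = ∑ i, x i * SF.dd (dq z v) x i :=
      fderiv_eq_sum_pd _ _ _
    rw [e1, e2, e3]
    have e4 : χ x * ∑ i, x i * SF.dd (dq z v) x i = ∑ i, (x i * χ x) * SF.dd (dq z v) x i := by
      rw [Finset.mul_sum]
      exact Finset.sum_congr rfl fun i _ => by ring
    rw [e4]
    ring
  -- Schauder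
  obtain ⟨N1, hN1⟩ := hLA
  obtain ⟨S1, hS1⟩ := (Bd.of_hb (δ := δ) (hχk 0).hb.choose_spec).mul_sm sw
  have key : ∀ z, ‖z‖ ≤ δ → ∀ i j, HB a (C * (N1 + S1) * ‖z‖)
      (fun x => Hs (fun x => χ x * dq z v x) x i j) := by
    intro z hz i j
    have hB : ∃ B, ∀ i j, HB a B (fun x => Hs (fun x => χ x * dq z v x) x i j) := by
      obtain ⟨B, -, hB⟩ := hb_unif (ι := Fin n × Fin n) (a := a)
        (F := fun p x => Hs (fun x => χ x * dq z v x) x p.1 p.2)
        (fun p => (ck_hs (k := 0) ha (hhk z) p.1 p.2).hb)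
      exact ⟨B, fun i j => hB (i, j)⟩
    have := HS (τ z) (hτell z hz) (hτK z hz) (hfar ε₀ hε₀ z hz) 0 (Or.inl rfl)
      (fun x => χ x * dq z v x) (N1 * ‖z‖) (S1 * ‖z‖) (hh2 z) hB (hN1 z hz)
      (fun x _ => (hS1 z hz).1 x) i j
    convert this using 1
    ring
  -- conclusion
  refine ⟨fun x => ζ x * Hs v x i j, ?_, fun x hx => ?_⟩
  · have sF : Sm a δ (fun z => dq z (fun x => ζ x * Hs v x i j)) := by
      have s1 : Sm a δ (fun z x => ζ x * Hs (fun x => χ x * dq z v x) x i j) :=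
        (Bd.of_hb (δ := δ) (hζk 0).hb.choose_spec).mul_sm ⟨_, fun z hz => key z hz i j⟩
      have s2 : Sm a δ (fun z x => dq z (ζ : E n → ℝ) x * Hs v (x + z) i j) := by
        refine (sm_dq (hζk 1)).mul_bd ?_
        obtain ⟨M, hM⟩ := (ck_hs (k := 0) ha hv i j).hb
        exact ⟨M, fun z _ => Boot.HB.comp_add hM z⟩
      refine (s1.add s2).congr fun z hz x => ?_
      have e1 : ζ x * Hs (fun x => χ x * dq z v x) x i j = ζ x * Hs (dq z v) x i j := by
        by_cases hx : x ∈ ball x0 r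
        · congr 1
          apply SF.Hs_congr
          filter_upwards [isOpen_ball.mem_nhds hx] with y hy
          rw [hχ1 y (ball_subset_closedBall hy), one_mul]
        · have : ζ x = 0 := ζ.zero_of_le_dist (by
            rw [mem_ball, not_lt] at hx
            exact hx)
          rw [this, zero_mul, zero_mul]
      rw [e1, NL.Hs_dq hv2]
      unfold Boot.dq
      ring
    obtain ⟨N2, hN2⟩ := sF
    have hD : DQ a N2 δ (fun x => ζ x * Hs v x i j) := fun z hz => hN2 z hz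
    obtain ⟨h1, h2⟩ := DQ.deriv ha hδ hD
    refine ⟨?_, h1.differentiable (by norm_num), fun k => ?_⟩
    · exact (CK.mul (hζk 0) (ck_hs (k := 0) ha hv i j)).hb
    · exact ⟨_, h2 (ee k)⟩
  · have : ζ x = 1 := ζ.one_of_mem_closedBall (ball_subset_closedBall hx)
    simp only [this, one_mul]

end Crest.Agent.R273.CReg_933
end

-- ▼ part R273/CRegB_933
section

/-!
# R273 (S0416), Part C, C-REG (helper933), file B: local Hölder classes

`LH a U f`    : `f` is locally bounded and `a`-Hölder on `U`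
`LCK a k U f` : `k` derivatives, all locally bounded and `a`-Hölder on the open set `U`
-/

set_option autoImplicit false

open MeasureTheory Set Filter Metric
open scoped ContDiff Topology

namespace Crest.Agent.R273.CReg_933

open Crest.Agent.R238 Crest.Agent.R238.Boot

variable {n : ℕ}

theorem on_mono {a M M' : ℝ} {S S' : Set (E n)} {f : E n → ℝ} (h : SF.HBon a M S f)
    (hM : M ≤ M') (hS : S' ⊆ S) : SF.HBon a M' S' f :=
  ⟨fun x hx => (h.1 x (hS hx)).trans hM, fun x hx y hy => (h.2 x (hS hx) y (hS hy)).trans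
    (mul_le_mul_of_nonneg_right hM (Real.rpow_nonneg (norm_nonneg _) _))⟩

theorem on_congr {a M : ℝ} {S : Set (E n)} {f g : E n → ℝ} (h : SF.HBon a M S f)
    (he : EqOn f g S) : SF.HBon a M S g :=
  ⟨fun x hx => by rw [← he hx]; exact h.1 x hx, fun x hx y hy => by
    rw [← he hx, ← he hy]; exact h.2 x hx y hy⟩

theorem on_add {a M M' : ℝ} {S : Set (E n)} {f g : E n → ℝ} (h : SF.HBon a M S f)
    (h' : SF.HBon a M' S g) : SF.HBon a (M + M') S (fun x => f x + g x) := by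
  refine ⟨fun x hx => (abs_add_le _ _).trans (add_le_add (h.1 x hx) (h'.1 x hx)),
    fun x hx y hy => ?_⟩
  have e : f x + g x - (f y + g y) = (f x - f y) + (g x - g y) := by ring
  rw [e, add_mul]
  exact (abs_add_le _ _).trans (add_le_add (h.2 x hx y hy) (h'.2 x hx y hy))

theorem on_neg {a M : ℝ} {S : Set (E n)} {f : E n → ℝ} (h : SF.HBon a M S f) :
    SF.HBon a M S (fun x => - f x) := by
  refine ⟨fun x hx => by rw [abs_neg]; exact h.1 x hx, fun x hx y hy => ?_⟩
  have e : - f x - - f y = -(f x - f y) := by ring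
  rw [e, abs_neg]
  exact h.2 x hx y hy

theorem on_mul {a M M' : ℝ} (hM : 0 ≤ M) (hM' : 0 ≤ M') {S : Set (E n)} {f g : E n → ℝ}
    (h : SF.HBon a M S f) (h' : SF.HBon a M' S g) :
    SF.HBon a (2 * (M * M')) S (fun x => f x * g x) := by
  refine ⟨fun x hx => ?_, fun x hx y hy => ?_⟩
  · rw [abs_mul]
    have := mul_le_mul (h.1 x hx) (h'.1 x hx) (abs_nonneg _) hM
    nlinarith [mul_nonneg hM hM']
  · have e : f x * g x - f y * g y = f x * (g x - g y) + (f x - f y) * g y := by ring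
    rw [e]
    have hr : 0 ≤ ‖x - y‖ ^ a := Real.rpow_nonneg (norm_nonneg _) _
    have h2 : |f x * (g x - g y)| ≤ M * (M' * ‖x - y‖ ^ a) := by
      rw [abs_mul]; exact mul_le_mul (h.1 x hx) (h'.2 x hx y hy) (abs_nonneg _) hM
    have h3 : |(f x - f y) * g y| ≤ (M * ‖x - y‖ ^ a) * M' := by
      rw [abs_mul]; exact mul_le_mul (h.2 x hx y hy) (h'.1 y hy) (abs_nonneg _)
        (mul_nonneg hM hr)
    have := abs_add_le (f x * (g x - g y)) ((f x - f y) * g y)
    nlinarith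


/-! ### the class `LH` -/

/-- locally bounded and `a`-Hölder on `U` -/
def LH (a : ℝ) (U : Set (E n)) (f : E n → ℝ) : Prop :=
  ∀ x ∈ U, ∃ r > 0, ∃ M, SF.HBon a M (ball x r) f

theorem LH.mono {a : ℝ} {U V : Set (E n)} {f : E n → ℝ} (h : LH a U f) (hV : V ⊆ U) :
    LH a V f := fun x hx => h x (hV hx)

theorem LH.nonneg {a : ℝ} {U : Set (E n)} {f : E n → ℝ} (h : LH a U f) {x : E n} (hx : x ∈ U) :
    ∃ r > 0, ∃ M, 0 ≤ M ∧ SF.HBon a M (ball x r) f := by
  obtain ⟨r, hr, M, hM⟩ := h x hx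
  exact ⟨r, hr, M, (abs_nonneg _).trans (hM.1 x (mem_ball_self hr)), hM⟩

theorem LH.congr {a : ℝ} {U : Set (E n)} (hU : IsOpen U) {f g : E n → ℝ} (h : LH a U f)
    (he : EqOn f g U) : LH a U g := by
  intro x hx
  obtain ⟨r, hr, M, hM⟩ := h x hx
  obtain ⟨s, hs, hsU⟩ := Metric.isOpen_iff.1 hU x hx
  refine ⟨min r s, lt_min hr hs, M, ?_⟩
  exact on_congr (on_mono hM le_rfl (ball_subset_ball (min_le_left _ _)))
    (he.mono ((ball_subset_ball (min_le_right _ _)).trans hsU))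

theorem LH.add {a : ℝ} {U : Set (E n)} {f g : E n → ℝ} (h : LH a U f) (h' : LH a U g) :
    LH a U (fun x => f x + g x) := by
  intro x hx
  obtain ⟨r, hr, M, hM⟩ := h x hx
  obtain ⟨r', hr', M', hM'⟩ := h' x hx
  exact ⟨min r r', lt_min hr hr', M + M', on_add
    (on_mono hM le_rfl (ball_subset_ball (min_le_left _ _)))
    (on_mono hM' le_rfl (ball_subset_ball (min_le_right _ _)))⟩

theorem LH.neg {a : ℝ} {U : Set (E n)} {f : E n → ℝ} (h : LH a U f) :
    LH a U (fun x => - f x) := by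
  intro x hx
  obtain ⟨r, hr, M, hM⟩ := h x hx
  exact ⟨r, hr, M, on_neg hM⟩

theorem LH.mul {a : ℝ} {U : Set (E n)} {f g : E n → ℝ} (h : LH a U f) (h' : LH a U g) :
    LH a U (fun x => f x * g x) := by
  intro x hx
  obtain ⟨r, hr, M, hM0, hM⟩ := h.nonneg hx
  obtain ⟨r', hr', M', hM0', hM'⟩ := h'.nonneg hx
  exact ⟨min r r', lt_min hr hr', _, on_mul hM0 hM0'
    (on_mono hM le_rfl (ball_subset_ball (min_le_left _ _)))
    (on_mono hM' le_rfl (ball_subset_ball (min_le_right _ _)))⟩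

theorem LH.of_hb {a M : ℝ} {f : E n → ℝ} (h : HB a M f) (U : Set (E n)) : LH a U f :=
  fun x _ => ⟨1, one_pos, M, SF.hb_on h _⟩

theorem LH.continuousAt {a : ℝ} (ha : 0 < a) {U : Set (E n)} {f : E n → ℝ} (h : LH a U f)
    {x : E n} (hx : x ∈ U) : ContinuousAt f x := by
  obtain ⟨r, hr, M, hM0, hM⟩ := h.nonneg hx
  rw [Metric.continuousAt_iff]
  intro ε hε
  have h1 : Tendsto (fun t : ℝ => M * t ^ a) (𝓝 0) (𝓝 0) := by
    have h2 : Continuous fun t : ℝ => M * t ^ a :=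
      continuous_const.mul (continuous_id.rpow_const fun _ => Or.inr ha.le)
    have h3 := h2.tendsto 0
    simpa [Real.zero_rpow ha.ne'] using h3
  obtain ⟨δ, hδ, h4⟩ := Metric.tendsto_nhds_nhds.1 h1 ε hε
  refine ⟨min r δ, lt_min hr hδ, fun y hy => ?_⟩
  have h5 := hM.2 y (mem_ball.2 (hy.trans_le (min_le_left _ _))) x (mem_ball_self hr)
  have h6 := h4 (x := ‖y - x‖) (by
    rw [dist_zero_right, norm_norm, ← dist_eq_norm]
    exact hy.trans_le (min_le_right _ _))
  rw [dist_zero_right, Real.norm_eq_abs,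
    abs_of_nonneg (mul_nonneg hM0 (Real.rpow_nonneg (norm_nonneg _) _))] at h6
  rw [Real.dist_eq]
  exact h5.trans_lt h6

/-- composition with a `C¹` function -/
theorem LH.comp {a : ℝ} (ha : 0 < a) {ι : Type*} [Fintype ι] {U : Set (E n)} {f : ι → E n → ℝ}
    (h : ∀ l, LH a U (f l)) {Θ : (ι → ℝ) → ℝ} (hΘ : ContDiff ℝ 1 Θ) :
    LH a U (fun x => Θ (fun l => f l x)) := by
  intro x hx
  obtain ⟨K, t, ht, hL⟩ := (hΘ.contDiffAt (x := fun l => f l x)).exists_lipschitzOnWith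
  obtain ⟨ε, hε, hεt⟩ := Metric.mem_nhds_iff.1 ht
  have hcont : ContinuousAt (fun y => fun l => f l y) x :=
    continuousAt_pi.2 fun l => (h l).continuousAt ha hx
  obtain ⟨s, hs, hsb⟩ := Metric.continuousAt_iff.1 hcont ε hε
  choose r hr M hM0 hM using fun l => (h l).nonneg hx
  obtain ⟨r0, hr0, hr0l⟩ : ∃ r0 > 0, ∀ l, r0 ≤ r l := by
    rcases isEmpty_or_nonempty ι with hι | hι
    · exact ⟨1, one_pos, fun l => (IsEmpty.false l).elim⟩
    · refine ⟨Finset.univ.inf' Finset.univ_nonempty r, ?_, fun l => Finset.inf'_le _ (Finset.mem_univ l)⟩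
      exact (Finset.lt_inf'_iff _).2 fun l _ => hr l
  refine ⟨min s r0, lt_min hs hr0, |Θ (fun l => f l x)| + K * ε + K * ∑ l, M l, ?_⟩
  have hmem : ∀ y ∈ ball x (min s r0), (fun l => f l y) ∈ ball (fun l => f l x) ε := fun y hy =>
    hsb ((mem_ball.1 hy).trans_le (min_le_left _ _))
  have hS : 0 ≤ ∑ l, M l := Finset.sum_nonneg fun l _ => hM0 l
  refine ⟨fun y hy => ?_, fun y hy z hz => ?_⟩
  · have h1 := hL.dist_le_mul _ (hεt (hmem y hy)) _ (hεt (mem_ball_self hε))
    rw [Real.dist_eq] at h1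
    have h2 : dist (fun l => f l y) (fun l => f l x) ≤ ε := (mem_ball.1 (hmem y hy)).le
    have h3 : |Θ fun l => f l y| ≤ |Θ (fun l => f l x)| + K * ε := by
      have h4 : |Θ (fun l => f l y)| ≤ |Θ (fun l => f l y) - Θ (fun l => f l x)|
          + |Θ (fun l => f l x)| := by
        have := abs_add_le (Θ (fun l => f l y) - Θ (fun l => f l x)) (Θ (fun l => f l x))
        simpa using this
      have h5 : (K : ℝ) * dist (fun l => f l y) (fun l => f l x) ≤ K * ε :=
        mul_le_mul_of_nonneg_left h2 K.2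
      linarith
    have : 0 ≤ (K : ℝ) * ∑ l, M l := mul_nonneg K.2 hS
    linarith
  · have h1 := hL.dist_le_mul _ (hεt (hmem y hy)) _ (hεt (hmem z hz))
    rw [Real.dist_eq] at h1
    have hrz : 0 ≤ ‖y - z‖ ^ a := Real.rpow_nonneg (norm_nonneg _) _
    have h2 : dist (fun l => f l y) (fun l => f l z) ≤ (∑ l, M l) * ‖y - z‖ ^ a := by
      refine (dist_pi_le_iff (mul_nonneg hS hrz)).2 fun l => ?_
      rw [Real.dist_eq]
      have h3 := (hM l).2 y (ball_subset_ball ((min_le_right _ _).trans (hr0l l)) hy) z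
        (ball_subset_ball ((min_le_right _ _).trans (hr0l l)) hz)
      exact h3.trans (mul_le_mul_of_nonneg_right
        (Finset.single_le_sum (fun j _ => hM0 j) (Finset.mem_univ l)) hrz)
    refine h1.trans ?_
    have h4 : (K : ℝ) * dist (fun l => f l y) (fun l => f l z)
        ≤ K * ((∑ l, M l) * ‖y - z‖ ^ a) := mul_le_mul_of_nonneg_left h2 K.2
    have h5 : 0 ≤ (|Θ (fun l => f l x)| + K * ε) * ‖y - z‖ ^ a := by positivity
    nlinarith

/-! ### the classes `LCK` -/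

/-- `k` derivatives, all locally bounded and `a`-Hölder on `U` -/
def LCK (a : ℝ) : ℕ → Set (E n) → (E n → ℝ) → Prop
  | 0, U, f => LH a U f
  | k + 1, U, f => LH a U f ∧ DifferentiableOn ℝ f U ∧ ∀ i, LCK a k U (Boot.pd i f)

theorem LCK.lh {a : ℝ} {k : ℕ} {U : Set (E n)} {f : E n → ℝ} (h : LCK a k U f) : LH a U f := by
  cases k with
  | zero => exact h
  | succ k => exact h.1

theorem LCK.diff {a : ℝ} {k : ℕ} {U : Set (E n)} {f : E n → ℝ} (h : LCK a (k + 1) U f) :
    DifferentiableOn ℝ f U := h.2.1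

theorem LCK.pd {a : ℝ} {k : ℕ} {U : Set (E n)} {f : E n → ℝ} (h : LCK a (k + 1) U f)
    (i : Fin n) : LCK a k U (Boot.pd i f) := h.2.2 i

theorem LCK.of_succ {a : ℝ} {k : ℕ} {U : Set (E n)} {f : E n → ℝ} (h : LCK a (k + 1) U f) :
    LCK a k U f := by
  induction k generalizing f with
  | zero => exact h.1
  | succ k ih => exact ⟨h.1, h.2.1, fun i => ih (h.2.2 i)⟩

theorem LCK.of_le {a : ℝ} {k l : ℕ} {U : Set (E n)} {f : E n → ℝ} (h : LCK a k U f)
    (hl : l ≤ k) : LCK a l U f := by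
  induction k with
  | zero => rwa [Nat.le_zero.1 hl]
  | succ k ih =>
    rcases Nat.lt_or_ge l (k + 1) with h1 | h1
    · exact ih h.of_succ (Nat.lt_succ_iff.1 h1)
    · rwa [le_antisymm hl h1]

theorem LCK.mono {a : ℝ} {k : ℕ} {U V : Set (E n)} {f : E n → ℝ} (h : LCK a k U f)
    (hV : V ⊆ U) : LCK a k V f := by
  induction k generalizing f with
  | zero => exact LH.mono h hV
  | succ k ih => exact ⟨h.1.mono hV, h.2.1.mono hV, fun i => ih (h.2.2 i)⟩

theorem pd_congr {U : Set (E n)} (hU : IsOpen U) {f g : E n → ℝ} (he : EqOn f g U) (i : Fin n) :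
    EqOn (Boot.pd i f) (Boot.pd i g) U := by
  intro x hx
  unfold Boot.pd
  have : f =ᶠ[𝓝 x] g := by
    filter_upwards [hU.mem_nhds hx] with y hy
    exact he hy
  rw [this.fderiv_eq]

theorem LCK.congr {a : ℝ} {k : ℕ} {U : Set (E n)} (hU : IsOpen U) {f g : E n → ℝ}
    (h : LCK a k U f) (he : EqOn f g U) : LCK a k U g := by
  induction k generalizing f g with
  | zero => exact LH.congr hU h he
  | succ k ih =>
    exact ⟨h.1.congr hU he, h.2.1.congr fun x hx => (he hx).symm,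
      fun i => ih (h.2.2 i) (pd_congr hU he i)⟩

/-- the classes are local -/
theorem LCK.local {a : ℝ} {k : ℕ} {U : Set (E n)} {f : E n → ℝ}
    (h : ∀ x ∈ U, ∃ r > 0, LCK a k (ball x r) f) : LCK a k U f := by
  induction k generalizing f with
  | zero =>
    intro x hx
    obtain ⟨r, hr, h1⟩ := h x hx
    exact h1 x (mem_ball_self hr)
  | succ k ih =>
    refine ⟨fun x hx => ?_, fun x hx => ?_, fun i => ih fun x hx => ?_⟩
    · obtain ⟨r, hr, h1⟩ := h x hx
      exact h1.1 x (mem_ball_self hr)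
    · obtain ⟨r, hr, h1⟩ := h x hx
      exact (h1.2.1.differentiableAt (ball_mem_nhds x hr)).differentiableWithinAt
    · obtain ⟨r, hr, h1⟩ := h x hx
      exact ⟨r, hr, h1.2.2 i⟩

theorem LCK.of_ck {a : ℝ} {k : ℕ} {f : E n → ℝ} (h : CK a k f) (U : Set (E n)) :
    LCK a k U f := by
  induction k generalizing f with
  | zero =>
    obtain ⟨M, hM⟩ := h
    exact LH.of_hb hM U
  | succ k ih =>
    obtain ⟨M, hM⟩ := h.1
    exact ⟨LH.of_hb hM U, h.2.1.differentiableOn, fun i => ih (h.2.2 i)⟩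

theorem pd_add_on {U : Set (E n)} (hU : IsOpen U) {f g : E n → ℝ} (hf : DifferentiableOn ℝ f U)
    (hg : DifferentiableOn ℝ g U) (i : Fin n) :
    EqOn (fun x => Boot.pd i f x + Boot.pd i g x) (Boot.pd i (fun x => f x + g x)) U := by
  intro x hx
  unfold Boot.pd
  have h : HasFDerivAt (fun x => f x + g x) (fderiv ℝ f x + fderiv ℝ g x) x :=
    ((hf.differentiableAt (hU.mem_nhds hx)).hasFDerivAt).add
      ((hg.differentiableAt (hU.mem_nhds hx)).hasFDerivAt)
  rw [h.fderiv]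
  rfl

theorem pd_mul_on {U : Set (E n)} (hU : IsOpen U) {f g : E n → ℝ} (hf : DifferentiableOn ℝ f U)
    (hg : DifferentiableOn ℝ g U) (i : Fin n) :
    EqOn (fun x => f x * Boot.pd i g x + g x * Boot.pd i f x)
      (Boot.pd i (fun x => f x * g x)) U := by
  intro x hx
  unfold Boot.pd
  have h := ((hf.differentiableAt (hU.mem_nhds hx)).hasFDerivAt).mul
      ((hg.differentiableAt (hU.mem_nhds hx)).hasFDerivAt)
  have h' : HasFDerivAt (fun x => f x * g x) (f x • fderiv ℝ g x + g x • fderiv ℝ f x) x := h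
  rw [h'.fderiv]
  rfl

theorem LCK.add {a : ℝ} {k : ℕ} {U : Set (E n)} (hU : IsOpen U) {f g : E n → ℝ}
    (h : LCK a k U f) (h' : LCK a k U g) : LCK a k U (fun x => f x + g x) := by
  induction k generalizing f g with
  | zero => exact LH.add h h'
  | succ k ih =>
    exact ⟨h.1.add h'.1, h.2.1.add h'.2.1, fun i => (ih (h.2.2 i) (h'.2.2 i)).congr hU
      (pd_add_on hU h.2.1 h'.2.1 i)⟩

theorem LCK.mul {a : ℝ} {k : ℕ} {U : Set (E n)} (hU : IsOpen U) {f g : E n → ℝ}
    (h : LCK a k U f) (h' : LCK a k U g) : LCK a k U (fun x => f x * g x) := by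
  induction k generalizing f g with
  | zero => exact LH.mul h h'
  | succ k ih =>
    refine ⟨h.1.mul h'.1, h.2.1.mul h'.2.1, fun i => ?_⟩
    exact (LCK.add hU (ih h.of_succ (h'.2.2 i)) (ih h'.of_succ (h.2.2 i))).congr hU
      (pd_mul_on hU h.2.1 h'.2.1 i)

theorem LCK.const {a : ℝ} (c : ℝ) (k : ℕ) (U : Set (E n)) : LCK a k U (fun _ => c) :=
  LCK.of_ck (ck_const a c k) U

theorem LCK.neg {a : ℝ} {k : ℕ} {U : Set (E n)} (hU : IsOpen U) {f : E n → ℝ}
    (h : LCK a k U f) : LCK a k U (fun x => - f x) :=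
  ((LCK.const (-1) k U).mul hU h).congr hU fun x _ => by ring

theorem LCK.sub {a : ℝ} {k : ℕ} {U : Set (E n)} (hU : IsOpen U) {f g : E n → ℝ}
    (h : LCK a k U f) (h' : LCK a k U g) : LCK a k U (fun x => f x - g x) :=
  (h.add hU (h'.neg hU)).congr hU fun x _ => by ring

theorem LCK.sum {a : ℝ} {k : ℕ} {U : Set (E n)} (hU : IsOpen U) {ι : Type*} (s : Finset ι)
    {f : ι → E n → ℝ} (h : ∀ i ∈ s, LCK a k U (f i)) : LCK a k U (fun x => ∑ i ∈ s, f i x) := by
  classical
  induction s using Finset.induction_on with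
  | empty => simpa using LCK.const (a := a) 0 k U
  | insert i s hi ih =>
    have h1 := LCK.add hU (h i (by simp)) (ih fun j hj => h j (by simp [hj]))
    simpa only [Finset.sum_insert hi] using h1

/-- composition with a smooth function -/
theorem LCK.comp {a : ℝ} (ha : 0 < a) {ι : Type*} [Fintype ι] [DecidableEq ι] {k : ℕ}
    {U : Set (E n)} (hU : IsOpen U) {f : ι → E n → ℝ} (h : ∀ l, LCK a k U (f l))
    {Θ : (ι → ℝ) → ℝ} (hΘ : ContDiff ℝ ∞ Θ) : LCK a k U (fun x => Θ (fun l => f l x)) := by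
  induction k generalizing Θ with
  | zero => exact LH.comp ha h (hΘ.of_le (by simp))
  | succ k ih =>
    have hd : ∀ x ∈ U, HasFDerivAt (fun x => Θ (fun l => f l x))
        ((fderiv ℝ Θ (fun l => f l x)).comp
          (ContinuousLinearMap.pi fun l => fderiv ℝ (f l) x)) x := by
      intro x hx
      have h1 : HasFDerivAt (fun x => fun l => f l x)
          (ContinuousLinearMap.pi fun l => fderiv ℝ (f l) x) x :=
        hasFDerivAt_pi.2 fun l => (((h l).diff).differentiableAt (hU.mem_nhds hx)).hasFDerivAt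
      exact ((hΘ.differentiable (by simp)) _).hasFDerivAt.comp x h1
    refine ⟨LH.comp ha (fun l => (h l).lh) (hΘ.of_le (by simp)),
      fun x hx => (hd x hx).differentiableAt.differentiableWithinAt, fun i => ?_⟩
    have h2 : LCK a k U (fun x => ∑ l, (fderiv ℝ Θ (fun l => f l x) (Pi.single l 1))
        * Boot.pd i (f l) x) := by
      refine LCK.sum hU _ fun l _ => LCK.mul hU ?_ ((h l).pd i)
      exact ih (Θ := fun y => fderiv ℝ Θ y (Pi.single l 1)) (fun l => (h l).of_succ)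
        ((hΘ.fderiv_right (m := ∞) (by simp)).clm_apply contDiff_const)
    refine h2.congr hU fun x hx => ?_
    unfold Boot.pd
    rw [(hd x hx).fderiv]
    simp only [ContinuousLinearMap.comp_apply]
    have e : (ContinuousLinearMap.pi fun l => fderiv ℝ (f l) x) (ee i)
        = ∑ l, (fderiv ℝ (f l) x (ee i)) • (Pi.single l (1 : ℝ) : ι → ℝ) := by
      funext m
      simp [Finset.sum_apply, Pi.single_apply]
    rw [e, map_sum]
    refine Finset.sum_congr rfl fun l _ => ?_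
    rw [map_smul, smul_eq_mul, mul_comm]

theorem lh_of_contDiffOn {a : ℝ} (ha0 : 0 ≤ a) (ha : a ≤ 1) {U : Set (E n)} (hU : IsOpen U)
    {f : E n → ℝ} (hf : ContDiffOn ℝ 1 f U) : LH a U f := by
  intro x hx
  obtain ⟨K, t, ht, hL⟩ := (hf.contDiffAt (hU.mem_nhds hx)).exists_lipschitzOnWith
  obtain ⟨ε, hε, hεt⟩ := Metric.mem_nhds_iff.1 ht
  refine ⟨min ε (1 / 2), by positivity, |f x| + K, ?_⟩
  have hsub : ball x (min ε (1 / 2)) ⊆ t := (ball_subset_ball (min_le_left _ _)).trans hεt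
  have hd : ∀ y ∈ ball x (min ε (1 / 2)), dist y x ≤ 1 := fun y hy =>
    ((mem_ball.1 hy).trans_le (min_le_right _ _)).le.trans (by norm_num)
  refine ⟨fun y hy => ?_, fun y hy z hz => ?_⟩
  · have h1 := hL.dist_le_mul _ (hsub hy) _ (hεt (mem_ball_self hε))
    rw [Real.dist_eq] at h1
    have h2 : |f y| ≤ |f y - f x| + |f x| := by
      have := abs_add_le (f y - f x) (f x)
      simpa using this
    have h3 : (K : ℝ) * dist y x ≤ K * 1 := mul_le_mul_of_nonneg_left (hd y hy) K.2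
    linarith
  · have h1 := hL.dist_le_mul _ (hsub hy) _ (hsub hz)
    rw [Real.dist_eq, dist_eq_norm] at h1
    have h2 : ‖y - z‖ ≤ 1 := by
      rw [← dist_eq_norm]
      have e1 := (mem_ball.1 hy).trans_le (min_le_right _ _)
      have e2 := (mem_ball.1 hz).trans_le (min_le_right _ _)
      have := dist_triangle_right y z x
      linarith
    have h3 := SF.le_rpow_of_le_one ha (norm_nonneg (y - z)) h2
    calc |f y - f z| ≤ K * ‖y - z‖ := h1
      _ ≤ K * ‖y - z‖ ^ a := mul_le_mul_of_nonneg_left h3 K.2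
      _ ≤ (|f x| + K) * ‖y - z‖ ^ a :=
        mul_le_mul_of_nonneg_right (by linarith [abs_nonneg (f x)])
          (Real.rpow_nonneg (norm_nonneg _) _)

/-- smooth functions are in all classes -/
theorem lck_of_contDiffOn {a : ℝ} (ha0 : 0 ≤ a) (ha : a ≤ 1) {U : Set (E n)} (hU : IsOpen U)
    (k : ℕ) {f : E n → ℝ} (hf : ContDiffOn ℝ ∞ f U) : LCK a k U f := by
  induction k generalizing f with
  | zero => exact lh_of_contDiffOn ha0 ha hU (hf.of_le (by simp))
  | succ k ih =>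
    refine ⟨lh_of_contDiffOn ha0 ha hU (hf.of_le (by simp)), hf.differentiableOn (by simp),
      fun i => ih ?_⟩
    exact ((hf.fderiv_of_isOpen hU (m := ∞) (by simp))).clm_apply contDiffOn_const

/-- the classes consist of `C^k` functions -/
theorem LCK.contDiffOn {a : ℝ} (ha : 0 < a) {k : ℕ} {U : Set (E n)} (hU : IsOpen U)
    {f : E n → ℝ} (h : LCK a k U f) : ContDiffOn ℝ k f U := by
  induction k generalizing f with
  | zero =>
    rw [Nat.cast_zero, contDiffOn_zero]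
    exact fun x hx => (h.continuousAt ha hx).continuousWithinAt
  | succ k ih =>
    push_cast
    rw [contDiffOn_succ_iff_fderiv_of_isOpen hU]
    refine ⟨h.diff, by simp, ?_⟩
    have e : fderiv ℝ f = fun x => ∑ i, (Boot.pd i f x) • (EuclideanSpace.proj i : E n →L[ℝ] ℝ) := by
      funext x
      ext z
      rw [fderiv_eq_sum_pd]
      rw [_root_.sum_apply]
      exact Finset.sum_congr rfl fun i _ => mul_comm _ _
    rw [e]
    exact ContDiffOn.sum fun i _ => (ih (h.pd i)).smul contDiffOn_const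

/-- localisation to the whole space -/
theorem LCK.cut {a : ℝ} (ha0 : 0 < a) (ha : a ≤ 1) {k : ℕ} {U : Set (E n)} (hU : IsOpen U)
    {f : E n → ℝ} (h : LCK a k U f) {x0 : E n} (hx0 : x0 ∈ U) :
    ∃ R > 0, ball x0 R ⊆ U ∧ ∀ χ : E n → ℝ, ContDiff ℝ ∞ χ → tsupport χ ⊆ ball x0 R →
      CK a k (fun x => χ x * f x) := by
  obtain ⟨s, hs, hsU⟩ := Metric.isOpen_iff.1 hU x0 hx0
  induction k generalizing f with
  | zero =>
    obtain ⟨r, hr, M, hM0, hM⟩ := LH.nonneg h hx0
    refine ⟨min r s, lt_min hr hs, (ball_subset_ball (min_le_right _ _)).trans hsU, ?_⟩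
    intro χ hχ hχs
    have hc : HasCompactSupport χ := by
      refine HasCompactSupport.intro' (K := closedBall x0 (min r s)) (isCompact_closedBall _ _)
        isClosed_closedBall fun x hx => ?_
      by_contra h0
      exact hx (ball_subset_closedBall (hχs (subset_tsupport _ h0)))
    obtain ⟨X, hX⟩ := SF.hb_of_c1 ha0.le ha (hχ.of_le (by simp)) hc
    refine ⟨2 * (M * X), ?_⟩
    have h1 := SF.HBon.mul hM0 (on_mono hM le_rfl (ball_subset_ball (min_le_left r s))) hX
      (fun x hx => by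
        by_contra h0
        exact hx (hχs (subset_tsupport _ h0)))
    simpa only [mul_comm] using h1
  | succ k ih =>
    obtain ⟨R0, hR0, hR0U, H0⟩ := ih h.of_succ
    choose R hR hRU H using fun i => ih (h.pd i)
    obtain ⟨R1, hR1, hR1l⟩ : ∃ R1 > 0, ∀ i, R1 ≤ R i := by
      rcases isEmpty_or_nonempty (Fin n) with hι | hι
      · exact ⟨1, one_pos, fun l => (IsEmpty.false l).elim⟩
      · refine ⟨Finset.univ.inf' Finset.univ_nonempty R, ?_,
          fun l => Finset.inf'_le _ (Finset.mem_univ l)⟩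
        exact (Finset.lt_inf'_iff _).2 fun l _ => hR l
    refine ⟨min R0 R1, lt_min hR0 hR1, (ball_subset_ball (min_le_left _ _)).trans hR0U, ?_⟩
    intro χ hχ hχs
    have hb0 := hχs.trans (ball_subset_ball (min_le_left R0 R1))
    have hb1 := hχs.trans (ball_subset_ball (min_le_right R0 R1))
    have hdU : ∀ x ∈ ball x0 R0, DifferentiableAt ℝ f x := fun x hx =>
      h.diff.differentiableAt (hU.mem_nhds (hR0U hx))
    have hχd : Differentiable ℝ χ := hχ.differentiable (by simp)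
    have hout : ∀ x ∉ tsupport χ, χ =ᶠ[𝓝 x] fun _ => 0 := fun x hx =>
      notMem_tsupport_iff_eventuallyEq.1 hx
    have hder : ∀ x, HasFDerivAt (fun x => χ x * f x) (χ x • fderiv ℝ f x + f x • fderiv ℝ χ x) x := by
      intro x
      by_cases hx : x ∈ tsupport χ
      · exact (hχd x).hasFDerivAt.mul (hdU x (hb0 hx)).hasFDerivAt
      · have h1 := hout x hx
        have e1 : χ x = 0 := h1.self_of_nhds
        have e2 : fderiv ℝ χ x = 0 := by rw [h1.fderiv_eq]; simp
        rw [e1, e2, zero_smul, smul_zero, add_zero]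
        refine (hasFDerivAt_const (0 : ℝ) x).congr_of_eventuallyEq ?_
        filter_upwards [h1] with y hy
        rw [hy, zero_mul]
    refine ⟨(H0 χ hχ hb0).hb, fun x => (hder x).differentiableAt, fun i => ?_⟩
    have e : (fun x => fderiv ℝ (fun x => χ x * f x) x (ee i))
        = fun x => χ x * Boot.pd i f x + (Boot.pd i χ x) * f x := by
      funext x
      rw [(hder x).fderiv]
      simp only [ContinuousLinearMap.add_apply, ContinuousLinearMap.smul_apply, smul_eq_mul,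
        Boot.pd]
      ring
    rw [e]
    refine CK.add ?_ ?_
    · exact H i χ hχ (hb1.trans (ball_subset_ball (hR1l i)))
    · refine H0 (Boot.pd i χ) ?_ ?_
      · exact (hχ.fderiv_right (m := ∞) (by simp)).clm_apply contDiff_const
      · refine subset_trans ?_ hb0
        refine closure_minimal ?_ (isClosed_tsupport _)
        intro x hx
        by_contra h0
        apply hx
        show fderiv ℝ χ x (ee i) = 0
        rw [(hout x h0).fderiv_eq]
        simp

/-- a global representative near a point -/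
theorem LCK.repr {a : ℝ} (ha0 : 0 < a) (ha : a ≤ 1) {k : ℕ} {U : Set (E n)} (hU : IsOpen U)
    {f : E n → ℝ} (h : LCK a k U f) {x0 : E n} (hx0 : x0 ∈ U) :
    ∃ R > 0, ball x0 R ⊆ U ∧ ∃ g : E n → ℝ, CK a k g ∧ EqOn g f (ball x0 R) := by
  obtain ⟨R, hR, hRU, H⟩ := h.cut ha0 ha hU hx0
  let χ : ContDiffBump x0 := ⟨R / 3, R / 2, by positivity, by linarith⟩
  refine ⟨R / 3, by positivity, (ball_subset_ball (by linarith)).trans hRU,
    fun x => χ x * f x, H χ χ.contDiff ?_, fun x hx => ?_⟩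
  · rw [χ.tsupport_eq]
    exact closedBall_subset_ball (by show R / 2 < R; linarith)
  · simp only [χ.one_of_mem_closedBall (ball_subset_closedBall hx), one_mul]

end Crest.Agent.R273.CReg_933
end

-- ▼ part R273/CRegC_933

/-!
# R273 (S0416), Part C, C-REG (helper933), file C: linear regularity

`lin_step`  : `v ∈ C^{2,a}`, `∑ A_{ij} v_{ij} = g`, `A, g ∈ C^{1,a}` elliptic ⟹ `v ∈ C^{3,a}`
`lin_reg`   : `A, g ∈ C^{k+1,a}` ⟹ `v ∈ C^{k+3,a}`  (all local on an open set)
-/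

set_option autoImplicit false

open MeasureTheory Set Filter Metric
open scoped ContDiff Topology

namespace Crest.Agent.R273.CReg_933

open Crest.Agent.R238 Crest.Agent.R238.Boot

variable {n : ℕ}

/-- positive definite (not necessarily symmetric) coefficient field -/
def PD (A : Matrix (Fin n) (Fin n) ℝ) : Prop :=
  (∀ i j, A i j = A j i) ∧ ∀ z : Fin n → ℝ, z ≠ 0 → 0 < ∑ i, ∑ j, A i j * z i * z j

theorem sum_sq_pos {z : Fin n → ℝ} (hz : z ≠ 0) : 0 < ∑ i, z i ^ 2 := by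
  obtain ⟨i, hi⟩ := Function.ne_iff.1 hz
  exact lt_of_lt_of_le (by
    have : z i ≠ 0 := hi
    positivity : 0 < z i ^ 2)
    (Finset.single_le_sum (f := fun j => z j ^ 2) (fun j _ => sq_nonneg _) (Finset.mem_univ i))

/-- a positive definite matrix has a positive lower bound -/
theorem PD.lower {A : Matrix (Fin n) (Fin n) ℝ} (h : PD A) :
    ∃ c : ℝ, 0 < c ∧ ∀ z : Fin n → ℝ, c * ∑ i, z i ^ 2 ≤ ∑ i, ∑ j, A i j * z i * z j := by
  rcases Nat.eq_zero_or_pos n with hn | hn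
  · subst hn
    exact ⟨1, one_pos, fun z => by simp⟩
  have : Nonempty (Fin n) := ⟨⟨0, hn⟩⟩
  set S : Set (E n) := sphere 0 1 with hS
  have hSc : IsCompact S := isCompact_sphere 0 1
  have hSne : S.Nonempty := ⟨ee ⟨0, hn⟩, by simp [hS]⟩
  let q : E n → ℝ := fun z => ∑ i, ∑ j, A i j * z i * z j
  have hq : Continuous q := by
    refine continuous_finsetSum _ fun i _ => continuous_finsetSum _ fun j _ => ?_
    fun_prop
  obtain ⟨z0, hz0, hmin⟩ := hSc.exists_isMinOn hSne hq.continuousOn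
  have hz0' : (WithLp.ofLp z0 : Fin n → ℝ) ≠ 0 := by
    intro h0
    have : z0 = 0 := by
      ext i; exact congrFun h0 i
    rw [this, hS, mem_sphere_zero_iff_norm, norm_zero] at hz0
    exact zero_ne_one hz0
  refine ⟨q z0, h.2 _ hz0', fun z => ?_⟩
  rcases eq_or_ne z 0 with rfl | hz
  · simp
  set w : E n := WithLp.toLp 2 z with hw
  have hwn : ‖w‖ ^ 2 = ∑ i, z i ^ 2 := by
    rw [EuclideanSpace.norm_sq_eq]
    simp [hw]
  have hpos := sum_sq_pos hz
  have hw0 : 0 < ‖w‖ := by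
    rcases (norm_nonneg w).lt_or_eq with h1 | h1
    · exact h1
    · rw [← h1] at hwn; norm_num at hwn; linarith
  have hmem : (‖w‖⁻¹ • w) ∈ S := by
    rw [hS, mem_sphere_zero_iff_norm, norm_smul, norm_inv, norm_norm, inv_mul_cancel₀ hw0.ne']
  have h1 : q z0 ≤ q (‖w‖⁻¹ • w) := hmin hmem
  have h2 : q (‖w‖⁻¹ • w) = (‖w‖ ^ 2)⁻¹ * ∑ i, ∑ j, A i j * z i * z j := by
    simp only [q, Finset.mul_sum]
    refine Finset.sum_congr rfl fun i _ => Finset.sum_congr rfl fun j _ => ?_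
    simp only [hw, PiLp.smul_apply, smul_eq_mul]
    field_simp
  rw [h2, hwn, inv_mul_eq_div, le_div_iff₀ hpos] at h1
  exact h1

theorem quad_le {A : Matrix (Fin n) (Fin n) ℝ} {e : ℝ} (h : ∀ i j, |A i j| ≤ e)
    (z : Fin n → ℝ) : |∑ i, ∑ j, A i j * z i * z j| ≤ (n : ℝ) ^ 2 * e * ∑ i, z i ^ 2 := by
  have hs : ∀ i, z i ^ 2 ≤ ∑ i, z i ^ 2 := fun i =>
    Finset.single_le_sum (f := fun j => z j ^ 2) (fun j _ => sq_nonneg _) (Finset.mem_univ i)
  calc |∑ i, ∑ j, A i j * z i * z j| ≤ ∑ i, |∑ j, A i j * z i * z j| :=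
        Finset.abs_sum_le_sum_abs _ _
    _ ≤ ∑ i, ∑ j, |A i j * z i * z j| := Finset.sum_le_sum fun i _ =>
        Finset.abs_sum_le_sum_abs _ _
    _ ≤ ∑ _i : Fin n, ∑ _j : Fin n, e * ∑ i, z i ^ 2 := by
        refine Finset.sum_le_sum fun i _ => Finset.sum_le_sum fun j _ => ?_
        have he : 0 ≤ e := (abs_nonneg _).trans (h i j)
        have h1 : |z i * z j| ≤ ∑ i, z i ^ 2 := by
          rw [abs_le]
          constructor <;> nlinarith [sq_nonneg (z i - z j), sq_nonneg (z i + z j), hs i, hs j]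
        rw [mul_assoc, abs_mul]
        exact mul_le_mul (h i j) h1 (abs_nonneg _) he
    _ = (n : ℝ) ^ 2 * e * ∑ i, z i ^ 2 := by
        simp; ring

/-- matrices near a positive definite matrix are uniformly elliptic -/
theorem PD.near {A : Matrix (Fin n) (Fin n) ℝ} (h : PD A) :
    ∃ ε > 0, ∃ lo hi : ℝ, 0 < lo ∧ lo ≤ hi ∧ ∀ B : Matrix (Fin n) (Fin n) ℝ,
      (∀ i j, B i j = B j i) → (∀ i j, |B i j - A i j| ≤ ε) → Ell lo hi B := by
  obtain ⟨c, hc, hA⟩ := h.lower
  obtain ⟨K, hK⟩ : ∃ K : ℝ, ∀ i j, |A i j| ≤ K :=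
    ⟨∑ i, ∑ j, |A i j|, fun i j => (Finset.single_le_sum (f := fun j => |A i j|)
      (fun j _ => abs_nonneg _) (Finset.mem_univ j)).trans
      (Finset.single_le_sum (f := fun i => ∑ j, |A i j|)
        (fun i _ => Finset.sum_nonneg fun j _ => abs_nonneg _) (Finset.mem_univ i))⟩
  have hKn : 0 ≤ (n : ℝ) ^ 2 * |K| := by positivity
  refine ⟨c / (2 * ((n : ℝ) ^ 2 + 1)), by positivity, c / 2, c / 2 + c + (n : ℝ) ^ 2 * |K|,
    by positivity, by linarith, fun B hs hB => ⟨hs, fun z => ?_⟩⟩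
  have e : ∑ i, ∑ j, B i j * z i * z j = (∑ i, ∑ j, A i j * z i * z j)
      + ∑ i, ∑ j, (B - A) i j * z i * z j := by
    simp only [← Finset.sum_add_distrib, Matrix.sub_apply]
    exact Finset.sum_congr rfl fun i _ => Finset.sum_congr rfl fun j _ => by ring
  have h1 := quad_le (A := B - A) (fun i j => hB i j) z
  have hz : 0 ≤ ∑ i, z i ^ 2 := Finset.sum_nonneg fun i _ => sq_nonneg _
  have h2 : (n : ℝ) ^ 2 * (c / (2 * ((n : ℝ) ^ 2 + 1))) ≤ c / 2 := by
    rw [mul_div_assoc', div_le_div_iff₀ (by positivity) (by norm_num)]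
    nlinarith [sq_nonneg (n : ℝ)]
  have h3 := mul_le_mul_of_nonneg_right h2 hz
  have h4 := quad_le (A := A) (fun i j => (hK i j).trans (le_abs_self K)) z
  have h5 := hA z
  rw [e]
  have h6 := abs_le.1 h1
  have h7 := abs_le.1 h4
  constructor
  · nlinarith [h6.1]
  · nlinarith [h6.2, h7.2]

/-- second derivatives on an open set -/
theorem pd_pd_on {U : Set (E n)} (hU : IsOpen U) {f : E n → ℝ} (hf : ContDiffOn ℝ 2 f U)
    (i j : Fin n) : EqOn (Boot.pd i (Boot.pd j f)) (fun x => Hs f x i j) U := by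
  intro x hx
  have h1 : DifferentiableAt ℝ (fderiv ℝ f) x :=
    ((hf.fderiv_of_isOpen hU (m := 1) (by norm_num)).differentiableOn
      (by norm_num)).differentiableAt (hU.mem_nhds hx)
  unfold Boot.pd Hs
  have h2 : HasFDerivAt (fun y => fderiv ℝ f y (ee j))
      ((ContinuousLinearMap.apply ℝ ℝ (ee j : E n)).comp (fderiv ℝ (fderiv ℝ f) x)) x :=
    (ContinuousLinearMap.apply ℝ ℝ (ee j : E n)).hasFDerivAt.comp x h1.hasFDerivAt
  show fderiv ℝ (fun y => fderiv ℝ f y (ee j)) x (ee i) = _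
  rw [h2.fderiv]
  rfl

theorem hs_symm_on {U : Set (E n)} (hU : IsOpen U) {f : E n → ℝ} (hf : ContDiffOn ℝ 2 f U)
    {x : E n} (hx : x ∈ U) (i j : Fin n) : Hs f x i j = Hs f x j i := by
  have := (hf.contDiffAt (hU.mem_nhds hx)).isSymmSndFDerivAt (by simp)
  exact this (ee i) (ee j)

theorem LCK.c2 {a : ℝ} (ha : 0 < a) {k : ℕ} {U : Set (E n)} (hU : IsOpen U) {f : E n → ℝ}
    (h : LCK a (k + 2) U f) : ContDiffOn ℝ 2 f U := by
  exact_mod_cast (h.of_le (by omega : 2 ≤ k + 2)).contDiffOn ha hU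

theorem LCK.hs {a : ℝ} (ha : 0 < a) {k : ℕ} {U : Set (E n)} (hU : IsOpen U) {f : E n → ℝ}
    (h : LCK a (k + 2) U f) (i j : Fin n) : LCK a k U (fun x => Hs f x i j) :=
  ((h.pd j).pd i).congr hU (pd_pd_on hU (h.c2 ha hU) i j)

/-- gain of one derivative from the Hessian -/
theorem LCK.of_hs {a : ℝ} (ha : 0 < a) {k : ℕ} {U : Set (E n)} (hU : IsOpen U) {f : E n → ℝ}
    (h : LCK a 2 U f) (hs : ∀ i j, LCK a k U (fun x => Hs f x i j)) : LCK a (k + 2) U f := by
  have hc := LCK.c2 (k := 0) ha hU h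
  refine ⟨h.1, h.2.1, fun j => ⟨(h.2.2 j).1, (h.2.2 j).2.1, fun i => ?_⟩⟩
  exact (hs i j).congr hU fun x hx => (pd_pd_on hU hc i j hx).symm

/-- `Hs` commutes with derivatives -/
theorem pd_hs_on {a : ℝ} (ha : 0 < a) {U : Set (E n)} (hU : IsOpen U) {f : E n → ℝ}
    (h : LCK a 3 U f) (e i j : Fin n) :
    EqOn (Boot.pd e (fun x => Hs f x i j)) (fun x => Hs (Boot.pd e f) x i j) U := by
  have h2 : ContDiffOn ℝ 2 f U := LCK.c2 (k := 1) ha hU h
  have hd : ∀ l, ContDiffOn ℝ 2 (Boot.pd l f) U := fun l => LCK.c2 (k := 0) ha hU (h.pd l)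
  intro x hx
  -- ∂_e ∂_i ∂_j f = ∂_i ∂_e ∂_j f = ∂_i ∂_j ∂_e f
  have e1 : Boot.pd e (fun x => Hs f x i j) x = Boot.pd e (Boot.pd i (Boot.pd j f)) x :=
    (pd_congr hU (pd_pd_on hU h2 i j) e hx).symm
  have e2 : Boot.pd e (Boot.pd i (Boot.pd j f)) x = Boot.pd i (Boot.pd e (Boot.pd j f)) x := by
    rw [pd_pd_on hU (hd j) e i hx, pd_pd_on hU (hd j) i e hx]
    exact hs_symm_on hU (hd j) hx e i
  have e3 : EqOn (Boot.pd e (Boot.pd j f)) (Boot.pd j (Boot.pd e f)) U := fun y hy => by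
    rw [pd_pd_on hU h2 e j hy, pd_pd_on hU h2 j e hy]
    exact hs_symm_on hU h2 hy e j
  rw [e1, e2, pd_congr hU e3 i hx, pd_pd_on hU (hd e) i j hx]

theorem hs_congr_on {U : Set (E n)} (hU : IsOpen U) {f g : E n → ℝ} (he : EqOn f g U)
    {x : E n} (hx : x ∈ U) (i j : Fin n) : Hs f x i j = Hs g x i j := by
  apply SF.Hs_congr
  filter_upwards [hU.mem_nhds hx] with y hy
  exact he hy

/-- conclusion of the difference quotient step in local form -/
theorem three_of_step {a : ℝ} (ha : 0 < a) {U : Set (E n)} (hU : IsOpen U) {v : E n → ℝ}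
    (hv : LCK a 2 U v) (h : ∀ x ∈ U, ∃ r > 0, ball x r ⊆ U ∧ ∀ i j, ∃ F : E n → ℝ, CK a 1 F ∧
      EqOn F (fun y => Hs v y i j) (ball x r)) : LCK a 3 U v := by
  refine LCK.of_hs (k := 1) ha hU hv fun i j => LCK.local fun x hx => ?_
  obtain ⟨r, hr, -, H⟩ := h x hx
  obtain ⟨F, hF, he⟩ := H i j
  exact ⟨r, hr, (LCK.of_ck hF _).congr isOpen_ball he⟩

/-- **linear step** -/
theorem lin_step {a : ℝ} (ha : 0 < a) (ha1 : a < 1) {U : Set (E n)} (hU : IsOpen U)
    {v g : E n → ℝ} {A : E n → Matrix (Fin n) (Fin n) ℝ} (hv : LCK a 2 U v)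
    (hA : ∀ i j, LCK a 1 U (fun x => A x i j)) (hg : LCK a 1 U g)
    (hpd : ∀ x ∈ U, PD (A x)) (heq : ∀ x ∈ U, ∑ i, ∑ j, A x i j * Hs v x i j = g x) :
    LCK a 3 U v := by
  refine three_of_step ha hU hv fun x0 hx0 => ?_
  obtain ⟨R1, hR1, hR1U, v', hv', hev⟩ := hv.repr ha ha1.le hU hx0
  obtain ⟨R2, hR2, hR2U, g', hg', heg⟩ := hg.repr ha ha1.le hU hx0
  choose R3 hR3 hR3U A' hA' heA using fun i j => (hA i j).repr ha ha1.le hU hx0
  obtain ⟨ε, hε, lo, hi, hlo, hlohi, hell⟩ := (hpd x0 hx0).near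
  -- continuity of the coefficients
  have hcont : ∀ i j, ContinuousAt (fun x => A x i j) x0 := fun i j =>
    (hA i j).lh.continuousAt ha hx0
  have hcont' : ∀ i j, ∃ R > 0, ∀ x ∈ ball x0 R, |A x i j - A x0 i j| ≤ ε := by
    intro i j
    obtain ⟨R, hR, h1⟩ := Metric.continuousAt_iff.1 (hcont i j) ε hε
    exact ⟨R, hR, fun x hx => by
      have := h1 (mem_ball.1 hx)
      rw [Real.dist_eq] at this
      exact this.le⟩
  choose R4 hR4 h4 using hcont'
  obtain ⟨R5, hR5, h5l⟩ : ∃ R5 > 0, ∀ i j, R5 ≤ R3 i j ∧ R5 ≤ R4 i j := by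
    rcases isEmpty_or_nonempty (Fin n × Fin n) with hι | hι
    · exact ⟨1, one_pos, fun i j => (IsEmpty.false (i, j)).elim⟩
    · refine ⟨Finset.univ.inf' Finset.univ_nonempty
        (fun p : Fin n × Fin n => min (R3 p.1 p.2) (R4 p.1 p.2)), ?_, fun i j => ?_⟩
      · exact (Finset.lt_inf'_iff _).2 fun l _ => lt_min (hR3 _ _) (hR4 _ _)
      · have := Finset.inf'_le (fun p : Fin n × Fin n => min (R3 p.1 p.2) (R4 p.1 p.2))
          (Finset.mem_univ (i, j))
        exact ⟨this.trans (min_le_left _ _), this.trans (min_le_right _ _)⟩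
  set ρ : ℝ := min (min R1 R2) R5 with hρ
  have hρ0 : 0 < ρ := lt_min (lt_min hR1 hR2) hR5
  have hρ1 : ρ ≤ R1 := (min_le_left _ _).trans (min_le_left _ _)
  have hρ2 : ρ ≤ R2 := (min_le_left _ _).trans (min_le_right _ _)
  have hρ5 : ρ ≤ R5 := min_le_right _ _
  set r : ℝ := ρ / 8 with hr
  have hr0 : 0 < r := by positivity
  have hb : ball x0 (4 * r) ⊆ ball x0 ρ := ball_subset_ball (by rw [hr]; linarith)
  have hshift : ∀ z : E n, ‖z‖ ≤ r → ∀ x ∈ ball x0 (4 * r), x + z ∈ ball x0 ρ := by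
    intro z hz x hx
    rw [mem_ball, dist_eq_norm] at hx ⊢
    have h1 : x + z - x0 = (x - x0) + z := by abel
    rw [h1]
    have := norm_add_le (x - x0) z
    rw [hr] at hx hz
    linarith
  have hv2 : ContDiff ℝ 2 v' := by exact_mod_cast CK.contDiff ha hv'
  have hHs : ∀ x ∈ ball x0 ρ, ∀ i j, Hs v' x i j = Hs v x i j := fun x hx i j =>
    hs_congr_on isOpen_ball (hev.mono (ball_subset_ball hρ1)) hx i j
  have hρU : ball x0 ρ ⊆ U := (ball_subset_ball hρ1).trans hR1U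
  have hAA : ∀ x ∈ ball x0 ρ, ∀ i j, A' i j x = A x i j := fun x hx i j =>
    heA i j (ball_subset_ball (hρ5.trans (h5l i j).1) hx)
  have hgg : ∀ x ∈ ball x0 ρ, g' x = g x := fun x hx => heg (ball_subset_ball hρ2 hx)
  obtain ⟨K, hK0, hK⟩ := hb_unif (ι := Fin n × Fin n) (a := a) (F := fun p => A' p.1 p.2)
    (fun p => (hA' p.1 p.2).hb)
  -- the right hand side
  have sG : Sm a r (fun z x => dq z g' x - ∑ i, ∑ j, dq z (A' i j) x * Hs v' (x + z) i j) := by
    refine (sm_dq hg').sub (Sm.sum _ fun i _ => Sm.sum _ fun j _ => (sm_dq (hA' i j)).mul_bd ?_)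
    obtain ⟨M, hM⟩ := (ck_hs (k := 0) ha hv' i j).hb
    exact ⟨M, fun z _ => Boot.HB.comp_add hM z⟩
  obtain ⟨N, hN⟩ := sG
  have hst : ∀ z, ‖z‖ ≤ r → ∀ x ∈ ball x0 (4 * r),
      ∑ i, ∑ j, A x i j * Hs (dq z v') x i j
        = dq z g' x - ∑ i, ∑ j, dq z (A' i j) x * Hs v' (x + z) i j := by
    intro z hz x hx
    have hx1 := hb hx
    have hx2 := hshift z hz x hx
    have e1 := heq x (hρU hx1)
    have e2 := heq (x + z) (hρU hx2)
    have e3 : ∑ i, ∑ j, A x i j * Hs (dq z v') x i j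
        = (∑ i, ∑ j, A x i j * Hs v (x + z) i j) - ∑ i, ∑ j, A x i j * Hs v x i j := by
      simp only [← Finset.sum_sub_distrib]
      refine Finset.sum_congr rfl fun i _ => Finset.sum_congr rfl fun j _ => ?_
      rw [NL.Hs_dq hv2, hHs x hx1, hHs (x + z) hx2]
      ring
    have e4 : ∑ i, ∑ j, dq z (A' i j) x * Hs v' (x + z) i j
        = (∑ i, ∑ j, A (x + z) i j * Hs v (x + z) i j)
          - ∑ i, ∑ j, A x i j * Hs v (x + z) i j := by
      simp only [← Finset.sum_sub_distrib]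
      refine Finset.sum_congr rfl fun i _ => Finset.sum_congr rfl fun j _ => ?_
      unfold Boot.dq
      rw [hHs (x + z) hx2, hAA x hx1, hAA (x + z) hx2]
      ring
    rw [e3, e4, e1, e2]
    unfold Boot.dq
    rw [hgg x hx1, hgg (x + z) hx2]
    ring
  refine ⟨r / 2, by positivity, (ball_subset_ball (by rw [hr]; linarith)).trans hρU, fun i j => ?_⟩
  obtain ⟨F, hF, hFe⟩ := dq_step ha ha1 hr0 hv' hr0 (A := fun _ x => A x)
    (G := fun z x => dq z g' x - ∑ i, ∑ j, dq z (A' i j) x * Hs v' (x + z) i j)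
    (K := K) (N := N) hlo hlohi
    (fun z _ x hx => hell (A x) (hpd x (hρU (hb hx))).1 fun i j =>
      h4 i j x (ball_subset_ball (hρ5.trans (h5l i j).2) (hb hx)))
    (fun z _ i j => on_congr (SF.hb_on (hK (i, j)) _) fun x hx => hAA x (hb hx) i j)
    (fun z hz => SF.hb_on (hN z hz) _) hst i j
  refine ⟨F, hF, fun x hx => ?_⟩
  rw [hFe x hx]
  exact hHs x (ball_subset_ball (by rw [hr]; linarith) hx) i j

/-- **linear regularity** -/
theorem lin_reg {a : ℝ} (ha : 0 < a) (ha1 : a < 1) {U : Set (E n)} (hU : IsOpen U)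
    {A : E n → Matrix (Fin n) (Fin n) ℝ} (hpd : ∀ x ∈ U, PD (A x)) (k : ℕ) :
    ∀ {v g : E n → ℝ}, LCK a 2 U v → (∀ i j, LCK a (k + 1) U (fun x => A x i j)) →
      LCK a (k + 1) U g → (∀ x ∈ U, ∑ i, ∑ j, A x i j * Hs v x i j = g x) →
      LCK a (k + 3) U v := by
  induction k with
  | zero =>
    intro v g hv hA hg heq
    exact lin_step ha ha1 hU hv hA hg hpd heq
  | succ k ih =>
    intro v g hv hA hg heq
    have h3 : LCK a (k + 3) U v := ih hv (fun i j => (hA i j).of_succ) hg.of_succ heq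
    have h33 : LCK a 3 U v := h3.of_le (by omega)
    have hd : ∀ e, LCK a (k + 3) U (Boot.pd e v) := by
      intro e
      refine ih (g := fun x => Boot.pd e g x
        - ∑ i, ∑ j, Boot.pd e (fun x => A x i j) x * Hs v x i j)
        ((h3.pd e).of_le (by omega)) (fun i j => (hA i j).of_succ) ?_ ?_
      · refine (hg.pd e).sub hU (LCK.sum hU _ fun i _ => LCK.sum hU _ fun j _ => ?_)
        exact ((hA i j).pd e).mul hU (h3.hs ha hU (k := k + 1) i j)
      · intro x hx
        have e1 : EqOn (fun x => ∑ i, ∑ j, A x i j * Hs v x i j) g U := heq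
        have e2 := pd_congr hU e1 e hx
        have hdA : ∀ i j, DifferentiableAt ℝ (fun x => A x i j) x := fun i j =>
          (hA i j).diff.differentiableAt (hU.mem_nhds hx)
        have hdH : ∀ i j, DifferentiableAt ℝ (fun x => Hs v x i j) x := fun i j =>
          ((h3.hs ha hU (k := k + 1) i j).diff).differentiableAt (hU.mem_nhds hx)
        have e3 : HasFDerivAt (fun x => ∑ i, ∑ j, A x i j * Hs v x i j)
            (∑ i, ∑ j, (A x i j • fderiv ℝ (fun x => Hs v x i j) x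
              + Hs v x i j • fderiv ℝ (fun x => A x i j) x)) x := by
          refine HasFDerivAt.fun_sum fun i _ => HasFDerivAt.fun_sum fun j _ => ?_
          exact (hdA i j).hasFDerivAt.mul (hdH i j).hasFDerivAt
        rw [← e2]
        unfold Boot.pd
        rw [e3.fderiv]
        simp only [_root_.sum_apply, _root_.add_apply, _root_.smul_apply, smul_eq_mul]
        simp only [← Finset.sum_sub_distrib]
        refine Finset.sum_congr rfl fun i _ => Finset.sum_congr rfl fun j _ => ?_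
        have e4 := pd_hs_on ha hU h33 e i j hx
        unfold Boot.pd at e4
        rw [e4]
        ring
    refine ⟨hv.1, hv.2.1, fun e => hd e⟩

end Crest.Agent.R273.CReg_933
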