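import Crest.Agent.R275.Geo_509
import Crest.Agent.R208.N1
import Crest.Agent.R226.EucMin_77
import Crest.Agent.R275.FLSubB_884
import Crest.Agent.R275.FLBasic_884
import Crest.Agent.R273.C0e_390

-- ▼ part R273/C0a_793
section

/-!
# R273 / Yau C⁰ estimate (helper793), part a

* `gr u x`      : the real gradient of `u : ℂⁿ → ℝ`, written as a complex vector;
* `ch u z a b`  : the complex Hessian `∂_a ∂_b̄ u`;
* `abs_det_le`  : `|det_ℝ D²u| ≤ 16ⁿ |det (∂_a ∂_b̄ u)|²` where `D²u ≥ 0`;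
* `abp`         : the contact set inequality (Aleksandrov-Bakelman-Pucci) on a ball.
-/

set_option autoImplicit false
set_option linter.unusedSectionVars false

open Set Filter Topology Complex MeasureTheory
open scoped ContDiff Matrix ComplexConjugate

namespace Crest.Agent.R273.C0a_793

open Crest.Agent.R275.Geo

noncomputable section

variable {n : ℕ}

/-- basis vector `e_a` -/
abbrev ea (a : Fin n) : Cn n := EuclideanSpace.single a (1 : ℂ)

/-- basis vector `i e_a` -/
abbrev ia (a : Fin n) : Cn n := EuclideanSpace.single a (Complex.I)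

/-- the real linear isomorphism from real functionals to vectors (as a linear map). -/
def PhiL (n : ℕ) : (Cn n →L[ℝ] ℝ) →ₗ[ℝ] Cn n where
  toFun l := WithLp.toLp 2 (fun a => (l (ea a) : ℂ) + (l (ia a) : ℂ) * I)
  map_add' l m := by
    ext a
    simp
    ring
  map_smul' c l := by
    ext a
    simp
    ring

/-- continuous version. -/
def Phi (n : ℕ) : (Cn n →L[ℝ] ℝ) →L[ℝ] Cn n := LinearMap.toContinuousLinearMap (PhiL n)

theorem Phi_apply (l : Cn n →L[ℝ] ℝ) (a : Fin n) :
    Phi n l a = (l (ea a) : ℂ) + (l (ia a) : ℂ) * I := rfl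

/-- the real gradient. -/
def gr (u : Cn n → ℝ) (x : Cn n) : Cn n := Phi n (fderiv ℝ u x)

/-- the real Hessian as an operator. -/
def hsL (u : Cn n → ℝ) (x : Cn n) : Cn n →L[ℝ] Cn n := (Phi n).comp (fderiv ℝ (fderiv ℝ u) x)

theorem hasFDerivAt_gr {u : Cn n → ℝ} {x : Cn n} (hu : ContDiffAt ℝ 2 u x) :
    HasFDerivAt (gr u) (hsL u x) x := by
  have h1 : ContDiffAt ℝ 1 (fderiv ℝ u) x := hu.fderiv_right (by norm_num)
  have h2 : HasFDerivAt (fderiv ℝ u) (fderiv ℝ (fderiv ℝ u) x) x :=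
    (h1.differentiableAt (by simp)).hasFDerivAt
  exact (Phi n).hasFDerivAt.comp x h2

/-- complex Hessian `∂_a ∂_b̄ u`. -/
def ch (u : Cn n → ℝ) (z : Cn n) (a b : Fin n) : ℂ :=
  (1 / 4 : ℂ) * (((fderiv ℝ (fderiv ℝ u) z (ea a) (ea b) + fderiv ℝ (fderiv ℝ u) z (ia a) (ia b) : ℝ) : ℂ)
    + ((fderiv ℝ (fderiv ℝ u) z (ea a) (ia b) - fderiv ℝ (fderiv ℝ u) z (ia a) (ea b) : ℝ) : ℂ) * I)

/-- complex Hessian matrix. -/
def chM (u : Cn n → ℝ) (z : Cn n) : Matrix (Fin n) (Fin n) ℂ := Matrix.of (ch u z)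

/-- real basis of `ℂⁿ`. -/
def rb (n : ℕ) : Module.Basis (Fin 2 × Fin n) ℝ (Cn n) :=
  Complex.basisOneI.smulTower (EuclideanSpace.basisFun (Fin n) ℂ).toBasis

theorem rb_zero (a : Fin n) : rb n (0, a) = ea a := by
  unfold rb
  rw [Module.Basis.smulTower_apply]
  simp

theorem rb_one (a : Fin n) : rb n (1, a) = ia a := by
  unfold rb
  rw [Module.Basis.smulTower_apply]
  simp only [Complex.coe_basisOneI, Matrix.cons_val_one, OrthonormalBasis.coe_toBasis,
    EuclideanSpace.basisFun_apply]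
  ext b
  by_cases h : b = a
  · subst h; simp
  · simp [h]

theorem rb_repr (v : Cn n) (p : Fin 2 × Fin n) :
    (rb n).repr v p = if p.1 = 0 then (v p.2).re else (v p.2).im := by
  unfold rb
  obtain ⟨i, a⟩ := p
  rw [Module.Basis.smulTower_repr]
  fin_cases i <;> simp

/-- the real Hessian matrix in the basis `rb`. -/
def hR (D : Cn n →L[ℝ] Cn n →L[ℝ] ℝ) : Matrix (Fin 2 × Fin n) (Fin 2 × Fin n) ℝ :=
  Matrix.of (fun p q => D (rb n q) (rb n p))

theorem toMatrix_Phi (D : Cn n →L[ℝ] Cn n →L[ℝ] ℝ) :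
    LinearMap.toMatrix (rb n) (rb n) ((Phi n).comp D : Cn n →L[ℝ] Cn n).toLinearMap = hR D := by
  ext p q
  rw [LinearMap.toMatrix_apply, rb_repr]
  obtain ⟨i, a⟩ := p
  fin_cases i
  · simp [hR, rb_zero, Phi_apply]
  · simp [hR, rb_one, Phi_apply]

/-- the complex linear part of the Hessian operator, times 2. -/
def cL (D : Cn n →L[ℝ] Cn n →L[ℝ] ℝ) : Cn n →ₗ[ℂ] Cn n where
  toFun v := Phi n (D v) - I • Phi n (D (I • v))
  map_add' v w := by
    simp only [smul_add, map_add]
    abel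
  map_smul' c v := by
    have hc : c • v = (c.re : ℝ) • v + (c.im : ℝ) • (I • v) := by
      ext a
      simp only [PiLp.smul_apply, PiLp.add_apply, Complex.real_smul, smul_eq_mul]
      linear_combination (-(v a)) * (Complex.re_add_im c)
    have hc2 : I • (c • v) = (c.re : ℝ) • (I • v) - (c.im : ℝ) • v := by
      ext a
      simp only [PiLp.smul_apply, PiLp.sub_apply, Complex.real_smul, smul_eq_mul]
      linear_combination (-(I * v a)) * (Complex.re_add_im c) + (c.im : ℂ) * v a * I_mul_I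
    rw [hc2, hc]
    simp only [map_add, map_smul, map_sub, RingHom.id_apply]
    ext a
    simp only [PiLp.smul_apply, PiLp.sub_apply, PiLp.add_apply, Complex.real_smul, smul_eq_mul]
    linear_combination ((Phi n (D v)).ofLp a - I * (Phi n (D (I • v))).ofLp a)
      * (Complex.re_add_im c) + (c.im : ℂ) * (Phi n (D (I • v))).ofLp a * I_mul_I

/-- real matrix of `cL`. -/
def hC (D : Cn n →L[ℝ] Cn n →L[ℝ] ℝ) : Matrix (Fin 2 × Fin n) (Fin 2 × Fin n) ℝ :=
  Matrix.of (fun p q => D (rb n q) (rb n p) + D (I • rb n q) (I • rb n p))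

theorem I_smul_ea (a : Fin n) : I • ea a = ia a := by
  ext b
  by_cases h : b = a
  · subst h; simp
  · simp [h]

theorem I_smul_ia (a : Fin n) : I • ia a = -ea a := by
  ext b
  by_cases h : b = a
  · subst h; simp
  · simp [h]

theorem toMatrix_cL_real (D : Cn n →L[ℝ] Cn n →L[ℝ] ℝ) :
    LinearMap.toMatrix (rb n) (rb n) ((cL D).restrictScalars ℝ) = hC D := by
  ext p q
  rw [LinearMap.toMatrix_apply, rb_repr]
  obtain ⟨i, a⟩ := p
  fin_cases i
  · simp [hC, rb_zero, Phi_apply, cL, I_smul_ea]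
  · simp [hC, rb_one, Phi_apply, cL, I_smul_ia, sub_eq_add_neg]

theorem toMatrix_cL_complex (u : Cn n → ℝ) (x : Cn n) :
    LinearMap.toMatrix (EuclideanSpace.basisFun (Fin n) ℂ).toBasis
      (EuclideanSpace.basisFun (Fin n) ℂ).toBasis (cL (fderiv ℝ (fderiv ℝ u) x))
      = (4 : ℂ) • (chM u x)ᵀ := by
  ext a b
  rw [LinearMap.toMatrix_apply]
  simp only [OrthonormalBasis.coe_toBasis, EuclideanSpace.basisFun_apply,
    OrthonormalBasis.coe_toBasis_repr_apply, EuclideanSpace.basisFun_repr, cL, LinearMap.coe_mk,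
    AddHom.coe_mk, I_smul_ea, PiLp.sub_apply, PiLp.smul_apply, Phi_apply, smul_eq_mul,
    Matrix.smul_apply, Matrix.transpose_apply, chM, ch, Matrix.of_apply]
  push_cast
  linear_combination (-(fderiv ℝ (fderiv ℝ u) x (ia b) (ia a) : ℂ)) * I_mul_I

theorem det_cL (u : Cn n → ℝ) (x : Cn n) :
    LinearMap.det (cL (fderiv ℝ (fderiv ℝ u) x)) = 4 ^ n * (chM u x).det := by
  rw [← LinearMap.det_toMatrix (EuclideanSpace.basisFun (Fin n) ℂ).toBasis,
    toMatrix_cL_complex, Matrix.det_smul, Matrix.det_transpose]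
  simp

theorem det_hC (u : Cn n → ℝ) (x : Cn n) :
    (hC (fderiv ℝ (fderiv ℝ u) x)).det = 16 ^ n * ‖(chM u x).det‖ ^ 2 := by
  rw [← toMatrix_cL_real, LinearMap.det_toMatrix, LinearMap.det_restrictScalars,
    Algebra.norm_complex_apply, det_cL, Complex.normSq_eq_norm_sq, norm_mul, norm_pow, mul_pow]
  congr 1
  rw [← pow_mul, mul_comm n 2, pow_mul]
  norm_num

/-- quadratic form of `hR`. -/
theorem hR_form (D : Cn n →L[ℝ] Cn n →L[ℝ] ℝ) (z : Fin 2 × Fin n → ℝ) :
    z ⬝ᵥ (hR D *ᵥ z) = D (∑ p, z p • rb n p) (∑ p, z p • rb n p) := by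
  simp only [dotProduct, Matrix.mulVec, hR, Matrix.of_apply, map_sum, map_smul,
    FunLike.coe_sum, Finset.sum_apply, FunLike.coe_smul, Pi.smul_apply,
    smul_eq_mul]
  refine Finset.sum_congr rfl fun p _ => ?_
  rw [Finset.mul_sum, Finset.mul_sum]
  refine Finset.sum_congr rfl fun q _ => ?_
  ring

theorem posSemidef_of_form {m : Type*} [Fintype m] {M : Matrix m m ℝ}
    (hs : ∀ p q, M p q = M q p) (hf : ∀ z : m → ℝ, 0 ≤ z ⬝ᵥ (M *ᵥ z)) : M.PosSemidef := by
  refine Matrix.PosSemidef.of_dotProduct_mulVec_nonneg ?_ ?_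
  · ext p q
    simp [hs q p]
  · intro z
    simpa using hf z

/-- determinant comparison. -/
theorem abs_det_le {u : Cn n → ℝ} {x : Cn n} (hu : ContDiffAt ℝ 2 u x)
    (hpos : ∀ v, 0 ≤ fderiv ℝ (fderiv ℝ u) x v v) :
    |(hsL u x).det| ≤ 16 ^ n * ‖(chM u x).det‖ ^ 2 := by
  set D := fderiv ℝ (fderiv ℝ u) x with hD
  have hsymm : ∀ v w, D v w = D w v := by
    have hs : IsSymmSndFDerivAt ℝ u x := hu.isSymmSndFDerivAt (by simp)
    intro v w
    exact hs v w
  have h1 : (hsL u x).det = (hR D).det := by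
    have : (hsL u x).det = LinearMap.det ((Phi n).comp D : Cn n →L[ℝ] Cn n).toLinearMap := rfl
    rw [this, ← LinearMap.det_toMatrix (rb n), toMatrix_Phi]
  have hP1 : (hR D).PosSemidef := by
    refine posSemidef_of_form (fun p q => hsymm _ _) (fun z => ?_)
    rw [hR_form]
    exact hpos _
  have hP2 : (hC D - hR D).PosSemidef := by
    refine posSemidef_of_form (fun p q => ?_) (fun z => ?_)
    · simp only [hC, hR, Matrix.sub_apply, Matrix.of_apply, add_sub_cancel_left]
      exact hsymm _ _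
    · have e : z ⬝ᵥ ((hC D - hR D) *ᵥ z)
          = D (∑ p, z p • (I • rb n p)) (∑ p, z p • (I • rb n p)) := by
        simp only [dotProduct, Matrix.mulVec, hC, hR, Matrix.sub_apply, Matrix.of_apply,
          add_sub_cancel_left, map_sum, map_smul, FunLike.coe_sum, Finset.sum_apply,
          FunLike.coe_smul, Pi.smul_apply, smul_eq_mul]
        refine Finset.sum_congr rfl fun p _ => ?_
        rw [Finset.mul_sum, Finset.mul_sum]
        refine Finset.sum_congr rfl fun q _ => ?_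
        ring
      rw [e]
      exact hpos _
  rw [h1, abs_of_nonneg hP1.det_nonneg, ← det_hC]
  exact Crest.Agent.R208.N.det_mono hP1 hP2

/-! ### the contact set inequality -/

/-- real pairing with `p`. -/
def pair (p : Cn n) : Cn n →L[ℝ] ℝ :=
  Complex.reCLM.comp ((innerSL ℂ p).restrictScalars ℝ)

theorem pair_apply (p w : Cn n) : pair p w = (inner ℂ p w).re := rfl

theorem abs_pair_le (p w : Cn n) : |pair p w| ≤ ‖p‖ * ‖w‖ := by
  rw [pair_apply]
  exact (Complex.abs_re_le_norm _).trans (norm_inner_le_norm p w)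

theorem Phi_pair (p : Cn n) : Phi n (pair p) = p := by
  ext a
  rw [Phi_apply, pair_apply, pair_apply, EuclideanSpace.inner_single_right,
    EuclideanSpace.inner_single_right]
  apply Complex.ext
  · simp
  · simp

/-- the contact set. -/
def contact (u : Cn n → ℝ) (z : Cn n) (r c : ℝ) : Set (Cn n) :=
  {x | x ∈ Metric.ball z r ∧ u x < u z + c ∧ ∀ v, 0 ≤ fderiv ℝ (fderiv ℝ u) x v v}

theorem measurableSet_contact {u : Cn n → ℝ} {z : Cn n} {r c : ℝ}
    (hu : ∀ x ∈ Metric.closedBall z r, ContDiffAt ℝ 2 u x) :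
    MeasurableSet (contact u z r c) := by
  have hc1 : ContinuousOn u (Metric.ball z r) := fun x hx =>
    ((hu x (Metric.ball_subset_closedBall hx)).continuousAt).continuousWithinAt
  have hc2 : ContinuousOn (fun x => fderiv ℝ (fderiv ℝ u) x) (Metric.ball z r) := fun x hx => by
    have h1 : ContDiffAt ℝ 1 (fderiv ℝ u) x :=
      (hu x (Metric.ball_subset_closedBall hx)).fderiv_right (by norm_num)
    have h2 : ContDiffAt ℝ 0 (fderiv ℝ (fderiv ℝ u)) x := h1.fderiv_right (by norm_num)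
    exact h2.continuousAt.continuousWithinAt
  have h1 : MeasurableSet (Metric.ball z r ∩ u ⁻¹' Set.Iio (u z + c)) :=
    (hc1.isOpen_inter_preimage Metric.isOpen_ball isOpen_Iio).measurableSet
  have hcl : IsClosed {D : Cn n →L[ℝ] Cn n →L[ℝ] ℝ | ∀ v, 0 ≤ D v v} := by
    have : {D : Cn n →L[ℝ] Cn n →L[ℝ] ℝ | ∀ v, 0 ≤ D v v}
        = ⋂ v : Cn n, {D : Cn n →L[ℝ] Cn n →L[ℝ] ℝ | 0 ≤ D v v} := by
      ext D; simp
    rw [this]
    refine isClosed_iInter fun v => isClosed_le continuous_const ?_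
    fun_prop
  have h2 : MeasurableSet (Metric.ball z r ∩ (fun x => fderiv ℝ (fderiv ℝ u) x) ⁻¹'
      {D : Cn n →L[ℝ] Cn n →L[ℝ] ℝ | ∀ v, 0 ≤ D v v}ᶜ) :=
    (hc2.isOpen_inter_preimage Metric.isOpen_ball hcl.isOpen_compl).measurableSet
  have h3 : contact u z r c = (Metric.ball z r ∩ u ⁻¹' Set.Iio (u z + c)) \
      (Metric.ball z r ∩ (fun x => fderiv ℝ (fderiv ℝ u) x) ⁻¹'
        {D : Cn n →L[ℝ] Cn n →L[ℝ] ℝ | ∀ v, 0 ≤ D v v}ᶜ) := by
    ext x
    simp only [contact, Set.mem_setOf_eq, Set.mem_diff, Set.mem_inter_iff, Set.mem_preimage,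
      Set.mem_Iio, Set.mem_compl_iff, not_and, not_not]
    constructor
    · rintro ⟨a, b, c⟩
      exact ⟨⟨a, b⟩, fun _ => c⟩
    · rintro ⟨⟨a, b⟩, c⟩
      exact ⟨a, b, c a⟩
  rw [h3]
  exact h1.diff h2

/-- **ABP, covering form.** -/
theorem ball_subset_image {u : Cn n → ℝ} {z : Cn n} {r c : ℝ} (hr : 0 < r)
    (hu : ∀ x ∈ Metric.closedBall z r, ContDiffAt ℝ 2 u x)
    (hb : ∀ x ∈ Metric.sphere z r, u z + c ≤ u x) :
    Metric.ball (0 : Cn n) (c / r) ⊆ gr u '' (contact u z r c) := by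
  intro p hp
  have hpn : ‖p‖ < c / r := by simpa using hp
  have hpr : ‖p‖ * r < c := by rwa [lt_div_iff₀ hr] at hpn
  set f : Cn n → ℝ := fun x => u x - pair p (x - z) with hf
  have hfc : ContinuousOn f (Metric.closedBall z r) := by
    intro x hx
    have h1 := (hu x hx).continuousAt.continuousWithinAt (s := Metric.closedBall z r)
    exact h1.sub (by fun_prop)
  obtain ⟨x, hx, hmin⟩ := (isCompact_closedBall z r).exists_isMinOn
    ⟨z, Metric.mem_closedBall_self hr.le⟩ hfc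
  have hz : f x ≤ f z := hmin (Metric.mem_closedBall_self hr.le)
  have hfz : f z = u z := by simp [hf]
  have hxz : ‖x - z‖ ≤ r := by simpa [dist_eq_norm] using hx
  have hb2 : |pair p (x - z)| ≤ ‖p‖ * r :=
    (abs_pair_le p (x - z)).trans (mul_le_mul_of_nonneg_left hxz (norm_nonneg _))
  have hxb : x ∈ Metric.ball z r := by
    rw [Metric.mem_ball]
    refine lt_of_le_of_ne (Metric.mem_closedBall.1 hx) fun h => ?_
    have h1 := hb x (by rwa [Metric.mem_sphere])
    have h2 := (abs_le.1 hb2).2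
    have h3 : f x = u x - pair p (x - z) := rfl
    linarith
  have hlm : IsLocalMin f x := by
    have : Metric.closedBall z r ∈ 𝓝 x :=
      mem_of_superset (Metric.isOpen_ball.mem_nhds hxb) Metric.ball_subset_closedBall
    exact hmin.isLocalMin this
  have hux := hu x hx
  have hfx : ContDiffAt ℝ 2 f x := hux.sub (by fun_prop)
  have hd1 : ∀ᶠ y in 𝓝 x, fderiv ℝ f y = fderiv ℝ u y - pair p := by
    filter_upwards [hux.eventually (by simp)] with y hy
    have h1 : DifferentiableAt ℝ u y := hy.differentiableAt (by norm_num)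
    have h2 : HasFDerivAt (fun x => pair p (x - z)) (pair p) y := by
      have := (pair p).hasFDerivAt (x := y - z)
      exact this.comp y ((hasFDerivAt_id y).sub_const z)
    exact (h1.hasFDerivAt.sub h2).fderiv
  have hd2 : fderiv ℝ (fderiv ℝ f) x = fderiv ℝ (fderiv ℝ u) x := by
    rw [Filter.EventuallyEq.fderiv_eq hd1]
    exact fderiv_sub_const _
  have hg : fderiv ℝ u x = pair p := by
    have h1 := hlm.fderiv_eq_zero
    rw [hd1.self_of_nhds, sub_eq_zero] at h1
    exact h1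
  refine ⟨x, ⟨hxb, ?_, ?_⟩, ?_⟩
  · have h2 := (abs_le.1 hb2).2
    have h3 : f x = u x - pair p (x - z) := rfl
    linarith
  · intro v
    have := Crest.Agent.R226.EucMin77.hess_nonneg_of_isLocalMin hfx hlm v
    rwa [hd2] at this
  · rw [gr, hg, Phi_pair]

/-- **ABP.** -/
theorem abp {u : Cn n → ℝ} {z : Cn n} {r c : ℝ} (hr : 0 < r)
    (hu : ∀ x ∈ Metric.closedBall z r, ContDiffAt ℝ 2 u x)
    (hb : ∀ x ∈ Metric.sphere z r, u z + c ≤ u x) {K : ℝ}
    (hK : ∀ x ∈ contact u z r c, 16 ^ n * ‖(chM u x).det‖ ^ 2 ≤ K) :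
    volume (Metric.ball (0 : Cn n) (c / r)) ≤ ENNReal.ofReal K * volume (contact u z r c) := by
  have hm := measurableSet_contact (c := c) hu
  calc volume (Metric.ball (0 : Cn n) (c / r)) ≤ volume (gr u '' (contact u z r c)) :=
        measure_mono (ball_subset_image hr hu hb)
    _ ≤ ∫⁻ x in contact u z r c, ENNReal.ofReal |(hsL u x).det| := by
        refine addHaar_image_le_lintegral_abs_det_fderiv volume hm fun x hx => ?_
        exact (hasFDerivAt_gr (hu x (Metric.ball_subset_closedBall hx.1))).hasFDerivWithinAt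
    _ ≤ ∫⁻ x in contact u z r c, ENNReal.ofReal K := by
        refine setLIntegral_mono' hm fun x hx => ?_
        refine ENNReal.ofReal_le_ofReal ?_
        exact (abs_det_le (hu x (Metric.ball_subset_closedBall hx.1)) hx.2.2).trans (hK x hx)
    _ = ENNReal.ofReal K * volume (contact u z r c) := by
        rw [setLIntegral_const]

end

end Crest.Agent.R273.C0a_793
end

-- ▼ part R273/C0b_793
section

/-!
# R273 / Yau C⁰ estimate (helper793), part b

* `psi u z0`     : the local potential normalised at `z0` (pluriharmonic quadratic part removed);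
* `exists_quad`  : `psi u z0 z ≥ lam ‖z - z0‖²`, uniformly on compact balls;
* `chM_psi_add`  : `∂∂̄ (psi + φ) = ∂∂̄ (u + φ)`;
* `lint_neg_le`  : the L¹ bound on a ball from one value (sub-mean value inequality).
-/

set_option autoImplicit false
set_option linter.unusedSectionVars false

open Set Filter Topology Complex MeasureTheory
open scoped ContDiff Matrix ComplexConjugate ENNReal

namespace Crest.Agent.R273.C0b_793

open Crest.Agent.R275.Geo Crest.Agent.R273.C0a_793

noncomputable section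

variable {n : ℕ}

section generic

variable {E : Type*} [NormedAddCommGroup E] [NormedSpace ℝ E]

theorem line1 {g : E → ℝ} {z0 w : E} {t : ℝ} (hg : ContDiffAt ℝ 2 g (z0 + t • w)) :
    HasDerivAt (fun t : ℝ => g (z0 + t • w)) (fderiv ℝ g (z0 + t • w) w) t := by
  have hl1 : HasDerivAt (fun t : ℝ => z0 + t • w) w t := by
    simpa using ((hasDerivAt_id t).smul_const w).const_add z0
  have h1 : HasFDerivAt g (fderiv ℝ g (z0 + t • w)) (z0 + t • w) :=
    (hg.differentiableAt (by norm_num)).hasFDerivAt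
  exact h1.comp_hasDerivAt t hl1

theorem line2 {g : E → ℝ} {z0 w : E} {t : ℝ} (hg : ContDiffAt ℝ 2 g (z0 + t • w)) :
    HasDerivAt (fun t : ℝ => fderiv ℝ g (z0 + t • w) w)
      (fderiv ℝ (fderiv ℝ g) (z0 + t • w) w w) t := by
  have hl1 : HasDerivAt (fun t : ℝ => z0 + t • w) w t := by
    simpa using ((hasDerivAt_id t).smul_const w).const_add z0
  have h1 : ContDiffAt ℝ 1 (fderiv ℝ g) (z0 + t • w) := hg.fderiv_right (by norm_num)
  have h2 : HasFDerivAt (fderiv ℝ g) (fderiv ℝ (fderiv ℝ g) (z0 + t • w)) (z0 + t • w) :=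
    (h1.differentiableAt (by simp)).hasFDerivAt
  have h3 : HasFDerivAt (fun y => fderiv ℝ g y w) ((fderiv ℝ (fderiv ℝ g) (z0 + t • w)).flip w) (z0 + t • w) := by
    have := h2.clm_apply (hasFDerivAt_const w (z0 + t • w))
    simpa using this
  exact h3.comp_hasDerivAt t hl1

/-- uniform continuity of a field of bilinear forms. -/
theorem unif_bil {D : E → E →L[ℝ] E →L[ℝ] ℝ} {K : Set E} (hK : IsCompact K)
    (hD : ContinuousOn D K) {ε : ℝ} (hε : 0 < ε) :
    ∃ δ > 0, ∀ x ∈ K, ∀ y ∈ K, dist x y < δ → ∀ w : E, |D x w w - D y w w| ≤ ε * ‖w‖ ^ 2 := by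
  have hunif : @UniformContinuousOn E (E →L[ℝ] E →L[ℝ] ℝ) PseudoMetricSpace.toUniformSpace
      PseudoMetricSpace.toUniformSpace D K :=
    IsCompact.uniformContinuousOn_of_continuous (α := E) (β := E →L[ℝ] E →L[ℝ] ℝ) (f := D) hK hD
  rw [Metric.uniformContinuousOn_iff] at hunif
  obtain ⟨δ, hδ, hδ'⟩ := hunif ε hε
  refine ⟨δ, hδ, fun x hx y hy hxy w => ?_⟩
  have h3 : ‖D x - D y‖ < ε := lt_of_eq_of_lt (dist_eq_norm (D x) (D y)).symm (hδ' x hx y hy hxy)
  have h5 := ((D x - D y) w).le_opNorm w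
  have h6 := (D x - D y).le_opNorm w
  rw [Real.norm_eq_abs] at h5
  calc |D x w w - D y w w| = |(D x - D y) w w| := by simp
    _ ≤ ‖(D x - D y) w‖ * ‖w‖ := h5
    _ ≤ (‖D x - D y‖ * ‖w‖) * ‖w‖ := by gcongr
    _ ≤ (ε * ‖w‖) * ‖w‖ := by gcongr
    _ = ε * ‖w‖ ^ 2 := by ring

end generic

/-- second real derivative. -/
abbrev D2 (u : Cn n → ℝ) (z : Cn n) : Cn n →L[ℝ] Cn n →L[ℝ] ℝ := fderiv ℝ (fderiv ℝ u) z

/-- `D²u(v,v) + D²u(iv,iv)`. -/
def lv (u : Cn n → ℝ) (z v : Cn n) : ℝ := D2 u z v v + D2 u z (I • v) (I • v)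

/-- a one dimensional Taylor inequality. -/
theorem taylor_ge {g g' g'' : ℝ → ℝ} {m : ℝ}
    (h1 : ∀ t ∈ Icc (0 : ℝ) 1, HasDerivAt g (g' t) t)
    (h2 : ∀ t ∈ Icc (0 : ℝ) 1, HasDerivAt g' (g'' t) t)
    (h0 : g' 0 = 0) (hm : ∀ t ∈ Icc (0 : ℝ) 1, m ≤ g'' t) : g 0 + m / 2 ≤ g 1 := by
  have hg' : ∀ t ∈ Icc (0 : ℝ) 1, m * t ≤ g' t := by
    have hd : ∀ t ∈ Icc (0 : ℝ) 1, HasDerivAt (fun t => g' t - m * t) (g'' t - m) t := by
      intro t ht
      have := (hasDerivAt_id t).const_mul m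
      simp only [id, mul_one] at this
      exact (h2 t ht).sub this
    have hmono : MonotoneOn (fun t => g' t - m * t) (Icc 0 1) := by
      refine monotoneOn_of_deriv_nonneg (convex_Icc 0 1) ?_ ?_ ?_
      · intro t ht
        exact (hd t ht).continuousAt.continuousWithinAt
      · intro t ht
        rw [interior_Icc] at ht
        exact (hd t (Ioo_subset_Icc_self ht)).differentiableAt.differentiableWithinAt
      · intro t ht
        rw [interior_Icc] at ht
        rw [(hd t (Ioo_subset_Icc_self ht)).deriv]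
        have := hm t (Ioo_subset_Icc_self ht)
        linarith
    intro t ht
    have := hmono (left_mem_Icc.2 zero_le_one) ht ht.1
    simp only [h0, mul_zero, sub_zero] at this
    linarith
  have hmono : MonotoneOn (fun t => g t - m / 2 * t ^ 2) (Icc 0 1) := by
    have hd : ∀ t ∈ Icc (0 : ℝ) 1, HasDerivAt (fun t => g t - m / 2 * t ^ 2)
        (g' t - m / 2 * (2 * t)) t := by
      intro t ht
      have := (hasDerivAt_pow 2 t).const_mul (m / 2)
      simp only [Nat.cast_ofNat, Nat.add_one_sub_one, pow_one] at this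
      exact (h1 t ht).sub this
    refine monotoneOn_of_deriv_nonneg (convex_Icc 0 1) ?_ ?_ ?_
    · intro t ht
      exact (hd t ht).continuousAt.continuousWithinAt
    · intro t ht
      rw [interior_Icc] at ht
      exact (hd t (Ioo_subset_Icc_self ht)).differentiableAt.differentiableWithinAt
    · intro t ht
      rw [interior_Icc] at ht
      rw [(hd t (Ioo_subset_Icc_self ht)).deriv]
      have := hg' t (Ioo_subset_Icc_self ht)
      linarith
  have := hmono (left_mem_Icc.2 zero_le_one) (right_mem_Icc.2 zero_le_one) zero_le_one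
  simp only at this
  linarith

/-- the quadratic form whose complex Hessian vanishes. -/
def qf (D : Cn n →L[ℝ] Cn n →L[ℝ] ℝ) (w : Cn n) : ℝ := (1 / 4) * (D w w - D (I • w) (I • w))

/-- the normalised potential. -/
def psi (u : Cn n → ℝ) (z0 z : Cn n) : ℝ :=
  u z - u z0 - fderiv ℝ u z0 (z - z0) - qf (D2 u z0) (z - z0)

theorem psi_self (u : Cn n → ℝ) (z0 : Cn n) : psi u z0 z0 = 0 := by simp [psi, qf]

/-- multiplication by `i` as a real linear map. -/
def Jm (n : ℕ) : Cn n →L[ℝ] Cn n := (ContinuousLinearMap.lsmul ℂ ℂ I).restrictScalars ℝ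

theorem Jm_apply (v : Cn n) : Jm n v = I • v := rfl

/-- derivative of `qf`. -/
def qf1 (D : Cn n →L[ℝ] Cn n →L[ℝ] ℝ) : Cn n →L[ℝ] Cn n →L[ℝ] ℝ :=
  (1 / 4 : ℝ) • ((D + D.flip) - ((D + D.flip).bilinearComp (Jm n) (Jm n)))

theorem qf1_apply (D : Cn n →L[ℝ] Cn n →L[ℝ] ℝ) (v w : Cn n) :
    qf1 D v w = (1 / 4) * ((D v w + D w v) - (D (I • v) (I • w) + D (I • w) (I • v))) := by
  simp [qf1, Jm_apply]

theorem hasFDerivAt_qf (D : Cn n →L[ℝ] Cn n →L[ℝ] ℝ) (w : Cn n) :
    HasFDerivAt (qf D) (qf1 D w) w := by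
  have h1 : HasFDerivAt (fun w : Cn n => D w w) (D w + D.flip w) w := by
    have := D.hasFDerivAt (x := w)
    have h := this.clm_apply (hasFDerivAt_id w)
    refine h.congr_fderiv ?_
    ext v
    simp
  have h2 : HasFDerivAt (fun w : Cn n => D (I • w) (I • w))
      ((D (I • w) + D.flip (I • w)).comp (Jm n)) w := by
    have hJ : HasFDerivAt (fun w : Cn n => I • w) (Jm n) w := (Jm n).hasFDerivAt
    have := (D.hasFDerivAt (x := I • w)).comp w hJ
    have h := this.clm_apply hJ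
    refine h.congr_fderiv ?_
    ext v
    simp [Jm_apply]
  have h3 := (h1.sub h2).const_mul (1 / 4 : ℝ)
  refine h3.congr_fderiv ?_
  ext v
  rw [qf1_apply]
  simp [Jm_apply]

theorem hasFDerivAt_psi {u : Cn n → ℝ} (z0 : Cn n) {z : Cn n} (hu : DifferentiableAt ℝ u z) :
    HasFDerivAt (psi u z0) (fderiv ℝ u z - fderiv ℝ u z0 - qf1 (D2 u z0) (z - z0)) z := by
  have h1 : HasFDerivAt (fun z : Cn n => z - z0) (ContinuousLinearMap.id ℝ (Cn n)) z :=
    (hasFDerivAt_id z).sub_const z0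
  have h2 := (fderiv ℝ u z0).hasFDerivAt.comp z h1
  have h3 := (hasFDerivAt_qf (D2 u z0) (z - z0)).comp z h1
  have h4 := ((hu.hasFDerivAt.sub_const (u z0)).sub h2).sub h3
  exact h4

theorem contDiffAt_psi {u : Cn n → ℝ} (z0 : Cn n) {z : Cn n} (hu : ContDiffAt ℝ 2 u z) :
    ContDiffAt ℝ 2 (psi u z0) z := by
  unfold psi qf
  fun_prop

theorem D2_psi {u : Cn n → ℝ} (z0 : Cn n) {z : Cn n} (hu : ContDiffAt ℝ 2 u z) :
    D2 (psi u z0) z = D2 u z - qf1 (D2 u z0) := by
  have hev : ∀ᶠ y in 𝓝 z, fderiv ℝ (psi u z0) y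
      = fderiv ℝ u y - fderiv ℝ u z0 - qf1 (D2 u z0) (y - z0) := by
    filter_upwards [hu.eventually (by simp)] with y hy
    exact (hasFDerivAt_psi z0 (hy.differentiableAt (by norm_num))).fderiv
  have h1 : ContDiffAt ℝ 1 (fderiv ℝ u) z := hu.fderiv_right (by norm_num)
  have h2 : HasFDerivAt (fderiv ℝ u) (D2 u z) z := (h1.differentiableAt (by simp)).hasFDerivAt
  have h3 : HasFDerivAt (fun y : Cn n => qf1 (D2 u z0) (y - z0)) (qf1 (D2 u z0)) z := by
    have a1 : HasFDerivAt (fun y : Cn n => y - z0) (ContinuousLinearMap.id ℝ (Cn n)) z :=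
      (hasFDerivAt_id z).sub_const z0
    have a2 := (qf1 (D2 u z0)).hasFDerivAt.comp z a1
    rw [ContinuousLinearMap.comp_id] at a2
    exact a2
  have h4 : HasFDerivAt (fun y => fderiv ℝ u y - fderiv ℝ u z0 - qf1 (D2 u z0) (y - z0))
      (D2 u z - qf1 (D2 u z0)) z := (h2.sub_const (fderiv ℝ u z0)).sub h3
  show fderiv ℝ (fderiv ℝ (psi u z0)) z = _
  rw [Filter.EventuallyEq.fderiv_eq hev]
  exact h4.fderiv

theorem symm_D2 {u : Cn n → ℝ} {z : Cn n} (hu : ContDiffAt ℝ 2 u z) (v w : Cn n) :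
    D2 u z v w = D2 u z w v := by
  have hs : IsSymmSndFDerivAt ℝ u z := hu.isSymmSndFDerivAt (by simp)
  exact hs v w

/-- `∂∂̄` does not see the normalisation. -/
theorem chM_psi_add {u p : Cn n → ℝ} {z0 z : Cn n} (hu0 : ContDiffAt ℝ 2 u z0)
    (hu : ContDiffAt ℝ 2 u z) (hp : ContDiffAt ℝ 2 p z) :
    chM (fun y => psi u z0 y + p y) z = chM (fun y => u y + p y) z := by
  have hsum : ∀ {f g : Cn n → ℝ}, ContDiffAt ℝ 2 f z → ContDiffAt ℝ 2 g z →
      D2 (fun y => f y + g y) z = D2 f z + D2 g z := by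
    intro f g hf hg
    have hev : ∀ᶠ y in 𝓝 z, fderiv ℝ (fun y => f y + g y) y = fderiv ℝ f y + fderiv ℝ g y := by
      filter_upwards [hf.eventually (by simp), hg.eventually (by simp)] with y h1 h2
      exact fderiv_fun_add (h1.differentiableAt (by norm_num)) (h2.differentiableAt (by norm_num))
    show fderiv ℝ (fderiv ℝ (fun y => f y + g y)) z = _
    rw [Filter.EventuallyEq.fderiv_eq hev]
    exact fderiv_add ((hf.fderiv_right (m := 1) (by norm_num)).differentiableAt (by norm_num))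
      ((hg.fderiv_right (m := 1) (by norm_num)).differentiableAt (by norm_num))
  ext a b
  simp only [chM, Matrix.of_apply, ch]
  change (1 / 4 : ℂ) * (((D2 (fun y => psi u z0 y + p y) z (ea a) (ea b)
    + D2 (fun y => psi u z0 y + p y) z (ia a) (ia b) : ℝ) : ℂ)
    + ((D2 (fun y => psi u z0 y + p y) z (ea a) (ia b)
      - D2 (fun y => psi u z0 y + p y) z (ia a) (ea b) : ℝ) : ℂ) * I)
    = (1 / 4 : ℂ) * (((D2 (fun y => u y + p y) z (ea a) (ea b)
    + D2 (fun y => u y + p y) z (ia a) (ia b) : ℝ) : ℂ)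
    + ((D2 (fun y => u y + p y) z (ea a) (ia b)
      - D2 (fun y => u y + p y) z (ia a) (ea b) : ℝ) : ℂ) * I)
  rw [hsum (contDiffAt_psi z0 hu) hp, hsum hu hp, D2_psi z0 hu]
  have s1 := symm_D2 hu0 (ea a) (ea b)
  have s2 := symm_D2 hu0 (ia a) (ia b)
  have s3 := symm_D2 hu0 (ea a) (ia b)
  have s4 := symm_D2 hu0 (ia a) (ea b)
  have e1 : qf1 (D2 u z0) (ea a) (ea b) + qf1 (D2 u z0) (ia a) (ia b) = 0 := by
    rw [qf1_apply, qf1_apply, I_smul_ea, I_smul_ea, I_smul_ia, I_smul_ia]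
    simp only [map_neg, neg_apply, neg_neg]
    ring
  have e2 : qf1 (D2 u z0) (ea a) (ia b) - qf1 (D2 u z0) (ia a) (ea b) = 0 := by
    rw [qf1_apply, qf1_apply, I_smul_ea, I_smul_ea, I_smul_ia, I_smul_ia]
    simp only [map_neg, neg_apply]
    rw [s3, s4]
    ring
  simp only [add_apply, sub_apply]
  congr 2
  · congr 1
    linear_combination -e1
  · congr 2
    linear_combination -e2

theorem continuousAt_D2 {u : Cn n → ℝ} {z : Cn n} (hu : ContDiffAt ℝ 2 u z) :
    ContinuousAt (D2 u) z := by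
  have h1 : ContDiffAt ℝ 1 (fderiv ℝ u) z := hu.fderiv_right (by norm_num)
  have h2 : ContDiffAt ℝ 0 (fderiv ℝ (fderiv ℝ u)) z := h1.fderiv_right (by norm_num)
  exact h2.continuousAt

/-- positivity constant of the Levi form on a compact ball. -/
theorem exists_lev_ge {u : Cn n → ℝ} {z1 : Cn n} {b : ℝ}
    (hu : ∀ x ∈ Metric.closedBall z1 b, ContDiffAt ℝ 2 u x)
    (hpos : ∀ x ∈ Metric.closedBall z1 b, ∀ v : Cn n, v ≠ 0 → 0 < lv u x v) :
    ∃ m : ℝ, 0 < m ∧ ∀ x ∈ Metric.closedBall z1 b, ∀ v : Cn n, m * ‖v‖ ^ 2 ≤ lv u x v := by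
  have hcD : ContinuousOn (D2 u) (Metric.closedBall z1 b) := fun x hx =>
    (continuousAt_D2 (hu x hx)).continuousWithinAt
  obtain ⟨m, hm0, hm⟩ : ∃ m : ℝ, 0 < m ∧ ∀ p ∈ Metric.closedBall z1 b ×ˢ Metric.sphere (0 : Cn n) 1,
      m ≤ lv u p.1 p.2 := by
    refine ((isCompact_closedBall z1 b).prod (isCompact_sphere (0 : Cn n) 1)).exists_forall_le' ?_ ?_
    · have h1 : ContinuousOn (fun p : Cn n × Cn n => D2 u p.1)
          (Metric.closedBall z1 b ×ˢ Metric.sphere (0 : Cn n) 1) :=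
        hcD.comp continuousOn_fst fun p hp => hp.1
      have h2 : ContinuousOn (fun p : Cn n × Cn n => p.2)
          (Metric.closedBall z1 b ×ˢ Metric.sphere (0 : Cn n) 1) := continuousOn_snd
      have h3 : ContinuousOn (fun p : Cn n × Cn n => I • p.2)
          (Metric.closedBall z1 b ×ˢ Metric.sphere (0 : Cn n) 1) := h2.const_smul I
      exact ((h1.clm_apply h2).clm_apply h2).add ((h1.clm_apply h3).clm_apply h3)
    · rintro ⟨x, v⟩ ⟨hx, hv⟩
      refine hpos x hx v ?_
      rintro rfl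
      simp at hv
  refine ⟨m, hm0, fun x hx v => ?_⟩
  by_cases hv : v = 0
  · subst hv; simp [lv]
  · have hn : 0 < ‖v‖ := norm_pos_iff.2 hv
    have h1 := hm (x, (‖v‖⁻¹ : ℝ) • v) ⟨hx, by
      simp [norm_smul, hn.ne']⟩
    have h2 : lv u x ((‖v‖⁻¹ : ℝ) • v) = (‖v‖⁻¹) ^ 2 * lv u x v := by
      have e1 : I • ((‖v‖⁻¹ : ℝ) • v) = (‖v‖⁻¹ : ℝ) • (I • v) := smul_comm _ _ _
      simp only [lv, e1, map_smul, FunLike.coe_smul, Pi.smul_apply, smul_eq_mul]
      ring
    rw [h2] at h1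
    have h3 : (‖v‖⁻¹) ^ 2 * lv u x v * ‖v‖ ^ 2 = lv u x v := by
      field_simp
    calc m * ‖v‖ ^ 2 ≤ (‖v‖⁻¹) ^ 2 * lv u x v * ‖v‖ ^ 2 := by
          exact mul_le_mul_of_nonneg_right h1 (by positivity)
      _ = lv u x v := h3

/-- uniform quadratic lower bound of the normalised potentials. -/
theorem exists_quad {u : Cn n → ℝ} {z1 : Cn n} {a b : ℝ} (hab : a < b)
    (hu : ∀ x ∈ Metric.closedBall z1 b, ContDiffAt ℝ 2 u x)
    (hpos : ∀ x ∈ Metric.closedBall z1 b, ∀ v : Cn n, v ≠ 0 → 0 < lv u x v) :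
    ∃ ρ, 0 < ρ ∧ ρ ≤ b - a ∧ ∃ lam : ℝ, 0 < lam ∧ ∀ z0 ∈ Metric.closedBall z1 a,
      ∀ z ∈ Metric.closedBall z0 ρ, lam * ‖z - z0‖ ^ 2 ≤ psi u z0 z := by
  have hcD : ContinuousOn (D2 u) (Metric.closedBall z1 b) := fun x hx =>
    (continuousAt_D2 (hu x hx)).continuousWithinAt
  obtain ⟨m, hm0, hm'⟩ := exists_lev_ge hu hpos
  -- uniform continuity
  obtain ⟨δ, hδ, hδ'⟩ := unif_bil (isCompact_closedBall z1 b) hcD (ε := m / 4) (by positivity)
  refine ⟨min (δ / 2) (b - a), lt_min (by positivity) (by linarith), min_le_right _ _,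
    m / 8, by positivity, fun z0 hz0 z hz => ?_⟩
  have hz0b : z0 ∈ Metric.closedBall z1 b :=
    Metric.closedBall_subset_closedBall hab.le hz0
  set w : Cn n := z - z0 with hw
  have hwn : ‖w‖ ≤ min (δ / 2) (b - a) := by simpa [hw, dist_eq_norm] using hz
  have hline : ∀ t ∈ Icc (0 : ℝ) 1, z0 + t • w ∈ Metric.closedBall z1 b ∧
      dist (z0 + t • w) z0 < δ := by
    intro t ht
    have h1 : dist (z0 + t • w) z0 ≤ ‖w‖ := by
      rw [dist_eq_norm, add_sub_cancel_left, norm_smul, Real.norm_eq_abs, abs_of_nonneg ht.1]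
      exact mul_le_of_le_one_left (norm_nonneg _) ht.2
    refine ⟨?_, ?_⟩
    · rw [Metric.mem_closedBall] at hz0 ⊢
      have := dist_triangle (z0 + t • w) z0 z1
      have h2 := hwn.trans (min_le_right _ _)
      linarith
    · have h2 := hwn.trans (min_le_left _ _)
      linarith
  have k1 : ∀ t ∈ Icc (0 : ℝ) 1, HasDerivAt (fun t : ℝ => psi u z0 (z0 + t • w))
      (fderiv ℝ (psi u z0) (z0 + t • w) w) t := fun t ht =>
    line1 (contDiffAt_psi z0 (hu _ (hline t ht).1))
  have k2 : ∀ t ∈ Icc (0 : ℝ) 1, HasDerivAt (fun t : ℝ => fderiv ℝ (psi u z0) (z0 + t • w) w)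
      (D2 (psi u z0) (z0 + t • w) w w) t := fun t ht =>
    line2 (contDiffAt_psi z0 (hu _ (hline t ht).1))
  have k0 : fderiv ℝ (psi u z0) (z0 + (0 : ℝ) • w) w = 0 := by
    have h1 := (hasFDerivAt_psi z0 (z := z0) ((hu z0 hz0b).differentiableAt (by norm_num))).fderiv
    have h2 : z0 + (0 : ℝ) • w = z0 := by simp
    rw [h2, h1]
    simp
  have k3 : ∀ t ∈ Icc (0 : ℝ) 1, m / 4 * ‖w‖ ^ 2 ≤ D2 (psi u z0) (z0 + t • w) w w := by
    intro t ht
    rw [D2_psi z0 (hu _ (hline t ht).1)]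
    have h1 : qf1 (D2 u z0) w w = (1 / 2) * (D2 u z0 w w - D2 u z0 (I • w) (I • w)) := by
      rw [qf1_apply]; ring
    have h2 := hm' z0 hz0b w
    have h4 := hδ' _ (hline t ht).1 _ hz0b (hline t ht).2 w
    have h7 := (abs_le.1 h4).1
    simp only [sub_apply] at h7 ⊢
    unfold lv at h2
    rw [h1]
    nlinarith
  have := taylor_ge k1 k2 k0 k3
  have e0 : psi u z0 (z0 + (0 : ℝ) • w) = 0 := by
    have h2 : z0 + (0 : ℝ) • w = z0 := by simp
    rw [h2, psi_self]
  have e1 : z0 + (1 : ℝ) • w = z := by simp [hw]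
  rw [e0, e1] at this
  linarith




end

end Crest.Agent.R273.C0b_793
end

-- ▼ part R273/C0f_793

/-!
# R273 / Yau C⁰ estimate (helper793), part f: assembly (Blocki's argument)

`c0_holds : YauDefs_635.C0Stmt`.
-/

set_option autoImplicit false
set_option linter.unusedSectionVars false

open Set Filter Topology Complex MeasureTheory
open scoped ContDiff Matrix ComplexConjugate ENNReal

namespace Crest.Agent.R273.C0f_793

open Crest.Agent.R275.Geo Crest.Agent.R275.Core144 Crest.Agent.R275.GC293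
open Crest.Agent.R273.Defs_333 Crest.Agent.R273.YauDefs_635 Crest.Agent.R273.C0e_390
open Crest.Agent.R273.C0a_793 Crest.Agent.R273.C0b_793

noncomputable section

variable {n : ℕ}

theorem chM_eq_cH (u : Cn n → ℝ) (z : Cn n) : chM u z = cH u z := by
  ext a b
  simp only [chM, ch, cH, Matrix.of_apply, YauDefs_635.D2]
  ring

theorem lev_eq_lv (u : Cn n → ℝ) (z v : Cn n) : lev u z v = C0b_793.lv u z v := by
  rw [lev333_eq]
  rfl

variable {M : Type} [TopologicalSpace M] {A : Atl n M}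

theorem continuous_of_sm {φ : M → ℝ} (h : A.Sm φ) : Continuous φ := by
  rw [continuous_iff_continuousAt]
  intro x
  obtain ⟨i, hi⟩ := A.cover x
  have h1 : ContinuousAt (fun z => φ ((A.e i).symm z)) (A.e i x) :=
    (h i).continuousOn.continuousAt ((A.e i).open_target.mem_nhds ((A.e i).map_source hi))
  have h2 : ContinuousAt (fun y => φ ((A.e i).symm (A.e i y))) x :=
    ContinuousAt.comp (f := A.e i) h1 ((A.e i).continuousAt hi)
  refine h2.congr ?_
  filter_upwards [(A.e i).open_source.mem_nhds hi] with y hy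
  rw [(A.e i).left_inv hy]

/-- bound of the determinant of the background metric on a compact set. -/
theorem exists_det_le {L : LB A} (H : HM L) (i : A.ι) {K : Set (Cn n)} (hK : IsCompact K)
    (hKt : K ⊆ (A.e i).target) : ∃ D : ℝ, 0 ≤ D ∧ ∀ z ∈ K, ‖(cH (H.wt i) z).det‖ ≤ D := by
  have hc : ContinuousOn (fun z => (cH (H.wt i) z).det) K := by
    intro z hz
    have h1 : ContDiffAt ℝ 2 (H.wt i) z := contDiffAt_wt H (hKt hz) two_le_inf
    have h2 : ContinuousAt (C0b_793.D2 (H.wt i)) z := continuousAt_D2 h1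
    have h3 : ∀ v w : Cn n, ContinuousAt (fun z => YauDefs_635.D2 (H.wt i) z v w) z := fun v w =>
      (h2.clm_apply continuousAt_const).clm_apply continuousAt_const
    have h4 : ContinuousAt (fun z => cH (H.wt i) z) z := by
      refine continuousAt_pi.2 fun a => continuousAt_pi.2 fun b => ?_
      simp only [cH, Matrix.of_apply]
      have k1 := h3 (EuclideanSpace.single a 1) (EuclideanSpace.single b 1)
      have k2 := h3 (EuclideanSpace.single a I) (EuclideanSpace.single b I)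
      have k3 := h3 (EuclideanSpace.single a 1) (EuclideanSpace.single b I)
      have k4 := h3 (EuclideanSpace.single a I) (EuclideanSpace.single b 1)
      exact continuousAt_const.mul ((Complex.continuous_ofReal.continuousAt.comp (k1.add k2)).add
        (continuousAt_const.mul (Complex.continuous_ofReal.continuousAt.comp (k3.sub k4))))
    have h5 : Continuous (fun m : Matrix (Fin n) (Fin n) ℂ => m.det) := continuous_id.matrix_det
    exact (h5.continuousAt.comp h4).continuousWithinAt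
  obtain ⟨C, hC⟩ := hK.exists_bound_of_continuousOn hc
  exact ⟨|C|, abs_nonneg _, fun z hz => (hC z hz).trans (le_abs_self C)⟩

/-- **local form**: a minimum in a fixed chart ball is bounded below. -/
theorem local_C0 [CompactSpace M] [ConnectedSpace M] {L : LB A} (H : HM L) (hH : H.Pos)
    {i : A.ι} {z1 : Cn n} {r : ℝ} (hr : 0 < r)
    (hz1 : Metric.closedBall z1 (3 * r) ⊆ (A.e i).target) (K : ℝ) :
    ∃ C : ℝ, ∀ φ f : M → ℝ, PSH H φ → MA H φ f → (∀ x, |f x| ≤ K) →
      ∀ p ∈ cb A i z1 r, (∀ y, φ p ≤ φ y) → -φ p ≤ C := by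
  have hsub2 : Metric.closedBall z1 (2 * r) ⊆ (A.e i).target :=
    (Metric.closedBall_subset_closedBall (by linarith)).trans hz1
  have hwt : ∀ x ∈ Metric.closedBall z1 (2 * r), ContDiffAt ℝ 2 (H.wt i) x := fun x hx =>
    contDiffAt_wt H (hsub2 hx) two_le_inf
  obtain ⟨ρ, hρ, hρr, lam, hlam, hq⟩ := exists_quad (u := H.wt i) (z1 := z1) (a := r)
    (b := 2 * r) (by linarith) hwt (fun x hx v hv => by
      rw [← lev_eq_lv]
      exact hH i x (hsub2 hx) v hv)
  obtain ⟨D, hD0, hD⟩ := exists_det_le H i (isCompact_closedBall z1 (2 * r)) hsub2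
  obtain ⟨C1, hC10, hC1⟩ := l1_psh (volume : Measure (Cn n)) H i
    (isCompact_closedBall z1 (2 * r)) hsub2
  set c : ℝ := lam * ρ ^ 2 with hc
  have hc0 : 0 < c := by positivity
  set Kd : ℝ := 16 ^ n * (Real.exp K * D) ^ 2 with hKd
  have hKd0 : 0 ≤ Kd := by positivity
  set v : ℝ := (volume (Metric.ball (0 : Cn n) (c / ρ))).toReal with hv
  have hv0 : 0 < v := ENNReal.toReal_pos
    (Metric.measure_ball_pos volume _ (by positivity)).ne' measure_ball_lt_top.ne
  refine ⟨c + Kd * C1 / v, fun φ f hφ hMA hf p hp hmin => ?_⟩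
  by_cases hM : -φ p ≤ c
  · have : 0 ≤ Kd * C1 / v := by positivity
    linarith
  push Not at hM
  set z0 : Cn n := A.e i p with hz0
  have hz0b : z0 ∈ Metric.closedBall z1 r := Metric.ball_subset_closedBall hp.2
  have hsub3 : Metric.closedBall z0 ρ ⊆ Metric.closedBall z1 (2 * r) := by
    intro x hx
    rw [Metric.mem_closedBall] at *
    have := dist_triangle x z0 z1
    linarith
  have hz0φ : inC A i φ z0 = φ p := by
    unfold inC
    rw [hz0, (A.e i).left_inv hp.1]
  have hφc : ∀ x ∈ Metric.closedBall z1 (2 * r), ContDiffAt ℝ 2 (inC A i φ) x := fun x hx =>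
    contDiffAt_inC hφ.1 (hsub2 hx) two_le_inf
  set u : Cn n → ℝ := fun y => psi (H.wt i) z0 y + inC A i φ y with hu
  have hu0 : u z0 = φ p := by
    simp only [hu, psi_self, hz0φ, zero_add]
  have huc : ∀ x ∈ Metric.closedBall z0 ρ, ContDiffAt ℝ 2 u x := fun x hx =>
    (contDiffAt_psi z0 (hwt x (hsub3 hx))).add (hφc x (hsub3 hx))
  have hbd : ∀ x ∈ Metric.sphere z0 ρ, u z0 + c ≤ u x := by
    intro x hx
    have h1 := hq z0 hz0b x (Metric.sphere_subset_closedBall hx)
    have h2 : ‖x - z0‖ = ρ := by simpa [dist_eq_norm] using hx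
    rw [h2] at h1
    have h3 : φ p ≤ inC A i φ x := hmin _
    rw [hu0]
    simp only [hu]
    linarith
  have hpsi0 : ∀ x ∈ Metric.closedBall z0 ρ, 0 ≤ psi (H.wt i) z0 x := fun x hx =>
    le_trans (by positivity) (hq z0 hz0b x hx)
  have hdet : ∀ x ∈ contact u z0 ρ c, 16 ^ n * ‖(chM u x).det‖ ^ 2 ≤ Kd := by
    intro x hx
    have hxb : x ∈ Metric.closedBall z0 ρ := Metric.ball_subset_closedBall hx.1
    have hx2 := hsub3 hxb
    have h1 : chM u x = cH (pot H φ i) x := by
      rw [← chM_eq_cH]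
      exact chM_psi_add (hwt z0 (hsub3 (Metric.mem_closedBall_self hρ.le))) (hwt x hx2)
        (hφc x hx2)
    rw [h1, hMA i x (hsub2 hx2), norm_mul, hKd]
    have h2 : ‖((Real.exp (inC A i f x) : ℝ) : ℂ)‖ ≤ Real.exp K := by
      rw [Complex.norm_real, Real.norm_eq_abs, abs_of_pos (Real.exp_pos _)]
      exact Real.exp_le_exp.2 ((le_abs_self _).trans (hf _))
    have h3 := hD x hx2
    gcongr
  have habp := abp hρ huc hbd hdet
  -- the contact set is a sublevel set of `φ`
  have hcs : contact u z0 ρ c ⊆ {x | x ∈ Metric.closedBall z1 (2 * r) ∧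
      ENNReal.ofReal (-φ p - c) ≤ ENNReal.ofReal (-inC A i φ x)} := by
    intro x hx
    have hxb : x ∈ Metric.closedBall z0 ρ := Metric.ball_subset_closedBall hx.1
    refine ⟨hsub3 hxb, ENNReal.ofReal_le_ofReal ?_⟩
    have h1 := hx.2.1
    rw [hu0] at h1
    simp only [hu] at h1
    have h2 := hpsi0 x hxb
    linarith
  have hmk : ENNReal.ofReal (-φ p - c) * volume (contact u z0 ρ c) ≤ ENNReal.ofReal C1 := by
    have hm := measurableSet_contact (c := c) huc
    calc ENNReal.ofReal (-φ p - c) * volume (contact u z0 ρ c)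
        = ∫⁻ _ in contact u z0 ρ c, ENNReal.ofReal (-φ p - c) := by rw [setLIntegral_const]
      _ ≤ ∫⁻ x in contact u z0 ρ c, ENNReal.ofReal (-inC A i φ x) :=
          setLIntegral_mono' hm fun x hx => (hcs hx).2
      _ ≤ ∫⁻ x in Metric.closedBall z1 (2 * r), ENNReal.ofReal (-inC A i φ x) :=
          lintegral_mono_set fun x hx => (hcs hx).1
      _ ≤ ENNReal.ofReal C1 := hC1 φ hφ
  have hfin : ENNReal.ofReal (-φ p - c) * volume (Metric.ball (0 : Cn n) (c / ρ))
      ≤ ENNReal.ofReal (Kd * C1) := by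
    calc ENNReal.ofReal (-φ p - c) * volume (Metric.ball (0 : Cn n) (c / ρ))
        ≤ ENNReal.ofReal (-φ p - c) * (ENNReal.ofReal Kd * volume (contact u z0 ρ c)) :=
          mul_le_mul_right habp _
      _ = ENNReal.ofReal Kd * (ENNReal.ofReal (-φ p - c) * volume (contact u z0 ρ c)) := by ring
      _ ≤ ENNReal.ofReal Kd * ENNReal.ofReal C1 := mul_le_mul_right hmk _
      _ = ENNReal.ofReal (Kd * C1) := (ENNReal.ofReal_mul hKd0).symm
  have hvv : volume (Metric.ball (0 : Cn n) (c / ρ)) = ENNReal.ofReal v := by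
    rw [hv, ENNReal.ofReal_toReal measure_ball_lt_top.ne]
  rw [hvv, ← ENNReal.ofReal_mul (by linarith), ENNReal.ofReal_le_ofReal_iff (by positivity)] at hfin
  have : -φ p - c ≤ Kd * C1 / v := by
    rw [le_div_iff₀ hv0]
    exact hfin
  linarith

theorem c0_holds : C0Stmt := by
  intro n M _ _ _ _ A _ _ _ L H hH K
  classical
  choose i z r hr hz hx using exists_cb (A := A)
  choose C hC using fun x : M => local_C0 H hH (hr x) (hz x) K
  obtain ⟨T, hT⟩ := isCompact_univ.elim_finite_subcover (fun t : M => cb A (i t) (z t) (r t))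
    (fun t => isOpen_cb _ _ _) (fun t _ => mem_iUnion.2 ⟨t, hx t⟩)
  refine ⟨∑ t ∈ T, |C t|, fun φ f hφ hf hpos hMA hfK x y => ?_⟩
  have hcont := continuous_of_sm hφ
  obtain ⟨xm, -, hxm⟩ := isCompact_univ.exists_isMaxOn (univ_nonempty (α := M)) hcont.continuousOn
  obtain ⟨p, -, hp⟩ := isCompact_univ.exists_isMinOn (univ_nonempty (α := M)) hcont.continuousOn
  have hxm' : ∀ y, φ y ≤ φ xm := fun y => hxm (mem_univ y)
  have hp' : ∀ y, φ p ≤ φ y := fun y => hp (mem_univ y)
  set φ' : M → ℝ := fun y => φ y - φ xm with hφ'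
  have hpot : ∀ j w, w ∈ (A.e j).target → fderiv ℝ (fderiv ℝ (pot H φ' j)) w
      = fderiv ℝ (fderiv ℝ (pot H φ j)) w := by
    intro j w _
    have e : pot H φ' j = fun y => pot H φ j y - φ xm := by
      funext y
      simp only [pot, inC, hφ']
      ring
    have e2 : fderiv ℝ (pot H φ' j) = fderiv ℝ (pot H φ j) := by
      funext y
      rw [e]
      exact fderiv_sub_const _
    rw [e2]
  have hPSH : PSH H φ' := by
    refine ⟨fun j => (hφ j).sub contDiffOn_const, fun j w hw v hv => ?_, fun y => ?_, xm, ?_⟩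
    · have h1 := hpos j w hw v hv
      rw [lev333_eq] at h1 ⊢
      simp only [YauDefs_635.D2] at h1 ⊢
      rw [hpot j w hw]
      exact h1
    · have := hxm' y
      simp only [hφ']
      linarith
    · simp [hφ']
  have hMA' : MA H φ' f := by
    intro j w hw
    rw [← hMA j w hw]
    congr 1
    ext a b
    simp only [cH, Matrix.of_apply, YauDefs_635.D2]
    rw [hpot j w hw]
  obtain ⟨t, htT, htp⟩ := mem_iUnion₂.1 (hT (mem_univ p))
  have h1 := hC t φ' f hPSH hMA' hfK p htp (fun y => by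
    have := hp' y
    simp only [hφ']
    linarith)
  have h2 : |C t| ≤ ∑ t ∈ T, |C t| :=
    Finset.single_le_sum (f := fun t => |C t|) (fun t _ => abs_nonneg _) htT
  have h3 := le_abs_self (C t)
  have h4 := hxm' x
  have h5 := hp' y
  simp only [hφ'] at h1
  linarith

end

end Crest.Agent.R273.C0f_793
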