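import Crest.Agent.R202.EllFinal
import Crest.Agent.R273.SchE_152
import Crest.Agent.R273.Piola_5
import Crest.Agent.R236.Poinc
import Crest.Agent.R273.Vm_333
import Crest.Agent.R273.GreenM_5
import Crest.Agent.R273.NormC_505
import Crest.Agent.R273.YauMax_635
import Crest.Agent.R273.YauKah_635

-- ▼ part R273/CLinA_933
section

/-!
# R273 (S0416), Part C, C-LIN (helper933), file A: the complex Laplacian in divergence form and
regularity of very weak solutions

* `DF U G`   : `G` smooth, Hermitian positive definite, divergence free on `U ⊆ Cn n`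
* `divA_tau` : `div (tau G ∇ φ) = re tr (G ∂∂̄φ)`
* `weak_reg` : `u ∈ L¹_loc`, `∫ u re tr(G ∂∂̄φ) = ∫ f φ` for test functions ⟹ `u` smooth
-/

set_option autoImplicit false
set_option linter.unusedSectionVars false

open Set Filter Topology MeasureTheory
open scoped ContDiff Matrix ComplexConjugate ComplexOrder

namespace Crest.Agent.R273.CLin_933

open Crest.Agent.R275 Crest.Agent.R275.Geo
open Crest.Agent.R275.OmT75 (dj)
open Crest.Agent.R238.Sch (ee D2)
open Crest.Agent.R273.SchA_152 Crest.Agent.R273.SchB_152 Crest.Agent.R273.SchC_152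
  Crest.Agent.R273.SchD_152 Crest.Agent.R273.SchE_152
open Crest.Agent.R273.YauDefs_635 (cH)
open Crest.Agent.R202.Ell (divA ell_regularity)
open Crest.GeometryTopology.CoordMetric (pderiv)
open Complex (I)

noncomputable section

variable {n : ℕ}

theorem two_le_inf : (2 : WithTop ℕ∞) ≤ ∞ := WithTop.coe_le_coe.2 (le_top : (2 : ℕ∞) ≤ ⊤)

/-- real coordinate space -/
abbrev ER (n : ℕ) : Type := EuclideanSpace ℝ (Fin (n * 2))

/-- smooth, positive definite, divergence free fields of Hermitian matrices -/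
structure DF (U : Set (Cn n)) (G : Cn n → Matrix (Fin n) (Fin n) ℂ) : Prop where
  sm : ∀ a b, ContDiffOn ℝ ∞ (fun z => G z a b) U
  pd : ∀ z ∈ U, (G z).PosDef
  dv : ∀ z ∈ U, ∀ a, ∑ b, dj b (fun w => G w a b) z = 0

theorem tl_contDiff {k : WithTop ℕ∞} : ContDiff ℝ k (Tl n : ER n → Cn n) :=
  (Tl n).toContinuousLinearEquiv.contDiff

theorem tl_symm_contDiff {k : WithTop ℕ∞} : ContDiff ℝ k ((Tl n).symm : Cn n → ER n) :=
  (Tl n).symm.toContinuousLinearEquiv.contDiff

theorem ee_eq (p : Fin (n * 2)) : (EuclideanSpace.single p (1 : ℝ) : ER n) = ee p := rfl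

theorem pderiv_mul' {m : ℕ} {p : Fin m} {ξ : EuclideanSpace ℝ (Fin m)}
    {f g : EuclideanSpace ℝ (Fin m) → ℝ} (hf : DifferentiableAt ℝ f ξ)
    (hg : DifferentiableAt ℝ g ξ) :
    pderiv p (fun y => f y * g y) ξ = f ξ * pderiv p g ξ + pderiv p f ξ * g ξ := by
  unfold pderiv
  rw [fderiv_fun_mul hf hg]
  simp only [_root_.add_apply, _root_.smul_apply, smul_eq_mul]
  ring

theorem pderiv_sum' {m : ℕ} {p : Fin m} {ξ : EuclideanSpace ℝ (Fin m)} {ι : Type*}
    (s : Finset ι) {f : ι → EuclideanSpace ℝ (Fin m) → ℝ}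
    (hf : ∀ i ∈ s, DifferentiableAt ℝ (f i) ξ) :
    pderiv p (fun y => ∑ i ∈ s, f i y) ξ = ∑ i ∈ s, pderiv p (f i) ξ := by
  unfold pderiv
  rw [fderiv_fun_sum hf]
  simp only [_root_.sum_apply]

/-- derivative of an entry of `tau (G ∘ Tl)` -/
theorem pderiv_tau {G : Cn n → Matrix (Fin n) (Fin n) ℂ} {ξ : ER n}
    (hG : ∀ a b, DifferentiableAt ℝ (fun z => G z a b) (Tl n ξ)) (a b c : Fin n) (s t r : Fin 2) :
    pderiv (q c r) (fun y : ER n => tau (G (Tl n y)) (q b s) (q a t)) ξ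
      = 1 / 4 * (fderiv ℝ (fun z => G z a b) (Tl n ξ) (EuclideanSpace.single c (cs r))
          * conj (cs s) * cs t).re := by
  unfold pderiv
  rw [ee_eq]
  have e : (fun y : ER n => tau (G (Tl n y)) (q b s) (q a t))
      = fun y : ER n => 1 / 4 * Complex.reCLM ((fun z => G z a b) (Tl n y) * (conj (cs s) * cs t)) := by
    funext y
    rw [tau_q, mul_assoc]
    rfl
  rw [e]
  have h1 : HasFDerivAt (fun y : ER n => (fun z => G z a b) (Tl n y))
      ((fderiv ℝ (fun z => G z a b) (Tl n ξ)).comp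
        ((Tl n).toContinuousLinearEquiv : ER n →L[ℝ] Cn n)) ξ :=
    (hG a b).hasFDerivAt.comp ξ ((Tl n).toContinuousLinearEquiv : ER n →L[ℝ] Cn n).hasFDerivAt
  have h2 := (h1.mul_const (conj (cs s) * cs t))
  have h3 := (Complex.reCLM.hasFDerivAt.comp ξ h2).const_mul (1 / 4 : ℝ)
  have h4 := h3.fderiv
  have e2 : (fun y : ER n => 1 / 4 * Complex.reCLM ((fun z => G z a b) (Tl n y)
        * (conj (cs s) * cs t)))
      = fun y : ER n => (1 / 4 : ℝ) * (Complex.reCLM ∘ fun y : ER n =>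
        (fun z => G z a b) (Tl n y) * (conj (cs s) * cs t)) y := rfl
  rw [e2, h4]
  simp only [_root_.smul_apply, ContinuousLinearMap.comp_apply, smul_eq_mul]
  have h5 : ((Tl n).toContinuousLinearEquiv : ER n →L[ℝ] Cn n) (ee (q c r))
      = EuclideanSpace.single c (cs r) := Tl_ee c r
  rw [h5]
  congr 1
  rw [Complex.reCLM_apply]
  congr 1
  ring

theorem div_tau {U : Set (Cn n)} {G : Cn n → Matrix (Fin n) (Fin n) ℂ} (hU : IsOpen U)
    (h : DF U G) {ξ : ER n} (hξ : Tl n ξ ∈ U) (p' : Fin (n * 2)) :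
    ∑ p, pderiv p (fun y : ER n => tau (G (Tl n y)) p p') ξ = 0 := by
  have hG : ∀ a b, DifferentiableAt ℝ (fun z => G z a b) (Tl n ξ) := fun a b =>
    ((h.sm a b).contDiffAt (hU.mem_nhds hξ)).differentiableAt (by simp)
  obtain ⟨⟨a, t⟩, rfl⟩ := finProdFinEquiv.surjective p'
  change ∑ p, pderiv p (fun y : ER n => tau (G (Tl n y)) p (q a t)) ξ = 0
  rw [sum_q]
  simp only [pderiv_tau hG]
  have e : ∀ b : Fin n,
      1 / 4 * (fderiv ℝ (fun z => G z a b) (Tl n ξ) (EuclideanSpace.single b (cs 0))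
          * conj (cs 0) * cs t).re
        + 1 / 4 * (fderiv ℝ (fun z => G z a b) (Tl n ξ) (EuclideanSpace.single b (cs 1))
          * conj (cs 1) * cs t).re
      = (1 / 2 * (dj b (fun w => G w a b) (Tl n ξ) * cs t)).re := by
    intro b
    have h0 : cs 0 = 1 := rfl
    have h1 : cs 1 = I := rfl
    rw [h0, h1]
    simp only [dj, smul_eq_mul, map_one, Complex.conj_I]
    rw [← mul_add, ← Complex.add_re]
    have : (1 / 4 : ℝ) * (fderiv ℝ (fun z => G z a b) (Tl n ξ) (EuclideanSpace.single b 1) * 1 * cs t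
        + fderiv ℝ (fun z => G z a b) (Tl n ξ) (EuclideanSpace.single b I) * -I * cs t).re
        = ((1 / 4 : ℝ) * (fderiv ℝ (fun z => G z a b) (Tl n ξ) (EuclideanSpace.single b 1) * 1 * cs t
        + fderiv ℝ (fun z => G z a b) (Tl n ξ) (EuclideanSpace.single b I) * -I * cs t) : ℂ).re := by
      rw [Complex.re_ofReal_mul]
    rw [this]
    congr 1
    push_cast
    ring
  rw [Finset.sum_congr rfl fun b _ => e b, ← Complex.re_sum, ← Finset.mul_sum, ← Finset.sum_mul,
    h.dv _ hξ a]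
  simp

/-- the complex Laplacian in divergence form -/
theorem divA_tau {U : Set (Cn n)} {G : Cn n → Matrix (Fin n) (Fin n) ℂ} (hU : IsOpen U)
    (h : DF U G) {φ : Cn n → ℝ} {ξ : ER n} (hξ : Tl n ξ ∈ U) (hφ : ContDiffAt ℝ 2 φ (Tl n ξ)) :
    divA (fun y : ER n => tau (G (Tl n y))) (fun y : ER n => φ (Tl n y)) ξ
      = ((G (Tl n ξ) * cH φ (Tl n ξ)).trace).re := by
  have hG : ∀ a b, DifferentiableAt ℝ (fun z => G z a b) (Tl n ξ) := fun a b =>
    ((h.sm a b).contDiffAt (hU.mem_nhds hξ)).differentiableAt (by simp)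
  have hφ1 : DifferentiableAt ℝ (fderiv ℝ φ) (Tl n ξ) :=
    (hφ.fderiv_right (m := 1) (by norm_num)).differentiableAt (by norm_num)
  have hφ' : ContDiffAt ℝ 2 (fun y : ER n => φ (Tl n y)) ξ := hφ.comp ξ tl_contDiff.contDiffAt
  have hφ'1 : DifferentiableAt ℝ (fderiv ℝ (fun y : ER n => φ (Tl n y))) ξ :=
    (hφ'.fderiv_right (m := 1) (by norm_num)).differentiableAt (by norm_num)
  rw [← P2_tau hφ1]
  have hT : ∀ p p', DifferentiableAt ℝ (fun y : ER n => tau (G (Tl n y)) p p') ξ := by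
    intro p p'
    obtain ⟨⟨b, s⟩, rfl⟩ := finProdFinEquiv.surjective p
    obtain ⟨⟨a, t⟩, rfl⟩ := finProdFinEquiv.surjective p'
    change DifferentiableAt ℝ (fun y : ER n => tau (G (Tl n y)) (q b s) (q a t)) ξ
    simp only [tau_q]
    have h1 : DifferentiableAt ℝ (fun y : ER n => (fun z => G z a b) (Tl n y)) ξ :=
      (hG a b).comp ξ (tl_contDiff (k := 1)).contDiffAt.differentiableAt_one
    exact (Complex.reCLM.differentiableAt.comp ξ
      ((h1.mul_const _).mul_const _)).const_mul _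
  have hP : ∀ p', DifferentiableAt ℝ (fun y : ER n => pderiv p' (fun y : ER n => φ (Tl n y)) y) ξ :=
    fun p' => hφ'1.clm_apply (differentiableAt_const _)
  have e1 : ∀ p p', pderiv p (fun y : ER n => tau (G (Tl n y)) p p' *
      pderiv p' (fun y : ER n => φ (Tl n y)) y) ξ
      = tau (G (Tl n ξ)) p p' * D2 (fun y : ER n => φ (Tl n y)) ξ (ee p) (ee p')
        + pderiv p (fun y : ER n => tau (G (Tl n y)) p p') ξ *
          pderiv p' (fun y : ER n => φ (Tl n y)) ξ := by
    intro p p'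
    have h2 : pderiv p (fun y : ER n => pderiv p' (fun y : ER n => φ (Tl n y)) y) ξ
        = D2 (fun y : ER n => φ (Tl n y)) ξ (ee p) (ee p') := by
      unfold pderiv
      rw [fderiv_clm_apply hφ'1 (differentiableAt_const _)]
      simp [D2, ee]
    rw [pderiv_mul' (hT p p') (hP p'), h2]
  unfold divA
  have e2 : ∀ p, pderiv p (fun y : ER n => ∑ p', tau (G (Tl n y)) p p' *
      pderiv p' (fun y : ER n => φ (Tl n y)) y) ξ
      = ∑ p', pderiv p (fun y : ER n => tau (G (Tl n y)) p p' *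
          pderiv p' (fun y : ER n => φ (Tl n y)) y) ξ := by
    intro p
    exact pderiv_sum' Finset.univ (f := fun p' y => tau (G (Tl n y)) p p' *
      pderiv p' (fun y : ER n => φ (Tl n y)) y) fun p' _ => (hT p p').mul (hP p')
  simp only [e2, e1, Finset.sum_add_distrib]
  have e3 : ∑ p, ∑ p', pderiv p (fun y : ER n => tau (G (Tl n y)) p p') ξ *
      pderiv p' (fun y : ER n => φ (Tl n y)) ξ = 0 := by
    rw [Finset.sum_comm]
    refine Finset.sum_eq_zero fun p' _ => ?_
    rw [← Finset.sum_mul, div_tau hU h hξ, zero_mul]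
  rw [e3, add_zero]
  rfl

theorem tau_posDef {G : Matrix (Fin n) (Fin n) ℂ} (hG : G.PosDef) : (tau G).PosDef := by
  refine Matrix.PosDef.of_dotProduct_mulVec_pos ?_ fun ξ hξ => ?_
  · ext p p'
    rw [Matrix.conjTranspose_apply, star_trivial]
    exact tau_symm hG.1 p' p
  · have e : star ξ ⬝ᵥ (tau G) *ᵥ ξ = ∑ p, ∑ p', tau G p p' * ξ p * ξ p' := by
      simp only [dotProduct, Matrix.mulVec, star_trivial, Pi.star_apply, Finset.mul_sum]
      refine Finset.sum_congr rfl fun p _ => Finset.sum_congr rfl fun p' _ => ?_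
      ring
    rw [e, tau_quad]
    have hne : (fun b : Fin n => conj ((ξ (q b 0) : ℂ) + (ξ (q b 1) : ℂ) * I)) ≠ 0 := by
      intro h0
      apply hξ
      funext p
      obtain ⟨⟨b, s⟩, rfl⟩ := finProdFinEquiv.surjective p
      have h1 := congrFun h0 b
      simp only [Pi.zero_apply, map_eq_zero] at h1
      have h2 := congrArg Complex.re h1
      have h3 := congrArg Complex.im h1
      simp at h2 h3
      change ξ (q b s) = 0
      fin_cases s
      · exact h2
      · exact h3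
    have h1 := hG.dotProduct_mulVec_pos hne
    have h2 := (Complex.pos_iff.1 h1).1
    positivity

theorem tau_smooth {U : Set (Cn n)} {G : Cn n → Matrix (Fin n) (Fin n) ℂ}
    (hs : ∀ a b, ContDiffOn ℝ ∞ (fun z => G z a b) U) (p p' : Fin (n * 2)) :
    ContDiffOn ℝ ∞ (fun ξ : ER n => tau (G (Tl n ξ)) p p') ((Tl n) ⁻¹' U) := by
  obtain ⟨⟨b, s⟩, rfl⟩ := finProdFinEquiv.surjective p
  obtain ⟨⟨a, t⟩, rfl⟩ := finProdFinEquiv.surjective p'
  change ContDiffOn ℝ ∞ (fun y : ER n => tau (G (Tl n y)) (q b s) (q a t)) _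
  simp only [tau_q]
  have h1 : ContDiffOn ℝ ∞ (fun y : ER n => (fun z => G z a b) (Tl n y)) ((Tl n) ⁻¹' U) :=
    (hs a b).comp (tl_contDiff (k := ∞)).contDiffOn fun x hx => hx
  exact contDiffOn_const.mul
    (Complex.reCLM.contDiff.comp_contDiffOn ((h1.mul contDiffOn_const).mul contDiffOn_const))

theorem cH_zero_of {φ : Cn n → ℝ} {z : Cn n} (h : z ∉ tsupport φ) : cH φ z = 0 := by
  have h1 : φ =ᶠ[𝓝 z] fun _ => 0 := notMem_tsupport_iff_eventuallyEq.1 h
  have h2 : fderiv ℝ (fderiv ℝ φ) z = 0 := by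
    have h3 := h1.fderiv (𝕜 := ℝ)
    rw [h3.fderiv_eq]
    simp
  ext a b
  simp [cH, YauDefs_635.D2, h2]

/-- **very weak solutions are smooth** -/
theorem weak_reg {U : Set (Cn n)} (hU : IsOpen U) {G : Cn n → Matrix (Fin n) (Fin n) ℂ}
    (h : DF U G) {f : Cn n → ℝ} (hf : ContDiffOn ℝ ∞ f U) {u : ER n → ℝ}
    (hu : LocallyIntegrableOn u ((Tl n) ⁻¹' U))
    (hw : ∀ φ : Cn n → ℝ, ContDiff ℝ ∞ φ → HasCompactSupport φ → tsupport φ ⊆ U →
      ∫ ξ : ER n, u ξ * ((G (Tl n ξ) * cH φ (Tl n ξ)).trace).re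
        = ∫ ξ : ER n, f (Tl n ξ) * φ (Tl n ξ)) :
    ∃ v : Cn n → ℝ, ContDiffOn ℝ ∞ v U ∧ (∀ᵐ ξ : ER n, Tl n ξ ∈ U → v (Tl n ξ) = u ξ) ∧
      ∀ z ∈ U, ((G z * cH v z).trace).re = f z := by
  have hU' : IsOpen ((Tl n : ER n → Cn n) ⁻¹' U) := hU.preimage (Tl n).continuous
  obtain ⟨v, hv, hvu, hve⟩ := ell_regularity (n * 2) _ hU' (fun ξ => tau (G (Tl n ξ)))
    (tau_smooth h.sm) (fun ξ hξ => tau_posDef (h.pd _ hξ)) (fun ξ => f (Tl n ξ))
    (hf.comp (tl_contDiff (k := ∞)).contDiffOn fun x hx => hx) u hu (by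
      intro φ hφ hφc hφs
      set φ' : Cn n → ℝ := fun z => φ ((Tl n).symm z) with hφ'
      have h1 : ContDiff ℝ ∞ φ' := hφ.comp tl_symm_contDiff
      have h2 : HasCompactSupport φ' :=
        hφc.comp_homeomorph (Tl n).symm.toHomeomorph
      have h3 : ∀ z, z ∈ tsupport φ' → (Tl n).symm z ∈ tsupport φ := by
        intro z hz
        have := tsupport_comp_subset_preimage φ (f := fun z => (Tl n).symm z)
          (Tl n).symm.continuous hz
        exact this
      have h4 : tsupport φ' ⊆ U := by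
        intro z hz
        have := hφs (h3 z hz)
        simpa using this
      have h5 := hw φ' h1 h2 h4
      have h6 : (fun ξ : ER n => φ' (Tl n ξ)) = φ := by
        funext ξ
        simp [hφ']
      have h7 : ∀ ξ : ER n, divA (fun ξ => tau (G (Tl n ξ))) φ ξ
          = ((G (Tl n ξ) * cH φ' (Tl n ξ)).trace).re := by
        intro ξ
        by_cases hξ : ξ ∈ tsupport φ
        · have hh := divA_tau hU h (φ := φ') (hφs hξ)
            ((h1.of_le two_le_inf).contDiffAt)
          rw [h6] at hh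
          exact hh
        · have hz : Tl n ξ ∉ tsupport φ' := fun hh => hξ (by simpa using h3 _ hh)
          rw [cH_zero_of hz, mul_zero]
          have hh : ξ ∉ tsupport (divA (fun ξ : ER n => tau (G (Tl n ξ))) φ) := fun hh =>
            hξ (Crest.Agent.R202.Ell.tsupport_divA_subset _ φ hh)
          rw [image_eq_zero_of_notMem_tsupport hh]
          simp
      simp only [h7]
      rw [h5]
      refine integral_congr_ae (Eventually.of_forall fun ξ => ?_)
      simp only [hφ', LinearIsometryEquiv.symm_apply_apply])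
  refine ⟨fun z => v ((Tl n).symm z), ?_, ?_, ?_⟩
  · refine hv.comp (tl_symm_contDiff (k := ∞)).contDiffOn fun z hz => ?_
    simpa using hz
  · filter_upwards [hvu] with ξ hξ hξU
    rw [LinearIsometryEquiv.symm_apply_apply]
    exact hξ hξU
  · intro z hz
    obtain ⟨ξ, rfl⟩ := (Tl n).surjective z
    have hξ : ξ ∈ (Tl n : ER n → Cn n) ⁻¹' U := hz
    have h1 : ContDiffAt ℝ 2 (fun z => v ((Tl n).symm z)) (Tl n ξ) := by
      have h2 : ContDiffAt ℝ ∞ v ((Tl n).symm (Tl n ξ)) := by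
        rw [LinearIsometryEquiv.symm_apply_apply]
        exact hv.contDiffAt (hU'.mem_nhds hξ)
      exact (h2.comp (Tl n ξ) (tl_symm_contDiff (k := ∞)).contDiffAt).of_le
        two_le_inf
    have h3 := divA_tau hU h hz h1
    rw [← h3]
    have h4 : (fun y : ER n => v ((Tl n).symm (Tl n y))) = v := by
      funext y
      rw [LinearIsometryEquiv.symm_apply_apply]
    rw [h4]
    exact hve ξ hξ

end

end Crest.Agent.R273.CLin_933
end

-- ▼ part R273/CLinB_933
section

/-!
# R273 (S0416), Part C, C-LIN (helper933), file B: charts with Euclidean real coordinates, local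
`L²` Poincaré inequality

* `poinc2`    : `∫∫_{S×S} |f y - f x|² ≤ C ∫_S |Df|²`, `S` open, convex, bounded
* `Th`, `cc_Th`, `mp_Th` : measure preserving change of real coordinates
* `sT A i ξ`, `UT A i` : the chart `i` in the coordinates `ER n`
* `lint_vm`, `int_vm`  : integrals of functions over a chart
* `ae_chart`, `ae_of_chart` : null sets
-/

set_option autoImplicit false
set_option linter.unusedSectionVars false

open Set Filter Topology MeasureTheory
open scoped ContDiff Matrix ComplexConjugate ComplexOrder ENNReal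

namespace Crest.Agent.R273.CLin_933

open Crest.Agent.R275 Crest.Agent.R275.Geo Crest.Agent.R275.Core144
open Crest.Agent.R275.Pai323 Crest.Agent.R275.C1d194
open Crest.Agent.R238.Sch (ee D2)
open Crest.Agent.R273.SchE_152
open Crest.Agent.R273.Defs_333 Crest.Agent.R273.Vm_333

noncomputable section

/-! ### the `L²` Poincaré inequality on convex sets -/

theorem sq_lintegral_le {f : ℝ → ℝ≥0∞} (hf : AEMeasurable f (volume.restrict (Icc (0 : ℝ) 1))) :
    (∫⁻ t in Icc (0 : ℝ) 1, f t) ^ 2 ≤ ∫⁻ t in Icc (0 : ℝ) 1, f t ^ 2 := by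
  have h := ENNReal.lintegral_mul_le_Lp_mul_Lq (volume.restrict (Icc (0 : ℝ) 1))
    Real.HolderConjugate.two_two hf (aemeasurable_const (b := (1 : ℝ≥0∞)))
  simp only [Pi.mul_apply, mul_one, lintegral_const, Measure.restrict_apply,
    MeasurableSet.univ, univ_inter, Real.volume_Icc, sub_zero, ENNReal.ofReal_one,
    ENNReal.rpow_ofNat, one_pow, ENNReal.one_rpow] at h
  calc (∫⁻ t in Icc (0 : ℝ) 1, f t) ^ 2
      ≤ ((∫⁻ t in Icc (0 : ℝ) 1, f t ^ 2) ^ (1 / 2 : ℝ)) ^ 2 := by gcongr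
    _ = _ := by
      rw [← ENNReal.rpow_natCast, ← ENNReal.rpow_mul]
      norm_num

/-- **`L²` Poincaré inequality** on an open convex set -/
theorem poinc2 {m : ℕ} {S : Set (EuclideanSpace ℝ (Fin m))} (hS : IsOpen S) (hc : Convex ℝ S)
    {f : EuclideanSpace ℝ (Fin m) → ℝ} (hf : ContDiffOn ℝ 1 f S) {d : ℝ}
    (hd : ∀ x ∈ S, ∀ y ∈ S, dist x y ≤ d) :
    ∫⁻ y in S, ∫⁻ x in S, ‖f y - f x‖ₑ ^ 2
      ≤ ENNReal.ofReal d ^ 2 * (2 ^ m * volume S * ∫⁻ z in S, ‖fderiv ℝ f z‖ₑ ^ 2) := by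
  have hF : Measurable (fun z => ‖fderiv ℝ f z‖ₑ ^ 2) := (measurable_fderiv ℝ f).enorm.pow_const 2
  have hle : ∀ y ∈ S, ∀ x ∈ S, ‖f y - f x‖ₑ ^ 2 ≤ ENNReal.ofReal d ^ 2 *
      ∫⁻ t in Icc (0 : ℝ) 1, ‖fderiv ℝ f ((1 - t) • x + t • y)‖ₑ ^ 2 := by
    intro y hy x hx
    have h1 := Crest.Agent.R236.Poinc.diff_le hS hc hf hx hy (hd x hx y hy)
    have h2 : AEMeasurable (fun t : ℝ => ‖fderiv ℝ f ((1 - t) • x + t • y)‖ₑ)
        (volume.restrict (Icc (0 : ℝ) 1)) := by
      refine Measurable.aemeasurable ?_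
      exact (measurable_fderiv ℝ f).enorm.comp (by fun_prop)
    calc ‖f y - f x‖ₑ ^ 2 ≤ (ENNReal.ofReal d *
          ∫⁻ t in Icc (0 : ℝ) 1, ‖fderiv ℝ f ((1 - t) • x + t • y)‖ₑ) ^ 2 := by gcongr
      _ = ENNReal.ofReal d ^ 2 *
          (∫⁻ t in Icc (0 : ℝ) 1, ‖fderiv ℝ f ((1 - t) • x + t • y)‖ₑ) ^ 2 := by rw [mul_pow]
      _ ≤ _ := by
        gcongr
        exact sq_lintegral_le h2
  calc ∫⁻ y in S, ∫⁻ x in S, ‖f y - f x‖ₑ ^ 2
      ≤ ∫⁻ y in S, ∫⁻ x in S, ENNReal.ofReal d ^ 2 *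
          ∫⁻ t in Icc (0 : ℝ) 1, ‖fderiv ℝ f ((1 - t) • x + t • y)‖ₑ ^ 2 :=
        setLIntegral_mono' hS.measurableSet fun y hy =>
          setLIntegral_mono' hS.measurableSet fun x hx => hle y hy x hx
    _ = ENNReal.ofReal d ^ 2 * ∫⁻ y in S, ∫⁻ x in S,
          ∫⁻ t in Icc (0 : ℝ) 1, ‖fderiv ℝ f ((1 - t) • x + t • y)‖ₑ ^ 2 := by
        have hne : ENNReal.ofReal d ^ 2 ≠ ⊤ := ENNReal.pow_ne_top ENNReal.ofReal_ne_top
        rw [← lintegral_const_mul' _ _ hne]
        refine lintegral_congr fun y => ?_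
        rw [← lintegral_const_mul' _ _ hne]
    _ ≤ _ := by
        gcongr
        exact Crest.Agent.R236.Poinc.seg hS.measurableSet hc hF

/-! ### change of coordinates -/

variable {n : ℕ} {M : Type} [TopologicalSpace M] {A : Atl n M}

/-- the two real coordinate spaces -/
def Th (n : ℕ) : ER n ≃ᵐ (RI n → ℝ) :=
  (MeasurableEquiv.toLp 2 (Fin (n * 2) → ℝ)).symm.trans
    (MeasurableEquiv.piCongrLeft (fun _ : RI n => ℝ) finProdFinEquiv.symm)

theorem Th_apply (ξ : ER n) (p : RI n) : Th n ξ p = ξ (finProdFinEquiv p) := by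
  obtain ⟨a, rfl⟩ := (finProdFinEquiv (m := n) (n := 2)).symm.surjective p
  rw [Equiv.apply_symm_apply]
  exact Equiv.piCongrLeft_apply_apply (fun _ : RI n => ℝ)
    (finProdFinEquiv (m := n) (n := 2)).symm
    ((MeasurableEquiv.toLp 2 (Fin (n * 2) → ℝ)).symm ξ) a

theorem mp_Th (n : ℕ) : MeasurePreserving (Th n) volume volume :=
  (volume_measurePreserving_piCongrLeft (fun _ : RI n => ℝ) finProdFinEquiv.symm).comp
    (EuclideanSpace.volume_preserving_symm_measurableEquiv_toLp (Fin (n * 2)))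

theorem cc_Th (ξ : ER n) : (cc (Th n ξ) : Cn n) = Tl n ξ := by
  ext b
  rw [Tl_apply]
  change ((Th n ξ (b, 0) : ℝ) : ℂ) + (Th n ξ (b, 1) : ℝ) * Complex.I = _
  rw [Th_apply, Th_apply]
  rfl

/-- the chart `i` in Euclidean coordinates -/
def sT (A : Atl n M) (i : A.ι) (ξ : ER n) : M := (A.e i).symm (Tl n ξ)

/-- the domain of the chart `i` in Euclidean coordinates -/
def UT (A : Atl n M) (i : A.ι) : Set (ER n) := (Tl n : ER n → Cn n) ⁻¹' (A.e i).target

theorem isOpen_UT (i : A.ι) : IsOpen (UT A i) := (A.e i).open_target.preimage (Tl n).continuous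

theorem UT_eq (i : A.ι) : UT A i = Th n ⁻¹' Ui A i := by
  ext ξ
  change Tl n ξ ∈ (A.e i).target ↔ cc (Th n ξ) ∈ (A.e i).target
  rw [cc_Th]

theorem sg_Th (i : A.ι) (ξ : ER n) : sg A i (Th n ξ) = sT A i ξ := by
  unfold sg sT
  rw [cc_Th]

theorem sT_mem {i : A.ι} {ξ : ER n} (hξ : ξ ∈ UT A i) : sT A i ξ ∈ (A.e i).source :=
  (A.e i).map_target hξ

theorem continuousOn_sT (i : A.ι) : ContinuousOn (sT A i) (UT A i) :=
  (A.e i).continuousOn_symm.comp (Tl n).continuous.continuousOn fun _ h => h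

/-- the coordinates of a point in the chart `i` -/
def tT (A : Atl n M) (i : A.ι) (x : M) : ER n := (Tl n).symm (A.e i x)

theorem tT_mem {i : A.ι} {x : M} (hx : x ∈ (A.e i).source) : tT A i x ∈ UT A i := by
  change Tl n ((Tl n).symm (A.e i x)) ∈ (A.e i).target
  rw [LinearIsometryEquiv.apply_symm_apply]
  exact (A.e i).map_source hx

theorem sT_tT {i : A.ι} {x : M} (hx : x ∈ (A.e i).source) : sT A i (tT A i x) = x := by
  change (A.e i).symm (Tl n ((Tl n).symm (A.e i x))) = x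
  rw [LinearIsometryEquiv.apply_symm_apply, (A.e i).left_inv hx]

theorem tT_sT {i : A.ι} {ξ : ER n} (hξ : ξ ∈ UT A i) : tT A i (sT A i ξ) = ξ := by
  change (Tl n).symm (A.e i ((A.e i).symm (Tl n ξ))) = ξ
  rw [(A.e i).right_inv hξ, LinearIsometryEquiv.symm_apply_apply]

theorem continuousOn_tT (i : A.ι) : ContinuousOn (tT A i) (A.e i).source :=
  (Tl n).symm.continuous.comp_continuousOn (A.e i).continuousOn

section meas

variable [MeasurableSpace M] [BorelSpace M] [Countable A.ι] (h : HM (KB A)⁻¹)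

/-- nonnegative integrals over a chart -/
theorem lint_vm (i : A.ι) {f : M → ℝ≥0∞} (hf : Measurable f) :
    ∫⁻ x in (A.e i).source, f x ∂(vm h) =
      ∫⁻ ξ in UT A i, ENNReal.ofReal (h.w i (sT A i ξ)) * f (sT A i ξ) := by
  rw [setLIntegral_vm h i hf, UT_eq]
  have h1 := (mp_Th n).setLIntegral_comp_preimage_emb (Th n).measurableEmbedding
    (fun y => Vm_333.dn h i y * f (sg A i y)) (Ui A i)
  rw [← h1]
  refine lintegral_congr fun ξ => ?_
  unfold Vm_333.dn
  rw [sg_Th]

/-- integrals over a chart -/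
theorem int_vm {W : Type*} [NormedAddCommGroup W] [NormedSpace ℝ W] (i : A.ι) {f : M → W}
    (hf : AEStronglyMeasurable f (vm h)) :
    ∫ x in (A.e i).source, f x ∂(vm h) =
      ∫ ξ in UT A i, h.w i (sT A i ξ) • f (sT A i ξ) := by
  rw [setIntegral_vm h i hf, UT_eq]
  have h1 := (mp_Th n).setIntegral_preimage_emb (Th n).measurableEmbedding
    (fun y => h.w i (sg A i y) • f (sg A i y)) (Ui A i)
  rw [← h1]
  refine integral_congr_ae (Eventually.of_forall fun ξ => ?_)
  simp only [sg_Th]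


/-- measurable null sets of a chart -/
theorem ae_of_chart (i : A.ι) {p : M → Prop} (hm : MeasurableSet {x | x ∈ (A.e i).source ∧ ¬ p x})
    (hp : ∀ᵐ ξ : ER n, ξ ∈ UT A i → p (sT A i ξ)) :
    ∀ᵐ x ∂(vm h), x ∈ (A.e i).source → p x := by
  set N : Set M := {x | x ∈ (A.e i).source ∧ ¬ p x} with hN
  have h1 := lint_vm h i (f := N.indicator 1) (measurable_one.indicator hm)
  have h2 : ∫⁻ ξ in UT A i, ENNReal.ofReal (h.w i (sT A i ξ)) *
      N.indicator (1 : M → ℝ≥0∞) (sT A i ξ) = 0 := by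
    rw [lintegral_congr_ae (g := fun _ => 0)]
    · simp
    · rw [EventuallyEq, ae_restrict_iff' (isOpen_UT i).measurableSet]
      filter_upwards [hp] with ξ hξ hU
      have h3 : sT A i ξ ∉ N := fun h4 => h4.2 (hξ hU)
      rw [indicator_of_notMem h3, mul_zero]
  rw [h2, lintegral_indicator_one hm, Measure.restrict_apply hm,
    inter_eq_left.2 fun x hx => hx.1] at h1
  rw [ae_iff]
  refine measure_mono_null (fun x hx => ?_) h1
  simp only [Classical.not_imp, mem_ofPred_eq] at hx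
  exact hx

end meas

end

end Crest.Agent.R273.CLin_933
end

-- ▼ part R273/CLinC_933
section

/-!
# R273 (S0416), Part C, C-LIN (helper933), file C: the Poincaré inequality on a compact connected
Kaehler manifold

* `grad_le`    : `c |D(w ∘ chart)|² ≤ |∂w|²_K` on compact subsets of a chart
* `poincare_M` : `∫∫ (w x - w y)² ≤ C ∫ |∂w|²_K`
-/

set_option autoImplicit false
set_option linter.unusedSectionVars false

open Set Filter Topology MeasureTheory
open scoped ContDiff Matrix ComplexConjugate ComplexOrder ENNReal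

namespace Crest.Agent.R273.CLin_933

open Crest.Agent.R275 Crest.Agent.R275.Geo Crest.Agent.R275.Core144
open Crest.Agent.R275.Pai323 Crest.Agent.R275.C1d194
open Crest.Agent.R275.OmT75 (dj dl)
open Crest.Agent.R273.SchE_152 Crest.Agent.R273.SchD_152
open Crest.Agent.R273.Defs_333 Crest.Agent.R273.Vm_333 Crest.Agent.R273.Kah_333
open Crest.Agent.R273.Vol_333 Crest.Agent.R273.Green_5 Crest.Agent.R273.GreenM_5
open Crest.Agent.R273.StV_37 (db_conj)
open Crest.Agent.R273.NormC_505 (nsq nsq_nonneg exists_lower)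

noncomputable section

variable {n : ℕ} {M : Type} [TopologicalSpace M] {A : Atl n M}

/-! ### comparison of gradients -/

theorem gc_self_eq (K : Kah A) (u : M → ℝ) (i : A.ι) (x : M) :
    gc K (fun y => (u y : ℂ)) (fun y => (u y : ℂ)) i x =
      star (fun a => dl A i a (fun y => (u y : ℂ)) x) ⬝ᵥ
        (K.g i x)⁻¹ *ᵥ (fun a => dl A i a (fun y => (u y : ℂ)) x) := by
  unfold gc
  simp only [dotProduct, Matrix.mulVec, Finset.mul_sum, Pi.star_apply]
  rw [Finset.sum_comm]
  refine Finset.sum_congr rfl fun b _ => Finset.sum_congr rfl fun a _ => ?_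
  have h3 : A.db i b (fun y => (u y : ℂ)) x = star (dl A i b (fun y => (u y : ℂ)) x) := by
    have h4 := db_conj (A := A) i b (fun y => (u y : ℂ)) x
    simp only [Complex.conj_ofReal] at h4
    exact h4
  rw [h3]
  ring

/-- norm of the derivative of a real function through `∂u` -/
theorem norm_fderiv_le {u : Cn n → ℝ} {z : Cn n} (hu : DifferentiableAt ℝ u z) :
    ‖fderiv ℝ u z‖ ^ 2 ≤ 4 * nsq (fun a => dj a (fun w => (u w : ℂ)) z) := by
  set D : Fin n → ℂ := fun a => dj a (fun w => (u w : ℂ)) z with hD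
  have hcx : ∀ v, fderiv ℝ (fun w => (u w : ℂ)) z v = ((fderiv ℝ u z v : ℝ) : ℂ) := by
    intro v
    have h1 : HasFDerivAt (fun w => (u w : ℂ)) (Complex.ofRealCLM.comp (fderiv ℝ u z)) z :=
      Complex.ofRealCLM.hasFDerivAt.comp z hu.hasFDerivAt
    rw [h1.fderiv]
    rfl
  have hdb : ∀ b, dbj b (fun w => (u w : ℂ)) z = conj (D b) := by
    intro b
    simp only [hD, dj, dbj, hcx, smul_eq_mul, map_mul, map_sub, Complex.conj_ofReal, Complex.conj_I,
      map_div₀, map_one, map_ofNat]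
    ring
  have hv : ∀ v : Cn n, |fderiv ℝ u z v| ≤ 2 * Real.sqrt (nsq D) * ‖v‖ := by
    intro v
    have h1 := Crest.Agent.R275.OmT75.expand_fderiv (fun w => (u w : ℂ)) z v
    rw [hcx] at h1
    have h2 : ‖((fderiv ℝ u z v : ℝ) : ℂ)‖ ≤ ∑ b, (‖v b‖ * ‖D b‖ + ‖v b‖ * ‖D b‖) := by
      rw [h1]
      refine (norm_sum_le _ _).trans (Finset.sum_le_sum fun b _ => ?_)
      refine (norm_add_le _ _).trans (le_of_eq ?_)
      rw [hdb b, smul_eq_mul, smul_eq_mul, norm_mul, norm_mul, Complex.norm_conj,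
        Complex.norm_conj]
    rw [Complex.norm_real, Real.norm_eq_abs] at h2
    have h3 : ∑ b, ‖v b‖ * ‖D b‖ ≤ Real.sqrt (∑ b, ‖v b‖ ^ 2) * Real.sqrt (∑ b, ‖D b‖ ^ 2) :=
      Real.sum_mul_le_sqrt_mul_sqrt _ _ _
    have h4 : Real.sqrt (∑ b, ‖v b‖ ^ 2) = ‖v‖ := (EuclideanSpace.norm_eq v).symm
    rw [h4] at h3
    rw [Finset.sum_add_distrib] at h2
    have h5 : Real.sqrt (∑ b, ‖D b‖ ^ 2) = Real.sqrt (nsq D) := rfl
    rw [h5] at h3
    linarith
  have h6 : ‖fderiv ℝ u z‖ ≤ 2 * Real.sqrt (nsq D) :=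
    ContinuousLinearMap.opNorm_le_bound _ (by positivity) hv
  calc ‖fderiv ℝ u z‖ ^ 2 ≤ (2 * Real.sqrt (nsq D)) ^ 2 := by gcongr
    _ = 4 * nsq D := by
      rw [mul_pow, Real.sq_sqrt (nsq_nonneg D)]
      norm_num

theorem inv_continuousOn (K : Kah A) (i : A.ι) (a b : Fin n) :
    ContinuousOn (fun ξ : ER n => (K.g i (sT A i ξ))⁻¹ a b) (UT A i) := by
  have h1 : ContDiffOn ℝ ∞ (fun z => (K.g i ((A.e i).symm z)).adjugate a b) (A.e i).target :=
    smAt_adj (kah_cf K) i b a
  have h2 : ContDiffOn ℝ ∞ (fun z => (K.g i ((A.e i).symm z)).det) (A.e i).target :=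
    smAt_det (K.sm i)
  have h3 : ContinuousOn (fun z => ((K.g i ((A.e i).symm z)).det)⁻¹ *
      (K.g i ((A.e i).symm z)).adjugate a b) (A.e i).target :=
    (h2.continuousOn.inv₀ fun z hz => K_det_ne K ((A.e i).map_target hz)).mul h1.continuousOn
  have h4 : ContinuousOn (fun ξ : ER n => ((K.g i ((A.e i).symm (Tl n ξ))).det)⁻¹ *
      (K.g i ((A.e i).symm (Tl n ξ))).adjugate a b) (UT A i) :=
    h3.comp (Tl n).continuous.continuousOn fun _ h => h
  refine h4.congr fun ξ _ => ?_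
  rw [Matrix.inv_def, Matrix.smul_apply, smul_eq_mul, Ring.inverse_eq_inv']
  rfl

theorem smooth_sT {w : M → ℝ} (hw : A.Sm w) (i : A.ι) :
    ContDiffOn ℝ ∞ (fun ξ : ER n => w (sT A i ξ)) (UT A i) := by
  have h1 : ContDiffOn ℝ ∞ (fun z => w ((A.e i).symm z)) (A.e i).target := hw i
  exact h1.comp (tl_contDiff (k := ∞)).contDiffOn fun _ h => h

theorem grad_le (K : Kah A) (i : A.ι) {S : Set (ER n)} (hS : IsCompact S) (hSU : S ⊆ UT A i) :
    ∃ c : ℝ, 0 < c ∧ ∀ ξ ∈ S, ∀ w : M → ℝ, A.Sm w →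
      c * ‖fderiv ℝ (fun ξ : ER n => w (sT A i ξ)) ξ‖ ^ 2 ≤ grK K w w (sT A i ξ) := by
  obtain ⟨c, hc0, hc⟩ := exists_lower hS (H := fun ξ : ER n => (K.g i (sT A i ξ))⁻¹)
    (fun a b => (inv_continuousOn K i a b).mono hSU)
    (fun ξ hξ => (K.pos i _ (sT_mem (hSU hξ))).inv)
  refine ⟨c / 4, by positivity, fun ξ hξ w hw => ?_⟩
  have hx := sT_mem (hSU hξ)
  rw [grK_eq K hw hw hx, gc_self_eq]
  have h1 := hc ξ hξ (fun a => dl A i a (fun y => (w y : ℂ)) (sT A i ξ))
  refine le_trans ?_ h1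
  have hz : A.e i (sT A i ξ) = Tl n ξ := (A.e i).right_inv (hSU hξ)
  have h2 : (fun a => dl A i a (fun y => (w y : ℂ)) (sT A i ξ))
      = fun a => dj a (fun z => ((w ((A.e i).symm z) : ℝ) : ℂ)) (Tl n ξ) := by
    funext a
    unfold OmT75.dl
    rw [hz]
  rw [h2]
  have h3 : ContDiffAt ℝ ∞ (fun z => w ((A.e i).symm z)) (Tl n ξ) :=
    ContDiffOn.contDiffAt (hw i) ((A.e i).open_target.mem_nhds (hSU hξ))
  have h4 := norm_fderiv_le (h3.differentiableAt (by simp))
  have h5 : ‖fderiv ℝ (fun ξ : ER n => w (sT A i ξ)) ξ‖ ≤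
      ‖fderiv ℝ (fun z => w ((A.e i).symm z)) (Tl n ξ)‖ := by
    have h6 := fderiv_comp_iso (Tl n) (fun z => w ((A.e i).symm z)) ξ
    have h7 : (fun ξ : ER n => w (sT A i ξ)) = fun y => w ((A.e i).symm (Tl n y)) := rfl
    rw [h7, h6]
    refine (ContinuousLinearMap.opNorm_comp_le _ _).trans ?_
    have h8 : ‖((Tl n).toContinuousLinearEquiv : ER n →L[ℝ] Cn n)‖ ≤ 1 :=
      (Tl n).toLinearIsometry.norm_toContinuousLinearMap_le
    exact (mul_le_mul_of_nonneg_left h8 (norm_nonneg _)).trans_eq (mul_one _)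
  have h9 := pow_le_pow_left₀ (norm_nonneg _) h5 2
  nlinarith

/-! ### oscillation integrals -/

section meas

variable [MeasurableSpace M]

/-- `∫_S ∫_T |w x - w y|²` -/
def DD (μ : Measure M) (S T : Set M) (w : M → ℝ) : ℝ≥0∞ :=
  ∫⁻ x in S, ∫⁻ y in T, ‖w x - w y‖ₑ ^ 2 ∂μ ∂μ

theorem meas_diff {w : M → ℝ} (hw : Measurable w) :
    Measurable fun p : M × M => ‖w p.1 - w p.2‖ₑ ^ 2 :=
  ((hw.comp measurable_fst).sub (hw.comp measurable_snd)).enorm.pow_const 2

theorem DD_mono (μ : Measure M) {S T S' T' : Set M} (hS : S ⊆ S') (hT : T ⊆ T') (w : M → ℝ) :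
    DD μ S T w ≤ DD μ S' T' w := by
  unfold DD
  exact (lintegral_mono fun x => lintegral_mono_set hT).trans (lintegral_mono_set hS)

theorem DD_symm (μ : Measure M) [SFinite μ] (S T : Set M) {w : M → ℝ} (hw : Measurable w) :
    DD μ S T w = DD μ T S w := by
  unfold DD
  rw [lintegral_lintegral_swap (meas_diff hw).aemeasurable]
  refine lintegral_congr fun y => lintegral_congr fun x => ?_
  rw [← enorm_neg, neg_sub]

theorem enorm_sq_le (a b c : ℝ) : ‖a - c‖ₑ ^ 2 ≤ 2 * ‖a - b‖ₑ ^ 2 + 2 * ‖b - c‖ₑ ^ 2 := by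
  have e : ∀ x : ℝ, ‖x‖ₑ ^ 2 = ENNReal.ofReal (x ^ 2) := by
    intro x
    rw [Real.enorm_eq_ofReal_abs, ← ENNReal.ofReal_pow (abs_nonneg _), sq_abs]
  have h2 : (2 : ℝ≥0∞) = ENNReal.ofReal 2 := by simp
  rw [e, e, e, h2, ← ENNReal.ofReal_mul (by norm_num), ← ENNReal.ofReal_mul (by norm_num),
    ← ENNReal.ofReal_add (by positivity) (by positivity)]
  apply ENNReal.ofReal_le_ofReal
  nlinarith [sq_nonneg ((a - b) - (b - c))]

/-- chain inequality -/
theorem DD_trans (μ : Measure M) [SFinite μ] {S T R : Set M} {w : M → ℝ} (hw : Measurable w) :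
    μ T * DD μ S R w ≤ 2 * (μ R * DD μ S T w) + 2 * (μ S * DD μ T R w) := by
  have h1 : μ T * DD μ S R w = ∫⁻ x in S, ∫⁻ y in R, ∫⁻ t in T, ‖w x - w y‖ₑ ^ 2 ∂μ ∂μ ∂μ := by
    unfold DD
    have e : ∀ x, ∫⁻ y in R, ∫⁻ t in T, ‖w x - w y‖ₑ ^ 2 ∂μ ∂μ
        = μ T * ∫⁻ y in R, ‖w x - w y‖ₑ ^ 2 ∂μ := by
      intro x
      simp only [setLIntegral_const]
      rw [lintegral_mul_const _ ((hw.const_sub _).enorm.pow_const 2), mul_comm]
    simp only [e]
    rw [lintegral_const_mul]
    exact Measurable.lintegral_prod_right' (meas_diff hw)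
  have m1 : ∀ x, Measurable fun t => 2 * ‖w x - w t‖ₑ ^ 2 := fun x =>
    ((hw.const_sub _).enorm.pow_const 2).const_mul 2
  have h2 : ∀ x y, ∫⁻ t in T, ‖w x - w y‖ₑ ^ 2 ∂μ ≤
      2 * ∫⁻ t in T, ‖w x - w t‖ₑ ^ 2 ∂μ + 2 * ∫⁻ t in T, ‖w t - w y‖ₑ ^ 2 ∂μ := by
    intro x y
    rw [← lintegral_const_mul 2 ((hw.const_sub _).enorm.pow_const 2),
      ← lintegral_const_mul 2 ((hw.sub_const _).enorm.pow_const 2),
      ← lintegral_add_left (m1 x)]
    exact lintegral_mono fun t => enorm_sq_le _ _ _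
  have m2 : Measurable fun x => ∫⁻ t in T, ‖w x - w t‖ₑ ^ 2 ∂μ :=
    Measurable.lintegral_prod_right' (meas_diff hw)
  have m3 : Measurable fun y => ∫⁻ t in T, ‖w t - w y‖ₑ ^ 2 ∂μ :=
    Measurable.lintegral_prod_left' (meas_diff hw)
  rw [h1]
  calc ∫⁻ x in S, ∫⁻ y in R, ∫⁻ t in T, ‖w x - w y‖ₑ ^ 2 ∂μ ∂μ ∂μ
      ≤ ∫⁻ x in S, ∫⁻ y in R, (2 * ∫⁻ t in T, ‖w x - w t‖ₑ ^ 2 ∂μ
          + 2 * ∫⁻ t in T, ‖w t - w y‖ₑ ^ 2 ∂μ) ∂μ ∂μ :=
        lintegral_mono fun x => lintegral_mono fun y => h2 x y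
    _ = ∫⁻ x in S, (2 * (∫⁻ t in T, ‖w x - w t‖ₑ ^ 2 ∂μ) * μ R
          + 2 * ∫⁻ y in R, ∫⁻ t in T, ‖w t - w y‖ₑ ^ 2 ∂μ ∂μ) ∂μ := by
        refine lintegral_congr fun x => ?_
        rw [lintegral_add_left measurable_const, setLIntegral_const, lintegral_const_mul 2 m3]
    _ = 2 * (μ R * ∫⁻ x in S, ∫⁻ t in T, ‖w x - w t‖ₑ ^ 2 ∂μ ∂μ)
          + 2 * (μ S * ∫⁻ y in R, ∫⁻ t in T, ‖w t - w y‖ₑ ^ 2 ∂μ ∂μ) := by
        rw [lintegral_add_left ((m2.const_mul 2).mul_const _), setLIntegral_const,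
          lintegral_mul_const _ (m2.const_mul 2), lintegral_const_mul 2 m2]
        ring
    _ = _ := by
        unfold DD
        rw [lintegral_lintegral_swap (μ := μ.restrict R) (ν := μ.restrict T)]
        exact ((meas_diff hw).comp measurable_swap).aemeasurable

end meas

/-! ### the global inequality -/

theorem lintegral_biUnion_le' {X ι : Type*} [MeasurableSpace X] {μ : Measure X} (t : Finset ι)
    (S : ι → Set X) (f : X → ℝ≥0∞) :
    ∫⁻ x in ⋃ i ∈ t, S i, f x ∂μ ≤ ∑ i ∈ t, ∫⁻ x in S i, f x ∂μ := by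
  classical
  induction t using Finset.induction_on with
  | empty => simp
  | insert a t ha ih =>
    rw [Finset.set_biUnion_insert, Finset.sum_insert ha]
    exact (lintegral_union_le _ _ _).trans (by gcongr)

section glob

variable [T2Space M] [CompactSpace M] [MeasurableSpace M] [BorelSpace M] [Finite A.ι] (K : Kah A)

/-- the energy -/
def EE (w : M → ℝ) : ℝ≥0∞ := ∫⁻ x, ENNReal.ofReal (grK K w w x) ∂(vm (volK K))

/-- the oscillation between `S` and `T` is controlled by the energy -/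
def Rel (S T : Set M) : Prop :=
  ∃ C : ℝ≥0∞, C ≠ ⊤ ∧ ∀ w : M → ℝ, A.Sm w → DD (vm (volK K)) S T w ≤ C * EE K w

variable {K}

theorem Rel.mono {S T S' T' : Set M} (h : Rel K S T) (hS : S' ⊆ S) (hT : T' ⊆ T) :
    Rel K S' T' := by
  obtain ⟨C, hC, h⟩ := h
  exact ⟨C, hC, fun w hw => (DD_mono _ hS hT w).trans (h w hw)⟩

theorem Rel.symm {S T : Set M} (h : Rel K S T) : Rel K T S := by
  have := isFinite_vm (volK K)
  obtain ⟨C, hC, h⟩ := h
  refine ⟨C, hC, fun w hw => ?_⟩
  rw [DD_symm _ _ _ (sm_continuous hw).measurable]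
  exact h w hw

theorem Rel.trans {S T R : Set M} (h : Rel K S T) (h' : Rel K T R) (hT : vm (volK K) T ≠ 0) :
    Rel K S R := by
  have := isFinite_vm (volK K)
  obtain ⟨C, hC, h⟩ := h
  obtain ⟨C', hC', h'⟩ := h'
  set μ := vm (volK K) with hμ
  refine ⟨(μ T)⁻¹ * (2 * (μ R * C) + 2 * (μ S * C')), ?_, fun w hw => ?_⟩
  · refine ENNReal.mul_ne_top (ENNReal.inv_ne_top.2 hT) (ENNReal.add_ne_top.2 ⟨?_, ?_⟩)
    · exact ENNReal.mul_ne_top (by simp) (ENNReal.mul_ne_top (measure_ne_top _ _) hC)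
    · exact ENNReal.mul_ne_top (by simp) (ENNReal.mul_ne_top (measure_ne_top _ _) hC')
  · have h1 := DD_trans μ (S := S) (T := T) (R := R) (sm_continuous hw).measurable
    have h2 : μ T * DD μ S R w ≤ (2 * (μ R * C) + 2 * (μ S * C')) * EE K w := by
      refine h1.trans ?_
      calc 2 * (μ R * DD μ S T w) + 2 * (μ S * DD μ T R w)
          ≤ 2 * (μ R * (C * EE K w)) + 2 * (μ S * (C' * EE K w)) := by
            gcongr
            · exact h w hw
            · exact h' w hw
        _ = _ := by ring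
    calc DD μ S R w = (μ T)⁻¹ * (μ T * DD μ S R w) := by
          rw [← mul_assoc, ENNReal.inv_mul_cancel hT (measure_ne_top _ _), one_mul]
      _ ≤ (μ T)⁻¹ * ((2 * (μ R * C) + 2 * (μ S * C')) * EE K w) := by gcongr
      _ = _ := by ring

/-- nonnegative integrals over a coordinate ball -/
theorem lint_ball (h : HM (KB A)⁻¹) (i : A.ι) {B : Set (ER n)} (hB : MeasurableSet B)
    (hBU : B ⊆ UT A i) (hm : MeasurableSet ((A.e i).source ∩ tT A i ⁻¹' B))
    {f : M → ℝ≥0∞} (hf : Measurable f) :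
    ∫⁻ x in (A.e i).source ∩ tT A i ⁻¹' B, f x ∂(vm h) =
      ∫⁻ ξ in B, ENNReal.ofReal (h.w i (sT A i ξ)) * f (sT A i ξ) := by
  set N := (A.e i).source ∩ tT A i ⁻¹' B with hN
  have h1 := lint_vm h i (f := N.indicator f) (hf.indicator hm)
  rw [lintegral_indicator hm, Measure.restrict_restrict hm,
    inter_eq_left.2 fun x hx => hx.1] at h1
  rw [h1]
  have h2 : ∀ ξ ∈ UT A i, ENNReal.ofReal (h.w i (sT A i ξ)) * N.indicator f (sT A i ξ)
      = B.indicator (fun ξ => ENNReal.ofReal (h.w i (sT A i ξ)) * f (sT A i ξ)) ξ := by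
    intro ξ hξ
    by_cases hb : ξ ∈ B
    · have h3 : sT A i ξ ∈ N := ⟨sT_mem hξ, by
        change tT A i (sT A i ξ) ∈ B
        rwa [tT_sT hξ]⟩
      rw [indicator_of_mem h3, indicator_of_mem hb]
    · have h3 : sT A i ξ ∉ N := fun h4 => hb (by
        have := h4.2
        change tT A i (sT A i ξ) ∈ B at this
        rwa [tT_sT hξ] at this)
      rw [indicator_of_notMem h3, indicator_of_notMem hb, mul_zero]
  rw [setLIntegral_congr_fun (isOpen_UT i).measurableSet h2, setLIntegral_indicator hB,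
    inter_eq_left.2 hBU]

theorem exists_rel_self (K : Kah A) (x : M) : ∃ N : Set M, IsOpen N ∧ x ∈ N ∧ Rel K N N := by
  have := isFinite_vm (volK K)
  obtain ⟨i, hi⟩ := A.cover x
  set ξ0 : ER n := tT A i x with hξ0
  obtain ⟨r, hr, hrU⟩ := Metric.nhds_basis_closedBall.mem_iff.1
    ((isOpen_UT i).mem_nhds (tT_mem hi))
  set B : Set (ER n) := Metric.ball ξ0 r with hB
  have hBc : B ⊆ Metric.closedBall ξ0 r := Metric.ball_subset_closedBall
  have hBU : B ⊆ UT A i := hBc.trans hrU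
  set N : Set M := (A.e i).source ∩ tT A i ⁻¹' B with hN
  have hNo : IsOpen N := (continuousOn_tT i).isOpen_inter_preimage (A.e i).open_source
    Metric.isOpen_ball
  have hcpt : IsCompact (Metric.closedBall ξ0 r) := isCompact_closedBall _ _
  -- bounds of the density
  have hwc : ContinuousOn (fun ξ => (volK K).w i (sT A i ξ)) (Metric.closedBall ξ0 r) :=
    ((((volK K).sm i).continuousOn.comp (Tl n).continuous.continuousOn fun _ h => h)).mono hrU
  obtain ⟨W, hW⟩ := hcpt.exists_bound_of_continuousOn hwc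
  obtain ⟨w0, hw0, hw0le⟩ := hcpt.exists_forall_le' hwc (a := 0)
    (fun ξ hξ => (volK K).pos i _ (sT_mem (hrU hξ)))
  obtain ⟨c, hc0, hc⟩ := grad_le K i hcpt hrU
  refine ⟨N, hNo, ⟨hi, Metric.mem_ball_self hr⟩, ?_⟩
  have hvB : volume B ≠ ⊤ := measure_ball_lt_top.ne
  refine ⟨ENNReal.ofReal W * ENNReal.ofReal W * (ENNReal.ofReal (2 * r) ^ 2 *
    (2 ^ (n * 2) * volume B * (ENNReal.ofReal (c⁻¹ * w0⁻¹)))), ?_, fun w hw => ?_⟩
  · refine ENNReal.mul_ne_top (ENNReal.mul_ne_top ENNReal.ofReal_ne_top ENNReal.ofReal_ne_top)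
      (ENNReal.mul_ne_top (ENNReal.pow_ne_top ENNReal.ofReal_ne_top)
        (ENNReal.mul_ne_top (ENNReal.mul_ne_top (ENNReal.pow_ne_top (by simp)) hvB)
          ENNReal.ofReal_ne_top))
  · have hwm : Measurable w := (sm_continuous hw).measurable
    set φ : ER n → ℝ := fun ξ => w (sT A i ξ) with hφ
    have hφs : ContDiffOn ℝ 1 φ B := ((smooth_sT hw i).mono hBU).of_le (by simp)
    have hWle : ∀ ξ ∈ B, (volK K).w i (sT A i ξ) ≤ W :=
      fun ξ hξ => (le_abs_self _).trans (hW ξ (hBc hξ))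
    -- step 1
    have h1 : DD (vm (volK K)) N N w ≤ ENNReal.ofReal W * ENNReal.ofReal W *
        ∫⁻ ξ in B, ∫⁻ η in B, ‖φ ξ - φ η‖ₑ ^ 2 := by
      unfold DD
      rw [lint_ball (volK K) i measurableSet_ball hBU hNo.measurableSet
        (f := fun x => ∫⁻ y in N, ‖w x - w y‖ₑ ^ 2 ∂(vm (volK K)))
        (Measurable.lintegral_prod_right' (meas_diff hwm))]
      have e1 : ∀ ξ : ER n, ∫⁻ y in N, ‖w (sT A i ξ) - w y‖ₑ ^ 2 ∂(vm (volK K)) ≤
          ENNReal.ofReal W * ∫⁻ η in B, ‖φ ξ - φ η‖ₑ ^ 2 := by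
        intro ξ
        rw [lint_ball (volK K) i measurableSet_ball hBU hNo.measurableSet
          (f := fun y => ‖w (sT A i ξ) - w y‖ₑ ^ 2) ((hwm.const_sub _).enorm.pow_const 2),
          ← lintegral_const_mul' _ _ ENNReal.ofReal_ne_top]
        refine setLIntegral_mono' measurableSet_ball fun η hη => ?_
        gcongr
        exact hWle η hη
      calc ∫⁻ ξ in B, ENNReal.ofReal ((volK K).w i (sT A i ξ)) *
            ∫⁻ y in N, ‖w (sT A i ξ) - w y‖ₑ ^ 2 ∂(vm (volK K))
          ≤ ∫⁻ ξ in B, ENNReal.ofReal W * (ENNReal.ofReal W * ∫⁻ η in B, ‖φ ξ - φ η‖ₑ ^ 2) := by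
            refine setLIntegral_mono' measurableSet_ball fun ξ hξ => ?_
            gcongr
            · exact hWle ξ hξ
            · exact e1 ξ
        _ = _ := by
            rw [lintegral_const_mul' _ _ ENNReal.ofReal_ne_top,
              lintegral_const_mul' _ _ ENNReal.ofReal_ne_top, mul_assoc]
    -- step 2
    have h2 := poinc2 (m := n * 2) Metric.isOpen_ball (convex_ball ξ0 r) hφs (d := 2 * r)
      (fun x hx y hy => by
        have h3 := dist_triangle_right x y ξ0
        have h4 := Metric.mem_ball.1 hx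
        have h5 := Metric.mem_ball.1 hy
        linarith)
    -- step 3
    have h3 : ∫⁻ z in B, ‖fderiv ℝ φ z‖ₑ ^ 2 ≤ ENNReal.ofReal (c⁻¹ * w0⁻¹) * EE K w := by
      have hgm : Measurable fun x => ENNReal.ofReal (grK K w w x) :=
        (sm_continuous (sm_grK K hw hw)).measurable.ennreal_ofReal
      have h4 : ∫⁻ x in N, ENNReal.ofReal (grK K w w x) ∂(vm (volK K)) ≤ EE K w :=
        setLIntegral_le_lintegral _ _
      rw [lint_ball (volK K) i measurableSet_ball hBU hNo.measurableSet hgm] at h4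
      refine le_trans ?_ (mul_le_mul_right h4 _)
      rw [← lintegral_const_mul' _ _ ENNReal.ofReal_ne_top]
      refine setLIntegral_mono' measurableSet_ball fun ξ hξ => ?_
      have h5 := hc ξ (hBc hξ) w hw
      have h6 := hw0le ξ (hBc hξ)
      have h7 : ‖fderiv ℝ φ ξ‖ₑ ^ 2 = ENNReal.ofReal (‖fderiv ℝ φ ξ‖ ^ 2) := by
        rw [← ofReal_norm, ENNReal.ofReal_pow (norm_nonneg _)]
      rw [h7, ← ENNReal.ofReal_mul ((volK K).pos i _ (sT_mem (hBU hξ))).le,
        ← ENNReal.ofReal_mul (by positivity)]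
      apply ENNReal.ofReal_le_ofReal
      have h8 : 0 ≤ grK K w w (sT A i ξ) := grK_nonneg K w _
      calc ‖fderiv ℝ φ ξ‖ ^ 2 = c⁻¹ * w0⁻¹ * (w0 * (c * ‖fderiv ℝ φ ξ‖ ^ 2)) := by
            field_simp
        _ ≤ c⁻¹ * w0⁻¹ * ((volK K).w i (sT A i ξ) * grK K w w (sT A i ξ)) := by
            refine mul_le_mul_of_nonneg_left ?_ (by positivity)
            exact mul_le_mul h6 h5 (by positivity) (hw0.le.trans h6)
    calc DD (vm (volK K)) N N w ≤ ENNReal.ofReal W * ENNReal.ofReal W *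
          ∫⁻ ξ in B, ∫⁻ η in B, ‖φ ξ - φ η‖ₑ ^ 2 := h1
      _ ≤ ENNReal.ofReal W * ENNReal.ofReal W * (ENNReal.ofReal (2 * r) ^ 2 *
          (2 ^ (n * 2) * volume B * (ENNReal.ofReal (c⁻¹ * w0⁻¹) * EE K w))) := by
          gcongr
          exact h2.trans (by gcongr)
      _ = _ := by ring

/-- **Poincaré inequality** on a compact connected Kaehler manifold -/
theorem poincare_M [ConnectedSpace M] (K : Kah A) : Rel K (univ : Set M) univ := by
  have hfin := isFinite_vm (volK K)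
  have hop := isOpenPos_vm (volK K)
  choose N hNo hxN hN using exists_rel_self K
  obtain ⟨x0⟩ : Nonempty M := inferInstance
  have hne : ∀ {S : Set M}, IsOpen S → S.Nonempty → vm (volK K) S ≠ 0 := fun hS hn =>
    hS.measure_ne_zero _ hn
  set U : Set M := {x | ∃ S : Set M, IsOpen S ∧ x ∈ S ∧ Rel K S (N x0)} with hU
  have hUo : IsOpen U := by
    rw [isOpen_iff_mem_nhds]
    rintro x ⟨S, hS, hxS, hr⟩
    filter_upwards [hS.mem_nhds hxS] with y hy using ⟨S, hS, hy, hr⟩
  have hUc : IsClosed U := by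
    rw [← isOpen_compl_iff, isOpen_iff_mem_nhds]
    intro x hx
    filter_upwards [(hNo x).mem_nhds (hxN x)] with y hy hyU
    obtain ⟨S, hS, hyS, hr⟩ := hyU
    refine hx ⟨N x, hNo x, hxN x, ?_⟩
    have h1 : Rel K (N x) (N x ∩ S) := (hN x).mono Subset.rfl inter_subset_left
    have h2 : Rel K (N x ∩ S) (N x0) := hr.mono inter_subset_right Subset.rfl
    exact h1.trans h2 (hne ((hNo x).inter hS) ⟨y, hy, hyS⟩)
  have hUuniv : U = univ := IsClopen.eq_univ ⟨hUc, hUo⟩ ⟨x0, N x0, hNo x0, hxN x0, hN x0⟩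
  have hall : ∀ x : M, ∃ S : Set M, IsOpen S ∧ x ∈ S ∧ Rel K S (N x0) := fun x => by
    have : x ∈ U := by rw [hUuniv]; trivial
    exact this
  choose S hSo hxS hS using hall
  obtain ⟨t, ht⟩ := isCompact_univ.elim_finite_subcover S hSo fun x _ => mem_iUnion.2 ⟨x, hxS x⟩
  have hpair : ∀ x y, Rel K (S x) (S y) := fun x y =>
    (hS x).trans (hS y).symm (hne (hNo x0) ⟨x0, hxN x0⟩)
  choose C hC hCw using hpair
  refine ⟨∑ x ∈ t, ∑ y ∈ t, C x y, ?_, fun w hw => ?_⟩
  · exact ENNReal.sum_ne_top.2 fun x _ => ENNReal.sum_ne_top.2 fun y _ => hC x y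
  · have h1 : DD (vm (volK K)) univ univ w ≤ ∑ x ∈ t, ∑ y ∈ t, DD (vm (volK K)) (S x) (S y) w := by
      unfold DD
      have h2 : ∀ f : M → ℝ≥0∞, ∫⁻ x in univ, f x ∂(vm (volK K)) ≤
          ∑ x ∈ t, ∫⁻ y in S x, f y ∂(vm (volK K)) := by
        intro f
        refine (lintegral_mono_set ht).trans ?_
        exact lintegral_biUnion_le' t S f
      refine (h2 _).trans ?_
      refine Finset.sum_le_sum fun x _ => ?_
      rw [← lintegral_finsetSum]
      · exact lintegral_mono fun a => h2 _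
      · intro y _
        exact Measurable.lintegral_prod_right' (meas_diff (sm_continuous hw).measurable)
    refine h1.trans ?_
    rw [Finset.sum_mul]
    refine Finset.sum_le_sum fun x _ => ?_
    rw [Finset.sum_mul]
    exact Finset.sum_le_sum fun y _ => hCw x y w hw

end glob

end

end Crest.Agent.R273.CLin_933
end

-- ▼ part R273/CLinD_933
section

/-!
# R273 (S0416), Part C, C-LIN (helper933), file D: existence of smooth solutions of `Δ v = f - m`

* `riesz_range` : functionals bounded by the norm of the image are represented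
* `lap_l2`      : `∫ (w - mean w)² ≤ C ∫ (Δ w)²`
* `lin_kah`     : `∀ f smooth ∃ v smooth, m real, lapK K v = f - m`
-/

set_option autoImplicit false
set_option linter.unusedSectionVars false

open Set Filter Topology MeasureTheory
open scoped ContDiff Matrix ComplexConjugate ComplexOrder ENNReal

namespace Crest.Agent.R273.CLin_933

open Crest.Agent.R275 Crest.Agent.R275.Geo Crest.Agent.R275.Core144 Crest.Agent.R275.EDR890
open Crest.Agent.R275.Pai323 Crest.Agent.R275.C1d194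
open Crest.Agent.R275.OmT75 (dj dl)
open Crest.Agent.R273.SchE_152 Crest.Agent.R273.SchD_152
open Crest.Agent.R273.Defs_333 Crest.Agent.R273.Vm_333 Crest.Agent.R273.Kah_333
open Crest.Agent.R273.Hess_333 Crest.Agent.R273.HessB_333 Crest.Agent.R273.HM_333
open Crest.Agent.R273.Vol_333 Crest.Agent.R273.Green_5 Crest.Agent.R273.GreenM_5
open Crest.Agent.R273.YauDefs_635 (cH)
open Crest.Agent.R273.YauMax_635 (cH_eq_hess)

noncomputable section

/-! ### an abstract Riesz lemma -/

theorem riesz_range {H S : Type} [NormedAddCommGroup H] [InnerProductSpace ℝ H] [CompleteSpace H]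
    [AddCommGroup S] [Module ℝ S] (T : S →ₗ[ℝ] H) (ℓ : S →ₗ[ℝ] ℝ) (C : ℝ)
    (hC : ∀ w, |ℓ w| ≤ C * ‖T w‖) : ∃ u : H, ∀ w, inner ℝ u (T w) = ℓ w := by
  have hker : LinearMap.ker T ≤ LinearMap.ker ℓ := by
    intro w hw
    rw [LinearMap.mem_ker] at hw ⊢
    have h := hC w
    rw [hw, norm_zero, mul_zero] at h
    exact abs_eq_zero.1 (le_antisymm h (abs_nonneg _))
  set g : LinearMap.range T →ₗ[ℝ] ℝ :=
    ((LinearMap.ker T).liftQ ℓ hker) ∘ₗ (T.quotKerEquivRange.symm : LinearMap.range T →ₗ[ℝ] _)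
    with hg
  have hgw : ∀ w (h : T w ∈ LinearMap.range T), g ⟨T w, h⟩ = ℓ w := by
    intro w h
    have e : T.quotKerEquivRange.symm ⟨T w, h⟩ = (LinearMap.ker T).mkQ w := by
      rw [LinearEquiv.symm_apply_eq]
      rfl
    rw [hg, LinearMap.comp_apply]
    change (LinearMap.ker T).liftQ ℓ hker (T.quotKerEquivRange.symm ⟨T w, h⟩) = _
    rw [e]
    rfl
  have hb : ∀ y : LinearMap.range T, ‖g y‖ ≤ C * ‖y‖ := by
    rintro ⟨y, hy⟩
    obtain ⟨w, rfl⟩ := LinearMap.mem_range.1 hy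
    rw [hgw w hy]
    exact hC w
  obtain ⟨G, hG, _⟩ := exists_extension_norm_eq (LinearMap.range T) (g.mkContinuous C hb)
  refine ⟨(InnerProductSpace.toDual ℝ H).symm G, fun w => ?_⟩
  rw [InnerProductSpace.toDual_symm_apply]
  have h := hG ⟨T w, LinearMap.mem_range_self T w⟩
  exact h.trans (hgw w _)

variable {n : ℕ} {M : Type} [TopologicalSpace M] {A : Atl n M}

/-! ### linearity of the Laplacian -/

theorem sm_add {u v : M → ℝ} (hu : A.Sm u) (hv : A.Sm v) : A.Sm (fun x => u x + v x) :=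
  fun i => ContDiffOn.add (hu i) (hv i)

theorem sm_smul {u : M → ℝ} (c : ℝ) (hu : A.Sm u) : A.Sm (fun x => c * u x) :=
  fun i => (contDiffOn_const (c := c)).mul (hu i)

theorem sm_const' (c : ℝ) : A.Sm (fun _ : M => c) := fun _ => contDiffOn_const

theorem lapK_add (K : Kah A) {u v : M → ℝ} (hu : A.Sm u) (hv : A.Sm v) (x : M) :
    lapK K (fun x => u x + v x) x = lapK K u x + lapK K v x := by
  have h1 : hsf A (fun x => u x + v x) (ci A x) x = hsf A u (ci A x) x + hsf A v (ci A x) x :=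
    hess_add (sm_contDiffAt hu _ ((A.e _).map_source (mem_ci x)))
      (sm_contDiffAt hv _ ((A.e _).map_source (mem_ci x)))
  unfold lapK trK
  rw [h1, Matrix.mul_add, Matrix.trace_add, Complex.add_re]

theorem lapK_smul (K : Kah A) {u : M → ℝ} (c : ℝ) (hu : A.Sm u) (x : M) :
    lapK K (fun x => c * u x) x = c * lapK K u x := by
  have h1 : hsf A (fun x => c * u x) (ci A x) x = (c : ℂ) • hsf A u (ci A x) x :=
    hess_const_mul c (sm_contDiffAt hu _ ((A.e _).map_source (mem_ci x)))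
  unfold lapK trK
  rw [h1, Matrix.mul_smul, Matrix.trace_smul, smul_eq_mul, Complex.re_ofReal_mul]

/-- smooth functions -/
def SmS (A : Atl n M) : Submodule ℝ (M → ℝ) where
  carrier := {w | A.Sm w}
  add_mem' := fun h h' => sm_add h h'
  zero_mem' := sm_const' 0
  smul_mem' := fun c _ h => sm_smul c h

/-! ### extension of test functions -/

open Classical in
/-- a function of the coordinates, extended by zero -/
def ext0 (A : Atl n M) (i : A.ι) (φ : Cn n → ℝ) (x : M) : ℝ :=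
  if x ∈ (A.e i).source then φ (A.e i x) else 0

theorem ext0_mem {i : A.ι} {φ : Cn n → ℝ} {x : M} (hx : x ∈ (A.e i).source) :
    ext0 A i φ x = φ (A.e i x) := if_pos hx

theorem ext0_off {i : A.ι} {φ : Cn n → ℝ} {x : M} (hx : x ∉ (A.e i).source) :
    ext0 A i φ x = 0 := if_neg hx

/-- the support of the extension -/
theorem ext0_zero {i : A.ι} {φ : Cn n → ℝ} {x : M}
    (hx : x ∉ (A.e i).symm '' tsupport φ) : ext0 A i φ x = 0 := by
  by_cases hs : x ∈ (A.e i).source
  · rw [ext0_mem hs]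
    refine image_eq_zero_of_notMem_tsupport fun h => hx ⟨A.e i x, h, (A.e i).left_inv hs⟩
  · exact ext0_off hs

theorem ext0_closed [T2Space M] {i : A.ι} {φ : Cn n → ℝ} (hc : HasCompactSupport φ)
    (hs : tsupport φ ⊆ (A.e i).target) : IsClosed ((A.e i).symm '' tsupport φ) := by
  have : IsCompact ((A.e i).symm '' tsupport φ) :=
    IsCompact.image_of_continuousOn hc ((A.e i).continuousOn_symm.mono hs)
  exact this.isClosed

theorem ext0_sm [T2Space M] {i : A.ι} {φ : Cn n → ℝ} (hφ : ContDiff ℝ ∞ φ)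
    (hc : HasCompactSupport φ) (hs : tsupport φ ⊆ (A.e i).target) : A.Sm (ext0 A i φ) := by
  intro j z hz
  refine ContDiffAt.contDiffWithinAt ?_
  have hx := (A.e j).map_target hz
  by_cases hi : (A.e j).symm z ∈ (A.e i).source
  · have h1 : AnalyticAt ℂ (YauCh_635.Tm A j i) (A.e j ((A.e j).symm z)) :=
      YauCh_635.anal_Tm ⟨hx, hi⟩
    rw [(A.e j).right_inv hz] at h1
    have h2 : ContDiffAt ℝ ∞ (fun w => φ (YauCh_635.Tm A j i w)) z :=
      hφ.contDiffAt.comp z (h1.contDiffAt.restrict_scalars ℝ)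
    refine h2.congr_of_eventuallyEq ?_
    have h3 : ∀ᶠ w in 𝓝 z, (A.e j).symm w ∈ (A.e i).source :=
      ((A.e j).continuousAt_symm hz).eventually ((A.e i).open_source.mem_nhds hi)
    filter_upwards [h3] with w hw
    rw [ext0_mem hw]
    rfl
  · have h0 : (A.e j).symm z ∉ (A.e i).symm '' tsupport φ := by
      rintro ⟨y, hy, he⟩
      apply hi
      rw [← he]
      exact (A.e i).map_target (hs hy)
    have h3 : ∀ᶠ w in 𝓝 z, (A.e j).symm w ∉ (A.e i).symm '' tsupport φ :=
      ((A.e j).continuousAt_symm hz).eventually ((ext0_closed hc hs).isOpen_compl.mem_nhds h0)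
    refine (contDiffAt_const (c := (0 : ℝ))).congr_of_eventuallyEq ?_
    filter_upwards [h3] with w hw
    exact ext0_zero hw

theorem ext0_read {i : A.ι} {φ : Cn n → ℝ} {z : Cn n} (hz : z ∈ (A.e i).target) :
    ext0 A i φ ((A.e i).symm z) = φ z := by
  rw [ext0_mem ((A.e i).map_target hz), (A.e i).right_inv hz]

/-- the Laplacian in a chart -/
theorem lapK_read (K : Kah A) {u : M → ℝ} (hu : A.Sm u) (i : A.ι) {z : Cn n}
    (hz : z ∈ (A.e i).target) :
    lapK K u ((A.e i).symm z) * (volK K).w i ((A.e i).symm z) =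
      (((K.g i ((A.e i).symm z)).adjugate * cH (fun z => u ((A.e i).symm z)) z).trace).re := by
  have hx := (A.e i).map_target hz
  rw [lapK_eq K hu hx, cH_eq_hess (ContDiffOn.contDiffAt (hu i) ((A.e i).open_target.mem_nhds hz)),
    ← hsf_read u i hz, trace_adj K _ hx, ← volK_w K i hx, Complex.re_mul_ofReal]

theorem lapK_zero_of (K : Kah A) {u : M → ℝ} (hu : A.Sm u) {x : M} (h : u =ᶠ[𝓝 x] fun _ => 0) :
    lapK K u x = 0 := by
  have hz := (A.e (ci A x)).map_source (mem_ci x)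
  have h1 : (fun z => u ((A.e (ci A x)).symm z)) =ᶠ[𝓝 (A.e (ci A x) x)] fun _ => (0 : ℝ) := by
    have hc : Tendsto (A.e (ci A x)).symm (𝓝 (A.e (ci A x) x)) (𝓝 x) := by
      have := (A.e (ci A x)).continuousAt_symm hz
      rw [ContinuousAt, (A.e (ci A x)).left_inv (mem_ci x)] at this
      exact this
    exact hc.eventually h
  have h2 : hsf A u (ci A x) x = 0 := by
    unfold hsf
    rw [← cH_eq_hess (ContDiffOn.contDiffAt (hu _) ((A.e _).open_target.mem_nhds hz))]
    refine cH_zero_of ?_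
    rw [notMem_tsupport_iff_eventuallyEq]
    exact h1
  unfold lapK trK
  rw [h2, mul_zero, Matrix.trace_zero, Complex.zero_re]

/-- the cofactor matrix -/
theorem df_adj (K : Kah A) (i : A.ι) :
    DF (A.e i).target (fun z => (K.g i ((A.e i).symm z)).adjugate) where
  sm a b := smAt_adj (kah_cf K) i b a
  pd z hz := by
    have hx := (A.e i).map_target hz
    have hp := K.pos i _ hx
    have h1 : (K.g i ((A.e i).symm z)).adjugate =
        (K.g i ((A.e i).symm z)).det • (K.g i ((A.e i).symm z))⁻¹ := by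
      rw [Matrix.inv_def, smul_smul,
        Ring.mul_inverse_cancel _ (isUnit_iff_ne_zero.2 (K_det_ne K hx)), one_smul]
    rw [h1]
    exact hp.inv.smul hp.det_pos
  dv z hz a := by
    have h1 := Piola_5.piola (m := fun w => K.g i ((A.e i).symm w)) (z := z)
      (fun a b => (kah_cf K).diffAt hz a b) (fun a b c => K.closed i z hz a b c) a
    simpa only [dj_eq_wd] using h1

/-! ### the `L²` bound -/

section glob

variable [T2Space M] [CompactSpace M] [MeasurableSpace M] [BorelSpace M]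

theorem int_cont {μ : Measure M} [IsFiniteMeasure μ] {f : M → ℝ} (hf : Continuous f) :
    Integrable f μ := hf.integrable_of_hasCompactSupport (HasCompactSupport.of_compactSpace f)

theorem enorm_sq_eq (x : ℝ) : ‖x‖ₑ ^ 2 = ENNReal.ofReal (x ^ 2) := by
  rw [Real.enorm_eq_ofReal_abs, ← ENNReal.ofReal_pow (abs_nonneg _), sq_abs]

theorem DD_univ (μ : Measure M) [IsFiniteMeasure μ] {w : M → ℝ} (hw : Continuous w) :
    DD μ univ univ w =
      ENNReal.ofReal (2 * (μ.real univ * ∫ x, w x ^ 2 ∂μ - (∫ x, w x ∂μ) ^ 2)) := by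
  set I := ∫ x, w x ∂μ with hI
  set J := ∫ x, w x ^ 2 ∂μ with hJ
  set V := μ.real univ with hV
  have h1 : ∀ x, ∫⁻ y in univ, ‖w x - w y‖ₑ ^ 2 ∂μ =
      ENNReal.ofReal (V * w x ^ 2 - 2 * I * w x + J) := by
    intro x
    rw [Measure.restrict_univ]
    simp only [enorm_sq_eq]
    rw [← ofReal_integral_eq_lintegral_ofReal (int_cont (by fun_prop))
      (Eventually.of_forall fun y => sq_nonneg _)]
    congr 1
    have e : ∀ y, (w x - w y) ^ 2 = w x ^ 2 - 2 * w x * w y + w y ^ 2 := fun y => by ring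
    simp only [e]
    rw [integral_add (int_cont (by fun_prop)) (int_cont (by fun_prop)),
      integral_sub (int_cont (by fun_prop)) (int_cont (by fun_prop)), integral_const,
      integral_const_mul, smul_eq_mul]
    ring
  unfold DD
  simp only [h1]
  rw [Measure.restrict_univ]
  have hnn : ∀ x, 0 ≤ V * w x ^ 2 - 2 * I * w x + J := by
    intro x
    have e : ∫ y, (w x - w y) ^ 2 ∂μ = V * w x ^ 2 - 2 * I * w x + J := by
      have e : ∀ y, (w x - w y) ^ 2 = w x ^ 2 - 2 * w x * w y + w y ^ 2 := fun y => by ring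
      simp only [e]
      rw [integral_add (int_cont (by fun_prop)) (int_cont (by fun_prop)),
        integral_sub (int_cont (by fun_prop)) (int_cont (by fun_prop)), integral_const,
        integral_const_mul, smul_eq_mul]
      ring
    rw [← e]
    exact integral_nonneg fun y => sq_nonneg _
  rw [← ofReal_integral_eq_lintegral_ofReal (int_cont (by fun_prop))
    (Eventually.of_forall hnn)]
  congr 1
  rw [integral_add (int_cont (by fun_prop)) (int_cont (by fun_prop)),
    integral_sub (int_cont (by fun_prop)) (int_cont (by fun_prop)), integral_const,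
    integral_const_mul, integral_const_mul, smul_eq_mul]
  ring

variable [Finite A.ι]

theorem poincare_real [ConnectedSpace M] (K : Kah A) : ∃ C : ℝ, 0 ≤ C ∧ ∀ w : M → ℝ, A.Sm w →
    (vm (volK K)).real univ * ∫ x, w x ^ 2 ∂(vm (volK K)) - (∫ x, w x ∂(vm (volK K))) ^ 2
      ≤ C * ∫ x, grK K w w x ∂(vm (volK K)) := by
  have := isFinite_vm (volK K)
  obtain ⟨C, hC, h⟩ := poincare_M K
  refine ⟨C.toReal, ENNReal.toReal_nonneg, fun w hw => ?_⟩
  have h1 := h w hw
  have hg := sm_continuous (sm_grK K hw hw)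
  have h2 : EE K w = ENNReal.ofReal (∫ x, grK K w w x ∂(vm (volK K))) := by
    unfold EE
    rw [ofReal_integral_eq_lintegral_ofReal (int_cont hg)
      (Eventually.of_forall fun x => grK_nonneg K w x)]
  have h3 : 0 ≤ ∫ x, grK K w w x ∂(vm (volK K)) := integral_nonneg fun x => grK_nonneg K w x
  rw [DD_univ _ (sm_continuous hw), h2, ← ENNReal.ofReal_toReal hC,
    ← ENNReal.ofReal_mul ENNReal.toReal_nonneg,
    ENNReal.ofReal_le_ofReal_iff (mul_nonneg ENNReal.toReal_nonneg h3)] at h1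
  have h4 : 0 ≤ C.toReal * ∫ x, grK K w w x ∂(vm (volK K)) :=
    mul_nonneg ENNReal.toReal_nonneg h3
  linarith

theorem vm_pos [ConnectedSpace M] (K : Kah A) : 0 < (vm (volK K)).real univ := by
  have := isFinite_vm (volK K)
  have := isOpenPos_vm (volK K)
  exact ENNReal.toReal_pos (isOpen_univ.measure_ne_zero _ univ_nonempty) (measure_ne_top _ _)

/-- `∫ (w - mean w)² ≤ C ∫ (Δ w)²` -/
theorem lap_l2 [ConnectedSpace M] (K : Kah A) (P : Part A) : ∃ C : ℝ, 0 ≤ C ∧
    ∀ w : M → ℝ, A.Sm w → ∀ m : ℝ, m * (vm (volK K)).real univ = ∫ x, w x ∂(vm (volK K)) →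
      ∫ x, (w x - m) ^ 2 ∂(vm (volK K)) ≤ C * ∫ x, lapK K w x ^ 2 ∂(vm (volK K)) := by
  have := isFinite_vm (volK K)
  obtain ⟨C, hC, h⟩ := poincare_real K
  set μ := vm (volK K) with hμ
  set V := μ.real univ with hV
  have hV0 : 0 < V := vm_pos K
  refine ⟨(C / V) ^ 2, by positivity, fun w hw m hm => ?_⟩
  have hwc := sm_continuous hw
  have hlc := sm_continuous (sm_lapK K hw)
  have h1 := h w hw
  -- `∫ grK = - ∫ (w - m) Δw`
  have h2 : ∫ x, grK K w w x ∂μ = - ∫ x, (w x - m) * lapK K w x ∂μ := by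
    have e1 := integral_mul_lapK K P hw hw
    have e2 := integral_lapK K P hw
    have e3 : ∫ x, (w x - m) * lapK K w x ∂μ =
        ∫ x, w x * lapK K w x ∂μ - m * ∫ x, lapK K w x ∂μ := by
      have i1 : Integrable (fun x => w x * lapK K w x) μ := int_cont (hwc.mul hlc)
      have i2 : Integrable (fun x => m * lapK K w x) μ := int_cont (continuous_const.mul hlc)
      rw [← integral_const_mul, ← integral_sub i1 i2]
      refine integral_congr_ae (Eventually.of_forall fun x => ?_)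
      simp only
      ring
    rw [e3, e2, e1]
    ring
  -- `∫ (w - m)²`
  have h3 : V * ∫ x, (w x - m) ^ 2 ∂μ = V * ∫ x, w x ^ 2 ∂μ - (∫ x, w x ∂μ) ^ 2 := by
    have e : ∀ x, (w x - m) ^ 2 = w x ^ 2 - 2 * m * w x + m ^ 2 := fun x => by ring
    simp only [e]
    rw [integral_add (int_cont (by fun_prop)) (int_cont (by fun_prop)),
      integral_sub (int_cont (by fun_prop)) (int_cont (by fun_prop)), integral_const,
      integral_const_mul, smul_eq_mul, ← hm, ← hV]
    ring
  rw [← h3, h2] at h1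
  set X := ∫ x, (w x - m) ^ 2 ∂μ with hX
  set Y := ∫ x, lapK K w x ^ 2 ∂μ with hY
  have hY0 : 0 ≤ Y := integral_nonneg fun x => sq_nonneg _
  rcases eq_or_lt_of_le hC with hC0 | hC0
  · have : V * X ≤ 0 := by rw [← hC0] at h1; simpa using h1
    have hX0 : X ≤ 0 := by nlinarith
    exact hX0.trans (by positivity)
  · -- Young
    have h4 : - ∫ x, (w x - m) * lapK K w x ∂μ ≤ (V / (2 * C)) * X + (C / (2 * V)) * Y := by
      rw [← integral_neg, hX, hY, ← integral_const_mul, ← integral_const_mul,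
        ← integral_add (int_cont (by fun_prop)) (int_cont (by fun_prop))]
      refine integral_mono (int_cont (by fun_prop)) (int_cont (by fun_prop)) fun x => ?_
      simp only
      have h5 : 0 ≤ (V / (2 * C)) * ((w x - m) + (C / V) * lapK K w x) ^ 2 := by positivity
      have h6 : (V / (2 * C)) * ((w x - m) + (C / V) * lapK K w x) ^ 2
          = V / (2 * C) * (w x - m) ^ 2 + (w x - m) * lapK K w x
            + C / (2 * V) * lapK K w x ^ 2 := by
        field_simp
        ring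
      linarith
    have h7 : V * X ≤ V / 2 * X + C ^ 2 / (2 * V) * Y := by
      refine h1.trans ((mul_le_mul_of_nonneg_left h4 hC0.le).trans_eq ?_)
      field_simp
    have h8 : V / 2 * X ≤ C ^ 2 / (2 * V) * Y := by linarith
    have h9 : X = (2 / V) * (V / 2 * X) := by field_simp
    rw [h9]
    calc (2 / V) * (V / 2 * X) ≤ (2 / V) * (C ^ 2 / (2 * V) * Y) := by gcongr
      _ = _ := by field_simp

end glob

end

end Crest.Agent.R273.CLin_933
end

-- ▼ part R273/CLinE_933

/-!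
# R273 (S0416), Part C, C-LIN (helper933), file E: existence of smooth solutions of `Δ v = f - m`

* `weak_sol`  : very weak solutions in `L²`
* `lin_kah`   : `∀ f smooth ∃ v smooth, m real, lapK K v = f - m`
* `lin_exist` : the same for the metric `pot H φ`
-/

set_option autoImplicit false
set_option linter.unusedSectionVars false

open Set Filter Topology MeasureTheory
open scoped ContDiff Matrix ComplexConjugate ComplexOrder ENNReal

namespace Crest.Agent.R273.CLin_933

open Crest.Agent.R275 Crest.Agent.R275.Geo Crest.Agent.R275.Core144 Crest.Agent.R275.EDR890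
open Crest.Agent.R275.Pai323 Crest.Agent.R275.C1d194
open Crest.Agent.R273.SchE_152 Crest.Agent.R273.SchD_152
open Crest.Agent.R273.Defs_333 Crest.Agent.R273.Vm_333 Crest.Agent.R273.Kah_333
open Crest.Agent.R273.Hess_333 Crest.Agent.R273.HessB_333 Crest.Agent.R273.HM_333
open Crest.Agent.R273.Vol_333 Crest.Agent.R273.Green_5 Crest.Agent.R273.GreenM_5
open Crest.Agent.R273.YauDefs_635
open Crest.Agent.R273.YauMax_635 (cH_eq_hess)

noncomputable section

variable {n : ℕ} {M : Type} [TopologicalSpace M] {A : Atl n M}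

section l2

variable [CompactSpace M] [MeasurableSpace M] [BorelSpace M] {μ : Measure M}
  [IsFiniteMeasure μ]

theorem memLp_cont {f : M → ℝ} (hf : Continuous f) : MemLp f 2 μ :=
  hf.memLp_of_hasCompactSupport (HasCompactSupport.of_compactSpace f)

/-- continuous functions in `L²` -/
def ll (μ : Measure M) [IsFiniteMeasure μ] {f : M → ℝ} (hf : Continuous f) : Lp ℝ 2 μ :=
  (memLp_cont hf).toLp f

theorem inner_ll (u : Lp ℝ 2 μ) {f : M → ℝ} (hf : Continuous f) :
    inner ℝ u (ll μ hf) = ∫ x, u x * f x ∂μ := by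
  rw [L2.inner_def]
  refine integral_congr_ae ?_
  filter_upwards [MemLp.coeFn_toLp (memLp_cont (μ := μ) hf)] with x hx
  have h1 : (ll μ hf) x = f x := hx
  rw [h1]
  exact mul_comm _ _

theorem norm_ll_sq {f : M → ℝ} (hf : Continuous f) : ‖ll μ hf‖ ^ 2 = ∫ x, f x ^ 2 ∂μ := by
  rw [← real_inner_self_eq_norm_sq, inner_ll]
  refine integral_congr_ae ?_
  filter_upwards [MemLp.coeFn_toLp (memLp_cont (μ := μ) hf)] with x hx
  have h1 : (ll μ hf) x = f x := hx
  rw [h1]
  ring

theorem abs_int_mul_le {f g : M → ℝ} (hf : Continuous f) (hg : Continuous g) :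
    |∫ x, f x * g x ∂μ| ≤ ‖ll μ hf‖ * ‖ll μ hg‖ := by
  have h1 : ∫ x, f x * g x ∂μ = inner ℝ (ll μ hf) (ll μ hg) := by
    rw [inner_ll]
    refine integral_congr_ae ?_
    filter_upwards [MemLp.coeFn_toLp (memLp_cont (μ := μ) hf)] with x hx
    have h1 : (ll μ hf) x = f x := hx
    rw [h1]
  rw [h1]
  exact abs_real_inner_le_norm _ _

end l2

section glob

variable [T2Space M] [CompactSpace M] [ConnectedSpace M] [MeasurableSpace M] [BorelSpace M]
  [Finite A.ι]

theorem smS_lap (K : Kah A) (w : SmS A) : Continuous (lapK K (w : M → ℝ)) :=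
  sm_continuous (sm_lapK K w.2)

/-- **very weak solutions** -/
theorem weak_sol (K : Kah A) (P : Part A) {F : M → ℝ} (hF : A.Sm F)
    (h0 : ∫ x, F x ∂(vm (volK K)) = 0) :
    ∃ u : Lp ℝ 2 (vm (volK K)), ∀ w : M → ℝ, A.Sm w →
      ∫ x, u x * lapK K w x ∂(vm (volK K)) = ∫ x, F x * w x ∂(vm (volK K)) := by
  have := isFinite_vm (volK K)
  obtain ⟨C, hC, hl⟩ := lap_l2 K P
  set μ := vm (volK K) with hμ
  have hV0 : 0 < μ.real univ := vm_pos K
  have hFc := sm_continuous hF
  set T : SmS A →ₗ[ℝ] Lp ℝ 2 μ :=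
    { toFun := fun w => ll μ (smS_lap K w)
      map_add' := by
        intro w w'
        have e : lapK K ((w + w' : SmS A) : M → ℝ) = lapK K (w : M → ℝ) + lapK K (w' : M → ℝ) :=
          funext fun x => lapK_add K w.2 w'.2 x
        unfold ll
        rw [← MemLp.toLp_add]
        exact MemLp.toLp_congr _ _ (Eventually.of_forall fun x => congrFun e x)
      map_smul' := by
        intro c w
        have e : lapK K ((c • w : SmS A) : M → ℝ) = c • lapK K (w : M → ℝ) :=
          funext fun x => lapK_smul K c w.2 x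
        unfold ll
        rw [RingHom.id_apply, ← MemLp.toLp_const_smul]
        exact MemLp.toLp_congr _ _ (Eventually.of_forall fun x => congrFun e x) } with hT
  set ℓ : SmS A →ₗ[ℝ] ℝ :=
    { toFun := fun w => ∫ x, F x * (w : M → ℝ) x ∂μ
      map_add' := by
        intro w w'
        have i1 : Integrable (fun x => F x * (w : M → ℝ) x) μ :=
          int_cont (hFc.mul (sm_continuous w.2))
        have i2 : Integrable (fun x => F x * (w' : M → ℝ) x) μ :=
          int_cont (hFc.mul (sm_continuous w'.2))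
        rw [← integral_add i1 i2]
        refine integral_congr_ae (Eventually.of_forall fun x => ?_)
        change F x * ((w : M → ℝ) x + (w' : M → ℝ) x) = _
        ring
      map_smul' := by
        intro c w
        rw [RingHom.id_apply, smul_eq_mul, ← integral_const_mul]
        refine integral_congr_ae (Eventually.of_forall fun x => ?_)
        change F x * (c * (w : M → ℝ) x) = _
        ring } with hℓ
  have hb : ∀ w, |ℓ w| ≤ (‖ll μ hFc‖ * Real.sqrt C) * ‖T w‖ := by
    intro w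
    have hwc := sm_continuous w.2
    set m : ℝ := (∫ x, (w : M → ℝ) x ∂μ) / μ.real univ with hm
    have h1 := hl (w : M → ℝ) w.2 m (by rw [hm]; field_simp)
    have hGc : Continuous fun x => (w : M → ℝ) x - m := hwc.sub continuous_const
    have h2 : ℓ w = ∫ x, F x * ((w : M → ℝ) x - m) ∂μ := by
      change ∫ x, F x * (w : M → ℝ) x ∂μ = _
      have i1 : Integrable (fun x => F x * (w : M → ℝ) x) μ := int_cont (hFc.mul hwc)
      have i2 : Integrable (fun x => F x * m) μ := int_cont (hFc.mul continuous_const)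
      have e : ∀ x, F x * ((w : M → ℝ) x - m) = F x * (w : M → ℝ) x - F x * m := fun x => by ring
      simp only [e]
      rw [integral_sub i1 i2, integral_mul_const, h0, zero_mul, sub_zero]
    have h3 : ‖ll μ hGc‖ ≤ Real.sqrt C * ‖T w‖ := by
      have h4 : ‖ll μ hGc‖ ^ 2 ≤ (Real.sqrt C * ‖T w‖) ^ 2 := by
        rw [norm_ll_sq, mul_pow, Real.sq_sqrt hC]
        have h5 : ‖T w‖ ^ 2 = ∫ x, lapK K (w : M → ℝ) x ^ 2 ∂μ := norm_ll_sq (smS_lap K w)
        rw [h5]
        exact h1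
      exact abs_le_of_sq_le_sq' h4 (by positivity) |>.2
    rw [h2]
    refine (abs_int_mul_le hFc hGc).trans ?_
    rw [mul_assoc]
    exact mul_le_mul_of_nonneg_left h3 (norm_nonneg _)
  obtain ⟨u, hu⟩ := riesz_range T ℓ _ hb
  refine ⟨u, fun w hw => ?_⟩
  have h1 := hu ⟨w, hw⟩
  have h2 : T ⟨w, hw⟩ = ll μ (sm_continuous (sm_lapK K hw)) := rfl
  rw [h2, inner_ll] at h1
  exact h1

end glob

/-! ### local regularity of the very weak solution -/

section loc

variable [T2Space M] [CompactSpace M] [MeasurableSpace M] [BorelSpace M] [Finite A.ι]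

theorem cH_congr {u v : Cn n → ℝ} {z : Cn n} (h : u =ᶠ[𝓝 z] v) : cH u z = cH v z := by
  have h2 : fderiv ℝ (fderiv ℝ u) z = fderiv ℝ (fderiv ℝ v) z := (h.fderiv (𝕜 := ℝ)).fderiv_eq
  ext a b
  simp [cH, YauDefs_635.D2, h2]

theorem loc_int (K : Kah A) (u : Lp ℝ 2 (vm (volK K))) (i : A.ι) :
    LocallyIntegrableOn (fun ξ : ER n => u (sT A i ξ)) (UT A i) := by
  have := isFinite_vm (volK K)
  rw [locallyIntegrableOn_iff (isOpen_UT i).isLocallyClosed]
  intro S hSU hS
  have hwc : ContinuousOn (fun ξ => (volK K).w i (sT A i ξ)) S :=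
    ((((volK K).sm i).continuousOn.comp (Tl n).continuous.continuousOn fun _ h => h)).mono hSU
  obtain ⟨w0, hw0, hw0le⟩ := hS.exists_forall_le' hwc (a := 0)
    (fun ξ hξ => (volK K).pos i _ (sT_mem (hSU hξ)))
  have hum : StronglyMeasurable (u : M → ℝ) := Lp.stronglyMeasurable u
  have hsm : AEMeasurable (sT A i) (volume.restrict S) :=
    ((continuousOn_sT i).mono hSU).aemeasurable hS.measurableSet
  refine ⟨(hum.measurable.comp_aemeasurable hsm).aestronglyMeasurable, ?_⟩
  have h1 : ∫⁻ x in (A.e i).source, ‖u x‖ₑ ∂(vm (volK K)) < ⊤ :=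
    (setLIntegral_le_lintegral _ _).trans_lt ((Lp.memLp u).integrable (by norm_num)).2
  rw [lint_vm (volK K) i (f := fun x => ‖u x‖ₑ) hum.measurable.enorm] at h1
  rw [HasFiniteIntegral]
  have h2 : ∫⁻ ξ in S, ‖u (sT A i ξ)‖ₑ ≤ ENNReal.ofReal (w0⁻¹) *
      ∫⁻ ξ in UT A i, ENNReal.ofReal ((volK K).w i (sT A i ξ)) * ‖u (sT A i ξ)‖ₑ := by
    refine le_trans ?_ (mul_le_mul_right (lintegral_mono_set hSU) _)
    rw [← lintegral_const_mul' _ _ ENNReal.ofReal_ne_top]
    refine setLIntegral_mono' hS.measurableSet fun ξ hξ => ?_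
    rw [← mul_assoc, ← ENNReal.ofReal_mul (by positivity)]
    have h3 : 1 ≤ w0⁻¹ * (volK K).w i (sT A i ξ) := by
      rw [← div_eq_inv_mul, one_le_div hw0]
      exact hw0le ξ hξ
    calc ‖u (sT A i ξ)‖ₑ = ENNReal.ofReal 1 * ‖u (sT A i ξ)‖ₑ := by simp
      _ ≤ _ := by gcongr
  exact h2.trans_lt (ENNReal.mul_lt_top ENNReal.ofReal_lt_top h1)

theorem local_reg (K : Kah A) {F : M → ℝ} (hF : A.Sm F) (u : Lp ℝ 2 (vm (volK K)))
    (hu : ∀ w : M → ℝ, A.Sm w →
      ∫ x, u x * lapK K w x ∂(vm (volK K)) = ∫ x, F x * w x ∂(vm (volK K))) (i : A.ι) :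
    ∃ v : Cn n → ℝ, ContDiffOn ℝ ∞ v (A.e i).target ∧
      (∀ᵐ ξ : ER n, ξ ∈ UT A i → v (Tl n ξ) = u (sT A i ξ)) ∧
      ∀ z ∈ (A.e i).target, (((K.g i ((A.e i).symm z)).adjugate * cH v z).trace).re
        = (volK K).w i ((A.e i).symm z) * F ((A.e i).symm z) := by
  have := isFinite_vm (volK K)
  have hwsm : ContDiffOn ℝ ∞ (fun z => (volK K).w i ((A.e i).symm z)) (A.e i).target :=
    (volK K).sm i
  refine weak_reg (A.e i).open_target (df_adj K i)
    (f := fun z => (volK K).w i ((A.e i).symm z) * F ((A.e i).symm z)) (hwsm.mul (hF i))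
    (loc_int K u i) fun φ hφ hc hs => ?_
  set w : M → ℝ := ext0 A i φ with hw
  have hws : A.Sm w := ext0_sm hφ hc hs
  have hwr : ∀ z ∈ (A.e i).target, w ((A.e i).symm z) = φ z := fun z hz => ext0_read hz
  have hlc := sm_continuous (sm_lapK K hws)
  have hwc := sm_continuous hws
  have hFc := sm_continuous hF
  have hum : AEStronglyMeasurable (u : M → ℝ) (vm (volK K)) := Lp.aestronglyMeasurable u
  have hz0 : ∀ ξ : ER n, ξ ∉ UT A i → Tl n ξ ∉ tsupport φ := fun ξ hξ h => hξ (hs h)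
  -- right hand side
  have h1 : ∫ x, F x * w x ∂(vm (volK K)) =
      ∫ ξ : ER n, (volK K).w i (sT A i ξ) * F (sT A i ξ) * φ (Tl n ξ) := by
    have e1 : ∫ x in (A.e i).source, F x * w x ∂(vm (volK K)) = ∫ x, F x * w x ∂(vm (volK K)) :=
      setIntegral_eq_integral_of_forall_compl_eq_zero fun x hx => by
        rw [hw, ext0_off hx, mul_zero]
    rw [← e1, int_vm (volK K) i (f := fun x => F x * w x) (hFc.mul hwc).aestronglyMeasurable]
    have e2 : ∀ ξ : ER n, ξ ∉ UT A i →
        (volK K).w i (sT A i ξ) * F (sT A i ξ) * φ (Tl n ξ) = 0 := fun ξ hξ => by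
      rw [image_eq_zero_of_notMem_tsupport (hz0 ξ hξ), mul_zero]
    rw [← setIntegral_eq_integral_of_forall_compl_eq_zero e2]
    refine setIntegral_congr_fun (isOpen_UT i).measurableSet fun ξ hξ => ?_
    have e3 : w (sT A i ξ) = φ (Tl n ξ) := hwr _ hξ
    simp only [smul_eq_mul, e3]
    ring
  -- left hand side
  have h2 : ∫ x, u x * lapK K w x ∂(vm (volK K)) =
      ∫ ξ : ER n, u (sT A i ξ) *
        (((K.g i ((A.e i).symm (Tl n ξ))).adjugate * cH φ (Tl n ξ)).trace).re := by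
    have e1 : ∫ x in (A.e i).source, u x * lapK K w x ∂(vm (volK K)) =
        ∫ x, u x * lapK K w x ∂(vm (volK K)) :=
      setIntegral_eq_integral_of_forall_compl_eq_zero fun x hx => by
        have hx' : x ∉ (A.e i).symm '' tsupport φ := by
          rintro ⟨y, hy, rfl⟩
          exact hx ((A.e i).map_target (hs hy))
        rw [lapK_zero_of K hws, mul_zero]
        filter_upwards [(ext0_closed hc hs).isOpen_compl.mem_nhds hx'] with y hy
        exact ext0_zero hy
    rw [← e1, int_vm (volK K) i (f := fun x => u x * lapK K w x)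
      (hum.mul hlc.aestronglyMeasurable)]
    have e2 : ∀ ξ : ER n, ξ ∉ UT A i → u (sT A i ξ) *
        (((K.g i ((A.e i).symm (Tl n ξ))).adjugate * cH φ (Tl n ξ)).trace).re = 0 :=
      fun ξ hξ => by
        rw [cH_zero_of (hz0 ξ hξ), mul_zero, Matrix.trace_zero, Complex.zero_re, mul_zero]
    rw [← setIntegral_eq_integral_of_forall_compl_eq_zero e2]
    refine setIntegral_congr_fun (isOpen_UT i).measurableSet fun ξ hξ => ?_
    have e3 := lapK_read K hws i (z := Tl n ξ) hξ
    have e4 : cH (fun z => w ((A.e i).symm z)) (Tl n ξ) = cH φ (Tl n ξ) :=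
      cH_congr (by
        filter_upwards [(A.e i).open_target.mem_nhds hξ] with z hz
        exact hwr z hz)
    rw [e4] at e3
    simp only [smul_eq_mul]
    rw [← e3]
    change (volK K).w i (sT A i ξ) * (u (sT A i ξ) * lapK K w (sT A i ξ)) =
      u (sT A i ξ) * (lapK K w (sT A i ξ) * (volK K).w i (sT A i ξ))
    ring
  have h3 := hu w hws
  rw [h1, h2] at h3
  exact h3

end loc

/-! ### gluing -/

section glue

variable [T2Space M] [CompactSpace M] [ConnectedSpace M] [MeasurableSpace M] [BorelSpace M]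
  [Finite A.ι]

/-- **existence of smooth solutions** of `Δ v = F`, `∫ F = 0` -/
theorem lin_zero (K : Kah A) (P : Part A) {F : M → ℝ} (hF : A.Sm F)
    (h0 : ∫ x, F x ∂(vm (volK K)) = 0) :
    ∃ v : M → ℝ, A.Sm v ∧ ∀ x, lapK K v x = F x := by
  have := isFinite_vm (volK K)
  have := isOpenPos_vm (volK K)
  obtain ⟨u, hu⟩ := weak_sol K P hF h0
  choose V hVs hVu hVe using local_reg K hF u hu
  have hum : Measurable (u : M → ℝ) := (Lp.stronglyMeasurable u).measurable
  have hVc : ∀ i, ContinuousOn (fun x => V i (A.e i x)) (A.e i).source := fun i =>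
    (hVs i).continuousOn.comp (A.e i).continuousOn fun x hx => (A.e i).map_source hx
  have hae : ∀ i, ∀ᵐ x ∂(vm (volK K)), x ∈ (A.e i).source → V i (A.e i x) = u x := by
    intro i
    refine ae_of_chart (volK K) i ?_ ?_
    · classical
      have h1 : Measurable ((A.e i).source.piecewise (fun x => V i (A.e i x)) fun _ => 0) :=
        (hVc i).measurable_piecewise continuousOn_const (A.e i).open_source.measurableSet
      have h2 : {x | x ∈ (A.e i).source ∧ ¬ V i (A.e i x) = u x} = (A.e i).source ∩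
          {x | (A.e i).source.piecewise (fun x => V i (A.e i x)) (fun _ => 0) x = u x}ᶜ := by
        ext x
        simp only [mem_ofPred_eq, mem_inter_iff, mem_compl_iff]
        refine and_congr_right fun hx => ?_
        rw [piecewise_eq_of_mem _ _ _ hx]
      rw [h2]
      exact (A.e i).open_source.measurableSet.inter (measurableSet_eq_fun h1 hum).compl
    · filter_upwards [hVu i] with ξ hξ hU
      have h1 : A.e i (sT A i ξ) = Tl n ξ := (A.e i).right_inv hU
      rw [h1]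
      exact hξ hU
  have hcomp : ∀ i j, ∀ x ∈ (A.e i).source ∩ (A.e j).source,
      V i (A.e i x) = V j (A.e j x) := by
    intro i j
    have hO : IsOpen ((A.e i).source ∩ (A.e j).source) :=
      (A.e i).open_source.inter (A.e j).open_source
    refine Measure.eqOn_open_of_ae_eq (μ := vm (volK K)) ?_ hO
      ((hVc i).mono inter_subset_left) ((hVc j).mono inter_subset_right)
    rw [EventuallyEq, ae_restrict_iff' hO.measurableSet]
    filter_upwards [hae i, hae j] with x h1 h2 hx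
    rw [h1 hx.1, h2 hx.2]
  set v : M → ℝ := fun x => V (ci A x) (A.e (ci A x) x) with hv
  have hvi : ∀ i, ∀ x ∈ (A.e i).source, v x = V i (A.e i x) := fun i x hx =>
    hcomp _ _ x ⟨mem_ci x, hx⟩
  have hvr : ∀ i, ∀ z ∈ (A.e i).target, v ((A.e i).symm z) = V i z := fun i z hz => by
    rw [hvi i _ ((A.e i).map_target hz), (A.e i).right_inv hz]
  have hvs : A.Sm v := fun i => (hVs i).congr fun z hz => hvr i z hz
  refine ⟨v, hvs, fun x => ?_⟩
  set i := ci A x with hi
  have hx : x ∈ (A.e i).source := mem_ci x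
  have hz := (A.e i).map_source hx
  have h1 := lapK_read K hvs i hz
  have h2 : cH (fun z => v ((A.e i).symm z)) (A.e i x) = cH (V i) (A.e i x) :=
    cH_congr (by
      filter_upwards [(A.e i).open_target.mem_nhds hz] with z hz
      exact hvr i z hz)
  rw [h2, hVe i _ hz, (A.e i).left_inv hx] at h1
  have h3 : (volK K).w i x ≠ 0 := ((volK K).pos i x hx).ne'
  have h4 : (volK K).w i x * lapK K v x = (volK K).w i x * F x := by rw [← h1]; ring
  exact mul_left_cancel₀ h3 h4

/-- **existence of smooth solutions** of `Δ v = f - m` -/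
theorem lin_kah_m (K : Kah A) (P : Part A) {f : M → ℝ} (hf : A.Sm f) :
    ∃ (v : M → ℝ) (m : ℝ), A.Sm v ∧ ∀ x, lapK K v x = f x - m := by
  have := isFinite_vm (volK K)
  have hV0 : 0 < (vm (volK K)).real univ := vm_pos K
  set m : ℝ := (∫ x, f x ∂(vm (volK K))) / (vm (volK K)).real univ with hm
  have hF : A.Sm (fun x => f x - m) := fun i => (hf i).sub contDiffOn_const
  have h0 : ∫ x, (f x - m) ∂(vm (volK K)) = 0 := by
    rw [integral_sub (int_cont (sm_continuous hf)) (integrable_const _), integral_const,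
      smul_eq_mul, hm]
    field_simp
    ring
  obtain ⟨v, hv, he⟩ := lin_zero K P hF h0
  exact ⟨v, m, hv, he⟩

end glue

/-- existence, without measures in the statement -/
theorem lin_kah [T2Space M] [CompactSpace M] [ConnectedSpace M] [Finite A.ι] (K : Kah A)
    (P : Part A) {f : M → ℝ} (hf : A.Sm f) :
    ∃ (v : M → ℝ) (m : ℝ), A.Sm v ∧ ∀ x, lapK K v x = f x - m := by
  let _ : MeasurableSpace M := borel M
  have : BorelSpace M := ⟨rfl⟩
  exact lin_kah_m K P hf

/-! ### the metric `pot H φ` -/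

section pot

variable {L : LB A}

theorem tw_pos (H : HM L) {φ : M → ℝ} (hφ : A.Sm φ) (hpos : KPos H φ) : (tw H φ hφ).Pos := by
  refine pos_of_cur fun i x hx => ?_
  have hz := (A.e i).map_source hx
  rw [cur_tw H hφ i hx]
  have e1 : cur H i x + hsf A φ i x = hess (pot H φ i) (A.e i x) :=
    (YauMax_635.hess_pot H hφ i hz).symm
  rw [e1]
  exact posDef_hess (YauMax_635.pot_contDiffAt H hφ i hz) (hpos i _ hz)

theorem g_pot (H : HM L) {φ : M → ℝ} (hφ : A.Sm φ) (hpos : KPos H φ) (i : A.ι) {z : Cn n}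
    (hz : z ∈ (A.e i).target) :
    (kah (tw H φ hφ) (tw_pos H hφ hpos)).g i ((A.e i).symm z) = cH (pot H φ i) z := by
  have hx := (A.e i).map_target hz
  have e0 : (kah (tw H φ hφ) (tw_pos H hφ hpos)).g i ((A.e i).symm z)
      = cur (tw H φ hφ) i ((A.e i).symm z) := rfl
  rw [e0, cur_tw H hφ i hx, cH_eq_hess (YauMax_635.pot_contDiffAt H hφ i hz),
    YauMax_635.hess_pot H hφ i hz]
  unfold cur hsf
  rw [(A.e i).right_inv hz]
  rfl

/-- **C-LIN, existence**: for every smooth `f` there are a smooth `v` and a real `m` with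
`tr (g⁻¹ ∂∂̄v) = f - m`, `g = ∂∂̄(pot H φ)` -/
theorem lin_exist [T2Space M] [CompactSpace M] [ConnectedSpace M] [Finite A.ι] (P : Part A)
    (H : HM L) {φ : M → ℝ} (hφ : A.Sm φ) (hpos : KPos H φ) {f : M → ℝ} (hf : A.Sm f) :
    ∃ (v : M → ℝ) (m : ℝ), A.Sm v ∧ ∀ i, ∀ z ∈ (A.e i).target,
      ((cH (pot H φ i) z)⁻¹ * cH (inC A i v) z).trace = ((f ((A.e i).symm z) - m : ℝ) : ℂ) := by
  set K := kah (tw H φ hφ) (tw_pos H hφ hpos) with hK
  obtain ⟨v, m, hv, he⟩ := lin_kah K P hf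
  refine ⟨v, m, hv, fun i z hz => ?_⟩
  have hx := (A.e i).map_target hz
  rw [← he, lapK_ofReal K hv, trK_eq K (hsf_tn hv) hx, hK, g_pot H hφ hpos i hz, hsf_read v i hz]
  congr 2
  exact cH_eq_hess (ContDiffOn.contDiffAt (hv i) ((A.e i).open_target.mem_nhds hz))

end pot

end

end Crest.Agent.R273.CLin_933
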