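import Crest.Agent.R273.YC3c_812
import Crest.Agent.R273.YauDefs_635

-- ▼ part R273/YC3d_812
section

/-!
Row 273 (S0416), Part C (Yau), helper812: local Calabi third order estimate, part 4:
constants at the maximum point and the estimate on a ball.
-/

set_option autoImplicit false
set_option linter.unusedSimpArgs false
set_option linter.unusedSectionVars false

open Set Filter Topology Complex
open scoped ContDiff ComplexConjugate ComplexOrder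

namespace Crest.Agent.R273.YC3_812

open Crest.Agent.R273.YSm_812 Crest.Agent.R273.YJet_812

variable {n : ℕ}

theorem cs {ι : Type*} (s : Finset ι) (a b : ι → ℂ) :
    ‖∑ i ∈ s, a i * b i‖ ^ 2 ≤ (∑ i ∈ s, ‖a i‖ ^ 2) * ∑ i ∈ s, ‖b i‖ ^ 2 := by
  have h1 : ‖∑ i ∈ s, a i * b i‖ ≤ ∑ i ∈ s, ‖a i‖ * ‖b i‖ := by
    refine (norm_sum_le _ _).trans (le_of_eq ?_)
    exact Finset.sum_congr rfl fun i _ => norm_mul _ _
  calc ‖∑ i ∈ s, a i * b i‖ ^ 2 ≤ (∑ i ∈ s, ‖a i‖ * ‖b i‖) ^ 2 :=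
        pow_le_pow_left₀ (norm_nonneg _) h1 2
    _ ≤ _ := Finset.sum_mul_sq_le_sq_mul_sq s _ _

theorem cs2 {ι κ : Type*} (s : Finset ι) (t : Finset κ) (a : ι → ℂ) (b : κ → ℂ)
    (M : ι → κ → ℂ) :
    ‖∑ i ∈ s, ∑ j ∈ t, a i * b j * M i j‖ ^ 2
      ≤ (∑ i ∈ s, ‖a i‖ ^ 2) * (∑ j ∈ t, ‖b j‖ ^ 2) * ∑ i ∈ s, ∑ j ∈ t, ‖M i j‖ ^ 2 := by
  have h1 : ∑ i ∈ s, ∑ j ∈ t, a i * b j * M i j = ∑ i ∈ s, a i * ∑ j ∈ t, b j * M i j := by
    refine Finset.sum_congr rfl fun i _ => ?_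
    rw [Finset.mul_sum]
    exact Finset.sum_congr rfl fun j _ => by ring
  rw [h1]
  refine (cs s _ _).trans ?_
  rw [mul_assoc]
  refine mul_le_mul_of_nonneg_left ?_ (Finset.sum_nonneg fun i _ => sq_nonneg _)
  rw [Finset.mul_sum]
  exact Finset.sum_le_sum fun i _ => cs t _ _

/-- the model space -/
abbrev W (n : ℕ) : Type := EuclideanSpace ℂ (Fin n)

/-- the standard basis -/
noncomputable def eb (n : ℕ) : Module.Basis (Fin n) ℂ (W n) :=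
  (EuclideanSpace.basisFun (Fin n) ℂ).toBasis

theorem eb_apply (k : Fin n) : eb n k = EuclideanSpace.single k 1 := by
  simp [eb]

theorem eb_repr (ξ : W n) (k : Fin n) : (eb n).repr ξ k = ξ k := by
  simp [eb]

theorem norm_eb (k : Fin n) : ‖eb n k‖ = 1 := by
  rw [eb_apply]; simp

theorem sum_eb (ξ : W n) : ∑ k, ξ k • eb n k = ξ := by
  have := (eb n).sum_repr ξ
  simpa only [eb_repr] using this

/-- trace of the complex Hessian -/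
noncomputable def trU {Ω : Set (W n)} (hΩ : IsOpen Ω) (u : Sm Ω) : Sm Ω :=
  ∑ k, U2 hΩ u (eb n k) (eb n k)

theorem cj_zero {Ω : Set (W n)} : cj (0 : Sm Ω) = 0 := Sm.ext' fun z => by simp

theorem cj_sum {Ω : Set (W n)} {ι : Type*} (s : Finset ι) (f : ι → Sm Ω) :
    cj (∑ i ∈ s, f i) = ∑ i ∈ s, cj (f i) := by
  classical
  induction s using Finset.induction_on with
  | empty => simp [cj_zero]
  | insert a s ha ih => rw [Finset.sum_insert ha, Finset.sum_insert ha, cj_add, ih]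

theorem cj_trU {Ω : Set (W n)} (hΩ : IsOpen Ω) {u : Sm Ω} (hu : cj u = u) :
    cj (trU hΩ u) = trU hΩ u := by
  rw [trU, cj_sum]
  exact Finset.sum_congr rfl fun k _ => cj_U2 hΩ hu _ _

theorem trU_re {Ω : Set (W n)} (hΩ : IsOpen Ω) (u : Sm Ω) (z : Ω) :
    ((trU hΩ u).1 z).re = ∑ k, ((U2 hΩ u (eb n k) (eb n k)).1 z).re := by
  rw [← ev_apply z (trU hΩ u), trU, map_sum, re_sum]
  rfl

section atmax

variable {z₀ : W n} {r lam Lam K : ℝ} {hΩ : IsOpen (Metric.ball z₀ r)}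
  (d : Dat hΩ (eb n) lam Lam K)

theorem size_le {Ω : Set (W n)} {hΩ : IsOpen Ω} (d : Dat hΩ (eb n) lam Lam K) (hlam : 0 < lam)
    {μ : ℝ} (hμ : 0 ≤ μ) (hμ2 : μ ^ 2 * lam = 1) (O : Ω) (v : W n)
    (hv : ((U2 hΩ d.u v v).1 O).re = 1) : ‖v‖ ≤ μ := by
  have h1 := d.low O v
  rw [hv] at h1
  have h2 : ‖v‖ ^ 2 ≤ μ ^ 2 := by
    have h3 : lam * ‖v‖ ^ 2 ≤ lam * μ ^ 2 := by rw [mul_comm lam (μ ^ 2), hμ2]; exact h1
    exact le_of_mul_le_mul_left h3 hlam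
  exact le_of_sq_le_sq h2 hμ

theorem coef_one {Ω : Set (W n)} {hΩ : IsOpen Ω} (d : Dat hΩ (eb n) lam Lam K) (O : Ω)
    (w : Module.Basis (Fin n) ℂ (W n))
    (hw : ∀ a b, (U2 hΩ d.u (w a) (w b)).1 O = if a = b then 1 else 0) (v : W n)
    (hv : ((U2 hΩ d.u v v).1 O).re = 1) : ∑ k, w.repr v k * conj (w.repr v k) = 1 := by
  have h1 := U2_repr hΩ d.u w v O
  simp only [hw, mul_ite, mul_one, mul_zero, Finset.sum_ite_eq, Finset.mem_univ, if_true] at h1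
  rw [← h1, re_eq (cj_U2 hΩ d.hu v v) O, hv, ofReal_one]

theorem coefn_one {Ω : Set (W n)} {hΩ : IsOpen Ω} (d : Dat hΩ (eb n) lam Lam K) (O : Ω)
    (w : Module.Basis (Fin n) ℂ (W n))
    (hw : ∀ a b, (U2 hΩ d.u (w a) (w b)).1 O = if a = b then 1 else 0) (v : W n)
    (hv : ((U2 hΩ d.u v v).1 O).re = 1) : ∑ k, ‖w.repr v k‖ ^ 2 = 1 := by
  have h1 := coef_one d O w hw v hv
  have h2 : ∀ k, w.repr v k * conj (w.repr v k) = ((‖w.repr v k‖ ^ 2 : ℝ) : ℂ) := fun k => by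
    rw [mul_conj, normSq_eq_norm_sq]
  simp only [h2] at h1
  rw [← ofReal_sum] at h1
  exact_mod_cast h1

/-- Cauchy-Schwarz for the third derivatives -/
theorem cs_U3 {Ω : Set (W n)} {hΩ : IsOpen Ω} (d : Dat hΩ (eb n) lam Lam K) (hlam : 0 < lam)
    {μ : ℝ} (hμ : 0 ≤ μ) (hμ2 : μ ^ 2 * lam = 1) (O : Ω) (w : Module.Basis (Fin n) ℂ (W n))
    (hw : ∀ a b, (U2 hΩ d.u (w a) (w b)).1 O = if a = b then 1 else 0) (ξ ζ η : W n)
    (hξ : ((U2 hΩ d.u ξ ξ).1 O).re = 1)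
    (hζ : ((U2 hΩ d.u ζ ζ).1 O).re = 1)
    (hη : ((U2 hΩ d.u η η).1 O).re = 1) :
    lam * ‖(U3 hΩ d.u ξ ζ η).1 O‖ ^ 2
        ≤ ∑ k, ∑ x, ∑ y, ‖(U3 hΩ d.u (eb n k) (w x) (w y)).1 O‖ ^ 2 := by
  have hsumw : ∀ v : W n, ∑ k, w.repr v k • w k = v := fun v => w.sum_repr v
  have b1 : (U3 hΩ d.u ξ ζ η).1 O = ∑ k, ξ k * (U3 hΩ d.u (eb n k) ζ η).1 O := by
    conv_lhs => rw [← sum_eb ξ]
    rw [U3_sum_left, ← ev_apply O (∑ k, ξ k • U3 hΩ d.u (eb n k) ζ η), map_sum]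
    simp only [map_smul, smul_eq_mul, ev_apply]
  have b2 : ∀ k, ‖(U3 hΩ d.u (eb n k) ζ η).1 O‖ ^ 2
      ≤ ∑ x, ∑ y, ‖(U3 hΩ d.u (eb n k) (w x) (w y)).1 O‖ ^ 2 := by
    intro k
    have c1 : (U3 hΩ d.u (eb n k) ζ η).1 O
        = ∑ x, ∑ y, w.repr ζ x * conj (w.repr η y) * (U3 hΩ d.u (eb n k) (w x) (w y)).1 O := by
      conv_lhs => rw [← hsumw ζ, ← hsumw η]
      rw [U3_sum_mid]
      have : ∀ x, U3 hΩ d.u (eb n k) (w x) (∑ y, w.repr η y • w y)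
          = ∑ y, conj (w.repr η y) • U3 hΩ d.u (eb n k) (w x) (w y) :=
        fun x => U3_sum_right hΩ d.u _ _ _ _ _
      simp only [this]
      rw [← ev_apply O]
      simp only [map_sum, map_smul, smul_eq_mul, ev_apply, Finset.mul_sum]
      refine Finset.sum_congr rfl fun x _ => Finset.sum_congr rfl fun y _ => ?_
      ring
    have c2 := cs2 Finset.univ Finset.univ (fun x => w.repr ζ x) (fun y => conj (w.repr η y))
      (fun x y => (U3 hΩ d.u (eb n k) (w x) (w y)).1 O)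
    simp only [norm_conj] at c2
    rw [coefn_one d O w hw ζ hζ, coefn_one d O w hw η hη, one_mul, one_mul, ← c1] at c2
    exact c2
  have b3 : ‖(U3 hΩ d.u ξ ζ η).1 O‖ ^ 2
      ≤ μ ^ 2 * ∑ k, ∑ x, ∑ y, ‖(U3 hΩ d.u (eb n k) (w x) (w y)).1 O‖ ^ 2 := by
    rw [b1]
    refine (cs _ _ _).trans ?_
    refine mul_le_mul ?_ (Finset.sum_le_sum fun k _ => b2 k)
      (Finset.sum_nonneg fun k _ => sq_nonneg _) (sq_nonneg _)
    rw [← EuclideanSpace.norm_sq_eq]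
    exact pow_le_pow_left₀ (norm_nonneg _) (size_le d hlam hμ hμ2 O ξ hξ) 2
  calc lam * ‖(U3 hΩ d.u ξ ζ η).1 O‖ ^ 2 ≤ lam * (μ ^ 2 * ∑ k, ∑ x, ∑ y,
        ‖(U3 hΩ d.u (eb n k) (w x) (w y)).1 O‖ ^ 2) := mul_le_mul_of_nonneg_left b3 hlam.le
    _ = (μ ^ 2 * lam) * ∑ k, ∑ x, ∑ y, ‖(U3 hΩ d.u (eb n k) (w x) (w y)).1 O‖ ^ 2 := by ring
    _ = _ := by rw [hμ2, one_mul]

/-- lower bound for the Laplacian of the trace -/
theorem lap_tr_ge {Ω : Set (W n)} {hΩ : IsOpen Ω} (d : Dat hΩ (eb n) lam Lam K) (hlam : 0 < lam)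
    (hK : 0 ≤ K) {μ : ℝ} (hμ : 0 ≤ μ) (hμ2 : μ ^ 2 * lam = 1) (O : Ω)
    (w : Module.Basis (Fin n) ℂ (W n))
    (hw : ∀ a b, (U2 hΩ d.u (w a) (w b)).1 O = if a = b then 1 else 0) (ξ ζ η : W n)
    (hξ : ((U2 hΩ d.u ξ ξ).1 O).re = 1)
    (hζ : ((U2 hΩ d.u ζ ζ).1 O).re = 1)
    (hη : ((U2 hΩ d.u η η).1 O).re = 1) :
    - (n * (K + K * Lam)) + lam * ‖(U3 hΩ d.u ξ ζ η).1 O‖ ^ 2
      ≤ (∑ q, ev O (D hΩ (w q) (B hΩ (w q) (trU hΩ d.u)))).re := by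
  have h1 : ∑ q, ev O (D hΩ (w q) (B hΩ (w q) (trU hΩ d.u)))
      = ∑ k, ((U2 hΩ d.f (eb n k) (eb n k)).1 O
        + ((∑ x, ∑ y, ‖(U3 hΩ d.u (eb n k) (w x) (w y)).1 O‖ ^ 2 : ℝ) : ℂ)) := by
    simp only [trU, map_sum]
    rw [Finset.sum_comm]
    exact Finset.sum_congr rfl fun k _ => lap_tr_val d w O hw (eb n k)
  rw [h1, re_sum]
  simp only [add_re, ofReal_re, Finset.sum_add_distrib]
  have h2 : - (n * (K + K * Lam)) ≤ ∑ k, ((U2 hΩ d.f (eb n k) (eb n k)).1 O).re := by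
    have h3 : ∀ k : Fin n, -(K + K * Lam) ≤ ((U2 hΩ d.f (eb n k) (eb n k)).1 O).re := by
      intro k
      rw [U2_f, add_re, re_ofReal_mul]
      have a1 := d.F2 O (eb n k)
      rw [norm_eb, one_pow, mul_one] at a1
      have a2 : -K ≤ ((U2 hΩ d.F (eb n k) (eb n k)).1 O).re :=
        neg_le_of_abs_le ((abs_re_le_norm _).trans a1)
      have a3 := d.upp O (eb n k)
      have a4 := d.low O (eb n k)
      rw [norm_eb, one_pow, mul_one] at a3 a4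
      have a5 : |d.eps * ((U2 hΩ d.u (eb n k) (eb n k)).1 O).re| ≤ K * Lam := by
        rw [abs_mul, abs_of_nonneg (hlam.le.trans a4)]
        exact mul_le_mul d.heps a3 (hlam.le.trans a4) hK
      have a6 := neg_le_of_abs_le a5
      linarith
    calc -(n * (K + K * Lam)) = ∑ _k : Fin n, -(K + K * Lam) := by
          rw [Finset.sum_const, Finset.card_univ, Fintype.card_fin, nsmul_eq_mul]; ring
      _ ≤ _ := Finset.sum_le_sum fun k _ => h3 k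
  have h4 := cs_U3 d hlam hμ hμ2 O w hw ξ ζ η hξ hζ hη
  linarith

theorem A4 (hK : 0 ≤ K) {μ : ℝ} (hμ : 0 ≤ μ) (O : Metric.ball z₀ r) (X : ℝ) (hr : 0 < r)
    (hX2 : X ^ 2 ≤ r ^ 4) (ξ ζ η : W n) (hξ : ‖ξ‖ ≤ μ) (hζ : ‖ζ‖ ≤ μ) (hη : ‖η‖ ≤ μ) :
    - (r ^ 4 * K * μ ^ 3 * (1 + ‖(U3 hΩ d.u ξ ζ η).1 O‖ ^ 2)
        + 2 * r ^ 4 * K * ‖(U3 hΩ d.u ξ ζ η).1 O‖ ^ 2)
      ≤ 2 * X ^ 2 * ((U3 hΩ d.f ξ ζ η).1 O * conj ((U3 hΩ d.u ξ ζ η).1 O)).re := by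
  have h1 : ‖(U3 hΩ d.f ξ ζ η).1 O‖ ≤ K * μ ^ 3 + K * ‖(U3 hΩ d.u ξ ζ η).1 O‖ := by
    rw [U3_f]
    refine (norm_add_le _ _).trans (add_le_add ?_ ?_)
    · refine (d.F3 O ξ ζ η).trans ?_
      calc K * ‖ξ‖ * ‖ζ‖ * ‖η‖ ≤ K * μ * μ * μ := by gcongr
        _ = K * μ ^ 3 := by ring
    · rw [norm_mul, norm_real, Real.norm_eq_abs]
      exact mul_le_mul_of_nonneg_right d.heps (norm_nonneg _)
  generalize (U3 hΩ d.u ξ ζ η).1 O = T at *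
  generalize (U3 hΩ d.f ξ ζ η).1 O = S at *
  have h2 : |(S * conj T).re| ≤ (K * μ ^ 3 + K * ‖T‖) * ‖T‖ := by
    refine (abs_re_le_norm _).trans ?_
    rw [norm_mul, norm_conj]
    exact mul_le_mul_of_nonneg_right h1 (norm_nonneg _)
  have h3 := neg_le_of_abs_le h2
  have h4 : 0 ≤ (K * μ ^ 3 + K * ‖T‖) * ‖T‖ := by positivity
  have h5 : X ^ 2 * ((K * μ ^ 3 + K * ‖T‖) * ‖T‖) ≤ r ^ 4 * ((K * μ ^ 3 + K * ‖T‖) * ‖T‖) :=
    mul_le_mul_of_nonneg_right hX2 h4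
  have h6 : -(X ^ 2 * ((K * μ ^ 3 + K * ‖T‖) * ‖T‖)) ≤ X ^ 2 * (S * conj T).re := by
    have := mul_le_mul_of_nonneg_left h3 (sq_nonneg X)
    linarith
  have h7 : 2 * (r ^ 4 * (K * μ ^ 3 * ‖T‖)) ≤ r ^ 4 * K * μ ^ 3 * (1 + ‖T‖ ^ 2) := by
    have h8 : 2 * ‖T‖ ≤ 1 + ‖T‖ ^ 2 := by nlinarith [sq_nonneg (‖T‖ - 1)]
    have h9 : 0 ≤ r ^ 4 * K * μ ^ 3 := by positivity
    calc 2 * (r ^ 4 * (K * μ ^ 3 * ‖T‖)) = (r ^ 4 * K * μ ^ 3) * (2 * ‖T‖) := by ring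
      _ ≤ _ := mul_le_mul_of_nonneg_left h8 h9
  have h9 : r ^ 4 * ((K * μ ^ 3 + K * ‖T‖) * ‖T‖)
      = r ^ 4 * (K * μ ^ 3 * ‖T‖) + r ^ 4 * K * ‖T‖ ^ 2 := by ring
  rw [h9] at h5
  linarith

theorem A3 {μ : ℝ} (hμ : 0 ≤ μ) (O : Metric.ball z₀ r) (X : ℝ)
    (hX1 : X ≤ r ^ 2) (w : Fin n → W n) (hwq : ∀ q, ‖w q‖ ≤ μ)
    (hdist : ‖(O : W n) - z₀‖ ≤ r) (T2 : ℝ) (hT2 : 0 ≤ T2) :
    - (8 * n * r ^ 2 * μ ^ 2) * T2
      ≤ ∑ q, ((2 * X * ((U2 hΩ (cut (Metric.ball z₀ r) z₀ (3 * r / 4)) (w q) (w q)).1 O).re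
          - 6 * ‖(D hΩ (w q) (cut (Metric.ball z₀ r) z₀ (3 * r / 4))).1 O‖ ^ 2) * T2) := by
  have h1 : ∀ q : Fin n, - (8 * r ^ 2 * μ ^ 2) * T2
      ≤ (2 * X * ((U2 hΩ (cut (Metric.ball z₀ r) z₀ (3 * r / 4)) (w q) (w q)).1 O).re
        - 6 * ‖(D hΩ (w q) (cut (Metric.ball z₀ r) z₀ (3 * r / 4))).1 O‖ ^ 2) * T2 := by
    intro q
    refine mul_le_mul_of_nonneg_right ?_ hT2
    rw [U2_cut, ofReal_re]
    have a1 := norm_D_cut hΩ z₀ (w q) (3 * r / 4) O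
    have a2 : ‖w q‖ ^ 2 ≤ μ ^ 2 := pow_le_pow_left₀ (norm_nonneg _) (hwq q) 2
    have a3 : ‖w q‖ * ‖(O : W n) - z₀‖ ≤ μ * r :=
      mul_le_mul (hwq q) hdist (norm_nonneg _) hμ
    have a4 : ‖(D hΩ (w q) (cut (Metric.ball z₀ r) z₀ (3 * r / 4))).1 O‖ ^ 2 ≤ (μ * r) ^ 2 :=
      pow_le_pow_left₀ (norm_nonneg _) (a1.trans a3) 2
    have a5 : X * ‖w q‖ ^ 2 ≤ r ^ 2 * μ ^ 2 := mul_le_mul hX1 a2 (sq_nonneg _) (sq_nonneg _)
    nlinarith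
  calc - (8 * n * r ^ 2 * μ ^ 2) * T2 = ∑ _q : Fin n, (- (8 * r ^ 2 * μ ^ 2) * T2) := by
        rw [Finset.sum_const, Finset.card_univ, Fintype.card_fin, nsmul_eq_mul]; ring
    _ ≤ _ := Finset.sum_le_sum fun q _ => h1 q

theorem at_max (hr : 0 < r) (hlam : 0 < lam) (hK : 0 ≤ K)
    (O : Metric.ball z₀ r) (hO : dist (O : W n) z₀ < 3 * r / 4) (K' m μ : ℝ)
    (hμ : 0 ≤ μ) (hμ2 : μ ^ 2 * lam = 1)
    (hK' : 1 + r ^ 4 * 3 * (K * μ ^ 2 + K) + 8 * n * r ^ 2 * μ ^ 2 + 2 * r ^ 4 * K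
      + r ^ 4 * K * μ ^ 3 ≤ K' * lam)
    (ξ ζ η : W n) (hξ : ((U2 hΩ d.u ξ ξ).1 O).re = 1)
    (hζ : ((U2 hΩ d.u ζ ζ).1 O).re = 1)
    (hη : ((U2 hΩ d.u η η).1 O).re = 1)
    (hmax : ∀ z : Metric.ball z₀ r, dist (z : W n) z₀ ≤ 3 * r / 4 → ∀ ξ ζ η : W n,
      (((cut _ z₀ (3 * r / 4)).1 z).re) ^ 2 * ‖(U3 hΩ d.u ξ ζ η).1 z‖ ^ 2
        ≤ (m - K' * ((trU hΩ d.u).1 z).re)
          * ((U2 hΩ d.u ξ ξ).1 z).re
          * ((U2 hΩ d.u ζ ζ).1 z).re * ((U2 hΩ d.u η η).1 z).re)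
    (heq : (((cut _ z₀ (3 * r / 4)).1 O).re) ^ 2
      * ‖(U3 hΩ d.u ξ ζ η).1 O‖ ^ 2
        = m - K' * ((trU hΩ d.u).1 O).re) :
    m ≤ r ^ 4 * (K' * n * (K + K * Lam) + r ^ 4 * K * μ ^ 3) + K' * n * Lam := by
  have hpos : ∀ v : W n, v ≠ 0 → 0 < ((U2 hΩ d.u v v).1 O).re := fun v hv =>
    lt_of_lt_of_le (by positivity) (d.low O v)
  obtain ⟨w, hw⟩ := exists_frame hΩ d.hu (eb n) O hpos
  have hsize : ∀ v : W n, ((U2 hΩ d.u v v).1 O).re = 1 → ‖v‖ ≤ μ := fun v hv =>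
    size_le d hlam hμ hμ2 O v hv
  have hwq : ∀ q, ‖w q‖ ≤ μ := fun q => hsize _ (by rw [hw]; simp)
  have hsumw : ∀ v : W n, ∑ k, w.repr v k • w k = v := fun v => w.sum_repr v
  -- the core inequality
  have hmaxev : ∀ᶠ z in 𝓝 (O : W n), ∀ (hz : z ∈ Metric.ball z₀ r) (ξ ζ η : W n),
      ((cut (Metric.ball z₀ r) z₀ (3 * r / 4)).1 ⟨z, hz⟩).re ^ 2
        * ‖(U3 hΩ d.u ξ ζ η).1 ⟨z, hz⟩‖ ^ 2
        ≤ (m - K' * ((trU hΩ d.u).1 ⟨z, hz⟩).re) * ((U2 hΩ d.u ξ ξ).1 ⟨z, hz⟩).re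
          * ((U2 hΩ d.u ζ ζ).1 ⟨z, hz⟩).re * ((U2 hΩ d.u η η).1 ⟨z, hz⟩).re := by
    have h1 : ∀ᶠ z in 𝓝 (O : W n), dist z z₀ < 3 * r / 4 :=
      Metric.isOpen_ball.mem_nhds hO
    filter_upwards [h1] with z hz hz' ξ ζ η
    exact hmax ⟨z, hz'⟩ hz.le ξ ζ η
  have hcore := core_ineq d w O hw (cut (Metric.ball z₀ r) z₀ (3 * r / 4)) (trU hΩ d.u)
    (cj_cut _ _) (cj_trU hΩ d.hu) m K' (fun k => w.repr ξ k) (fun k => w.repr ζ k)
    (fun k => w.repr η k) (coef_one d O w hw ξ hξ) (coef_one d O w hw ζ hζ)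
    (coef_one d O w hw η hη) hmaxev
    (by rw [hsumw ξ, hsumw ζ, hsumw η]; exact heq)
  simp only [hsumw ξ, hsumw ζ, hsumw η] at hcore
  obtain ⟨X, hX⟩ : ∃ X, X = ((cut (Metric.ball z₀ r) z₀ (3 * r / 4)).1 O).re := ⟨_, rfl⟩
  rw [← hX] at hcore heq
  have hXv : X = (3 * r / 4) ^ 2 - ‖(O : W n) - z₀‖ ^ 2 := by
    rw [hX, cut_val, ofReal_re]
  have hdist : ‖(O : W n) - z₀‖ < 3 * r / 4 := by rw [← dist_eq_norm]; exact hO
  have hX0 : 0 ≤ X := by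
    rw [hXv]
    have := norm_nonneg ((O : W n) - z₀)
    nlinarith
  have hX1 : X ≤ r ^ 2 := by
    rw [hXv]
    have := sq_nonneg ‖(O : W n) - z₀‖
    nlinarith
  have hX2 : X ^ 2 ≤ r ^ 4 := by nlinarith
  have hn0 : (0 : ℝ) ≤ n := Nat.cast_nonneg n
  have hK'0 : 0 < K' := by
    have h1 : 0 < K' * lam := by
      have : 0 ≤ r ^ 4 * 3 * (K * μ ^ 2 + K) + 8 * n * r ^ 2 * μ ^ 2 + 2 * r ^ 4 * K
        + r ^ 4 * K * μ ^ 3 := by positivity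
      linarith
    exact (pos_iff_pos_of_mul_pos h1).2 hlam
  -- A2
  have A2 : ∀ v : W n, ((U2 hΩ d.u v v).1 O).re = 1 →
      ((U2 hΩ d.f v v).1 O).re ≤ K * μ ^ 2 + K := by
    intro v hv
    rw [U2_f, add_re, re_ofReal_mul, hv, mul_one]
    have h1 : ((U2 hΩ d.F v v).1 O).re ≤ K * μ ^ 2 := by
      refine (re_le_norm _).trans ((d.F2 O v).trans ?_)
      exact mul_le_mul_of_nonneg_left (pow_le_pow_left₀ (norm_nonneg _) (hsize v hv) 2) hK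
    have h2 : d.eps ≤ K := (le_abs_self _).trans d.heps
    linarith
  have hA1 := lap_tr_ge d hlam hK hμ hμ2 O w hw ξ ζ η hξ hζ hη
  have hA3 := A3 (hΩ := hΩ) hμ O X hX1 w hwq (by linarith)
    (‖(U3 hΩ d.u ξ ζ η).1 O‖ ^ 2) (sq_nonneg _)
  have hA4 := A4 d hK hμ O X hr hX2 ξ ζ η (hsize ξ hξ) (hsize ζ hζ) (hsize η hη)
  have h1 := A2 ξ hξ
  have h2 := A2 ζ hζ
  have h3 := A2 η hη
  have htr : ((trU hΩ d.u).1 O).re ≤ n * Lam := by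
    rw [trU_re]
    calc ∑ k, ((U2 hΩ d.u (eb n k) (eb n k)).1 O).re ≤ ∑ _k : Fin n, Lam := by
          refine Finset.sum_le_sum fun k _ => ?_
          have := d.upp O (eb n k)
          rwa [norm_eb, one_pow, mul_one] at this
      _ = n * Lam := by simp
  generalize ((∑ q, ev O (D hΩ (w q) (B hΩ (w q) (trU hΩ d.u))))).re = L1 at *
  generalize ((U2 hΩ d.f ξ ξ).1 O).re = s1 at *
  generalize ((U2 hΩ d.f ζ ζ).1 O).re = s2 at *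
  generalize ((U2 hΩ d.f η η).1 O).re = s3 at *
  generalize ((U3 hΩ d.f ξ ζ η).1 O * conj ((U3 hΩ d.u ξ ζ η).1 O)).re = L4 at *
  generalize (∑ q, ((2 * X * ((U2 hΩ (cut (Metric.ball z₀ r) z₀ (3 * r / 4)) (w q) (w q)).1 O).re
          - 6 * ‖(D hΩ (w q) (cut (Metric.ball z₀ r) z₀ (3 * r / 4))).1 O‖ ^ 2)
          * ‖(U3 hΩ d.u ξ ζ η).1 O‖ ^ 2)) = L3 at *
  have hTn : 0 ≤ ‖(U3 hΩ d.u ξ ζ η).1 O‖ ^ 2 := sq_nonneg _
  generalize ‖(U3 hΩ d.u ξ ζ η).1 O‖ ^ 2 = T2 at *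
  generalize ((trU hΩ d.u).1 O).re = tr at *
  have A5 : (m - K' * tr) * (s1 + s2 + s3) ≤ r ^ 4 * 3 * (K * μ ^ 2 + K) * T2 := by
    rw [← heq]
    have h4 : 0 ≤ K * μ ^ 2 + K := by positivity
    calc X ^ 2 * T2 * (s1 + s2 + s3)
        ≤ X ^ 2 * T2 * (3 * (K * μ ^ 2 + K)) :=
          mul_le_mul_of_nonneg_left (by linarith) (by positivity)
      _ ≤ r ^ 4 * T2 * (3 * (K * μ ^ 2 + K)) :=
          mul_le_mul_of_nonneg_right (mul_le_mul_of_nonneg_right hX2 hTn) (by positivity)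
      _ = _ := by ring
  have hTT : T2 ≤ K' * n * (K + K * Lam) + r ^ 4 * K * μ ^ 3 := by
    have g2 := mul_le_mul_of_nonneg_left hA1 hK'0.le
    have g3 := mul_le_mul_of_nonneg_right hK' hTn
    linarith [hcore, hA3, hA4, A5, g2, g3]
  have hm : m = X ^ 2 * T2 + K' * tr := by linarith
  rw [hm]
  have g1 : X ^ 2 * T2 ≤ r ^ 4 * (K' * n * (K + K * Lam) + r ^ 4 * K * μ ^ 3) :=
    mul_le_mul hX2 hTT hTn (by positivity)
  have g2 : K' * tr ≤ K' * n * Lam := by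
    have := mul_le_mul_of_nonneg_left htr hK'0.le
    linarith
  linarith

end atmax

end Crest.Agent.R273.YC3_812
end

-- ▼ part R273/YC3e_812
section

/-!
Row 273 (S0416), Part C (Yau), helper812: local Calabi third order estimate, part 5:
the estimate on a ball.
-/

set_option autoImplicit false
set_option linter.unusedSimpArgs false
set_option linter.unusedSectionVars false

open Set Filter Topology Complex
open scoped ContDiff ComplexConjugate ComplexOrder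

namespace Crest.Agent.R273.YC3_812

open Crest.Agent.R273.YSm_812 Crest.Agent.R273.YJet_812

variable {n : ℕ}

theorem U3_expand_eb {Ω : Set (W n)} (hΩ : IsOpen Ω) (u : Sm Ω) (ξ ζ η : W n) (z : Ω) :
    (U3 hΩ u ξ ζ η).1 z
      = ∑ i, ∑ j, ∑ k, ξ i * ζ j * conj (η k) * (U3 hΩ u (eb n i) (eb n j) (eb n k)).1 z := by
  conv_lhs => rw [← sum_eb ξ, ← sum_eb ζ, ← sum_eb η]
  exact U3_expand hΩ u _ _ _ _ z

theorem U2_expand_eb {Ω : Set (W n)} (hΩ : IsOpen Ω) (u : Sm Ω) (ξ ζ : W n) (z : Ω) :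
    (U2 hΩ u ξ ζ).1 z
      = ∑ i, ∑ j, ξ i * conj (ζ j) * (U2 hΩ u (eb n i) (eb n j)).1 z := by
  conv_lhs => rw [← sum_eb ξ, ← sum_eb ζ]
  exact U2_expand hΩ u _ _ _ z

/-- homogeneity -/
theorem U2_smul {Ω : Set (W n)} (hΩ : IsOpen Ω) (u : Sm Ω) (t : ℝ) (ξ : W n) (z : Ω) :
    ((U2 hΩ u ((t : ℂ) • ξ) ((t : ℂ) • ξ)).1 z).re = t ^ 2 * ((U2 hΩ u ξ ξ).1 z).re := by
  have h : (U2 hΩ u ((t : ℂ) • ξ) ((t : ℂ) • ξ)).1 z = ((t ^ 2 : ℝ) : ℂ) * (U2 hΩ u ξ ξ).1 z := by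
    rw [U2_expand_eb, U2_expand_eb hΩ u ξ ξ, Finset.mul_sum]
    refine Finset.sum_congr rfl fun i _ => ?_
    rw [Finset.mul_sum]
    refine Finset.sum_congr rfl fun j _ => ?_
    simp only [PiLp.smul_apply, smul_eq_mul, map_mul, conj_ofReal]
    push_cast
    ring
  rw [h, re_ofReal_mul]

theorem U3_smul {Ω : Set (W n)} (hΩ : IsOpen Ω) (u : Sm Ω) (t s r : ℝ) (ξ ζ η : W n) (z : Ω) :
    ‖(U3 hΩ u ((t : ℂ) • ξ) ((s : ℂ) • ζ) ((r : ℂ) • η)).1 z‖ ^ 2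
      = (t ^ 2 * s ^ 2 * r ^ 2) * ‖(U3 hΩ u ξ ζ η).1 z‖ ^ 2 := by
  have h : (U3 hΩ u ((t : ℂ) • ξ) ((s : ℂ) • ζ) ((r : ℂ) • η)).1 z
      = ((t * s * r : ℝ) : ℂ) * (U3 hΩ u ξ ζ η).1 z := by
    rw [U3_expand_eb, U3_expand_eb hΩ u ξ ζ η, Finset.mul_sum]
    refine Finset.sum_congr rfl fun i _ => ?_
    rw [Finset.mul_sum]
    refine Finset.sum_congr rfl fun j _ => ?_
    rw [Finset.mul_sum]
    refine Finset.sum_congr rfl fun k _ => ?_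
    simp only [PiLp.smul_apply, smul_eq_mul, map_mul, conj_ofReal]
    push_cast
    ring
  rw [h, norm_mul, norm_real, mul_pow, Real.norm_eq_abs, sq_abs]
  ring

theorem continuousOn_ex {Ω : Set (W n)} (g : Sm Ω) : ContinuousOn (ex g.1) Ω :=
  g.2.continuousOn

section ball

variable {z₀ : W n} {r lam Lam K : ℝ} {hΩ : IsOpen (Metric.ball z₀ r)}
  (d : Dat hΩ (eb n) lam Lam K)

/-- the extended quadratic form -/
noncomputable def gq (p a : W n) : ℝ :=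
  (∑ i, ∑ j, a i * conj (a j) * ex (U2 hΩ d.u (eb n i) (eb n j)).1 p).re

/-- the extended cubic form -/
noncomputable def tq (p a b c : W n) : ℂ :=
  ∑ i, ∑ j, ∑ k, a i * b j * conj (c k) * ex (U3 hΩ d.u (eb n i) (eb n j) (eb n k)).1 p

theorem gq_eq (z : Metric.ball z₀ r) (a : W n) : gq d z a = ((U2 hΩ d.u a a).1 z).re := by
  rw [gq, U2_expand_eb]
  simp only [ex_coe]

theorem tq_eq (z : Metric.ball z₀ r) (a b c : W n) : tq d z a b c = (U3 hΩ d.u a b c).1 z := by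
  rw [tq, U3_expand_eb]
  simp only [ex_coe]

/-- the function to be maximised -/
noncomputable def Ph (K' : ℝ) (q : W n × W n × W n × W n) : ℝ :=
  ((3 * r / 4) ^ 2 - ‖q.1 - z₀‖ ^ 2) ^ 2 * ‖tq d q.1 q.2.1 q.2.2.1 q.2.2.2‖ ^ 2
    / (gq d q.1 q.2.1 * gq d q.1 q.2.2.1 * gq d q.1 q.2.2.2)
    + K' * (ex (trU hΩ d.u).1 q.1).re

theorem exists_max [Nontrivial (W n)] (hr : 0 < r) (hlam : 0 < lam) (K' : ℝ) :
    ∃ (O : Metric.ball z₀ r) (a b c : W n), dist (O : W n) z₀ ≤ 3 * r / 4 ∧ ‖a‖ = 1 ∧ ‖b‖ = 1 ∧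
      ‖c‖ = 1 ∧ ∀ (z : Metric.ball z₀ r) (ξ ζ η : W n), dist (z : W n) z₀ ≤ 3 * r / 4 → ‖ξ‖ = 1 →
        ‖ζ‖ = 1 → ‖η‖ = 1 → Ph d K' (z, ξ, ζ, η) ≤ Ph d K' (O, a, b, c) := by
  have hsub : Metric.closedBall z₀ (3 * r / 4) ⊆ Metric.ball z₀ r :=
    Metric.closedBall_subset_ball (by linarith)
  let S : Set (W n × W n × W n × W n) := Metric.closedBall z₀ (3 * r / 4) ×ˢ
    (Metric.sphere (0 : W n) 1 ×ˢ (Metric.sphere (0 : W n) 1 ×ˢ Metric.sphere (0 : W n) 1))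
  have hS : IsCompact S := (isCompact_closedBall _ _).prod
    ((isCompact_sphere _ _).prod ((isCompact_sphere _ _).prod (isCompact_sphere _ _)))
  obtain ⟨v, hv⟩ := exists_norm_eq (W n) (zero_le_one (α := ℝ))
  have hne : S.Nonempty := ⟨(z₀, v, v, v), by
    refine ⟨Metric.mem_closedBall_self (by positivity), ?_, ?_, ?_⟩ <;> simpa using hv⟩
  have hex : ∀ g : Sm (Metric.ball z₀ r), ContinuousOn (fun q : W n × W n × W n × W n =>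
      ex g.1 q.1) S := fun g =>
    (continuousOn_ex g).comp continuousOn_fst fun q hq => hsub hq.1
  have hg : ∀ f : (W n × W n × W n × W n) → W n, Continuous f →
      ContinuousOn (fun q => gq d q.1 (f q)) S := by
    intro f hf
    unfold gq
    refine continuous_re.comp_continuousOn ?_
    refine continuousOn_finsetSum _ fun i _ => continuousOn_finsetSum _ fun j _ => ?_
    refine ContinuousOn.mul ?_ (hex _)
    have h1 : Continuous fun q => (f q) i := (EuclideanSpace.proj i).continuous.comp hf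
    have h2 : Continuous fun q => (f q) j := (EuclideanSpace.proj j).continuous.comp hf
    exact (h1.mul (continuous_conj.comp h2)).continuousOn
  have ht : ContinuousOn (fun q : W n × W n × W n × W n =>
      tq d q.1 q.2.1 q.2.2.1 q.2.2.2) S := by
    unfold tq
    refine continuousOn_finsetSum _ fun i _ => continuousOn_finsetSum _ fun j _ =>
      continuousOn_finsetSum _ fun k _ => ?_
    refine ContinuousOn.mul ?_ (hex _)
    have h1 : Continuous fun q : W n × W n × W n × W n => q.2.1 i :=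
      (EuclideanSpace.proj i).continuous.comp (continuous_fst.comp continuous_snd)
    have h2 : Continuous fun q : W n × W n × W n × W n => q.2.2.1 j :=
      (EuclideanSpace.proj j).continuous.comp
        (continuous_fst.comp (continuous_snd.comp continuous_snd))
    have h3 : Continuous fun q : W n × W n × W n × W n => q.2.2.2 k :=
      (EuclideanSpace.proj k).continuous.comp
        (continuous_snd.comp (continuous_snd.comp continuous_snd))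
    exact ((h1.mul h2).mul (continuous_conj.comp h3)).continuousOn
  have hgpos : ∀ q ∈ S, ∀ a : W n, ‖a‖ = 1 → 0 < gq d q.1 a := by
    intro q hq a ha
    have h1 := d.low ⟨q.1, hsub hq.1⟩ a
    have h2 := gq_eq d ⟨q.1, hsub hq.1⟩ a
    rw [← h2, ha] at h1
    have h3 : 0 < gq d (⟨q.1, hsub hq.1⟩ : Metric.ball z₀ r) a := by nlinarith
    exact h3
  have hc : ContinuousOn (Ph d K') S := by
    unfold Ph
    refine ContinuousOn.add (ContinuousOn.div (ContinuousOn.mul ?_ (ht.norm.pow 2)) ?_ ?_) ?_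
    · have : Continuous fun q : W n × W n × W n × W n =>
        ((3 * r / 4) ^ 2 - ‖q.1 - z₀‖ ^ 2) ^ 2 := by fun_prop
      exact this.continuousOn
    · exact ((hg _ (continuous_fst.comp continuous_snd)).mul
        (hg _ (continuous_fst.comp (continuous_snd.comp continuous_snd)))).mul
        (hg _ (continuous_snd.comp (continuous_snd.comp continuous_snd)))
    · rintro q ⟨hq1, hq2, hq3, hq4⟩
      have hq : q ∈ S := ⟨hq1, hq2, hq3, hq4⟩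
      have a1 := hgpos q hq q.2.1 (by simpa using hq2)
      have a2 := hgpos q hq q.2.2.1 (by simpa using hq3)
      have a3 := hgpos q hq q.2.2.2 (by simpa using hq4)
      positivity
    · exact continuousOn_const.mul (continuous_re.comp_continuousOn (hex _))
  obtain ⟨q, hq, hmax⟩ := hS.exists_isMaxOn hne hc
  refine ⟨⟨q.1, hsub hq.1⟩, q.2.1, q.2.2.1, q.2.2.2, hq.1, by simpa using hq.2.1,
    by simpa using hq.2.2.1, by simpa using hq.2.2.2, fun z ξ ζ η h1 h2 h3 h4 => ?_⟩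
  exact hmax (⟨h1, by simpa using h2, by simpa using h3, by simpa using h4⟩ :
    ((z : W n), ξ, ζ, η) ∈ S)

theorem Ph_eq (K' : ℝ) (z : Metric.ball z₀ r) (ξ ζ η : W n) : Ph d K' (z, ξ, ζ, η)
    = (((cut _ z₀ (3 * r / 4)).1 z).re) ^ 2 * ‖(U3 hΩ d.u ξ ζ η).1 z‖ ^ 2
      / (((U2 hΩ d.u ξ ξ).1 z).re * ((U2 hΩ d.u ζ ζ).1 z).re * ((U2 hΩ d.u η η).1 z).re)
      + K' * ((trU hΩ d.u).1 z).re := by
  simp only [Ph, gq_eq, tq_eq, ex_coe]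
  rw [cut_val, ofReal_re]

theorem gpos (hlam : 0 < lam) (z : Metric.ball z₀ r) (a : W n) (ha : a ≠ 0) :
    0 < ((U2 hΩ d.u a a).1 z).re :=
  lt_of_lt_of_le (by positivity) (d.low z a)

theorem U3_zero (z : Metric.ball z₀ r) (ξ ζ η : W n) (h : ξ = 0 ∨ ζ = 0 ∨ η = 0) :
    (U3 hΩ d.u ξ ζ η).1 z = 0 := by
  rw [U3_expand_eb]
  refine Finset.sum_eq_zero fun i _ => Finset.sum_eq_zero fun j _ =>
    Finset.sum_eq_zero fun k _ => ?_
  rcases h with h | h | h <;> subst h <;> simp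

/-- from unit vectors to all vectors -/
theorem ineq_all (hlam : 0 < lam) (K' m : ℝ) (z : Metric.ball z₀ r)
    (h : ∀ ξ ζ η : W n, ‖ξ‖ = 1 → ‖ζ‖ = 1 → ‖η‖ = 1 → Ph d K' (z, ξ, ζ, η) ≤ m) (ξ ζ η : W n) :
    (((cut _ z₀ (3 * r / 4)).1 z).re) ^ 2 * ‖(U3 hΩ d.u ξ ζ η).1 z‖ ^ 2
        ≤ (m - K' * ((trU hΩ d.u).1 z).re)
          * ((U2 hΩ d.u ξ ξ).1 z).re
          * ((U2 hΩ d.u ζ ζ).1 z).re * ((U2 hΩ d.u η η).1 z).re := by
  by_cases h0 : ξ = 0 ∨ ζ = 0 ∨ η = 0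
  · rw [U3_zero d z ξ ζ η h0]
    have : ((U2 hΩ d.u ξ ξ).1 z).re * ((U2 hΩ d.u ζ ζ).1 z).re * ((U2 hΩ d.u η η).1 z).re = 0 := by
      have hz : ∀ v : W n, v = 0 → ((U2 hΩ d.u v v).1 z).re = 0 := by
        intro v hv
        subst hv
        rw [U2_expand_eb]
        simp
      rcases h0 with h0 | h0 | h0 <;> rw [hz _ h0] <;> simp
    rw [mul_assoc, mul_assoc, ← mul_assoc ((U2 hΩ d.u ξ ξ).1 z).re, this]
    simp
  · push Not at h0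
    obtain ⟨h1, h2, h3⟩ := h0
    have nn : ∀ v : W n, v ≠ 0 → ‖((‖v‖⁻¹ : ℝ) : ℂ) • v‖ = 1 := fun v hv => by
      rw [norm_smul, norm_real, norm_inv, norm_norm, inv_mul_cancel₀ (norm_ne_zero_iff.2 hv)]
    have back : ∀ v : W n, v ≠ 0 → ((‖v‖ : ℝ) : ℂ) • (((‖v‖⁻¹ : ℝ) : ℂ) • v) = v := fun v hv => by
      rw [smul_smul, ← ofReal_mul, mul_inv_cancel₀ (norm_ne_zero_iff.2 hv), ofReal_one, one_smul]
    have hh := h _ _ _ (nn ξ h1) (nn ζ h2) (nn η h3)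
    rw [Ph_eq] at hh
    obtain ⟨ξ', hξ'⟩ : ∃ a, a = ((‖ξ‖⁻¹ : ℝ) : ℂ) • ξ := ⟨_, rfl⟩
    obtain ⟨ζ', hζ'⟩ : ∃ a, a = ((‖ζ‖⁻¹ : ℝ) : ℂ) • ζ := ⟨_, rfl⟩
    obtain ⟨η', hη'⟩ : ∃ a, a = ((‖η‖⁻¹ : ℝ) : ℂ) • η := ⟨_, rfl⟩
    rw [← hξ', ← hζ', ← hη'] at hh
    have n1 := nn ξ h1
    have n2 := nn ζ h2
    have n3 := nn η h3
    have b1 := back ξ h1
    have b2 := back ζ h2
    have b3 := back η h3
    rw [← hξ'] at n1 b1
    rw [← hζ'] at n2 b2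
    rw [← hη'] at n3 b3
    have g1 := gpos d hlam z ξ' (norm_ne_zero_iff.1 (by rw [n1]; norm_num))
    have g2 := gpos d hlam z ζ' (norm_ne_zero_iff.1 (by rw [n2]; norm_num))
    have g3 := gpos d hlam z η' (norm_ne_zero_iff.1 (by rw [n3]; norm_num))
    rw [← b1, ← b2, ← b3, U3_smul, U2_smul, U2_smul, U2_smul]
    generalize ((U2 hΩ d.u ξ' ξ').1 z).re = G1 at *
    generalize ((U2 hΩ d.u ζ' ζ').1 z).re = G2 at *
    generalize ((U2 hΩ d.u η' η').1 z).re = G3 at *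
    generalize ‖(U3 hΩ d.u ξ' ζ' η').1 z‖ ^ 2 = T2 at *
    generalize ((trU hΩ d.u).1 z).re = tr at *
    generalize ((cut (Metric.ball z₀ r) z₀ (3 * r / 4)).1 z).re = X at *
    have hh2 : X ^ 2 * T2 ≤ (m - K' * tr) * (G1 * G2 * G3) := by
      rw [← div_le_iff₀ (by positivity)]
      linarith
    have hh3 := mul_le_mul_of_nonneg_left hh2
      (show (0 : ℝ) ≤ ‖ξ‖ ^ 2 * ‖ζ‖ ^ 2 * ‖η‖ ^ 2 by positivity)
    linarith

end ball

/-- **Calabi's interior third order estimate** -/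
theorem calabi (n : ℕ) (r lam Lam K : ℝ) (hr : 0 < r) (hlam : 0 < lam) (hK : 0 ≤ K)
    (hLam : 0 ≤ Lam) :
    ∃ C : ℝ, 0 ≤ C ∧ ∀ (z₀ : W n) (hΩ : IsOpen (Metric.ball z₀ r))
      (d : Dat hΩ (eb n) lam Lam K) (z : Metric.ball z₀ r), dist (z : W n) z₀ ≤ r / 2 →
        ∀ ξ ζ η : W n, ‖(U3 hΩ d.u ξ ζ η).1 z‖ ≤ C * ‖ξ‖ * ‖ζ‖ * ‖η‖ := by
  set μ : ℝ := (Real.sqrt lam)⁻¹ with hμd
  have hμ : 0 ≤ μ := by positivity
  have hμ2 : μ ^ 2 * lam = 1 := by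
    rw [hμd, inv_pow, Real.sq_sqrt hlam.le, inv_mul_cancel₀ hlam.ne']
  set K' : ℝ := (1 + r ^ 4 * 3 * (K * μ ^ 2 + K) + 8 * n * r ^ 2 * μ ^ 2 + 2 * r ^ 4 * K
      + r ^ 4 * K * μ ^ 3) / lam with hK'd
  have hK'0 : 0 ≤ K' := by positivity
  have hK' : 1 + r ^ 4 * 3 * (K * μ ^ 2 + K) + 8 * n * r ^ 2 * μ ^ 2 + 2 * r ^ 4 * K
      + r ^ 4 * K * μ ^ 3 ≤ K' * lam := by
    rw [hK'd, div_mul_cancel₀ _ hlam.ne']
  set m₀ : ℝ := r ^ 4 * (K' * n * (K + K * Lam) + r ^ 4 * K * μ ^ 3) + K' * n * Lam with hm₀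
  have hm₀0 : 0 ≤ m₀ := by positivity
  refine ⟨Real.sqrt (256 / (25 * r ^ 4) * m₀ * Lam ^ 3), Real.sqrt_nonneg _, ?_⟩
  intro z₀ hΩ d z hz ξ ζ η
  by_cases h0 : ξ = 0 ∨ ζ = 0 ∨ η = 0
  · rw [U3_zero d z ξ ζ η h0, norm_zero]; positivity
  have hnt : Nontrivial (W n) := by
    push Not at h0
    exact ⟨⟨ξ, 0, h0.1⟩⟩
  obtain ⟨O, a, b, c, hO, ha, hb, hc, hmax⟩ := exists_max d hr hlam K'
  obtain ⟨m, hm⟩ : ∃ m, m = Ph d K' (O, a, b, c) := ⟨_, rfl⟩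
  rw [← hm] at hmax
  have hall : ∀ z : Metric.ball z₀ r, dist (z : W n) z₀ ≤ 3 * r / 4 → ∀ ξ ζ η : W n,
      (((cut _ z₀ (3 * r / 4)).1 z).re) ^ 2 * ‖(U3 hΩ d.u ξ ζ η).1 z‖ ^ 2
        ≤ (m - K' * ((trU hΩ d.u).1 z).re)
          * ((U2 hΩ d.u ξ ξ).1 z).re
          * ((U2 hΩ d.u ζ ζ).1 z).re * ((U2 hΩ d.u η η).1 z).re := fun z hz =>
    ineq_all d hlam K' m z fun ξ ζ η h1 h2 h3 => hmax z ξ ζ η hz h1 h2 h3
  have htr0 : ∀ z : Metric.ball z₀ r, 0 ≤ ((trU hΩ d.u).1 z).re := by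
    intro z
    rw [trU_re]
    refine Finset.sum_nonneg fun k _ => ?_
    exact le_trans (by positivity) (d.low z (eb n k))
  have htr : ∀ z : Metric.ball z₀ r, ((trU hΩ d.u).1 z).re ≤ n * Lam := by
    intro z
    rw [trU_re]
    calc ∑ k, ((U2 hΩ d.u (eb n k) (eb n k)).1 z).re ≤ ∑ _k : Fin n, Lam := by
          refine Finset.sum_le_sum fun k _ => ?_
          have := d.upp z (eb n k)
          rwa [norm_eb, one_pow, mul_one] at this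
      _ = n * Lam := by simp
  -- the value at the maximum
  have hmm : m ≤ m₀ := by
    rcases lt_or_eq_of_le hO with hlt | heq
    · have ga := gpos d hlam O a (norm_ne_zero_iff.1 (by rw [ha]; norm_num))
      have gb := gpos d hlam O b (norm_ne_zero_iff.1 (by rw [hb]; norm_num))
      have gc := gpos d hlam O c (norm_ne_zero_iff.1 (by rw [hc]; norm_num))
      have hs : ∀ g : ℝ, 0 < g → ((Real.sqrt g)⁻¹) ^ 2 * g = 1 := fun g hg => by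
        rw [inv_pow, Real.sq_sqrt hg.le, inv_mul_cancel₀ hg.ne']
      have hs' : ∀ g : ℝ, 0 < g → ((Real.sqrt g)⁻¹) ^ 2 = g⁻¹ := fun g hg => by
        rw [inv_pow, Real.sq_sqrt hg.le]
      refine at_max d hr hlam hK O hlt K' m μ hμ hμ2 hK'
        (((((Real.sqrt ((U2 hΩ d.u a a).1 O).re)⁻¹ : ℝ)) : ℂ) • a)
        (((((Real.sqrt ((U2 hΩ d.u b b).1 O).re)⁻¹ : ℝ)) : ℂ) • b)
        (((((Real.sqrt ((U2 hΩ d.u c c).1 O).re)⁻¹ : ℝ)) : ℂ) • c)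
        (by rw [U2_smul]; exact hs _ ga) (by rw [U2_smul]; exact hs _ gb)
        (by rw [U2_smul]; exact hs _ gc) hall ?_
      rw [U3_smul, hs' _ ga, hs' _ gb, hs' _ gc, hm, Ph_eq]
      field_simp
      ring
    · have hX : ((cut (Metric.ball z₀ r) z₀ (3 * r / 4)).1 O).re = 0 := by
        rw [cut_val, ofReal_re, ← dist_eq_norm, heq]; ring
      have h1 : m = K' * ((trU hΩ d.u).1 O).re := by
        rw [hm, Ph_eq, hX]; simp
      rw [h1, hm₀]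
      have h2 := mul_le_mul_of_nonneg_left (htr O) hK'0
      have h3 : 0 ≤ r ^ 4 * (K' * n * (K + K * Lam) + r ^ 4 * K * μ ^ 3) := by positivity
      linarith
  -- conclusion
  have h1 := hall z (by linarith) ξ ζ η
  have hX : 5 * r ^ 2 / 16 ≤ ((cut (Metric.ball z₀ r) z₀ (3 * r / 4)).1 z).re := by
    rw [cut_val, ofReal_re, ← dist_eq_norm]
    have h2 : dist (z : W n) z₀ ^ 2 ≤ (r / 2) ^ 2 := pow_le_pow_left₀ dist_nonneg hz 2
    nlinarith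
  have h2 : (5 * r ^ 2 / 16) ^ 2 * ‖(U3 hΩ d.u ξ ζ η).1 z‖ ^ 2
      ≤ m₀ * (Lam * ‖ξ‖ ^ 2) * (Lam * ‖ζ‖ ^ 2) * (Lam * ‖η‖ ^ 2) := by
    have a1 : (5 * r ^ 2 / 16) ^ 2 * ‖(U3 hΩ d.u ξ ζ η).1 z‖ ^ 2
        ≤ ((cut (Metric.ball z₀ r) z₀ (3 * r / 4)).1 z).re ^ 2
          * ‖(U3 hΩ d.u ξ ζ η).1 z‖ ^ 2 := by gcongr
    refine (a1.trans h1).trans ?_
    have p1 : 0 ≤ ((U2 hΩ d.u ξ ξ).1 z).re := le_trans (by positivity) (d.low z ξ)
    have p2 : 0 ≤ ((U2 hΩ d.u ζ ζ).1 z).re := le_trans (by positivity) (d.low z ζ)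
    have p3 : 0 ≤ ((U2 hΩ d.u η η).1 z).re := le_trans (by positivity) (d.low z η)
    have q0 : m - K' * ((trU hΩ d.u).1 z).re ≤ m₀ := by
      have := mul_nonneg hK'0 (htr0 z)
      linarith
    have q1 := d.upp z ξ
    have q2 := d.upp z ζ
    have q3 := d.upp z η
    gcongr
  have h3 : ‖(U3 hΩ d.u ξ ζ η).1 z‖ ^ 2
      ≤ (256 / (25 * r ^ 4) * m₀ * Lam ^ 3) * (‖ξ‖ * ‖ζ‖ * ‖η‖) ^ 2 := by
    have hr4 : 0 < 25 * r ^ 4 := by positivity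
    have e1 : (5 * r ^ 2 / 16) ^ 2 = 25 * r ^ 4 / 256 := by ring
    rw [e1] at h2
    have e2 : (256 / (25 * r ^ 4) * m₀ * Lam ^ 3) * (‖ξ‖ * ‖ζ‖ * ‖η‖) ^ 2
        = (m₀ * (Lam * ‖ξ‖ ^ 2) * (Lam * ‖ζ‖ ^ 2) * (Lam * ‖η‖ ^ 2)) * (256 / (25 * r ^ 4)) := by
      ring
    rw [e2]
    calc ‖(U3 hΩ d.u ξ ζ η).1 z‖ ^ 2
        = (25 * r ^ 4 / 256 * ‖(U3 hΩ d.u ξ ζ η).1 z‖ ^ 2) * (256 / (25 * r ^ 4)) := by
          field_simp
      _ ≤ _ := mul_le_mul_of_nonneg_right h2 (by positivity)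
  have h4 : ‖(U3 hΩ d.u ξ ζ η).1 z‖
      ≤ Real.sqrt ((256 / (25 * r ^ 4) * m₀ * Lam ^ 3) * (‖ξ‖ * ‖ζ‖ * ‖η‖) ^ 2) :=
    Real.le_sqrt_of_sq_le h3
  rw [Real.sqrt_mul (by positivity), Real.sqrt_sq (by positivity)] at h4
  linarith

end Crest.Agent.R273.YC3_812
end

-- ▼ part R273/YauC3_812

/-!
Row 273 (S0416), Part C (Yau), helper812: `C3Stmt` of `YauDefs_635` (Calabi's interior third order
estimate), and the dictionary between `D2`, `lev`, `cH` and the algebra `Sm`.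
-/

set_option autoImplicit false
set_option linter.unusedSimpArgs false
set_option linter.unusedSectionVars false

open Set Filter Topology Complex
open scoped ContDiff ComplexConjugate ComplexOrder

namespace Crest.Agent.R273.YauC3_812

open Crest.Agent.R273.YSm_812 Crest.Agent.R273.YJet_812 Crest.Agent.R273.YC3_812
open Crest.Agent.R273.Defs_333 Crest.Agent.R273.YauDefs_635

variable {n : ℕ} {Ω : Set (W n)}

/-- complexification of a real smooth function -/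
noncomputable def rl (f : W n → ℝ) (hf : ContDiffOn ℝ ∞ f Ω) : Sm Ω :=
  mk (fun z => ((f z : ℝ) : ℂ)) (ofRealCLM.contDiff.comp_contDiffOn hf)

theorem rl_apply (f : W n → ℝ) (hf : ContDiffOn ℝ ∞ f Ω) (z : Ω) :
    (rl f hf).1 z = ((f z : ℝ) : ℂ) := rfl

theorem cj_rl (f : W n → ℝ) (hf : ContDiffOn ℝ ∞ f Ω) : cj (rl f hf) = rl f hf :=
  Sm.ext' fun z => by rw [cj_apply, rl_apply, conj_ofReal]

theorem dr_ofReal {f : W n → ℝ} {z : W n} (hf : DifferentiableAt ℝ f z) (ξ : W n) :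
    dr ξ (fun w => ((f w : ℝ) : ℂ)) z = ((fderiv ℝ f z ξ : ℝ) : ℂ) := by
  have h := ofRealCLM.hasFDerivAt.comp z hf.hasFDerivAt
  have h2 : fderiv ℝ (fun w => ((f w : ℝ) : ℂ)) z = ofRealCLM.comp (fderiv ℝ f z) := h.fderiv
  rw [dr, h2]; rfl

theorem dr_dr_rl (hΩ : IsOpen Ω) {f : W n → ℝ} (hf : ContDiffOn ℝ ∞ f Ω) {z : W n} (hz : z ∈ Ω)
    (ξ η : W n) : dr ξ (dr η (fun w => ((f w : ℝ) : ℂ))) z = ((D2 f z ξ η : ℝ) : ℂ) := by
  have h1 : ∀ w ∈ Ω, dr η (fun w => ((f w : ℝ) : ℂ)) w = ((fderiv ℝ f w η : ℝ) : ℂ) := fun w hw =>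
    dr_ofReal ((hf.differentiableOn (by simp)).differentiableAt (hΩ.mem_nhds hw)) η
  rw [dr_congr hΩ h1 hz]
  have h2 : ContDiffOn ℝ ∞ (fderiv ℝ f) Ω := hf.fderiv_of_isOpen hΩ (by simp)
  have h3 : DifferentiableAt ℝ (fderiv ℝ f) z :=
    (h2.differentiableOn (by simp)).differentiableAt (hΩ.mem_nhds hz)
  rw [dr_ofReal (h3.clm_apply (differentiableAt_const η))]
  congr 1
  rw [fderiv_clm_apply h3 (differentiableAt_const η)]
  simp [D2]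

/-- general formula for `∂_ξ ∂̄_η` -/
theorem U2_dr (hΩ : IsOpen Ω) (g : Sm Ω) (ξ η : W n) (z : Ω) :
    (U2 hΩ g ξ η).1 z = (1 / 4 : ℂ) * ((dr ξ (dr η (ex g.1)) z
        + dr (I • ξ) (dr (I • η) (ex g.1)) z)
      + I * (dr ξ (dr (I • η) (ex g.1)) z - dr (I • ξ) (dr η (ex g.1)) z)) := by
  have e : ∀ ζ : W n, dr ζ (ex (B hΩ η g).1) z = (1 / 2 : ℂ) * dr ζ (dr η (ex g.1)) z
      + (I / 2) * dr ζ (dr (I • η) (ex g.1)) z := by
    intro ζ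
    have h1 : dr ζ (ex (B hΩ η g).1) z = dr ζ (fun w => (1 / 2 : ℂ) * dr η (ex g.1) w
        + (I / 2) * dr (I • η) (ex g.1) w) z :=
      dr_congr hΩ (fun w hw => by rw [ex_of_mem _ hw, B_apply, db_dab]; rfl) z.2 ζ
    have h2 := contDiffOn_dr hΩ η g.2
    have h3 := contDiffOn_dr hΩ (I • η) g.2
    rw [h1, dr_add ((diffAt hΩ h2 z.2).const_mul _) ((diffAt hΩ h3 z.2).const_mul _),
      dr_const_mul hΩ h2 z.2, dr_const_mul hΩ h3 z.2]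
  rw [U2, D_apply, dz_dab, dab, e, e]
  have := I_mul_I
  linear_combination (-(1 / 4 : ℂ) * dr (I • ξ) (dr (I • η) (ex g.1)) z) * this

theorem dr_ex_rl (hΩ : IsOpen Ω) {f : W n → ℝ} (hf : ContDiffOn ℝ ∞ f Ω) (z : Ω) (ξ η : W n) :
    dr ξ (dr η (ex (rl f hf).1)) z = ((D2 f z ξ η : ℝ) : ℂ) := by
  rw [← dr_dr_rl hΩ hf z.2]
  exact dr_congr hΩ (fun w hw => dr_congr hΩ (fun v hv => by rw [ex_of_mem _ hv]; rfl) hw η) z.2 ξ

theorem U2_rl (hΩ : IsOpen Ω) {f : W n → ℝ} (hf : ContDiffOn ℝ ∞ f Ω) (z : Ω) (ξ η : W n) :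
    (U2 hΩ (rl f hf) ξ η).1 z = (1 / 4 : ℂ) *
      (((D2 f z ξ η + D2 f z (I • ξ) (I • η) : ℝ) : ℂ)
      + I * ((D2 f z ξ (I • η) - D2 f z (I • ξ) η : ℝ) : ℂ)) := by
  rw [U2_dr]
  simp only [dr_ex_rl hΩ hf]
  push_cast
  ring

theorem single_I (a : Fin n) : (EuclideanSpace.single a I : W n)
    = I • (EuclideanSpace.single a (1 : ℂ) : W n) := by
  ext i
  by_cases h : i = a
  · subst h; simp
  · simp [h]

theorem cH_eq (hΩ : IsOpen Ω) {f : W n → ℝ} (hf : ContDiffOn ℝ ∞ f Ω) (z : Ω) (a b : Fin n) :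
    cH f z a b = (U2 hΩ (rl f hf) (eb n a) (eb n b)).1 z := by
  rw [U2_rl, cH, Matrix.of_apply, single_I, single_I, eb_apply, eb_apply]

theorem lev_eq4 (hΩ : IsOpen Ω) {f : W n → ℝ} (hf : ContDiffOn ℝ ∞ f Ω) (z : Ω) (v : W n) :
    lev f z v = 4 * ((U2 hΩ (rl f hf) v v).1 z).re := by
  rw [lev333_eq, U2_rl]
  have h2 : ContDiffAt ℝ ∞ f z := hf.contDiffAt (hΩ.mem_nhds z.2)
  have hsym : D2 f z v (I • v) = D2 f z (I • v) v := by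
    exact (h2.isSymmSndFDerivAt (by
      rw [minSmoothness_of_isRCLikeNormedField]; exact two_le)) _ _
  rw [hsym, sub_self, ofReal_zero, mul_zero, add_zero]
  have : (1 / 4 : ℂ) = ((1 / 4 : ℝ) : ℂ) := by push_cast; rfl
  rw [this, ← ofReal_mul, ofReal_re]
  ring

theorem det_eq (hΩ : IsOpen Ω) {f : W n → ℝ} (hf : ContDiffOn ℝ ∞ f Ω) (z : Ω) :
    ((Matrix.of fun i j => U2 hΩ (rl f hf) (eb n i) (eb n j)).det).1 z = (cH f z).det := by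
  have h1 : ((Matrix.of fun i j => U2 hΩ (rl f hf) (eb n i) (eb n j)).det).1 z
      = (ev z) ((Matrix.of fun i j => U2 hΩ (rl f hf) (eb n i) (eb n j)).det) := rfl
  rw [h1, AlgHom.map_det]
  congr 1
  ext a b
  rw [cH_eq hΩ hf]
  rfl

/-- third derivatives -/
theorem norm_dr3_le (hΩ : IsOpen Ω) {g : W n → ℂ} (hg : ContDiffOn ℝ ∞ g Ω) {z : W n}
    (hz : z ∈ Ω) (a b c : W n) :
    ‖dr a (dr b (dr c g)) z‖ ≤ ‖iteratedFDeriv ℝ 3 g z‖ * ‖a‖ * ‖b‖ * ‖c‖ := by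
  have h1 : ∀ w ∈ Ω, dr b (dr c g) w = iteratedFDeriv ℝ 2 g w ![b, c] := by
    intro w hw
    rw [dr_dr hΩ hg hw, iteratedFDeriv_two_apply]
    rfl
  have h2 : DifferentiableAt ℝ (iteratedFDeriv ℝ 2 g) z := by
    have h3 : ContDiffAt ℝ ∞ g z := hg.contDiffAt (hΩ.mem_nhds hz)
    have h4 : ContDiffAt ℝ 3 g z := h3.of_le (by
      exact WithTop.coe_le_coe.2 le_top)
    exact (h4.differentiableAt_iteratedFDeriv (m := 2) (by norm_cast))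
  have h3 : dr a (dr b (dr c g)) z = iteratedFDeriv ℝ 3 g z ![a, b, c] := by
    rw [dr_congr hΩ h1 hz, iteratedFDeriv_succ_apply_left]
    have h4 : HasFDerivAt (fun w => iteratedFDeriv ℝ 2 g w ![b, c])
        ((ContinuousMultilinearMap.apply ℝ (fun _ : Fin 2 => W n) ℂ ![b, c]).comp
          (fderiv ℝ (iteratedFDeriv ℝ 2 g) z)) z :=
      (ContinuousMultilinearMap.apply ℝ (fun _ : Fin 2 => W n) ℂ ![b, c]).hasFDerivAt.comp z
        h2.hasFDerivAt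
    rw [dr, h4.fderiv]
    rfl
  rw [h3]
  refine ((iteratedFDeriv ℝ 3 g z).le_opNorm _).trans (le_of_eq ?_)
  simp [Fin.prod_univ_succ]
  ring

/-- norm of the derivatives of the complexification -/
theorem norm_iter_rl (hΩ : IsOpen Ω) {f : W n → ℝ} (hf : ContDiffOn ℝ ∞ f Ω) {z : W n}
    (hz : z ∈ Ω) (k : ℕ) :
    ‖iteratedFDeriv ℝ k (fun w => ((f w : ℝ) : ℂ)) z‖ = ‖iteratedFDeriv ℝ k f z‖ := by
  have h1 : ContDiffAt ℝ k f z := (hf.contDiffAt (hΩ.mem_nhds hz)).of_le (by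
    exact WithTop.coe_le_coe.2 le_top)
  exact ofRealLI.norm_iteratedFDeriv_comp_left h1 le_rfl

/-- general formula for `∂_ξ ∂_ζ ∂̄_η` in terms of real derivatives, as a bound -/
theorem norm_U3_le (hΩ : IsOpen Ω) {f : W n → ℝ} (hf : ContDiffOn ℝ ∞ f Ω) {K : ℝ} (z : Ω)
    (hK : ‖iteratedFDeriv ℝ 3 f z‖ ≤ K) (ξ ζ η : W n) :
    ‖(U3 hΩ (rl f hf) ξ ζ η).1 z‖ ≤ K * ‖ξ‖ * ‖ζ‖ * ‖η‖ := by
  have hc : ContDiffOn ℝ ∞ (fun w => ((f w : ℝ) : ℂ)) Ω := ofRealCLM.contDiff.comp_contDiffOn hf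
  have hexp : (U3 hΩ (rl f hf) ξ ζ η).1 z
      = dab (1 / 2) (-(I / 2)) ξ (fun w => (1 / 4 : ℂ) *
        ((dr ζ (dr η (fun w => ((f w : ℝ) : ℂ))) w
        + dr (I • ζ) (dr (I • η) (fun w => ((f w : ℝ) : ℂ))) w)
      + I * (dr ζ (dr (I • η) (fun w => ((f w : ℝ) : ℂ))) w
        - dr (I • ζ) (dr η (fun w => ((f w : ℝ) : ℂ))) w))) z := by
    rw [U3, D_apply, dz_dab]
    have e : ∀ w ∈ Ω, ex (D hΩ ζ (B hΩ η (rl f hf))).1 w = (1 / 4 : ℂ) *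
        ((dr ζ (dr η (fun w => ((f w : ℝ) : ℂ))) w
        + dr (I • ζ) (dr (I • η) (fun w => ((f w : ℝ) : ℂ))) w)
      + I * (dr ζ (dr (I • η) (fun w => ((f w : ℝ) : ℂ))) w
        - dr (I • ζ) (dr η (fun w => ((f w : ℝ) : ℂ))) w)) := by
      intro w hw
      rw [ex_of_mem _ hw]
      have h1 := U2_dr hΩ (rl f hf) ζ η ⟨w, hw⟩
      have h2 : ∀ a b : W n, dr a (dr b (ex (rl f hf).1)) w
          = dr a (dr b (fun w => ((f w : ℝ) : ℂ))) w := fun a b =>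
        dr_congr hΩ (fun w hw => dr_congr hΩ (fun v hv => by rw [ex_of_mem _ hv]; rfl) hw b) hw a
      simp only [h2] at h1
      exact h1
    simp only [dab]
    rw [dr_congr hΩ e z.2, dr_congr hΩ e z.2]
  have hs : ∀ a b : W n, DifferentiableAt ℝ (dr a (dr b (fun w => ((f w : ℝ) : ℂ)))) z :=
    fun a b => diffAt hΩ (contDiffOn_dr hΩ a (contDiffOn_dr hΩ b hc)) z.2
  have hlin : ∀ x : W n, dr x (fun w => (1 / 4 : ℂ) *
        ((dr ζ (dr η (fun w => ((f w : ℝ) : ℂ))) w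
        + dr (I • ζ) (dr (I • η) (fun w => ((f w : ℝ) : ℂ))) w)
      + I * (dr ζ (dr (I • η) (fun w => ((f w : ℝ) : ℂ))) w
        - dr (I • ζ) (dr η (fun w => ((f w : ℝ) : ℂ))) w))) z
      = (1 / 4 : ℂ) * ((dr x (dr ζ (dr η (fun w => ((f w : ℝ) : ℂ)))) z
        + dr x (dr (I • ζ) (dr (I • η) (fun w => ((f w : ℝ) : ℂ)))) z)
      + I * (dr x (dr ζ (dr (I • η) (fun w => ((f w : ℝ) : ℂ)))) z
        - dr x (dr (I • ζ) (dr η (fun w => ((f w : ℝ) : ℂ)))) z)) := by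
    intro x
    have d1 := (hs ζ η).hasFDerivAt
    have d2 := (hs (I • ζ) (I • η)).hasFDerivAt
    have d3 := (hs ζ (I • η)).hasFDerivAt
    have d4 := (hs (I • ζ) η).hasFDerivAt
    have d5 := ((d1.add d2).add ((d3.sub d4).const_mul I)).const_mul (1 / 4 : ℂ)
    have d6 := d5.fderiv
    simp only [dr] at d6 ⊢
    have d7 := congrArg (fun L => L x) d6
    refine Eq.trans ?_ (d7.trans ?_)
    · rfl
    · simp
      ring
  have hb : ∀ a b c : W n, ‖dr a (dr b (dr c (fun w => ((f w : ℝ) : ℂ)))) z‖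
      ≤ K * ‖a‖ * ‖b‖ * ‖c‖ := by
    intro a b c
    refine (norm_dr3_le hΩ hc z.2 a b c).trans ?_
    rw [norm_iter_rl hΩ hf z.2]
    gcongr
  have hK0 : 0 ≤ K := (norm_nonneg _).trans hK
  have nI : ∀ v : W n, ‖I • v‖ = ‖v‖ := fun v => by rw [norm_smul, norm_I, one_mul]
  have hx : ∀ x : W n, ‖x‖ ≤ ‖ξ‖ → ‖dr x (fun w => (1 / 4 : ℂ) *
        ((dr ζ (dr η (fun w => ((f w : ℝ) : ℂ))) w
        + dr (I • ζ) (dr (I • η) (fun w => ((f w : ℝ) : ℂ))) w)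
      + I * (dr ζ (dr (I • η) (fun w => ((f w : ℝ) : ℂ))) w
        - dr (I • ζ) (dr η (fun w => ((f w : ℝ) : ℂ))) w))) z‖ ≤ K * ‖ξ‖ * ‖ζ‖ * ‖η‖ := by
    intro x hx
    rw [hlin x, norm_mul]
    have b1 := hb x ζ η
    have b2 := hb x (I • ζ) (I • η)
    have b3 := hb x ζ (I • η)
    have b4 := hb x (I • ζ) η
    rw [nI, nI] at b2
    rw [nI] at b3 b4
    have hle : K * ‖x‖ * ‖ζ‖ * ‖η‖ ≤ K * ‖ξ‖ * ‖ζ‖ * ‖η‖ := by gcongr
    have n1 : ‖(1 / 4 : ℂ)‖ = 1 / 4 := by simp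
    rw [n1]
    have t1 := norm_add_le (dr x (dr ζ (dr η (fun w => ((f w : ℝ) : ℂ)))) z
        + dr x (dr (I • ζ) (dr (I • η) (fun w => ((f w : ℝ) : ℂ)))) z)
      (I * (dr x (dr ζ (dr (I • η) (fun w => ((f w : ℝ) : ℂ)))) z
        - dr x (dr (I • ζ) (dr η (fun w => ((f w : ℝ) : ℂ)))) z))
    have t2 := norm_add_le (dr x (dr ζ (dr η (fun w => ((f w : ℝ) : ℂ)))) z)
      (dr x (dr (I • ζ) (dr (I • η) (fun w => ((f w : ℝ) : ℂ)))) z)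
    have t3 := norm_sub_le (dr x (dr ζ (dr (I • η) (fun w => ((f w : ℝ) : ℂ)))) z)
      (dr x (dr (I • ζ) (dr η (fun w => ((f w : ℝ) : ℂ)))) z)
    rw [norm_mul, norm_I, one_mul] at t1
    linarith
  rw [hexp, dab]
  refine (norm_add_le _ _).trans ?_
  rw [norm_mul, norm_mul]
  have n1 : ‖(1 / 2 : ℂ)‖ = 1 / 2 := by simp
  have n2 : ‖-(I / 2)‖ = 1 / 2 := by simp
  rw [n1, n2]
  have x1 := hx ξ le_rfl
  have x2 := hx (I • ξ) (nI ξ).le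
  linarith

theorem norm_D2_le {f : W n → ℝ} {z : W n} {K : ℝ} (hK : ‖iteratedFDeriv ℝ 2 f z‖ ≤ K)
    (a b : W n) : |D2 f z a b| ≤ K * ‖a‖ * ‖b‖ := by
  have h1 : D2 f z a b = iteratedFDeriv ℝ 2 f z ![a, b] := by
    rw [iteratedFDeriv_two_apply]; rfl
  rw [h1, ← Real.norm_eq_abs]
  refine ((iteratedFDeriv ℝ 2 f z).le_opNorm _).trans ?_
  simp only [Fin.prod_univ_succ, Matrix.cons_val_zero, Matrix.cons_val_succ, Fin.prod_univ_zero,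
    mul_one]
  calc ‖iteratedFDeriv ℝ 2 f z‖ * (‖a‖ * ‖b‖) ≤ K * (‖a‖ * ‖b‖) := by gcongr
    _ = _ := by ring

theorem norm_U2_le (hΩ : IsOpen Ω) {f : W n → ℝ} (hf : ContDiffOn ℝ ∞ f Ω) {K : ℝ} (z : Ω)
    (hK : ‖iteratedFDeriv ℝ 2 f z‖ ≤ K) (ξ : W n) :
    ‖(U2 hΩ (rl f hf) ξ ξ).1 z‖ ≤ K * ‖ξ‖ ^ 2 := by
  rw [re_eq (cj_U2 hΩ (cj_rl f hf) ξ ξ) z, norm_real, Real.norm_eq_abs]
  have h1 : ((U2 hΩ (rl f hf) ξ ξ).1 z).re
      = (1 / 4) * (D2 f z ξ ξ + D2 f z (I • ξ) (I • ξ)) := by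
    have := lev_eq4 hΩ hf z ξ
    rw [lev333_eq] at this
    linarith
  rw [h1, abs_mul]
  have nI : ∀ v : W n, ‖I • v‖ = ‖v‖ := fun v => by rw [norm_smul, norm_I, one_mul]
  have b1 := norm_D2_le hK ξ ξ
  have b2 := norm_D2_le hK (I • ξ) (I • ξ)
  rw [nI] at b2
  have b3 := abs_add_le (D2 f z ξ ξ) (D2 f z (I • ξ) (I • ξ))
  have hK0 : 0 ≤ K := (norm_nonneg _).trans hK
  have b4 : 0 ≤ K * ‖ξ‖ ^ 2 := by positivity
  rw [abs_of_pos (show (0 : ℝ) < 1 / 4 by norm_num)]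
  nlinarith

/-- the real derivative of a component of the complex Hessian -/
theorem norm_dr_U2_le (hΩ : IsOpen Ω) {u : Sm Ω} (hu : cj u = u) {C : ℝ} (z : Ω)
    (hC : ∀ ξ ζ η : W n, ‖(U3 hΩ u ξ ζ η).1 z‖ ≤ C * ‖ξ‖ * ‖ζ‖ * ‖η‖) (v : W n)
    (a b : Fin n) : ‖dr v (ex (U2 hΩ u (eb n a) (eb n b)).1) z‖ ≤ 2 * C * ‖v‖ := by
  have h1 : dr v (ex (U2 hΩ u (eb n a) (eb n b)).1) z
      = (U3 hΩ u v (eb n a) (eb n b)).1 z + conj ((U3 hΩ u v (eb n b) (eb n a)).1 z) := by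
    have e1 : (U3 hΩ u v (eb n a) (eb n b)).1 z = dz v (ex (U2 hΩ u (eb n a) (eb n b)).1) z :=
      D_apply hΩ v _ z
    have e2 : conj ((U3 hΩ u v (eb n b) (eb n a)).1 z)
        = db v (ex (U2 hΩ u (eb n a) (eb n b)).1) z := by
      rw [← B_apply hΩ v _ z, ← cj_apply, U3]
      have : cj (D hΩ v (D hΩ (eb n b) (B hΩ (eb n a) u)))
          = B hΩ v (U2 hΩ u (eb n a) (eb n b)) := by
        rw [← B_cj]
        congr 1
        exact cj_U2 hΩ hu (eb n b) (eb n a)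
      rw [this]
    rw [e1, e2, dz_dab, db_dab, dab, dab]
    ring
  rw [h1]
  refine (norm_add_le _ _).trans ?_
  rw [norm_conj]
  have b1 := hC v (eb n a) (eb n b)
  have b2 := hC v (eb n b) (eb n a)
  rw [norm_eb, norm_eb, mul_one, mul_one] at b1 b2
  linarith

/-- **`C3Stmt`** : Calabi's interior third order estimate -/
theorem c3Stmt : C3Stmt := by
  intro n r lo hi K hr hlo
  obtain ⟨C, hC0, hC⟩ := calabi n r (lo / 4) (max hi 0 / 4) (max K 0) hr (by positivity)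
    (le_max_right _ _) (by positivity)
  refine ⟨2 * C, ?_⟩
  intro z₀ u f hu hf hlev hdet hb z hz a b
  have hΩ : IsOpen (Metric.ball z₀ r) := Metric.isOpen_ball
  let d : Dat hΩ (eb n) (lo / 4) (max hi 0 / 4) (max K 0) :=
    { u := rl u hu
      F := rl f hf
      eps := 0
      c0 := 1
      hu := cj_rl u hu
      c0pos := one_pos
      heps := by simp
      det := by
        intro w
        rw [det_eq hΩ hu w, hdet w w.2, rl_apply]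
        simp
      low := by
        intro w ξ
        have h1 := (hlev w w.2 ξ).1
        rw [lev_eq4 hΩ hu w ξ] at h1
        linarith
      upp := by
        intro w ξ
        have h1 := (hlev w w.2 ξ).2
        rw [lev_eq4 hΩ hu w ξ] at h1
        have h2 : hi * ‖ξ‖ ^ 2 ≤ max hi 0 * ‖ξ‖ ^ 2 :=
          mul_le_mul_of_nonneg_right (le_max_left _ _) (sq_nonneg _)
        linarith
      F2 := by
        intro w ξ
        exact norm_U2_le hΩ hf w ((hb w w.2 2 (by norm_num) (by norm_num)).trans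
          (le_max_left _ _)) ξ
      F3 := by
        intro w ξ ζ η
        exact norm_U3_le hΩ hf w ((hb w w.2 3 (by norm_num) (by norm_num)).trans
          (le_max_left _ _)) ξ ζ η }
  have hz' : z ∈ Metric.ball z₀ r := Metric.ball_subset_ball (by linarith) hz
  have h1 : ∀ ξ ζ η : W n, ‖(U3 hΩ d.u ξ ζ η).1 ⟨z, hz'⟩‖ ≤ C * ‖ξ‖ * ‖ζ‖ * ‖η‖ :=
    hC z₀ hΩ d ⟨z, hz'⟩ (le_of_lt hz)
  refine ContinuousLinearMap.opNorm_le_bound _ (by positivity) fun v => ?_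
  have h2 := norm_dr_U2_le hΩ (cj_rl u hu) ⟨z, hz'⟩ h1 v a b
  have h3 : dr v (ex (U2 hΩ (rl u hu) (eb n a) (eb n b)).1) z
      = fderiv ℝ (fun w => cH u w a b) z v := by
    show _ = dr v (fun w => cH u w a b) z
    refine dr_congr hΩ (fun w hw => ?_) hz' v
    rw [ex_of_mem _ hw, cH_eq hΩ hu ⟨w, hw⟩]
  rw [← h3]
  exact h2


end Crest.Agent.R273.YauC3_812
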