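import Crest.Agent.R273.SchE_152
import Crest.Agent.R273.YauMax_635
import Crest.Agent.R273.YauSchF_635
import Crest.Agent.R273.YauClose_635

-- ▼ part R273/YauQ_635
section

/-!
# R273 (S0416), Part C, YAU (helper635): quadratic estimate for the determinant in Hölder classes

* `two_point` : second differences of a `C²` map with `p'(0) = 0`
* `ho_quad`   : `X = O(α)`, `Y = O(β)` in `C^a`, `β ≤ α` => `p (X + Y) - p X = O(α β)` in `C^a`
* `pd`        : `X ↦ det (1 + X) - 1 - tr X`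
-/

set_option autoImplicit false
set_option linter.unusedSectionVars false

open Set Filter Topology Complex Metric
open scoped ContDiff Matrix ComplexConjugate

namespace Crest.Agent.R273.YauQ_635

open Crest.Agent.R273.SchA_152

noncomputable section

section two

variable {E F : Type*} [NormedAddCommGroup E] [NormedSpace ℝ E] [NormedAddCommGroup F]
  [NormedSpace ℝ F]

theorem exists_bd [ProperSpace E] {F' : Type*} [NormedAddCommGroup F'] {g : E → F'}
    (hg : Continuous g) (R : ℝ) : ∃ C, 0 ≤ C ∧ ∀ x ∈ closedBall (0 : E) R, ‖g x‖ ≤ C := by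
  obtain ⟨C, hC⟩ := (isCompact_closedBall (0 : E) R).exists_bound_of_continuousOn hg.continuousOn
  exact ⟨max C 0, le_max_right _ _, fun x hx => (hC x hx).trans (le_max_left _ _)⟩

theorem two_point [FiniteDimensional ℝ E] {p : E → F} (hp : ContDiff ℝ 2 p)
    (h0 : fderiv ℝ p 0 = 0) (R : ℝ) : ∃ C : ℝ, 0 ≤ C ∧
      ∀ X ∈ closedBall (0 : E) R, ∀ X' ∈ closedBall (0 : E) R, ∀ Y ∈ closedBall (0 : E) R,
      ∀ Y' ∈ closedBall (0 : E) R,
        ‖(p (X + Y) - p X) - (p (X' + Y') - p X')‖ ≤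
          C * ((2 * ‖X‖ + ‖Y‖ + ‖Y'‖) * ‖Y - Y'‖ + ‖Y'‖ * ‖X - X'‖) := by
  have : ProperSpace E := FiniteDimensional.proper ℝ E
  rcases lt_or_ge R 0 with hR | hR
  · refine ⟨0, le_rfl, fun X hX => ?_⟩
    rw [closedBall_eq_empty.2 hR] at hX
    exact absurd hX (notMem_empty _)
  have hd : Differentiable ℝ p := hp.differentiable (by norm_num)
  have h1 : ContDiff ℝ 1 (fderiv ℝ p) := hp.fderiv_right (by norm_num)
  have hd1 : Differentiable ℝ (fderiv ℝ p) := h1.differentiable (by norm_num)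
  have h2 : Continuous (fun x => fderiv ℝ (fderiv ℝ p) x) := h1.continuous_fderiv (by norm_num)
  obtain ⟨C, hC0, hC⟩ := exists_bd (F' := E →L[ℝ] E →L[ℝ] F) h2 (2 * R)
  have hlip : ∀ x ∈ closedBall (0 : E) (2 * R), ∀ y ∈ closedBall (0 : E) (2 * R),
      ‖fderiv ℝ p x - fderiv ℝ p y‖ ≤ C * ‖x - y‖ := fun x hx y hy =>
    (convex_closedBall (0 : E) (2 * R)).norm_image_sub_le_of_norm_fderiv_le
      (fun w _ => hd1 w) hC hy hx
  have hz : (0 : E) ∈ closedBall (0 : E) (2 * R) := mem_closedBall_self (by linarith)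
  have hb : ∀ x ∈ closedBall (0 : E) (2 * R), ‖fderiv ℝ p x‖ ≤ C * ‖x‖ := by
    intro x hx
    have := hlip x hx 0 hz
    rwa [h0, sub_zero, sub_zero] at this
  -- first order differences
  have hA : ∀ A ∈ closedBall (0 : E) (2 * R), ∀ B ∈ closedBall (0 : E) (2 * R),
      ‖p A - p B‖ ≤ C * (‖A‖ + ‖B‖) * ‖A - B‖ := by
    intro A hA B hB
    rw [mem_closedBall_zero_iff] at hA hB
    set ρ : ℝ := max ‖A‖ ‖B‖ with hρ
    have hρR : ρ ≤ 2 * R := max_le hA hB
    have hρs : ρ ≤ ‖A‖ + ‖B‖ := max_le (by linarith [norm_nonneg B]) (by linarith [norm_nonneg A])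
    have h3 : ‖p A - p B‖ ≤ C * ρ * ‖A - B‖ := by
      refine (convex_closedBall (0 : E) ρ).norm_image_sub_le_of_norm_fderiv_le
        (fun w _ => hd w) (fun w hw => ?_) (mem_closedBall_zero_iff.2 (le_max_right _ _))
        (mem_closedBall_zero_iff.2 (le_max_left _ _))
      rw [mem_closedBall_zero_iff] at hw
      exact (hb w (mem_closedBall_zero_iff.2 (hw.trans hρR))).trans
        (mul_le_mul_of_nonneg_left hw hC0)
    refine h3.trans (mul_le_mul_of_nonneg_right ?_ (norm_nonneg _))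
    exact mul_le_mul_of_nonneg_left hρs hC0
  refine ⟨C, hC0, fun X hX X' hX' Y hY Y' hY' => ?_⟩
  rw [mem_closedBall_zero_iff] at hX hX' hY hY'
  have hsum : ∀ U W : E, ‖U‖ ≤ R → ‖W‖ ≤ R → U + W ∈ closedBall (0 : E) (2 * R) := by
    intro U W hU hW
    rw [mem_closedBall_zero_iff]
    exact (norm_add_le _ _).trans (by linarith)
  have e1 : (p (X + Y) - p X) - (p (X' + Y') - p X') =
      (p (X + Y) - p (X + Y')) + ((p (X + Y') - p X) - (p (X' + Y') - p X')) := by abel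
  have t1 : ‖p (X + Y) - p (X + Y')‖ ≤ C * ((2 * ‖X‖ + ‖Y‖ + ‖Y'‖) * ‖Y - Y'‖) := by
    have h3 := hA (X + Y) (hsum X Y hX hY) (X + Y') (hsum X Y' hX hY')
    rw [add_sub_add_left_eq_sub] at h3
    refine h3.trans ?_
    rw [mul_assoc]
    refine mul_le_mul_of_nonneg_left (mul_le_mul_of_nonneg_right ?_ (norm_nonneg _)) hC0
    linarith [norm_add_le X Y, norm_add_le X Y']
  have t2 : ‖(p (X + Y') - p X) - (p (X' + Y') - p X')‖ ≤ C * (‖Y'‖ * ‖X - X'‖) := by
    have hq : ∀ Z ∈ closedBall (0 : E) R, HasFDerivAt (fun Z => p (Z + Y') - p Z)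
        (fderiv ℝ p (Z + Y') - fderiv ℝ p Z) Z := by
      intro Z _
      have g1 : HasFDerivAt (fun Z => p (Z + Y')) (fderiv ℝ p (Z + Y')) Z := by
        have g0 := HasFDerivAt.comp (g := p) (f := fun Z : E => Z + Y') Z
          (hd (Z + Y')).hasFDerivAt ((hasFDerivAt_id Z).add_const Y')
        rw [ContinuousLinearMap.comp_id] at g0
        exact g0
      exact g1.sub (hd Z).hasFDerivAt
    have h4 : ‖(fun Z => p (Z + Y') - p Z) X - (fun Z => p (Z + Y') - p Z) X'‖ ≤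
        (C * ‖Y'‖) * ‖X - X'‖ := by
      refine (convex_closedBall (0 : E) R).norm_image_sub_le_of_norm_fderiv_le
        (fun w hw => (hq w hw).differentiableAt) (fun w hw => ?_)
        (mem_closedBall_zero_iff.2 hX') (mem_closedBall_zero_iff.2 hX)
      rw [(hq w hw).fderiv]
      rw [mem_closedBall_zero_iff] at hw
      have h5 := hlip (w + Y') (hsum w Y' hw hY') w
        (mem_closedBall_zero_iff.2 (hw.trans (by linarith)))
      rwa [add_sub_cancel_left] at h5
    calc _ ≤ (C * ‖Y'‖) * ‖X - X'‖ := h4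
      _ = C * (‖Y'‖ * ‖X - X'‖) := by ring
  rw [e1]
  calc _ ≤ _ := norm_add_le _ _
    _ ≤ C * ((2 * ‖X‖ + ‖Y‖ + ‖Y'‖) * ‖Y - Y'‖) + C * (‖Y'‖ * ‖X - X'‖) := add_le_add t1 t2
    _ = _ := by ring

/-- quadratic estimate in Hölder classes -/
theorem ho_quad [FiniteDimensional ℝ E] {p : E → F} (hp : ContDiff ℝ 2 p)
    (h0 : fderiv ℝ p 0 = 0) (R : ℝ) : ∃ C : ℝ, 0 ≤ C ∧
      ∀ {Z : Type*} [NormedAddCommGroup Z] {s : Set Z} {a α β : ℝ} {X Y : Z → E},
        0 ≤ β → β ≤ α → α ≤ R → HO a α s X → HO a β s Y →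
        HO a (C * α * β) s (fun z => p (X z + Y z) - p (X z)) := by
  obtain ⟨C, hC0, hC⟩ := two_point hp h0 R
  refine ⟨5 * C, by positivity, fun {Z} _ {s a α β X Y} hβ0 hβ hα hX hY => ?_⟩
  have hα0 : 0 ≤ α := hβ0.trans hβ
  have hXR : ∀ z ∈ s, X z ∈ closedBall (0 : E) R := fun z hz =>
    mem_closedBall_zero_iff.2 ((hX.bdd z hz).trans hα)
  have hYR : ∀ z ∈ s, Y z ∈ closedBall (0 : E) R := fun z hz =>
    mem_closedBall_zero_iff.2 ((hY.bdd z hz).trans (hβ.trans hα))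
  have hz0 : (0 : E) ∈ closedBall (0 : E) R := mem_closedBall_self (hα0.trans hα)
  refine ⟨fun z hz => ?_, fun z hz w hw => ?_⟩
  · have h1 := hC (X z) (hXR z hz) (X z) (hXR z hz) (Y z) (hYR z hz) 0 hz0
    simp only [add_zero, sub_self, sub_zero, norm_zero, zero_mul] at h1
    refine h1.trans ?_
    have h2 := hX.bdd z hz
    have h3 := hY.bdd z hz
    have h4 : (2 * ‖X z‖ + ‖Y z‖) * ‖Y z‖ ≤ (3 * α) * β :=
      mul_le_mul (by linarith) h3 (norm_nonneg _) (by positivity)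
    calc C * ((2 * ‖X z‖ + ‖Y z‖) * ‖Y z‖) ≤ C * ((3 * α) * β) :=
          mul_le_mul_of_nonneg_left h4 hC0
      _ = 3 * (C * α * β) := by ring
      _ ≤ 5 * (C * α * β) := by nlinarith [mul_nonneg (mul_nonneg hC0 hα0) hβ0]
      _ = 5 * C * α * β := by ring
  · have h1 := hC (X z) (hXR z hz) (X w) (hXR w hw) (Y z) (hYR z hz) (Y w) (hYR w hw)
    refine h1.trans ?_
    have h2 := hX.bdd z hz
    have h3 := hY.bdd z hz
    have h3' := hY.bdd w hw
    have h5 := hX.hol z hz w hw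
    have h6 := hY.hol z hz w hw
    set τ : ℝ := ‖z - w‖ ^ a with hτ
    have hτ0 : 0 ≤ τ := Real.rpow_nonneg (norm_nonneg _) _
    have h7 : (2 * ‖X z‖ + ‖Y z‖ + ‖Y w‖) * ‖Y z - Y w‖ ≤ (4 * α) * (β * τ) :=
      mul_le_mul (by linarith) h6 (norm_nonneg _) (by positivity)
    have h8 : ‖Y w‖ * ‖X z - X w‖ ≤ β * (α * τ) :=
      mul_le_mul h3' h5 (norm_nonneg _) hβ0
    calc _ ≤ C * ((4 * α) * (β * τ) + β * (α * τ)) :=
          mul_le_mul_of_nonneg_left (add_le_add h7 h8) hC0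
      _ = _ := by ring

end two

/-! ### algebra of Hölder classes -/

section alg

variable {X : Type*} [NormedAddCommGroup X] {a M N : ℝ} {s : Set X}

theorem ho_mul {R : Type*} [NormedRing R] {f g : X → R} (hM : 0 ≤ M) (hN : 0 ≤ N)
    (hf : HO a M s f) (hg : HO a N s g) : HO a (2 * M * N) s (fun z => f z * g z) := by
  refine ⟨fun z hz => ?_, fun z hz w hw => ?_⟩
  · refine (norm_mul_le _ _).trans ?_
    have := mul_le_mul (hf.bdd z hz) (hg.bdd z hz) (norm_nonneg _) hM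
    nlinarith [mul_nonneg hM hN]
  · have e : f z * g z - f w * g w = f z * (g z - g w) + (f z - f w) * g w := by noncomm_ring
    rw [e]
    have hτ0 : 0 ≤ ‖z - w‖ ^ a := Real.rpow_nonneg (norm_nonneg _) _
    calc _ ≤ ‖f z * (g z - g w)‖ + ‖(f z - f w) * g w‖ := norm_add_le _ _
      _ ≤ ‖f z‖ * ‖g z - g w‖ + ‖f z - f w‖ * ‖g w‖ :=
        add_le_add (norm_mul_le _ _) (norm_mul_le _ _)
      _ ≤ M * (N * ‖z - w‖ ^ a) + (M * ‖z - w‖ ^ a) * N :=
        add_le_add (mul_le_mul (hf.bdd z hz) (hg.hol z hz w hw) (norm_nonneg _) hM)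
          (mul_le_mul (hf.hol z hz w hw) (hg.bdd w hw) (norm_nonneg _)
            (mul_nonneg hM hτ0))
      _ = 2 * M * N * ‖z - w‖ ^ a := by ring

theorem ho_sum {ι F : Type*} [NormedAddCommGroup F] {f : ι → X → F} (t : Finset ι)
    (hf : ∀ i ∈ t, HO a M s (f i)) : HO a (t.card * M) s (fun z => ∑ i ∈ t, f i z) := by
  refine ⟨fun z hz => ?_, fun z hz w hw => ?_⟩
  · refine (norm_sum_le _ _).trans ((Finset.sum_le_sum fun i hi => (hf i hi).bdd z hz).trans ?_)
    simp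
  · rw [← Finset.sum_sub_distrib]
    refine (norm_sum_le _ _).trans
      ((Finset.sum_le_sum fun i hi => (hf i hi).hol z hz w hw).trans ?_)
    simp [mul_assoc]

theorem ho_pi {ι : Type*} [Fintype ι] {F : Type*} [NormedAddCommGroup F] {f : ι → X → F}
    (hM : 0 ≤ M) (hf : ∀ i, HO a M s (f i)) : HO a M s (fun z i => f i z) := by
  refine ⟨fun z hz => (pi_norm_le_iff_of_nonneg hM).2 fun i => (hf i).bdd z hz,
    fun z hz w hw => (pi_norm_le_iff_of_nonneg
      (mul_nonneg hM (Real.rpow_nonneg (norm_nonneg _) _))).2 fun i => (hf i).hol z hz w hw⟩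

theorem ho_clm {E F : Type*} [NormedAddCommGroup E] [NormedSpace ℝ E] [NormedAddCommGroup F]
    [NormedSpace ℝ F] {f : X → E} (L : E → F) {c : ℝ} (hc : 0 ≤ c)
    (hL0 : ∀ x, ‖L x‖ ≤ c * ‖x‖) (hL : ∀ x y, L x - L y = L (x - y)) (hf : HO a M s f) :
    HO a (c * M) s (fun z => L (f z)) := by
  refine ⟨fun z hz => (hL0 _).trans (mul_le_mul_of_nonneg_left (hf.bdd z hz) hc),
    fun z hz w hw => ?_⟩
  rw [hL, mul_assoc]
  exact (hL0 _).trans (mul_le_mul_of_nonneg_left (hf.hol z hz w hw) hc)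

end alg

/-! ### the determinant -/

section det

variable {n : ℕ}

/-- matrices with the sup norm -/
abbrev VC (n : ℕ) : Type := Fin n → Fin n → ℂ

/-- `det (1 + X) - 1 - tr X` -/
def pd (X : VC n) : ℂ := (1 + Matrix.of X).det - 1 - (Matrix.of X).trace

theorem contDiff_pd : ContDiff ℝ ∞ (pd (n := n)) := by
  have h1 : ∀ a b : Fin n, ContDiff ℝ ∞ (fun X : VC n => X a b) := fun a b =>
    contDiff_apply_apply ℝ ℂ a b
  have h2 : ContDiff ℝ ∞ (fun X : VC n => (1 + Matrix.of X).det) := by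
    simp only [Matrix.det_apply']
    refine ContDiff.sum fun σ _ => contDiff_const.mul ?_
    refine contDiff_prod fun a _ => ?_
    exact contDiff_const.add (h1 _ _)
  have h3 : ContDiff ℝ ∞ (fun X : VC n => (Matrix.of X).trace) := by
    simp only [Matrix.trace, Matrix.diag_apply, Matrix.of_apply]
    exact ContDiff.sum fun a _ => h1 a a
  exact (h2.sub contDiff_const).sub h3


theorem fderiv_pd : fderiv ℝ (pd (n := n)) 0 = 0 := by
  have hd : DifferentiableAt ℝ (pd (n := n)) 0 :=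
    (contDiff_pd.differentiable (by simp)) 0
  ext1 B
  have h1 : HasDerivAt (fun t : ℝ => pd (t • B)) (fderiv ℝ (pd (n := n)) 0 B) 0 := by
    have h2 : HasDerivAt (fun t : ℝ => t • B) B 0 := by
      simpa using (hasDerivAt_id (0 : ℝ)).smul_const B
    have h3 : HasFDerivAt (pd (n := n)) (fderiv ℝ (pd (n := n)) 0) ((0 : ℝ) • B) := by
      rw [zero_smul]
      exact hd.hasFDerivAt
    exact h3.comp_hasDerivAt (0 : ℝ) h2
  have h4 : HasDerivAt (fun t : ℝ => pd (t • B)) 0 0 := by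
    set q : Polynomial ℂ := ((1 + (Polynomial.X : Polynomial ℂ) •
      (Matrix.of B).map Polynomial.C).det).divX.divX with hq
    have h5 : ∀ t : ℝ, pd (t • B) = q.eval (t : ℂ) * (t : ℂ) ^ 2 := by
      intro t
      have h6 : Matrix.of (t • B) = (t : ℂ) • Matrix.of B := by
        ext a b
        simp
      rw [pd, h6, Matrix.det_one_add_smul, Matrix.trace_smul]
      simp only [smul_eq_mul, hq]
      ring
    have h7 : (fun t : ℝ => pd (t • B)) = fun t : ℝ => q.eval (t : ℂ) * (t : ℂ) ^ 2 :=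
      funext h5
    rw [h7]
    have h8 : HasDerivAt (fun t : ℂ => q.eval t * t ^ 2) 0 ((0 : ℝ) : ℂ) := by
      have h9 := (q.hasDerivAt ((0 : ℝ) : ℂ)).mul (hasDerivAt_pow 2 ((0 : ℝ) : ℂ))
      exact h9.congr_deriv (by simp)
    exact h8.comp_ofReal
  simpa using h1.unique h4

/-- the quadratic estimate for the determinant -/
theorem ho_det (n : ℕ) (R : ℝ) : ∃ C : ℝ, 0 ≤ C ∧
      ∀ {Z : Type} [NormedAddCommGroup Z] {s : Set Z} {a α β : ℝ} {X Y : Z → VC n},
        0 ≤ β → β ≤ α → α ≤ R → HO a α s X → HO a β s Y →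
        HO a (C * α * β) s (fun z => (1 + Matrix.of (X z) + Matrix.of (Y z)).det -
          (1 + Matrix.of (X z)).det - (Matrix.of (Y z)).trace) := by
  obtain ⟨C, hC0, hC⟩ := ho_quad (E := VC n) (contDiff_pd.of_le Crest.Agent.R273.YauCh_635.two_le_inf) fderiv_pd R
  refine ⟨C, hC0, fun {Z} _ {s a α β X Y} h1 h2 h3 hX hY => ?_⟩
  refine (hC h1 h2 h3 hX hY).congr fun z _ => ?_
  have e : Matrix.of (X z + Y z) = Matrix.of (X z) + Matrix.of (Y z) := rfl
  simp only [pd, e, Matrix.trace_add, ← add_assoc]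
  ring

end det

end

end Crest.Agent.R273.YauQ_635
end

-- ▼ part R273/YauPf_635

/-!
# R273 (S0416), Part C, YAU (helper635): the Monge-Ampere operator on `M`

* `pr H φ v i z` = `det (∂∂̄ (pot φ + v)) / det (∂∂̄ pot φ)` in the chart `i`; `Pf` : the function on `M`
* `lr H φ w i z` = `tr ((∂∂̄ pot φ)⁻¹ ∂∂̄ w)`; `Lf` : the function on `M`
* `Pf_eq`, `Lf_eq` (chart independence), `Pf_sm`, `Lf_sm`
* `pr_quad` : quadratic estimate on one closed ball
-/

set_option autoImplicit false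
set_option linter.unusedSectionVars false

open Set Filter Topology Complex Metric
open scoped ContDiff Matrix ComplexConjugate ComplexOrder

namespace Crest.Agent.R273.YauPf_635

open Crest.Agent.R275.Geo Crest.Agent.R275.Core144 Crest.Agent.R275.GC293
open Crest.Agent.R273.Defs_333 Crest.Agent.R273.YauDefs_635 Crest.Agent.R273.HM_333
open Crest.Agent.R273.YauCh_635 Crest.Agent.R273.Hess_333 Crest.Agent.R273.HessB_333
open Crest.Agent.R273.Kah_333 Crest.Agent.R273.YauMax_635 Crest.Agent.R273.YauLoc_635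
open Crest.Agent.R273.SchA_152 Crest.Agent.R273.SchD_152 Crest.Agent.R273.YauQ_635
open Crest.Agent.R273.YauSchF_635 Crest.Agent.R273.YauClose_635

noncomputable section

section Mat

variable {n : ℕ} {m : Type*} [Fintype m] [DecidableEq m] {E : Type*} [NormedAddCommGroup E]
  [NormedSpace ℝ E]

theorem contDiffOn_det {f : E → Matrix m m ℂ} {U : Set E}
    (h : ∀ a b, ContDiffOn ℝ ∞ (fun z => f z a b) U) : ContDiffOn ℝ ∞ (fun z => (f z).det) U := by
  simp only [Matrix.det_apply']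
  exact ContDiffOn.sum fun σ _ => contDiffOn_const.mul (contDiffOn_prod fun a _ => h _ _)

theorem contDiffOn_inv {f : E → Matrix m m ℂ} {U : Set E}
    (h : ∀ a b, ContDiffOn ℝ ∞ (fun z => f z a b) U) (h0 : ∀ z ∈ U, (f z).det ≠ 0) (a b : m) :
    ContDiffOn ℝ ∞ (fun z => (f z)⁻¹ a b) U := by
  have h1 : ContDiffOn ℝ ∞ (fun z => (f z).det⁻¹ * (f z).adjugate a b) U := by
    refine ((contDiffOn_det h).inv h0).mul ?_
    simp only [Matrix.adjugate_apply]
    refine contDiffOn_det fun c d => ?_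
    rcases eq_or_ne c b with rfl | hc
    · simp only [Matrix.updateRow_self]
      exact contDiffOn_const
    · simp only [Matrix.updateRow_ne hc]
      exact h c d
  refine h1.congr fun z hz => ?_
  rw [Matrix.inv_def, Ring.inverse_eq_inv', Matrix.smul_apply, smul_eq_mul]

theorem det_conj_ratio {J B C : Matrix m m ℂ} (hJ : J.det ≠ 0) :
    (Jᵀ * B * J.map conj).det / (Jᵀ * C * J.map conj).det = B.det / C.det := by
  have h2 : (J.map conj).det = conj J.det := by
    rw [← RingHom.mapMatrix_apply, ← RingHom.map_det]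
  have h3 : conj J.det ≠ 0 := by simpa using hJ
  rw [Matrix.det_mul, Matrix.det_mul, Matrix.det_mul, Matrix.det_mul, Matrix.det_transpose, h2]
  field_simp

theorem trace_conj {J B C : Matrix m m ℂ} (hJ : J.det ≠ 0) :
    ((Jᵀ * C * J.map conj)⁻¹ * (Jᵀ * B * J.map conj)).trace = (C⁻¹ * B).trace := by
  have h2 : (J.map conj).det = conj J.det := by
    rw [← RingHom.mapMatrix_apply, ← RingHom.map_det]
  have h3 : IsUnit (J.map conj).det := by
    rw [h2, isUnit_iff_ne_zero]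
    simpa using hJ
  have h4 : IsUnit (Jᵀ).det := by
    rw [Matrix.det_transpose, isUnit_iff_ne_zero]
    exact hJ
  rw [Matrix.mul_inv_rev, Matrix.mul_inv_rev]
  calc _ = ((J.map conj)⁻¹ * (C⁻¹ * (((Jᵀ)⁻¹ * Jᵀ) * B)) * J.map conj).trace := by
        simp only [Matrix.mul_assoc]
    _ = (C⁻¹ * B).trace := by
        rw [Matrix.nonsing_inv_mul _ h4, Matrix.one_mul, Matrix.trace_mul_comm, ← Matrix.mul_assoc,
          Matrix.mul_nonsing_inv _ h3, Matrix.one_mul]

theorem det_add_ratio {G V : Matrix m m ℂ} (hG : G.det ≠ 0) :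
    (G + V).det / G.det = (1 + G⁻¹ * V).det := by
  have h : G + V = G * (1 + G⁻¹ * V) := by
    rw [Matrix.mul_add, Matrix.mul_one, ← Matrix.mul_assoc,
      Matrix.mul_nonsing_inv _ (isUnit_iff_ne_zero.2 hG), Matrix.one_mul]
  rw [h, Matrix.det_mul]
  field_simp

end Mat

variable {n : ℕ} {M : Type} [TopologicalSpace M] {A : Atl n M} {L : LB A}

/-- a chart at `x` -/
def ch (A : Atl n M) (x : M) : A.ι := Classical.choose (A.cover x)

theorem ch_mem (A : Atl n M) (x : M) : x ∈ (A.e (ch A x)).source :=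
  Classical.choose_spec (A.cover x)

/-- the ratio of the determinants in the chart `i` -/
def pr (H : HM L) (φ v : M → ℝ) (i : A.ι) (z : Cn n) : ℝ :=
  ((cH (pot H (fun y => φ y + v y) i) z).det / (cH (pot H φ i) z).det).re

/-- the linearised operator in the chart `i` -/
def lr (H : HM L) (φ w : M → ℝ) (i : A.ι) (z : Cn n) : ℝ :=
  ((cH (pot H φ i) z)⁻¹ * cH (inC A i w) z).trace.re

/-- the ratio of the determinants on `M` -/
def Pf (H : HM L) (φ v : M → ℝ) (x : M) : ℝ := pr H φ v (ch A x) (A.e (ch A x) x)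

/-- the linearised operator on `M` -/
def Lf (H : HM L) (φ w : M → ℝ) (x : M) : ℝ := lr H φ w (ch A x) (A.e (ch A x) x)

theorem det_J {i j : A.ι} {x : M} (hx : x ∈ (A.e i).source ∩ (A.e j).source) :
    (Jm A i j x).det ≠ 0 := by
  rw [← KB_g hx]
  exact (KB A).ne_zero i j x

theorem cH_pot_tr (H : HM L) {φ : M → ℝ} (hφ : A.Sm φ) {i j : A.ι} {x : M}
    (hx : x ∈ (A.e i).source ∩ (A.e j).source) :
    cH (pot H φ i) (A.e i x) =
      (Jm A i j x)ᵀ * cH (pot H φ j) (A.e j x) * (Jm A i j x).map conj := by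
  have key : ∀ k : A.ι, x ∈ (A.e k).source →
      cH (pot H φ k) (A.e k x) = cur (tw H φ hφ) k x := by
    intro k hk
    have hz := (A.e k).map_source hk
    rw [cH_eq_hess (pot_contDiffAt H hφ k hz), hess_pot H hφ k hz, cur_tw H hφ k hk]
    rfl
  rw [key i hx.1, key j hx.2]
  exact cur_tr _ hx

theorem cH_inC_tr {w : M → ℝ} (hw : A.Sm w) {i j : A.ι} {x : M}
    (hx : x ∈ (A.e i).source ∩ (A.e j).source) :
    cH (inC A i w) (A.e i x) =
      (Jm A i j x)ᵀ * cH (inC A j w) (A.e j x) * (Jm A i j x).map conj := by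
  rw [cH_eq_hess (inC_contDiffAt hw i ((A.e i).map_source hx.1)),
    cH_eq_hess (inC_contDiffAt hw j ((A.e j).map_source hx.2))]
  exact hsf_tr hw hx

theorem sm_add {φ v : M → ℝ} (hφ : A.Sm φ) (hv : A.Sm v) : A.Sm (fun y => φ y + v y) :=
  fun i => (hφ i).add (hv i)

theorem Pf_eq (H : HM L) {φ v : M → ℝ} (hφ : A.Sm φ) (hv : A.Sm v) {i : A.ι} {x : M}
    (hx : x ∈ (A.e i).source) : Pf H φ v x = pr H φ v i (A.e i x) := by
  have h := ch_mem A x
  rw [Pf, pr, cH_pot_tr H (sm_add hφ hv) ⟨h, hx⟩, cH_pot_tr H hφ ⟨h, hx⟩,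
    det_conj_ratio (det_J ⟨h, hx⟩), pr]

theorem Lf_eq (H : HM L) {φ w : M → ℝ} (hφ : A.Sm φ) (hw : A.Sm w) {i : A.ι} {x : M}
    (hx : x ∈ (A.e i).source) : Lf H φ w x = lr H φ w i (A.e i x) := by
  have h := ch_mem A x
  rw [Lf, lr, cH_inC_tr hw ⟨h, hx⟩, cH_pot_tr H hφ ⟨h, hx⟩,
    trace_conj (det_J ⟨h, hx⟩), lr]

theorem Pf_read (H : HM L) {φ v : M → ℝ} (hφ : A.Sm φ) (hv : A.Sm v) {i : A.ι} {z : Cn n}
    (hz : z ∈ (A.e i).target) : inC A i (Pf H φ v) z = pr H φ v i z := by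
  rw [inC, Pf_eq H hφ hv ((A.e i).map_target hz), (A.e i).right_inv hz]

theorem Lf_read (H : HM L) {φ w : M → ℝ} (hφ : A.Sm φ) (hw : A.Sm w) {i : A.ι} {z : Cn n}
    (hz : z ∈ (A.e i).target) : inC A i (Lf H φ w) z = lr H φ w i z := by
  rw [inC, Lf_eq H hφ hw ((A.e i).map_target hz), (A.e i).right_inv hz]

theorem posDef_pot {H : HM L} {φ : M → ℝ} (hφ : A.Sm φ) (hK : KPos H φ) {i : A.ι} {z : Cn n}
    (hz : z ∈ (A.e i).target) : (cH (pot H φ i) z).PosDef := by
  rw [cH_eq_hess (pot_contDiffAt H hφ i hz)]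
  exact posDef_hess (pot_contDiffAt H hφ i hz) (hK i z hz)

theorem det_pot_ne {H : HM L} {φ : M → ℝ} (hφ : A.Sm φ) (hK : KPos H φ) {i : A.ι} {z : Cn n}
    (hz : z ∈ (A.e i).target) : (cH (pot H φ i) z).det ≠ 0 :=
  (posDef_pot hφ hK hz).det_pos.ne'

theorem cH_pot_smooth (H : HM L) {φ : M → ℝ} (hφ : A.Sm φ) (i : A.ι) (a b : Fin n) :
    ContDiffOn ℝ ∞ (fun z => cH (pot H φ i) z a b) (A.e i).target :=
  contDiffOn_cH (A.e i).open_target ((wt_smooth H i).add (inC_smooth hφ i)) a b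

theorem Pf_sm {H : HM L} {φ v : M → ℝ} (hφ : A.Sm φ) (hK : KPos H φ) (hv : A.Sm v) :
    A.Sm (Pf H φ v) := by
  intro i
  have h1 : ContDiffOn ℝ ∞ (fun z => (cH (pot H (fun y => φ y + v y) i) z).det *
      ((cH (pot H φ i) z).det)⁻¹) (A.e i).target :=
    (contDiffOn_det (cH_pot_smooth H (sm_add hφ hv) i)).mul
      ((contDiffOn_det (cH_pot_smooth H hφ i)).inv fun z hz => det_pot_ne hφ hK hz)
  refine (Complex.reCLM.contDiff.comp_contDiffOn h1).congr fun z hz => ?_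
  have := Pf_read H hφ hv hz
  simp only [inC] at this
  rw [this, pr, div_eq_mul_inv]
  rfl

theorem Lf_sm {H : HM L} {φ w : M → ℝ} (hφ : A.Sm φ) (hK : KPos H φ) (hw : A.Sm w) :
    A.Sm (Lf H φ w) := by
  intro i
  have h1 : ContDiffOn ℝ ∞ (fun z => ((cH (pot H φ i) z)⁻¹ * cH (inC A i w) z).trace)
      (A.e i).target := by
    simp only [Matrix.trace, Matrix.diag_apply, Matrix.mul_apply]
    refine ContDiffOn.sum fun a _ => ContDiffOn.sum fun b _ => ?_
    exact (contDiffOn_inv (cH_pot_smooth H hφ i) (fun z hz => det_pot_ne hφ hK hz) a b).mul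
      (contDiffOn_cH (A.e i).open_target (inC_smooth hw i) b a)
  refine (Complex.reCLM.contDiff.comp_contDiffOn h1).congr fun z hz => ?_
  have := Lf_read H hφ hw hz
  simp only [inC] at this
  rw [this, lr]
  rfl

theorem cH_add' {u v : Cn n → ℝ} {z : Cn n} (hu : ContDiffAt ℝ ∞ u z) (hv : ContDiffAt ℝ ∞ v z) :
    cH (fun w => u w + v w) z = cH u z + cH v z := by
  rw [cH_eq_hess (hu.add hv), cH_eq_hess hu, cH_eq_hess hv]
  exact hess_add hu hv

theorem cH_pot_add (H : HM L) {φ v : M → ℝ} (hφ : A.Sm φ) (hv : A.Sm v) {i : A.ι} {z : Cn n}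
    (hz : z ∈ (A.e i).target) :
    cH (pot H (fun y => φ y + v y) i) z = cH (pot H φ i) z + cH (inC A i v) z := by
  have e : pot H (fun y => φ y + v y) i = fun w => pot H φ i w + inC A i v w := by
    funext w
    simp only [pot, inC]
    ring
  rw [e, cH_add' (pot_contDiffAt H hφ i hz) (inC_contDiffAt hv i hz)]

theorem pr_eq {H : HM L} {φ v : M → ℝ} (hφ : A.Sm φ) (hK : KPos H φ) (hv : A.Sm v) {i : A.ι}
    {z : Cn n} (hz : z ∈ (A.e i).target) :
    pr H φ v i z = ((1 + (cH (pot H φ i) z)⁻¹ * cH (inC A i v) z).det).re := by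
  rw [pr, cH_pot_add H hφ hv hz, det_add_ratio (det_pot_ne hφ hK hz)]

theorem Pf_zero {H : HM L} {φ : M → ℝ} (hφ : A.Sm φ) (hK : KPos H φ) :
    Pf H φ (fun _ => 0) = fun _ => (1 : ℝ) := by
  funext x
  have h := ch_mem A x
  have hz := (A.e (ch A x)).map_source h
  have e : (fun y => φ y + (fun _ => (0 : ℝ)) y) = φ := by
    funext y
    simp
  rw [Pf, pr, e, div_self (det_pot_ne hφ hK hz), Complex.one_re]

/-! ### the quadratic estimate on one ball -/

/-- linear form of `cH` -/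
def cHL (a b : Fin n) (Q : Cn n →L[ℝ] Cn n →L[ℝ] ℝ) : ℂ :=
  (1 / 4 : ℂ) *
    (((Q (EuclideanSpace.single a 1) (EuclideanSpace.single b 1)
        + Q (EuclideanSpace.single a I) (EuclideanSpace.single b I) : ℝ) : ℂ)
      + I * ((Q (EuclideanSpace.single a 1) (EuclideanSpace.single b I)
        - Q (EuclideanSpace.single a I) (EuclideanSpace.single b 1) : ℝ) : ℂ))

theorem cHL_le (a b : Fin n) (Q : Cn n →L[ℝ] Cn n →L[ℝ] ℝ) : ‖cHL a b Q‖ ≤ 1 * ‖Q‖ := by
  have hQ : ∀ v w : Cn n, ‖v‖ = 1 → ‖w‖ = 1 → |Q v w| ≤ ‖Q‖ := by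
    intro v w hv hw
    have h1 := (Q v).le_opNorm w
    have h2 := Q.le_opNorm v
    rw [hw, mul_one] at h1
    rw [hv, mul_one] at h2
    exact h1.trans h2
  have h1 : ∀ a : Fin n, ‖(EuclideanSpace.single a (1 : ℂ) : Cn n)‖ = 1 := fun a => by simp
  have h2 : ∀ a : Fin n, ‖(EuclideanSpace.single a I : Cn n)‖ = 1 := fun a => by simp
  have a1 := hQ _ _ (h1 a) (h1 b)
  have a2 := hQ _ _ (h2 a) (h2 b)
  have a3 := hQ _ _ (h1 a) (h2 b)
  have a4 := hQ _ _ (h2 a) (h1 b)
  rw [cHL, norm_mul]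
  have e1 : ‖(1 / 4 : ℂ)‖ = 1 / 4 := by norm_num
  rw [e1]
  refine le_trans (mul_le_mul_of_nonneg_left (norm_add_le _ _) (by norm_num)) ?_
  rw [norm_mul, Complex.norm_I, one_mul, Complex.norm_real, Complex.norm_real]
  have b1 := abs_add_le (Q (EuclideanSpace.single a 1) (EuclideanSpace.single b 1))
    (Q (EuclideanSpace.single a I) (EuclideanSpace.single b I))
  have b2 := abs_sub (Q (EuclideanSpace.single a 1) (EuclideanSpace.single b I))
    (Q (EuclideanSpace.single a I) (EuclideanSpace.single b 1))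
  simp only [Real.norm_eq_abs]
  linarith

theorem cHL_sub (a b : Fin n) (Q Q' : Cn n →L[ℝ] Cn n →L[ℝ] ℝ) :
    cHL a b Q - cHL a b Q' = cHL a b (Q - Q') := by
  simp only [cHL, _root_.sub_apply]
  push_cast
  ring

theorem ho_cH {u : Cn n → ℝ} {a d : ℝ} {s : Set (Cn n)} (h : HO a d s (fderiv ℝ (fderiv ℝ u)))
    (b c : Fin n) : HO a d s (fun z => cH u z b c) := by
  have := ho_clm (cHL b c) zero_le_one (cHL_le b c) (cHL_sub b c) h
  rw [one_mul] at this
  exact this

theorem ho_re {X : Type*} [NormedAddCommGroup X] {a N : ℝ} {s : Set X} {f : X → ℂ}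
    (h : HO a N s f) : HO a N s (fun z => (f z).re) :=
  ⟨fun z hz => (Complex.abs_re_le_norm _).trans (h.bdd z hz), fun z hz w hw => by
    rw [← Complex.sub_re]
    exact (Complex.abs_re_le_norm _).trans (h.hol z hz w hw)⟩

theorem pr_quad {H : HM L} {φ : M → ℝ} (hφ : A.Sm φ) (hK : KPos H φ) {i : A.ι} {z₀ : Cn n} {R : ℝ}
    (hR : R ≤ 1) (hRt : closedBall z₀ R ⊆ (A.e i).target) : ∃ C : ℝ, 0 ≤ C ∧
      ∀ (δ d : ℝ) (v w : M → ℝ), 0 ≤ d → d ≤ δ → δ ≤ 1 → A.Sm v → A.Sm w →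
        C2A (1 / 2) δ (closedBall z₀ R) (inC A i v) → C2A (1 / 2) d (closedBall z₀ R) (inC A i w) →
        HO (1 / 2) (C * δ * d) (closedBall z₀ R) (fun z =>
          pr H φ (fun y => v y + w y) i z - pr H φ v i z - lr H φ w i z) := by
  have hinv : ∀ a b : Fin n, ∃ V, HO (1 / 2) V (closedBall z₀ R)
      (fun z => (cH (pot H φ i) z)⁻¹ a b) := fun a b =>
    ho_c1 (A.e i).open_target ((contDiffOn_inv (cH_pot_smooth H hφ i)
      (fun z hz => det_pot_ne hφ hK hz) a b).of_le (by simp)) hR hRt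
  choose V hV using hinv
  set K : ℝ := ∑ a, ∑ b, |V a b| with hKdef
  have hK0 : 0 ≤ K := Finset.sum_nonneg fun a _ => Finset.sum_nonneg fun b _ => abs_nonneg _
  have hVK : ∀ a b, V a b ≤ K := fun a b =>
    (le_abs_self _).trans ((Finset.single_le_sum (f := fun b => |V a b|)
      (fun b _ => abs_nonneg _) (Finset.mem_univ b)).trans
      (Finset.single_le_sum (f := fun a => ∑ b, |V a b|)
        (fun a _ => Finset.sum_nonneg fun b _ => abs_nonneg _) (Finset.mem_univ a)))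
  have hprod : ∀ (d : ℝ) (w : M → ℝ), 0 ≤ d → C2A (1 / 2) d (closedBall z₀ R) (inC A i w) →
      HO (1 / 2) (n * (2 * K) * d) (closedBall z₀ R) (fun z (a b : Fin n) =>
        ((cH (pot H φ i) z)⁻¹ * cH (inC A i w) z) a b) := by
    intro d w hd hw
    refine ho_pi (by positivity) fun a => ho_pi (by positivity) fun b => ?_
    simp only [Matrix.mul_apply]
    have h1 := ho_sum (Finset.univ : Finset (Fin n)) (a := 1 / 2) (M := 2 * K * d)
      (s := closedBall z₀ R)
      (f := fun l z => (cH (pot H φ i) z)⁻¹ a l * cH (inC A i w) z l b)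
      (fun l _ => ho_mul hK0 hd ((hV a l).mono (hVK a l)) (ho_cH hw.h2 l b))
    rw [Finset.card_univ, Fintype.card_fin] at h1
    exact h1.mono (by ring_nf; rfl)
  obtain ⟨C, hC0, hC⟩ := ho_det n (n * (2 * K))
  refine ⟨C * (n * (2 * K)) * (n * (2 * K)), by positivity,
    fun δ d v w hd hdδ hδ hv hw hv2 hw2 => ?_⟩
  have hδ0 : 0 ≤ δ := hd.trans hdδ
  have hX := hprod δ v hδ0 hv2
  have hY := hprod d w hd hw2
  have hq := hC (α := n * (2 * K) * δ) (β := n * (2 * K) * d) (by positivity)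
    (mul_le_mul_of_nonneg_left hdδ (by positivity))
    (by
      have : (0 : ℝ) ≤ n * (2 * K) := by positivity
      nlinarith) hX hY
  refine ((ho_re hq).mono (le_of_eq (by ring))).congr fun z hz => ?_
  have hzt := hRt hz
  have hvw : A.Sm (fun y => v y + w y) := sm_add hv hw
  rw [pr_eq hφ hK hvw hzt, pr_eq hφ hK hv hzt, lr]
  have e1 : cH (inC A i (fun y => v y + w y)) z = cH (inC A i v) z + cH (inC A i w) z :=
    cH_add' (inC_contDiffAt hv i hzt) (inC_contDiffAt hw i hzt)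
  rw [e1, Matrix.mul_add, ← add_assoc, ← Complex.sub_re, ← Complex.sub_re]
  rfl

end

end Crest.Agent.R273.YauPf_635
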