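import Crest.Agent.R273.CRegC_933
import Crest.Agent.R273.YauDefs_635
import Crest.Agent.R273.YauPf_635

-- ▼ part R273/CRegD_933
section

/-!
# R273 (S0416), Part C, C-REG (helper933), file D: nonlinear regularity

`Φ(D²u) = f` on the open set `U`, `Φ` smooth, elliptic at `D²u`, `u ∈ C^{2,a}`:
`nonlin_step` : `f ∈ C^{1,a}` ⟹ `u ∈ C^{3,a}`
`nonlin_reg`  : `f ∈ C^{k+1,a}` ⟹ `u ∈ C^{k+3,a}`
`nonlin_smooth` : `f` smooth ⟹ `u` smooth
-/

set_option autoImplicit false

open MeasureTheory Set Filter Metric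
open scoped ContDiff Topology

namespace Crest.Agent.R273.CReg_933

open Crest.Agent.R238 Crest.Agent.R238.Boot

variable {n : ℕ}

/-- matrices as functions, sup norm -/
abbrev VM (n : ℕ) : Type := Fin n → Fin n → ℝ

/-- symmetrised basis matrix -/
noncomputable def Es (i j : Fin n) : VM n := fun k l =>
  (1 / 2 : ℝ) * ((if k = i ∧ l = j then 1 else 0) + (if k = j ∧ l = i then 1 else 0))

theorem norm_Es (i j : Fin n) : ‖(Es i j : VM n)‖ ≤ 1 := by
  refine (pi_norm_le_iff_of_nonneg zero_le_one).2 fun k =>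
    (pi_norm_le_iff_of_nonneg zero_le_one).2 fun l => ?_
  unfold Es
  rw [Real.norm_eq_abs]
  split_ifs <;> norm_num

theorem sum_Es {W : VM n} (hW : ∀ i j, W i j = W j i) : ∑ i, ∑ j, W i j • (Es i j : VM n) = W := by
  funext k l
  have e : (∑ i, ∑ j, W i j • (Es i j : VM n)) k l = ∑ i, ∑ j, W i j * Es i j k l := by
    simp [Finset.sum_apply]
  rw [e]
  have e1 : ∀ i j, W i j * Es i j k l
      = (1 / 2 : ℝ) * ((if k = i then (if l = j then W i j else 0) else 0)
        + (if k = j then (if l = i then W i j else 0) else 0)) := by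
    intro i j
    unfold Es
    rw [ite_and, ite_and]
    calc W i j * ((1 / 2 : ℝ) * ((if k = i then (if l = j then (1:ℝ) else 0) else 0)
          + (if k = j then (if l = i then (1:ℝ) else 0) else 0)))
        = (1 / 2 : ℝ) * (W i j * (if k = i then (if l = j then (1:ℝ) else 0) else 0)
          + W i j * (if k = j then (if l = i then (1:ℝ) else 0) else 0)) := by ring
      _ = _ := by simp only [mul_ite, mul_one, mul_zero]
  simp only [e1, ← Finset.mul_sum, Finset.sum_add_distrib]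
  have e2 : ∑ i, ∑ j, (if k = i then (if l = j then W i j else 0) else 0) = W k l := by
    simp
  have e3 : ∑ i, ∑ j, (if k = j then (if l = i then W i j else 0) else 0) = W l k := by
    simp
  rw [e2, e3, hW l k]
  ring

/-- averaged derivative of `Φ` along the segment from `P` to `Q` -/
noncomputable def cf (Φ : VM n → ℝ) (P Q : VM n) (i j : Fin n) : ℝ :=
  ∫ t in (0:ℝ)..1, fderiv ℝ Φ (P + t • (Q - P)) (Es i j)

theorem cf_cont {Φ : VM n → ℝ} (hΦ : ContDiff ℝ ∞ Φ) (P Q W : VM n) :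
    Continuous fun t : ℝ => fderiv ℝ Φ (P + t • (Q - P)) W := by
  have h1 : Continuous (fderiv ℝ Φ) := hΦ.continuous_fderiv (by simp)
  exact (h1.comp (by fun_prop)).clm_apply continuous_const

theorem cf_sub {Φ : VM n → ℝ} (hΦ : ContDiff ℝ ∞ Φ) {P Q : VM n}
    (hs : ∀ i j, (Q - P) i j = (Q - P) j i) :
    ∑ i, ∑ j, cf Φ P Q i j * (Q - P) i j = Φ Q - Φ P := by
  have h1 : ∀ t : ℝ, HasDerivAt (fun t : ℝ => Φ (P + t • (Q - P)))
      (fderiv ℝ Φ (P + t • (Q - P)) (Q - P)) t := by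
    intro t
    have h2 : HasDerivAt (fun t : ℝ => P + t • (Q - P)) (Q - P) t := by
      simpa using ((hasDerivAt_id t).smul_const (Q - P)).const_add P
    exact ((hΦ.differentiable (by simp)) _).hasFDerivAt.comp_hasDerivAt t h2
  have h3 := intervalIntegral.integral_eq_sub_of_hasDerivAt (a := 0) (b := 1)
    (fun t _ => h1 t) ((cf_cont hΦ P Q (Q - P)).intervalIntegrable _ _)
  simp only [one_smul, zero_smul, add_zero, add_sub_cancel] at h3
  rw [← h3]
  have h4 : ∀ t : ℝ, fderiv ℝ Φ (P + t • (Q - P)) (Q - P)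
      = ∑ i, ∑ j, fderiv ℝ Φ (P + t • (Q - P)) (Es i j) * (Q - P) i j := by
    intro t
    have hW : fderiv ℝ Φ (P + t • (Q - P)) (Q - P) = fderiv ℝ Φ (P + t • (Q - P))
        (∑ i, ∑ j, (Q - P) i j • (Es i j : VM n)) := by rw [sum_Es hs]
    rw [hW, map_sum]
    refine Finset.sum_congr rfl fun i _ => ?_
    rw [map_sum]
    refine Finset.sum_congr rfl fun j _ => ?_
    rw [map_smul, smul_eq_mul, mul_comm]
  simp only [h4]
  rw [intervalIntegral.integral_finsetSum]
  · refine Finset.sum_congr rfl fun i _ => ?_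
    rw [intervalIntegral.integral_finsetSum]
    · refine Finset.sum_congr rfl fun j _ => ?_
      rw [intervalIntegral.integral_mul_const]
      rfl
    · intro j _
      exact ((cf_cont hΦ P Q (Es i j)).mul continuous_const).intervalIntegrable _ _
  · intro i _
    refine Continuous.intervalIntegrable ?_ _ _
    exact continuous_finsetSum _ fun j _ => (cf_cont hΦ P Q (Es i j)).mul continuous_const

theorem cf_diff {Φ : VM n → ℝ} (hΦ : ContDiff ℝ ∞ Φ) {H0 : VM n} {ρ : ℝ} {K : NNReal}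
    (hK : LipschitzOnWith K (fderiv ℝ Φ) (closedBall H0 ρ)) {P Q P' Q' : VM n}
    (hP : P ∈ closedBall H0 ρ) (hQ : Q ∈ closedBall H0 ρ) (hP' : P' ∈ closedBall H0 ρ)
    (hQ' : Q' ∈ closedBall H0 ρ) (i j : Fin n) :
    |cf Φ P Q i j - cf Φ P' Q' i j| ≤ K * (‖P - P'‖ + ‖Q - Q'‖) := by
  unfold cf
  rw [← intervalIntegral.integral_sub ((cf_cont hΦ P Q _).intervalIntegrable _ _)
    ((cf_cont hΦ P' Q' _).intervalIntegrable _ _)]
  have h1 := intervalIntegral.norm_integral_le_of_norm_le_const (a := (0:ℝ)) (b := 1)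
    (f := fun t => fderiv ℝ Φ (P + t • (Q - P)) (Es i j)
      - fderiv ℝ Φ (P' + t • (Q' - P')) (Es i j)) (C := K * (‖P - P'‖ + ‖Q - Q'‖)) ?_
  · simpa using h1
  intro t ht
  rw [uIoc_of_le zero_le_one] at ht
  have ht0 : 0 ≤ t := ht.1.le
  have ht1 : t ≤ 1 := ht.2
  have hc : Convex ℝ (closedBall H0 ρ) := convex_closedBall _ _
  have m1 : P + t • (Q - P) ∈ closedBall H0 ρ := hc.add_smul_sub_mem hP hQ ⟨ht0, ht1⟩
  have m2 : P' + t • (Q' - P') ∈ closedBall H0 ρ := hc.add_smul_sub_mem hP' hQ' ⟨ht0, ht1⟩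
  rw [← sub_apply]
  refine ((fderiv ℝ Φ (P + t • (Q - P)) - fderiv ℝ Φ (P' + t • (Q' - P'))).le_opNorm _).trans ?_
  have h2 := hK.dist_le_mul _ m1 _ m2
  rw [dist_eq_norm, dist_eq_norm] at h2
  have h3 : P + t • (Q - P) - (P' + t • (Q' - P')) = (1 - t) • (P - P') + t • (Q - Q') := by
    module
  have h4 : ‖P + t • (Q - P) - (P' + t • (Q' - P'))‖ ≤ ‖P - P'‖ + ‖Q - Q'‖ := by
    rw [h3]
    refine (norm_add_le _ _).trans (add_le_add ?_ ?_)
    · rw [norm_smul, Real.norm_of_nonneg (by linarith)]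
      nlinarith [norm_nonneg (P - P')]
    · rw [norm_smul, Real.norm_of_nonneg ht0]
      nlinarith [norm_nonneg (Q - Q')]
  calc ‖fderiv ℝ Φ (P + t • (Q - P)) - fderiv ℝ Φ (P' + t • (Q' - P'))‖ * ‖(Es i j : VM n)‖
      ≤ (K * (‖P - P'‖ + ‖Q - Q'‖)) * 1 :=
        mul_le_mul (h2.trans (mul_le_mul_of_nonneg_left h4 K.2)) (norm_Es i j)
          (norm_nonneg _) (by positivity)
    _ = _ := mul_one _

theorem cf_self (Φ : VM n → ℝ) (P : VM n) (i j : Fin n) :
    cf Φ P P i j = fderiv ℝ Φ P (Es i j) := by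
  simp [cf]

theorem Es_comm (i j : Fin n) : (Es i j : VM n) = Es j i := by
  funext k l
  unfold Es
  ring

theorem cf_comm (Φ : VM n → ℝ) (P Q : VM n) (i j : Fin n) : cf Φ P Q i j = cf Φ P Q j i := by
  unfold cf
  rw [Es_comm]

/-- the Hessian as an element of `VM n` -/
noncomputable def HM2 (u : E n → ℝ) (x : E n) : VM n := fun i j => Hs u x i j

/-- **nonlinear first step** -/
theorem nonlin_step {a : ℝ} (ha : 0 < a) (ha1 : a < 1) {U : Set (E n)} (hU : IsOpen U)
    {u f : E n → ℝ} {Φ : VM n → ℝ} (hΦ : ContDiff ℝ ∞ Φ) (hu : LCK a 2 U u) (hf : LCK a 1 U f)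
    (hpd : ∀ x ∈ U, PD (fun i j => fderiv ℝ Φ (HM2 u x) (Es i j)))
    (heq : ∀ x ∈ U, Φ (HM2 u x) = f x) : LCK a 3 U u := by
  refine three_of_step ha hU hu fun x0 hx0 => ?_
  obtain ⟨R1, hR1, hR1U, v', hv', hev⟩ := hu.repr ha ha1.le hU hx0
  obtain ⟨R2, hR2, hR2U, g', hg', heg⟩ := hf.repr ha ha1.le hU hx0
  obtain ⟨ε, hε, lo, hi, hlo, hlohi, hell⟩ := (hpd x0 hx0).near
  have hv2 : ContDiff ℝ 2 v' := by exact_mod_cast CK.contDiff ha hv'
  have hH0 : HM2 u x0 = HM2 v' x0 := by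
    funext i j
    exact (hs_congr_on isOpen_ball hev (mem_ball_self hR1) i j).symm
  set H0 : VM n := HM2 v' x0 with hH0d
  rw [hH0] at hell
  -- Lipschitz bound of `fderiv Φ`
  have hΦ' : ContDiff ℝ 1 (fderiv ℝ Φ) := (hΦ.fderiv_right (m := ∞) (by simp)).of_le (by simp)
  obtain ⟨K, t, ht, hK⟩ := (hΦ'.contDiffAt (x := H0)).exists_lipschitzOnWith
  obtain ⟨ρ0, hρ0, hρt⟩ := Metric.mem_nhds_iff.1 ht
  set ρ : ℝ := min (ρ0 / 2) (ε / (2 * (K + 1))) with hρ
  have hρpos : 0 < ρ := by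
    have : 0 ≤ (K : ℝ) := K.2
    positivity
  have hKρ : LipschitzOnWith K (fderiv ℝ Φ) (closedBall H0 ρ) := by
    refine hK.mono ((closedBall_subset_ball ?_).trans hρt)
    have := min_le_left (ρ0 / 2) (ε / (2 * ((K : ℝ) + 1)))
    rw [hρ]; linarith
  have hKε : K * (2 * ρ) ≤ ε := by
    have h0 : 0 ≤ (K : ℝ) := K.2
    have h1 : ρ ≤ ε / (2 * ((K : ℝ) + 1)) := min_le_right _ _
    rw [le_div_iff₀ (by positivity)] at h1
    nlinarith [hρpos]
  -- continuity of the Hessian of `v'`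
  obtain ⟨M, hM0, hM⟩ := hb_unif (ι := Fin n × Fin n) (a := a) (F := fun p x => Hs v' x p.1 p.2)
    (fun p => (ck_hs (k := 0) ha hv' p.1 p.2).hb)
  have hHdist : ∀ x y, ‖HM2 v' x - HM2 v' y‖ ≤ M * ‖x - y‖ ^ a := by
    intro x y
    have h0 : 0 ≤ M * ‖x - y‖ ^ a := mul_nonneg hM0 (Real.rpow_nonneg (norm_nonneg _) _)
    refine (pi_norm_le_iff_of_nonneg h0).2 fun i => (pi_norm_le_iff_of_nonneg h0).2 fun j => ?_
    exact (hM (i, j)).2 x y
  obtain ⟨R3, hR3, h3⟩ : ∃ R > 0, ∀ x ∈ ball x0 R, HM2 v' x ∈ closedBall H0 ρ := by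
    have h1 : Tendsto (fun t : ℝ => M * t ^ a) (𝓝 0) (𝓝 0) := by
      have h2 : Continuous fun t : ℝ => M * t ^ a :=
        continuous_const.mul (continuous_id.rpow_const fun _ => Or.inr ha.le)
      have h3 := h2.tendsto 0
      simpa [Real.zero_rpow ha.ne'] using h3
    obtain ⟨δ, hδ, h4⟩ := Metric.tendsto_nhds_nhds.1 h1 ρ hρpos
    refine ⟨δ, hδ, fun x hx => ?_⟩
    rw [mem_closedBall, dist_eq_norm]
    refine (hHdist x x0).trans ?_
    have h5 := h4 (x := ‖x - x0‖) (by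
      rw [dist_zero_right, norm_norm, ← dist_eq_norm]; exact hx)
    rw [dist_zero_right, Real.norm_eq_abs] at h5
    exact (le_abs_self _).trans h5.le
  set R : ℝ := min (min R1 R2) R3 with hRd
  have hR0 : 0 < R := lt_min (lt_min hR1 hR2) hR3
  have hRR1 : R ≤ R1 := (min_le_left _ _).trans (min_le_left _ _)
  have hRR2 : R ≤ R2 := (min_le_left _ _).trans (min_le_right _ _)
  have hRR3 : R ≤ R3 := min_le_right _ _
  set r : ℝ := R / 8 with hr
  have hr0 : 0 < r := by positivity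
  have hb : ball x0 (4 * r) ⊆ ball x0 R := ball_subset_ball (by rw [hr]; linarith)
  have hshift : ∀ z : E n, ‖z‖ ≤ r → ∀ x ∈ ball x0 (4 * r), x + z ∈ ball x0 R := by
    intro z hz x hx
    rw [mem_ball, dist_eq_norm] at hx ⊢
    have h1 : x + z - x0 = (x - x0) + z := by abel
    rw [h1]
    have := norm_add_le (x - x0) z
    rw [hr] at hx hz
    linarith
  have hHs : ∀ x ∈ ball x0 R, HM2 v' x = HM2 u x := fun x hx => by
    funext i j
    exact hs_congr_on isOpen_ball (hev.mono (ball_subset_ball hRR1)) hx i j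
  have hRU : ball x0 R ⊆ U := (ball_subset_ball hRR1).trans hR1U
  have hgg : ∀ x ∈ ball x0 R, g' x = f x := fun x hx => heg (ball_subset_ball hRR2 hx)
  have hmem : ∀ x ∈ ball x0 R, HM2 v' x ∈ closedBall H0 ρ := fun x hx =>
    h3 x (ball_subset_ball hRR3 hx)
  set A : E n → E n → Matrix (Fin n) (Fin n) ℝ := fun z x =>
    cf Φ (HM2 v' x) (HM2 v' (x + z)) with hA
  have hclose : ∀ z, ‖z‖ ≤ r → ∀ x ∈ ball x0 (4 * r), ∀ i j,
      |A z x i j - fderiv ℝ Φ H0 (Es i j)| ≤ ε := by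
    intro z hz x hx i j
    have m0 : H0 ∈ closedBall H0 ρ := mem_closedBall_self hρpos.le
    have m1 := hmem x (hb hx)
    have m2 := hmem (x + z) (hshift z hz x hx)
    have h1 := cf_diff hΦ hKρ m1 m2 m0 m0 i j
    rw [cf_self] at h1
    refine h1.trans (le_trans ?_ hKε)
    rw [mem_closedBall, dist_eq_norm] at m1 m2
    exact mul_le_mul_of_nonneg_left (by linarith) K.2
  obtain ⟨N, hN⟩ := sm_dq (δ := r) hg'
  -- bound of the coefficients
  obtain ⟨B0, hB0⟩ : ∃ B0 : ℝ, ∀ i j, |fderiv ℝ Φ H0 (Es i j)| ≤ B0 :=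
    ⟨‖fderiv ℝ Φ H0‖, fun i j => ((fderiv ℝ Φ H0).le_opNorm _).trans (by
      nlinarith [norm_Es (n := n) i j, norm_nonneg (fderiv ℝ Φ H0)])⟩
  have hAon : ∀ z, ‖z‖ ≤ r → ∀ i j,
      SF.HBon a (|B0| + ε + K * (2 * M)) (ball x0 (4 * r)) (fun x => A z x i j) := by
    intro z hz i j
    have hK0 : 0 ≤ (K : ℝ) := K.2
    refine ⟨fun x hx => ?_, fun x hx y hy => ?_⟩
    · have h1 := hclose z hz x hx i j
      have h2 := hB0 i j
      have h3 : |A z x i j| ≤ |A z x i j - fderiv ℝ Φ H0 (Es i j)|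
          + |fderiv ℝ Φ H0 (Es i j)| := by
        have := abs_add_le (A z x i j - fderiv ℝ Φ H0 (Es i j)) (fderiv ℝ Φ H0 (Es i j))
        simpa using this
      have h4 := le_abs_self B0
      have h5 : 0 ≤ (K : ℝ) * (2 * M) := by positivity
      linarith
    · have h1 := cf_diff hΦ hKρ (hmem x (hb hx)) (hmem (x + z) (hshift z hz x hx))
        (hmem y (hb hy)) (hmem (y + z) (hshift z hz y hy)) i j
      have h2 := hHdist x y
      have h3 := hHdist (x + z) (y + z)
      rw [add_sub_add_right_eq_sub] at h3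
      have hra : 0 ≤ ‖x - y‖ ^ a := Real.rpow_nonneg (norm_nonneg _) _
      refine h1.trans ?_
      calc K * (‖HM2 v' x - HM2 v' y‖ + ‖HM2 v' (x + z) - HM2 v' (y + z)‖)
          ≤ K * (2 * (M * ‖x - y‖ ^ a)) := mul_le_mul_of_nonneg_left (by linarith) hK0
        _ = (K * (2 * M)) * ‖x - y‖ ^ a := by ring
        _ ≤ (|B0| + ε + K * (2 * M)) * ‖x - y‖ ^ a :=
          mul_le_mul_of_nonneg_right (by linarith [abs_nonneg B0]) hra
  have hst : ∀ z, ‖z‖ ≤ r → ∀ x ∈ ball x0 (4 * r),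
      ∑ i, ∑ j, A z x i j * Hs (dq z v') x i j = dq z g' x := by
    intro z hz x hx
    have hx1 := hb hx
    have hx2 := hshift z hz x hx
    have e1 : ∑ i, ∑ j, A z x i j * Hs (dq z v') x i j
        = ∑ i, ∑ j, cf Φ (HM2 v' x) (HM2 v' (x + z)) i j
          * (HM2 v' (x + z) - HM2 v' x) i j := by
      refine Finset.sum_congr rfl fun i _ => Finset.sum_congr rfl fun j _ => ?_
      rw [NL.Hs_dq hv2]
      rfl
    rw [e1, cf_sub hΦ (fun i j => by
      show Hs v' (x + z) i j - Hs v' x i j = Hs v' (x + z) j i - Hs v' x j i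
      rw [Hs_symm hv2, Hs_symm hv2 x]), hHs x hx1, hHs (x + z) hx2, heq x (hRU hx1),
      heq (x + z) (hRU hx2)]
    unfold Boot.dq
    rw [hgg x hx1, hgg (x + z) hx2]
  refine ⟨r / 2, by positivity, (ball_subset_ball (by rw [hr]; linarith)).trans hRU, fun i j => ?_⟩
  obtain ⟨F, hF, hFe⟩ := dq_step ha ha1 hr0 hv' hr0 (A := A) (G := fun z x => dq z g' x)
    (K := |B0| + ε + K * (2 * M)) (N := N) hlo hlohi
    (fun z hz x hx => hell (A z x) (fun i j => cf_comm _ _ _ _ _) (hclose z hz x hx))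
    hAon (fun z hz => SF.hb_on (hN z hz) _) hst i j
  refine ⟨F, hF, fun x hx => ?_⟩
  rw [hFe x hx]
  exact congrFun (congrFun (hHs x (ball_subset_ball (by rw [hr]; linarith) hx)) i) j

/-- composition of the Hessian with a smooth function -/
theorem lck_comp_hs {a : ℝ} (ha : 0 < a) {k : ℕ} {U : Set (E n)} (hU : IsOpen U) {u : E n → ℝ}
    (h : ∀ i j, LCK a k U (fun x => Hs u x i j)) {Θ : VM n → ℝ} (hΘ : ContDiff ℝ ∞ Θ) :
    LCK a k U (fun x => Θ (HM2 u x)) := by
  have h1 := LCK.comp ha (ι := Fin n × Fin n) hU (f := fun p x => Hs u x p.1 p.2)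
    (fun p => h p.1 p.2) (Θ := fun y => Θ (fun i j => y (i, j)))
    (hΘ.comp (contDiff_pi.2 fun i => contDiff_pi.2 fun j => contDiff_apply ℝ ℝ (i, j)))
  exact h1

/-- **nonlinear regularity** -/
theorem nonlin_reg {a : ℝ} (ha : 0 < a) (ha1 : a < 1) {U : Set (E n)} (hU : IsOpen U)
    {u f : E n → ℝ} {Φ : VM n → ℝ} (hΦ : ContDiff ℝ ∞ Φ) (hu : LCK a 2 U u)
    (hpd : ∀ x ∈ U, PD (fun i j => fderiv ℝ Φ (HM2 u x) (Es i j)))
    (heq : ∀ x ∈ U, Φ (HM2 u x) = f x) (k : ℕ) (hf : LCK a (k + 1) U f) :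
    LCK a (k + 3) U u := by
  induction k with
  | zero => exact nonlin_step ha ha1 hU hΦ hu hf hpd heq
  | succ k ih =>
    have h3 : LCK a (k + 3) U u := ih hf.of_succ
    have h33 : LCK a 3 U u := h3.of_le (by omega)
    have hH : ∀ i j, LCK a (k + 1) U (fun x => Hs u x i j) := fun i j =>
      h3.hs ha hU (k := k + 1) i j
    refine ⟨hu.1, hu.2.1, fun e => ?_⟩
    refine lin_reg ha ha1 hU hpd k (g := Boot.pd e f) ((h3.pd e).of_le (by omega))
      (fun i j => ?_) (hf.pd e) fun x hx => ?_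
    · exact lck_comp_hs ha hU hH (Θ := fun y => fderiv ℝ Φ y (Es i j))
        ((hΦ.fderiv_right (m := ∞) (by simp)).clm_apply contDiff_const)
    · have e1 : EqOn (fun x => Φ (HM2 u x)) f U := heq
      rw [← pd_congr hU e1 e hx]
      have hdH : ∀ i j, DifferentiableAt ℝ (fun x => Hs u x i j) x := fun i j =>
        ((hH i j).diff).differentiableAt (hU.mem_nhds hx)
      have h1 : HasFDerivAt (HM2 u) (ContinuousLinearMap.pi fun i =>
          ContinuousLinearMap.pi fun j => fderiv ℝ (fun x => Hs u x i j) x) x :=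
        hasFDerivAt_pi.2 fun i => hasFDerivAt_pi.2 fun j => (hdH i j).hasFDerivAt
      have h2 := ((hΦ.differentiable (by simp)) (HM2 u x)).hasFDerivAt.comp x h1
      unfold Boot.pd
      have h2' : HasFDerivAt (fun x => Φ (HM2 u x)) _ x := h2
      rw [h2'.fderiv, ContinuousLinearMap.comp_apply]
      set W : VM n := (ContinuousLinearMap.pi fun i =>
          ContinuousLinearMap.pi fun j => fderiv ℝ (fun x => Hs u x i j) x) (ee e) with hW
      have hWe : ∀ i j, W i j = Hs (fun x => fderiv ℝ u x (ee e)) x i j := by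
        intro i j
        exact pd_hs_on ha hU h33 e i j hx
      have hc2 : ContDiffOn ℝ 2 (Boot.pd e u) U := LCK.c2 (k := 0) ha hU (h33.pd e)
      have hWs : ∀ i j, W i j = W j i := fun i j => by
        rw [hWe, hWe]
        exact hs_symm_on hU hc2 hx i j
      conv_rhs => rw [← sum_Es hWs]
      rw [map_sum]
      refine Finset.sum_congr rfl fun i _ => ?_
      rw [map_sum]
      refine Finset.sum_congr rfl fun j _ => ?_
      rw [map_smul, smul_eq_mul, mul_comm, hWe]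

theorem nonlin_smooth {a : ℝ} (ha : 0 < a) (ha1 : a < 1) {U : Set (E n)} (hU : IsOpen U)
    {u f : E n → ℝ} {Φ : VM n → ℝ} (hΦ : ContDiff ℝ ∞ Φ) (hu : LCK a 2 U u)
    (hpd : ∀ x ∈ U, PD (fun i j => fderiv ℝ Φ (HM2 u x) (Es i j)))
    (heq : ∀ x ∈ U, Φ (HM2 u x) = f x) (hf : ContDiffOn ℝ ∞ f U) : ContDiffOn ℝ ∞ u U := by
  rw [contDiffOn_infty]
  intro k
  have h1 := nonlin_reg ha ha1 hU hΦ hu hpd heq k (lck_of_contDiffOn ha.le ha1.le hU _ hf)
  exact (h1.contDiffOn ha hU).of_le (by exact_mod_cast Nat.le_add_right k 3)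

end Crest.Agent.R273.CReg_933
end

-- ▼ part R273/CRegE_933
section

/-!
# R273 (S0416), Part C, C-REG (helper933), file E: the complex Monge-Ampere equation

`reg_holds : RegStmt` : a `C^{2,a}` solution of `det ∂∂̄u = e^f` with `f` smooth is smooth.
-/

set_option autoImplicit false

open MeasureTheory Set Filter Metric Complex
open scoped ContDiff Topology ComplexConjugate Matrix ComplexOrder

namespace Crest.Agent.R273.CReg_933

open Crest.Agent.R238 Crest.Agent.R238.Boot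
open Crest.Agent.R273.Defs_333 Crest.Agent.R273.YauDefs_635
open Crest.Agent.R275.Geo Crest.Agent.R275.Core144 Crest.Agent.R275.GC293

noncomputable section

variable {n : ℕ}

/-- real dimension of `ℂⁿ` -/
abbrev dC (n : ℕ) : ℕ := Module.finrank ℝ (Cn n)

/-- real linear coordinates on `ℂⁿ` -/
def TT (n : ℕ) : Cn n ≃L[ℝ] E (dC n) := toEuclidean

/-- real coordinate number `i` of the vector `v` -/
def rc (v : Cn n) (i : Fin (dC n)) : ℝ := (TT n v) i

theorem rc_expand (v : Cn n) : v = ∑ i, rc v i • (TT n).symm (ee i) := by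
  have h : TT n v = ∑ i, rc v i • (ee i : E (dC n)) := by
    have := (EuclideanSpace.basisFun (Fin (dC n)) ℝ).sum_repr (TT n v)
    rw [← this]
    simp [rc, ee]
  calc v = (TT n).symm (TT n v) := ((TT n).symm_apply_apply v).symm
    _ = _ := by rw [h]; simp

/-- the bilinear form of the real matrix `H` in the coordinates `TT` -/
def bl (H : VM (dC n)) (v w : Cn n) : ℝ := ∑ i, ∑ j, rc v i * rc w j * H i j

/-- the Hermitian part of the real matrix `H` -/
def cHV (H : VM (dC n)) : Matrix (Fin n) (Fin n) ℂ := Matrix.of fun a b =>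
  (1 / 4 : ℂ) *
    (((bl H (EuclideanSpace.single a 1) (EuclideanSpace.single b 1)
        + bl H (EuclideanSpace.single a I) (EuclideanSpace.single b I) : ℝ) : ℂ)
      + I * ((bl H (EuclideanSpace.single a 1) (EuclideanSpace.single b I)
        - bl H (EuclideanSpace.single a I) (EuclideanSpace.single b 1) : ℝ) : ℂ))

/-- the Monge-Ampere operator on real matrices -/
def PhiC (H : VM (dC n)) : ℝ := (cHV H).det.re

theorem bl_smooth (v w : Cn n) : ContDiff ℝ ∞ fun H : VM (dC n) => bl H v w := by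
  unfold bl
  fun_prop

theorem cHV_smooth (a b : Fin n) : ContDiff ℝ ∞ fun H : VM (dC n) => cHV H a b := by
  have h : ∀ v w : Cn n, ContDiff ℝ ∞ fun H : VM (dC n) => bl H v w := bl_smooth
  have h1 : ∀ v w v' w' : Cn n, ContDiff ℝ ∞ fun H : VM (dC n) => ((bl H v w + bl H v' w' : ℝ) : ℂ) :=
    fun v w v' w' => Complex.ofRealCLM.contDiff.comp ((h v w).add (h v' w'))
  have h2 : ∀ v w v' w' : Cn n, ContDiff ℝ ∞ fun H : VM (dC n) => ((bl H v w - bl H v' w' : ℝ) : ℂ) :=
    fun v w v' w' => Complex.ofRealCLM.contDiff.comp ((h v w).sub (h v' w'))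
  exact contDiff_const.mul ((h1 _ _ _ _).add (contDiff_const.mul (h2 _ _ _ _)))

theorem PhiC_smooth : ContDiff ℝ ∞ (PhiC (n := n)) := by
  have h : ContDiff ℝ ∞ fun H : VM (dC n) => (cHV H).det := by
    simp only [Matrix.det_apply]
    refine ContDiff.sum fun σ _ => ContDiff.const_smul _ ?_
    exact contDiff_prod fun i _ => cHV_smooth _ _
  exact Complex.reCLM.contDiff.comp h

theorem bl_add (H K : VM (dC n)) (v w : Cn n) : bl (H + K) v w = bl H v w + bl K v w := by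
  simp only [bl, Pi.add_apply, mul_add, Finset.sum_add_distrib]

theorem bl_smul (t : ℝ) (H : VM (dC n)) (v w : Cn n) : bl (t • H) v w = t * bl H v w := by
  simp only [bl, Pi.smul_apply, smul_eq_mul, Finset.mul_sum]
  refine Finset.sum_congr rfl fun i _ => Finset.sum_congr rfl fun j _ => by ring

theorem cHV_add_smul (H K : VM (dC n)) (t : ℝ) : cHV (H + t • K) = cHV H + (t : ℂ) • cHV K := by
  ext a b
  simp only [cHV, bl_add, bl_smul, Matrix.of_apply, Matrix.add_apply, Matrix.smul_apply,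
    smul_eq_mul]
  push_cast
  ring

/-- rank one matrices -/
def r1 (z : Fin (dC n) → ℝ) : VM (dC n) := fun i j => z i * z j

/-- the linear form with coefficients `z` -/
def lf (z : Fin (dC n) → ℝ) (v : Cn n) : ℝ := ∑ i, rc v i * z i

theorem bl_r1 (z : Fin (dC n) → ℝ) (v w : Cn n) : bl (r1 z) v w = lf z v * lf z w := by
  simp only [bl, r1, lf, Finset.sum_mul_sum]
  refine Finset.sum_congr rfl fun i _ => Finset.sum_congr rfl fun j _ => by ring

/-- the `(1,0)` part of the linear form -/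
def pz (z : Fin (dC n) → ℝ) (a : Fin n) : ℂ :=
  (lf z (EuclideanSpace.single a 1) : ℂ) - I * (lf z (EuclideanSpace.single a I) : ℂ)

theorem cHV_r1 (z : Fin (dC n) → ℝ) :
    cHV (r1 z) = (1 / 4 : ℂ) • Matrix.of fun a b => pz z a * conj (pz z b) := by
  ext a b
  simp only [cHV, bl_r1, Matrix.of_apply, Matrix.smul_apply, smul_eq_mul, pz, map_sub, map_mul,
    Complex.conj_ofReal, Complex.conj_I]
  push_cast
  ring_nf
  simp only [Complex.I_sq]
  ring

theorem lf_add (z : Fin (dC n) → ℝ) (v w : Cn n) : lf z (v + w) = lf z v + lf z w := by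
  simp only [lf, rc, map_add, PiLp.add_apply, add_mul, Finset.sum_add_distrib]

theorem lf_smul (z : Fin (dC n) → ℝ) (c : ℝ) (v : Cn n) : lf z (c • v) = c * lf z v := by
  simp only [lf, rc, map_smul, PiLp.smul_apply, smul_eq_mul, Finset.mul_sum]
  refine Finset.sum_congr rfl fun i _ => by ring

theorem lf_sum {ι : Type*} (s : Finset ι) (z : Fin (dC n) → ℝ) (v : ι → Cn n) :
    lf z (∑ i ∈ s, v i) = ∑ i ∈ s, lf z (v i) := by
  classical
  induction s using Finset.induction_on with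
  | empty => simp [lf, rc]
  | insert i s hi ih => rw [Finset.sum_insert hi, Finset.sum_insert hi, lf_add, ih]

theorem vec_real (v : Cn n) : v = ∑ a, ((v a).re • (EuclideanSpace.single a (1 : ℂ) : Cn n)
    + (v a).im • (EuclideanSpace.single a I : Cn n)) := by
  ext b
  simp only [PiLp.add_apply, WithLp.ofLp_sum, Finset.sum_apply, PiLp.smul_apply,
    PiLp.single_apply, smul_ite, smul_zero, Finset.sum_add_distrib,
    Finset.sum_ite_eq, Finset.mem_univ, if_true, Complex.real_smul, mul_one]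
  exact (Complex.re_add_im (v b)).symm

theorem pz_ne {z : Fin (dC n) → ℝ} (hz : z ≠ 0) : pz z ≠ 0 := by
  intro h
  apply hz
  have h1 : ∀ a : Fin n, lf z (EuclideanSpace.single a 1) = 0 ∧ lf z (EuclideanSpace.single a I) = 0 := by
    intro a
    have h2 : pz z a = 0 := congrFun h a
    have h3 := congrArg Complex.re h2
    have h4 := congrArg Complex.im h2
    simp [pz] at h3 h4
    exact ⟨h3, h4⟩
  have h5 : ∀ v : Cn n, lf z v = 0 := by
    intro v
    rw [vec_real v, lf_sum]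
    refine Finset.sum_eq_zero fun a _ => ?_
    rw [lf_add, lf_smul, lf_smul, (h1 a).1, (h1 a).2]
    ring
  funext i
  have h6 := h5 ((TT n).symm (ee i))
  simp only [lf, rc, ContinuousLinearEquiv.apply_symm_apply, ee] at h6
  simpa using h6

/-! ### positivity -/

theorem posDef_cH {u : Cn n → ℝ} {z : Cn n} (hu : ContDiffAt ℝ 2 u z)
    (h : ∀ v, v ≠ 0 → 0 < lev u z v) : (cH u z).PosDef := by
  have hh : (cH u z).IsHermitian := by
    ext a b
    rw [Matrix.conjTranspose_apply, cH_eq_hs hu, cH_eq_hs hu]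
    exact Levi_145.hs_herm hu b a
  refine Matrix.PosDef.of_dotProduct_mulVec_pos hh fun x hx => ?_
  set v : Cn n := WithLp.toLp 2 (fun a => conj (x a)) with hv
  have h0 : v ≠ 0 := by
    intro h1
    apply hx
    funext a
    have := congrArg (fun v : Cn n => v a) h1
    simpa [hv] using this
  have h1 := h v h0
  rw [lev333_eq_lev145] at h1
  have h2 := Levi_145.lev_eq hu v
  have h3 : star x ⬝ᵥ (cH u z) *ᵥ x
      = ∑ a, ∑ b, Levi_145.hs (Levi_145.cx u) z a b * v a * conj (v b) := by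
    simp only [dotProduct, Matrix.mulVec, Pi.star_apply, RCLike.star_def, Finset.mul_sum, hv,
      Complex.conj_conj, cH_eq_hs hu]
    refine Finset.sum_congr rfl fun a _ => Finset.sum_congr rfl fun b _ => ?_
    ring
  rw [h3, ← h2]
  exact_mod_cast (by linarith : (0 : ℝ) < Levi_145.lev u z v)

/-- derivative of the Monge-Ampere operator in rank one directions -/
theorem deriv_r1 {H : VM (dC n)} (hH : (cHV H).PosDef) {z : Fin (dC n) → ℝ} (hz : z ≠ 0) :
    0 < fderiv ℝ (PhiC (n := n)) H (r1 z) := by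
  set G := cHV H with hG
  have hdet : IsUnit G.det := isUnit_iff_ne_zero.2 hH.det_pos.ne'
  set q : ℂ := star (fun b => pz z b) ⬝ᵥ (G⁻¹ *ᵥ (fun a => pz z a)) with hq
  have hq0 : 0 < q := by
    have := hH.inv.dotProduct_mulVec_pos (pz_ne hz)
    exact this
  have hdq : ∀ t : ℝ, PhiC (H + t • r1 z) = (G.det * (1 + (t : ℂ) * ((1 / 4) * q))).re := by
    intro t
    have e1 : cHV (H + t • r1 z) = G + Matrix.replicateCol Unit (fun a => (t : ℂ) * (1 / 4) * pz z a)
        * Matrix.replicateRow Unit (star (fun b => pz z b)) := by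
      rw [cHV_add_smul, cHV_r1]
      congr 1
      ext a b
      simp only [Matrix.smul_apply, Matrix.of_apply, smul_eq_mul, Matrix.mul_apply,
        Matrix.replicateCol_apply, Matrix.replicateRow_apply, Pi.star_apply, RCLike.star_def,
        Finset.univ_unique, Finset.sum_const, Finset.card_singleton, one_smul]
      ring
    unfold PhiC
    rw [e1, Matrix.det_add_replicateCol_mul_replicateRow hdet]
    congr 2
    rw [Matrix.det_unique, Matrix.add_apply, Matrix.one_apply_eq, Matrix.mul_assoc]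
    congr 1
    simp only [Matrix.mul_apply, Matrix.replicateRow_apply, Matrix.replicateCol_apply]
    rw [hq]
    simp only [dotProduct, Matrix.mulVec, Finset.mul_sum]
    refine Finset.sum_congr rfl fun i _ => Finset.sum_congr rfl fun j _ => ?_
    ring
  have hd1 : HasDerivAt (fun t : ℝ => PhiC (H + t • r1 z)) (fderiv ℝ (PhiC (n := n)) H (r1 z)) 0 := by
    have h1 : HasDerivAt (fun t : ℝ => H + t • r1 z) (r1 z) 0 := by
      have := ((hasDerivAt_id (0 : ℝ)).smul_const (r1 z)).const_add H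
      simpa using this
    have h2 : HasFDerivAt (PhiC (n := n)) (fderiv ℝ (PhiC (n := n)) H) (H + (0 : ℝ) • r1 z) := by
      rw [zero_smul, add_zero]
      exact ((PhiC_smooth (n := n)).differentiable (by simp) H).hasFDerivAt
    exact h2.comp_hasDerivAt (0 : ℝ) h1
  have hd2 : HasDerivAt (fun t : ℝ => PhiC (H + t • r1 z)) (G.det * ((1 / 4) * q)).re 0 := by
    have e : (fun t : ℝ => PhiC (H + t • r1 z))
        = fun t : ℝ => G.det.re + t * (G.det * ((1 / 4) * q)).re := by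
      funext t
      rw [hdq t]
      have : G.det * (1 + (t : ℂ) * ((1 / 4) * q)) = G.det + (t : ℂ) * (G.det * ((1 / 4) * q)) := by
        ring
      rw [this, Complex.add_re, Complex.re_ofReal_mul]
    rw [e]
    simpa using ((hasDerivAt_id (0 : ℝ)).mul_const (G.det * ((1 / 4) * q)).re).const_add G.det.re
  rw [hd1.unique hd2]
  have h3 : 0 < G.det * ((1 / 4) * q) :=
    mul_pos hH.det_pos (mul_pos (by norm_num [Complex.lt_def]) hq0)
  exact (Complex.pos_iff.1 h3).1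

theorem pd_PhiC {H : VM (dC n)} (hH : (cHV H).PosDef) :
    PD (fun i j => fderiv ℝ (PhiC (n := n)) H (Es i j)) := by
  refine ⟨fun i j => by simp only [Es_comm i j], fun z hz => ?_⟩
  have h1 := deriv_r1 hH hz
  have h2 : r1 z = ∑ i, ∑ j, (r1 z) i j • (Es i j : VM (dC n)) :=
    (sum_Es fun i j => by simp only [r1]; ring).symm
  rw [h2] at h1
  simp only [map_sum, map_smul, smul_eq_mul] at h1
  refine lt_of_lt_of_eq h1 (Finset.sum_congr rfl fun i _ => Finset.sum_congr rfl fun j _ => ?_)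
  simp only [r1]
  ring

/-! ### the Hessian in real coordinates -/

theorem fd2_comp_equiv {u : Cn n → ℝ} {x : E (dC n)} (hu : ContDiffAt ℝ 2 u ((TT n).symm x))
    (h k : E (dC n)) :
    fderiv ℝ (fderiv ℝ fun y => u ((TT n).symm y)) x h k
      = D2 u ((TT n).symm x) ((TT n).symm h) ((TT n).symm k) := by
  set T : E (dC n) →L[ℝ] Cn n := ((TT n).symm : E (dC n) →L[ℝ] Cn n) with hT
  have e1 : fderiv ℝ (fun y => u ((TT n).symm y))
      =ᶠ[𝓝 x] fun y => (fderiv ℝ u (T y)).comp T := by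
    have h1 : ∀ᶠ z in 𝓝 ((TT n).symm x), DifferentiableAt ℝ u z := by
      filter_upwards [hu.eventually (by simp)] with z hz using hz.differentiableAt (by norm_num)
    filter_upwards [(TT n).symm.continuous.continuousAt.eventually h1] with y hy
    have h2 : HasFDerivAt u (fderiv ℝ u (T y)) (T y) := hy.hasFDerivAt
    exact (h2.comp y T.hasFDerivAt).fderiv
  rw [e1.fderiv_eq]
  have h3 : HasFDerivAt (fderiv ℝ u) (fderiv ℝ (fderiv ℝ u) (T x)) (T x) := by
    have : ContDiffAt ℝ 1 (fderiv ℝ u) (T x) := hu.fderiv_right (by norm_num)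
    exact (this.differentiableAt (by norm_num)).hasFDerivAt
  have h4 : HasFDerivAt (fun y => fderiv ℝ u (T y)) ((fderiv ℝ (fderiv ℝ u) (T x)).comp T) x :=
    h3.comp x T.hasFDerivAt
  have h5 : HasFDerivAt (fun y => (fderiv ℝ u (T y)).comp T)
      (((ContinuousLinearMap.compL ℝ (E (dC n)) (Cn n) ℝ).flip T).comp
        ((fderiv ℝ (fderiv ℝ u) (T x)).comp T)) x :=
    (((ContinuousLinearMap.compL ℝ (E (dC n)) (Cn n) ℝ).flip T).hasFDerivAt).comp x h4
  rw [h5.fderiv]
  rfl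

theorem bl_HM2 {u : Cn n → ℝ} {x : E (dC n)} (hu : ContDiffAt ℝ 2 u ((TT n).symm x)) (v w : Cn n) :
    bl (HM2 (fun y => u ((TT n).symm y)) x) v w = D2 u ((TT n).symm x) v w := by
  have hv := rc_expand v
  have hw := rc_expand w
  have e : D2 u ((TT n).symm x) v w = D2 u ((TT n).symm x)
      (∑ i, rc v i • (TT n).symm (ee i)) (∑ i, rc w i • (TT n).symm (ee i)) := by
    rw [← hv, ← hw]
  rw [e]
  simp only [bl, HM2, Hs, fd2_comp_equiv hu, D2, map_sum, map_smul, smul_eq_mul,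
    FunLike.coe_sum, Finset.sum_apply, _root_.smul_apply, Finset.mul_sum]
  rw [Finset.sum_comm]
  refine Finset.sum_congr rfl fun i _ => Finset.sum_congr rfl fun j _ => ?_
  ring

theorem cHV_HM2 {u : Cn n → ℝ} {x : E (dC n)} (hu : ContDiffAt ℝ 2 u ((TT n).symm x)) :
    cHV (HM2 (fun y => u ((TT n).symm y)) x) = cH u ((TT n).symm x) := by
  ext a b
  simp only [cHV, cH, bl_HM2 hu, Matrix.of_apply]

theorem lck_two {m : ℕ} {a : ℝ} (ha0 : 0 ≤ a) (ha : a ≤ 1) {U : Set (E m)} (hU : IsOpen U)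
    {u : E m → ℝ} (hc : ContDiffOn ℝ 2 u U) (hh : ∀ i j, LH a U (fun x => Hs u x i j)) :
    LCK a 2 U u := by
  have h1 : ∀ j, ContDiffOn ℝ 1 (Boot.pd j u) U := fun j =>
    (hc.fderiv_of_isOpen hU (m := 1) (by norm_num)).clm_apply contDiffOn_const
  refine ⟨lh_of_contDiffOn ha0 ha hU (hc.of_le (by norm_num)), hc.differentiableOn (by norm_num),
    fun j => ⟨lh_of_contDiffOn ha0 ha hU (h1 j), (h1 j).differentiableOn (by norm_num),
      fun i => ?_⟩⟩
  exact (hh i j).congr hU fun x hx => (pd_pd_on hU hc i j hx).symm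

theorem reg_holds : RegStmt := by
  intro n U u f a hU ha ha1 hu hf hH hpos heq
  set T : E (dC n) →L[ℝ] Cn n := ((TT n).symm : E (dC n) →L[ℝ] Cn n) with hT
  set U' : Set (E (dC n)) := (fun x => T x) ⁻¹' U with hU'
  have hU'o : IsOpen U' := hU.preimage T.continuous
  have hcT : ContDiff ℝ ∞ (fun x : E (dC n) => T x) := T.contDiff
  set u' : E (dC n) → ℝ := fun x => u ((TT n).symm x) with hu'
  have hcT2 : ContDiff ℝ 2 (fun x : E (dC n) => T x) := T.contDiff
  have hu'c : ContDiffOn ℝ 2 u' U' := hu.comp hcT2.contDiffOn fun x hx => hx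
  have hc2 : ∀ x ∈ U', ContDiffAt ℝ 2 u ((TT n).symm x) := fun x hx =>
    hu.contDiffAt (hU.mem_nhds hx)
  have hLH : ∀ i j, LH a U' (fun x => Hs u' x i j) := by
    intro i j x0 hx0
    obtain ⟨r, hr, C, hrU, hC⟩ := hH (T x0) hx0
    have hb : ∃ r' > 0, ∀ x ∈ ball x0 r', T x ∈ ball (T x0) r :=
      Metric.continuousAt_iff.1 T.continuous.continuousAt r hr
    obtain ⟨r', hr', hb⟩ := hb
    set C' : ℝ := |C| * ‖T‖ ^ a * (‖(TT n).symm (ee i)‖ * ‖(TT n).symm (ee j)‖) with hC'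
    have hC'0 : 0 ≤ C' := by positivity
    have key : ∀ x ∈ ball x0 r', ∀ y ∈ ball x0 r', |Hs u' x i j - Hs u' y i j| ≤ C' * ‖x - y‖ ^ a := by
      intro x hx y hy
      have hx' := hb x hx
      have hy' := hb y hy
      simp only [Hs, hu', fd2_comp_equiv (hc2 x (hrU hx')), fd2_comp_equiv (hc2 y (hrU hy')), D2]
      have h1 := hC _ hx' _ hy'
      have h2 : fderiv ℝ (fderiv ℝ u) ((TT n).symm x) ((TT n).symm (ee i)) ((TT n).symm (ee j))
          - fderiv ℝ (fderiv ℝ u) ((TT n).symm y) ((TT n).symm (ee i)) ((TT n).symm (ee j))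
          = (fderiv ℝ (fderiv ℝ u) (T x) - fderiv ℝ (fderiv ℝ u) (T y)) ((TT n).symm (ee i))
            ((TT n).symm (ee j)) := rfl
      rw [h2, ← Real.norm_eq_abs]
      refine (ContinuousLinearMap.le_opNorm₂ _ _ _).trans ?_
      have h3 : ‖T x - T y‖ ^ a ≤ ‖T‖ ^ a * ‖x - y‖ ^ a := by
        rw [← map_sub, ← Real.mul_rpow (norm_nonneg _) (norm_nonneg _)]
        exact Real.rpow_le_rpow (norm_nonneg _) (T.le_opNorm _) ha.le
      have h4 : ‖fderiv ℝ (fderiv ℝ u) (T x) - fderiv ℝ (fderiv ℝ u) (T y)‖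
          ≤ |C| * (‖T‖ ^ a * ‖x - y‖ ^ a) :=
        h1.trans ((mul_le_mul_of_nonneg_right (le_abs_self C)
          (Real.rpow_nonneg (norm_nonneg _) _)).trans
          (mul_le_mul_of_nonneg_left h3 (abs_nonneg _)))
      calc _ = ‖fderiv ℝ (fderiv ℝ u) (T x) - fderiv ℝ (fderiv ℝ u) (T y)‖
            * (‖(TT n).symm (ee i)‖ * ‖(TT n).symm (ee j)‖) := by ring
        _ ≤ (|C| * (‖T‖ ^ a * ‖x - y‖ ^ a)) * (‖(TT n).symm (ee i)‖ * ‖(TT n).symm (ee j)‖) :=
          mul_le_mul_of_nonneg_right h4 (by positivity)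
        _ = _ := by rw [hC']; ring
    refine ⟨r', hr', max C' (|Hs u' x0 i j| + C' * r' ^ a), fun x hx => ?_, fun x hx y hy => ?_⟩
    · have h1 := key x hx x0 (mem_ball_self hr')
      have h2 : ‖x - x0‖ ^ a ≤ r' ^ a :=
        Real.rpow_le_rpow (norm_nonneg _) (by rw [← dist_eq_norm]; exact (mem_ball.1 hx).le) ha.le
      have h3 : |Hs u' x i j| ≤ |Hs u' x i j - Hs u' x0 i j| + |Hs u' x0 i j| := by
        have := abs_add_le (Hs u' x i j - Hs u' x0 i j) (Hs u' x0 i j)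
        simpa using this
      have h4 := mul_le_mul_of_nonneg_left h2 hC'0
      exact (by linarith : |Hs u' x i j| ≤ |Hs u' x0 i j| + C' * r' ^ a).trans (le_max_right _ _)
    · exact (key x hx y hy).trans
        (mul_le_mul_of_nonneg_right (le_max_left _ _) (Real.rpow_nonneg (norm_nonneg _) _))
  have hlck : LCK a 2 U' u' := lck_two ha.le ha1.le hU'o hu'c hLH
  have hG : ∀ x ∈ U', cHV (HM2 u' x) = cH u ((TT n).symm x) := fun x hx => cHV_HM2 (hc2 x hx)
  have hsm : ContDiffOn ℝ ∞ u' U' := by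
    refine nonlin_smooth ha ha1 hU'o (f := fun x => Real.exp (f (T x))) (PhiC_smooth (n := n))
      hlck (fun x hx => pd_PhiC ?_) (fun x hx => ?_) ?_
    · rw [hG x hx]
      exact posDef_cH (hc2 x hx) (hpos _ hx)
    · unfold PhiC
      have h1 : (cH u ((TT n).symm x)).det = (Real.exp (f (T x)) : ℂ) := heq _ hx
      rw [hG x hx, h1, Complex.ofReal_re]
    · exact Real.contDiff_exp.comp_contDiffOn (hf.comp hcT.contDiffOn fun x hx => hx)
  have hTT : ContDiff ℝ ∞ (fun z : Cn n => TT n z) := (TT n).contDiff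
  have h := hsm.comp hTT.contDiffOn (s := U) fun z hz => by
    show T (TT n z) ∈ U
    have : T (TT n z) = z := (TT n).symm_apply_apply z
    rwa [this]
  refine h.congr fun z hz => ?_
  simp [hu']

end

end Crest.Agent.R273.CReg_933
end

-- ▼ part R273/YauOpA_635

/-!
# R273 (S0416), Part C, YAU (helper635): preparations for openness

* `c2a_add`, `c2a_zero`, `ho_exp`, `abs_lev_le`
* `ball_limit` : limits of `C^{2,a}`-bounded sequences on a ball
* `sm_of_local`, `ma_of_local`, `kpos_of_local`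
-/

set_option autoImplicit false
set_option linter.unusedSectionVars false

open Set Filter Topology Complex Metric
open scoped ContDiff Matrix ComplexConjugate ComplexOrder

namespace Crest.Agent.R273.YauOpA_635

open Crest.Agent.R275.Geo Crest.Agent.R275.Core144 Crest.Agent.R275.GC293
open Crest.Agent.R273.Defs_333 Crest.Agent.R273.YauDefs_635 Crest.Agent.R273.HM_333
open Crest.Agent.R273.YauCh_635 Crest.Agent.R273.Hess_333 Crest.Agent.R273.HessB_333
open Crest.Agent.R273.Kah_333 Crest.Agent.R273.YauMax_635 Crest.Agent.R273.YauLoc_635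
open Crest.Agent.R273.SchA_152 Crest.Agent.R273.SchD_152 Crest.Agent.R273.YauQ_635
open Crest.Agent.R273.YauSchF_635 Crest.Agent.R273.YauClose_635 Crest.Agent.R273.YauPf_635
open Crest.Agent.R273.YauLim_635

noncomputable section

section Local

variable {n : ℕ}

theorem fd_add {u v : Cn n → ℝ} {U : Set (Cn n)} (hU : IsOpen U) (hu : ContDiffOn ℝ ∞ u U)
    (hv : ContDiffOn ℝ ∞ v U) {z : Cn n} (hz : z ∈ U) :
    fderiv ℝ (fun w => u w + v w) z = fderiv ℝ u z + fderiv ℝ v z :=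
  fderiv_fun_add ((hu.contDiffAt (hU.mem_nhds hz)).differentiableAt (by simp))
    ((hv.contDiffAt (hU.mem_nhds hz)).differentiableAt (by simp))

theorem fd2_add {u v : Cn n → ℝ} {U : Set (Cn n)} (hU : IsOpen U) (hu : ContDiffOn ℝ ∞ u U)
    (hv : ContDiffOn ℝ ∞ v U) {z : Cn n} (hz : z ∈ U) :
    fderiv ℝ (fderiv ℝ (fun w => u w + v w)) z =
      fderiv ℝ (fderiv ℝ u) z + fderiv ℝ (fderiv ℝ v) z := by
  have h1 : fderiv ℝ (fun w => u w + v w) =ᶠ[𝓝 z] fun w => fderiv ℝ u w + fderiv ℝ v w := by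
    filter_upwards [hU.mem_nhds hz] with w hw
    exact fd_add hU hu hv hw
  have hu1 : ContDiffOn ℝ ∞ (fderiv ℝ u) U := hu.fderiv_of_isOpen hU (by simp)
  have hv1 : ContDiffOn ℝ ∞ (fderiv ℝ v) U := hv.fderiv_of_isOpen hU (by simp)
  rw [h1.fderiv_eq]
  exact fderiv_fun_add ((hu1.contDiffAt (hU.mem_nhds hz)).differentiableAt (by simp))
    ((hv1.contDiffAt (hU.mem_nhds hz)).differentiableAt (by simp))

theorem c2a_add {u v : Cn n → ℝ} {U s : Set (Cn n)} (hU : IsOpen U) (hs : s ⊆ U)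
    (hu : ContDiffOn ℝ ∞ u U) (hv : ContDiffOn ℝ ∞ v U) {a p q : ℝ} (h : C2A a p s u)
    (h' : C2A a q s v) : C2A a (p + q) s (fun w => u w + v w) :=
  ⟨h.h0.add h'.h0, (h.h1.add h'.h1).congr fun _ hx => fd_add hU hu hv (hs hx),
    (h.h2.add h'.h2).congr fun _ hx => fd2_add hU hu hv (hs hx)⟩

theorem ho_zero' {X F : Type*} [NormedAddCommGroup X] [NormedAddCommGroup F] {a : ℝ} {s : Set X}
    {f : X → F} (h : ∀ x, f x = 0) : HO a 0 s f :=
  ⟨fun x _ => by simp [h], fun x _ y _ => by simp [h]⟩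

theorem c2a_zero {a : ℝ} {s : Set (Cn n)} : C2A a 0 s (fun _ : Cn n => (0 : ℝ)) := by
  have e1 : fderiv ℝ (fun _ : Cn n => (0 : ℝ)) = fun _ => 0 := by
    funext z
    exact fderiv_const_apply _
  have e2 : fderiv ℝ (fderiv ℝ (fun _ : Cn n => (0 : ℝ))) = fun _ => 0 := by
    rw [e1]
    funext z
    exact fderiv_const_apply _
  exact ⟨ho_zero' fun _ => rfl, ho_zero' fun _ => by rw [e1], ho_zero' fun _ => by rw [e2]⟩

theorem ho_smul {X : Type*} [NormedAddCommGroup X] {a N : ℝ} {s : Set X} {f : X → ℝ} (c : ℝ)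
    (h : HO a N s f) : HO a (|c| * N) s (fun z => c * f z) := by
  refine ⟨fun z hz => ?_, fun z hz w hw => ?_⟩
  · rw [norm_mul, Real.norm_eq_abs]
    exact mul_le_mul_of_nonneg_left (h.bdd z hz) (abs_nonneg _)
  · rw [← mul_sub, norm_mul, Real.norm_eq_abs, mul_assoc]
    exact mul_le_mul_of_nonneg_left (h.hol z hz w hw) (abs_nonneg _)

theorem ho_exp {X : Type*} [NormedAddCommGroup X] {a K : ℝ} {s : Set X} {f : X → ℝ} (hK : 0 ≤ K)
    (h : HO a K s f) {t : ℝ} (ht : |t| * (2 * K + 1) ≤ 1) :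
    HO a (6 * |t| * K) s (fun z => Real.exp (t * f z) - 1) := by
  have ht0 := abs_nonneg t
  have htK : 2 * (|t| * K) ≤ 1 := by nlinarith
  have hb : ∀ z ∈ s, |t * f z| ≤ |t| * K := fun z hz => by
    rw [abs_mul]
    exact mul_le_mul_of_nonneg_left (h.bdd z hz) ht0
  have he : Real.exp 1 ≤ 3 := Real.exp_one_lt_three.le
  refine ⟨fun z hz => ?_, fun z hz w hw => ?_⟩
  · have h1 := hb z hz
    have h2 := Real.abs_exp_sub_one_le (x := t * f z) (by linarith)
    rw [Real.norm_eq_abs]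
    nlinarith [mul_nonneg ht0 hK]
  · have h1 := hb z hz
    have h2 := hb w hw
    have e1 : Real.exp (t * f z) - 1 - (Real.exp (t * f w) - 1) =
        Real.exp (t * f w) * (Real.exp (t * f z - t * f w) - 1) := by
      rw [mul_sub, ← Real.exp_add]
      ring_nf
    have h3 : |t * f z - t * f w| ≤ 1 := by
      have := abs_sub (t * f z) (t * f w)
      linarith
    have h4 := Real.abs_exp_sub_one_le h3
    have h5 : |t * f z - t * f w| ≤ |t| * (K * ‖z - w‖ ^ a) := by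
      rw [← mul_sub, abs_mul]
      exact mul_le_mul_of_nonneg_left (h.hol z hz w hw) ht0
    have h6 : Real.exp (t * f w) ≤ 3 :=
      (Real.exp_le_exp.2 ((le_abs_self _).trans (by linarith))).trans he
    have h7 : 0 ≤ |t| * (K * ‖z - w‖ ^ a) := (abs_nonneg _).trans h5
    rw [e1, Real.norm_eq_abs, abs_mul, abs_of_pos (Real.exp_pos _)]
    calc Real.exp (t * f w) * |Real.exp (t * f z - t * f w) - 1|
        ≤ 3 * (2 * (|t| * (K * ‖z - w‖ ^ a))) :=
          mul_le_mul h6 (h4.trans (by linarith)) (abs_nonneg _) (by norm_num)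
      _ = 6 * |t| * K * ‖z - w‖ ^ a := by ring

theorem abs_lev_le (u : Cn n → ℝ) (z v : Cn n) :
    |lev u z v| ≤ 2 * ‖fderiv ℝ (fderiv ℝ u) z‖ * ‖v‖ ^ 2 := by
  have h : ∀ w : Cn n, |D2 u z w w| ≤ ‖fderiv ℝ (fderiv ℝ u) z‖ * ‖w‖ ^ 2 := by
    intro w
    have h1 := (fderiv ℝ (fderiv ℝ u) z w).le_opNorm w
    have h2 := (fderiv ℝ (fderiv ℝ u) z).le_opNorm w
    rw [Real.norm_eq_abs] at h1
    calc |D2 u z w w| ≤ ‖fderiv ℝ (fderiv ℝ u) z w‖ * ‖w‖ := h1
      _ ≤ ‖fderiv ℝ (fderiv ℝ u) z‖ * ‖w‖ * ‖w‖ :=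
        mul_le_mul_of_nonneg_right h2 (norm_nonneg _)
      _ = _ := by ring
  have h1 := h v
  have h2 := h (I • v)
  have h3 : ‖I • v‖ = ‖v‖ := by rw [norm_smul, Complex.norm_I, one_mul]
  rw [h3] at h2
  rw [lev_D2]
  have := abs_add_le (D2 u z v v) (D2 u z (I • v) (I • v))
  linarith

theorem lim_norm_le {F : Type*} [NormedAddCommGroup F] {U : Ultrafilter ℕ} {f : ℕ → F} {y : F}
    (h : Tendsto f U (𝓝 y)) {C : ℝ} (hC : ∀ k, ‖f k‖ ≤ C) : ‖y‖ ≤ C :=
  le_of_tendsto h.norm (Eventually.of_forall hC)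

theorem lim_norm_sub_le {F : Type*} [NormedAddCommGroup F] {U : Ultrafilter ℕ} {f g : ℕ → F}
    {y y' : F} (h : Tendsto f U (𝓝 y)) (h' : Tendsto g U (𝓝 y')) {C : ℝ}
    (hC : ∀ k, ‖f k - g k‖ ≤ C) : ‖y - y'‖ ≤ C :=
  le_of_tendsto (h.sub h').norm (Eventually.of_forall hC)

/-- limits on a whole ball -/
theorem ball_limit (U : Ultrafilter ℕ) {z₀ : Cn n} {r a S : ℝ} (ha : 0 < a) (hS0 : 0 ≤ S)
    {u : ℕ → Cn n → ℝ} {V : Cn n → ℝ}
    (hu : ∀ k, ContDiffOn ℝ 2 (u k) (ball z₀ r))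
    (h0 : ∀ k, ∀ z ∈ ball z₀ r, |u k z| ≤ S)
    (h2 : ∀ k, HO a S (ball z₀ r) (fderiv ℝ (fderiv ℝ (u k))))
    (hV : ∀ z ∈ ball z₀ r, Tendsto (fun k => u k z) U (𝓝 (V z))) :
    ContDiffOn ℝ 2 V (ball z₀ r) ∧
      (∀ z ∈ ball z₀ r,
        Tendsto (fun k => fderiv ℝ (fderiv ℝ (u k)) z) U (𝓝 (fderiv ℝ (fderiv ℝ V) z))) ∧
      HO a S (ball z₀ r) (fderiv ℝ (fderiv ℝ V)) := by
  have key : ∀ z ∈ ball z₀ r, ∃ ρ > 0, ContDiffOn ℝ 2 V (ball z ρ) ∧
      ∀ w ∈ ball z ρ,
        Tendsto (fun k => fderiv ℝ (fderiv ℝ (u k)) w) U (𝓝 (fderiv ℝ (fderiv ℝ V) w)) := by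
    intro z hz
    obtain ⟨ρ, hρ, hρs⟩ := Metric.isOpen_iff.1 isOpen_ball z hz
    have e : 2 * (ρ / 2) = ρ := by ring
    have hsub : ball z (2 * (ρ / 2)) ⊆ ball z₀ r := by rwa [e]
    obtain ⟨g1, g2, -⟩ := lim_c2 U (z₀ := z) (r := ρ / 2) (a := a) (S := S) (by linarith)
      ha hS0 (v := u) (V := V) (fun k => (hu k).mono hsub) (fun k w hw => h0 k w (hsub hw))
      (fun k w hw => (h2 k).bdd w (hsub hw))
      (fun k w hw y hy => (h2 k).hol w (hsub hw) y (hsub hy))
      (fun w hw => hV w (hρs (ball_subset_ball (by linarith) hw)))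
    exact ⟨ρ / 2, by linarith, g1, g2⟩
  have hpt : ∀ z ∈ ball z₀ r,
      Tendsto (fun k => fderiv ℝ (fderiv ℝ (u k)) z) U (𝓝 (fderiv ℝ (fderiv ℝ V) z)) := by
    intro z hz
    obtain ⟨ρ, hρ, -, g2⟩ := key z hz
    exact g2 z (mem_ball_self hρ)
  refine ⟨fun z hz => ?_, hpt, ⟨fun z hz => ?_, fun z hz w hw => ?_⟩⟩
  · obtain ⟨ρ, hρ, g1, -⟩ := key z hz
    exact (g1.contDiffAt (isOpen_ball.mem_nhds (mem_ball_self hρ))).contDiffWithinAt
  · exact lim_norm_le (hpt z hz) fun k => (h2 k).bdd z hz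
  · exact lim_norm_sub_le (hpt z hz) (hpt w hw) fun k => (h2 k).hol z hz w hw

end Local

theorem exists_pos_lb {κ : Type*} [Finite κ] {c : κ → ℝ} (h : ∀ k, 0 < c k) :
    ∃ lo > 0, ∀ k, lo ≤ c k := by
  obtain ⟨B, hB⟩ := (Set.finite_range fun k => (c k)⁻¹).bddAbove
  refine ⟨(max B 1)⁻¹, by positivity, fun k => ?_⟩
  have h1 : (c k)⁻¹ ≤ max B 1 := (hB ⟨k, rfl⟩).trans (le_max_left _ _)
  exact inv_le_of_inv_le₀ (h k) h1

theorem exists_ub {κ : Type*} [Finite κ] (c : κ → ℝ) : ∃ B, 0 ≤ B ∧ ∀ k, c k ≤ B := by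
  obtain ⟨B, hB⟩ := (Set.finite_range c).bddAbove
  exact ⟨max B 0, le_max_right _ _, fun k => (hB ⟨k, rfl⟩).trans (le_max_left _ _)⟩

variable {n : ℕ} {M : Type} [TopologicalSpace M] {A : Atl n M} {L : LB A}

theorem sm_of_local {Ψ : M → ℝ}
    (h : ∀ x, ∃ k : A.ι, x ∈ (A.e k).source ∧ ContDiffAt ℝ ∞ (inC A k Ψ) (A.e k x)) :
    A.Sm Ψ := by
  intro i z hz
  refine ContDiffAt.contDiffWithinAt ?_
  have hx := (A.e i).map_target hz
  obtain ⟨k, hk, hc⟩ := h ((A.e i).symm z)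
  have hxx : (A.e i).symm z ∈ (A.e i).source ∩ (A.e k).source := ⟨hx, hk⟩
  have hT := anal_Tm (A := A) hxx
  rw [(A.e i).right_inv hz] at hT
  have hTz : Tm A i k z = A.e k ((A.e i).symm z) := rfl
  have h1 : ContDiffAt ℝ ∞ (fun w => inC A k Ψ (Tm A i k w)) z := by
    refine ContDiffAt.comp z (g := inC A k Ψ) (f := Tm A i k) ?_ (hT.contDiffAt.restrict_scalars ℝ)
    rw [hTz]
    exact hc
  refine h1.congr_of_eventuallyEq ?_
  have ho : IsOpen (A.ov i k) := isOpen_ov i k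
  have hm : z ∈ A.ov i k := by
    have := mem_ov hxx
    rwa [(A.e i).right_inv hz] at this
  filter_upwards [ho.mem_nhds hm] with w hw
  simp [inC, Tm, (A.e k).left_inv hw.2]

theorem pot_zero (H : HM L) (i : A.ι) : pot H (fun _ => 0) i = H.wt i := by
  funext z
  simp [pot, inC]

theorem ma_of_local {H : HM L} (hH : H.Pos) {Ψ f : M → ℝ} (hΨ : A.Sm Ψ)
    (h : ∀ x, ∃ k : A.ι, x ∈ (A.e k).source ∧
      (cH (pot H Ψ k) (A.e k x)).det = (Real.exp (f x) : ℂ) * (cH (H.wt k) (A.e k x)).det) :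
    MA H Ψ f := by
  intro i z hz
  have hx := (A.e i).map_target hz
  obtain ⟨k, hk, hd⟩ := h ((A.e i).symm z)
  have hxx : (A.e i).symm z ∈ (A.e i).source ∩ (A.e k).source := ⟨hx, hk⟩
  have h0 : A.Sm (fun _ : M => (0 : ℝ)) := fun i => contDiffOn_const
  have t1 := cH_pot_tr H hΨ hxx
  have t2 := cH_pot_tr H h0 hxx
  rw [(A.e i).right_inv hz] at t1 t2
  rw [pot_zero, pot_zero] at t2
  have hne : (cH (H.wt k) (A.e k ((A.e i).symm z))).det ≠ 0 :=
    (det_wt_pos hH ((A.e k).map_source hk)).ne'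
  have hne' : (cH (H.wt i) z).det ≠ 0 := (det_wt_pos hH hz).ne'
  have hr := det_conj_ratio (B := cH (pot H Ψ k) (A.e k ((A.e i).symm z)))
    (C := cH (H.wt k) (A.e k ((A.e i).symm z))) (det_J hxx)
  rw [← t1, ← t2, hd, mul_div_assoc, div_self hne, mul_one, div_eq_iff hne'] at hr
  exact hr

theorem kpos_of_local {H : HM L} {Ψ : M → ℝ} (hΨ : A.Sm Ψ)
    (h : ∀ x, ∃ k : A.ι, x ∈ (A.e k).source ∧ (cH (pot H Ψ k) (A.e k x)).PosDef) :
    KPos H Ψ := by
  intro i z hz v hv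
  have hx := (A.e i).map_target hz
  obtain ⟨k, hk, hd⟩ := h ((A.e i).symm z)
  have hxx : (A.e i).symm z ∈ (A.e i).source ∩ (A.e k).source := ⟨hx, hk⟩
  have t1 := cH_pot_tr H hΨ hxx
  rw [(A.e i).right_inv hz] at t1
  have hJ := det_J hxx
  set J := Jm A i k ((A.e i).symm z) with hJd
  have e1 : (J.map conj)ᴴ = Jᵀ := by
    ext a b
    simp [Matrix.conjTranspose_apply, Matrix.transpose_apply]
  have hunit : IsUnit (J.map conj) := by
    rw [Matrix.isUnit_iff_isUnit_det, isUnit_iff_ne_zero]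
    have h2 : (J.map conj).det = conj J.det := by
      rw [← RingHom.mapMatrix_apply, ← RingHom.map_det]
    rw [h2]
    simpa using hJ
  have hp : (cH (pot H Ψ i) z).PosDef := by
    rw [t1, ← e1]
    exact hd.conjTranspose_mul_mul_same (Matrix.mulVec_injective_iff_isUnit.2 hunit)
  have hc := pot_contDiffAt H hΨ i hz
  rw [cH_eq_hess hc] at hp
  exact lev_pos_of_posDef hc hp hv

end

end Crest.Agent.R273.YauOpA_635
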