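import Crest.Agent.R275.Kos_798
import Mathlib.LinearAlgebra.Matrix.NonsingularInverse
import Mathlib.LinearAlgebra.Matrix.Notation

/-!
# R273, D.2 (helper505): the Berezin matrix
-/

set_option autoImplicit false

open Finset Matrix Crest.Agent.R275.Kos798

namespace Crest.Agent.R273.Berezin_505

variable {R : Type*} [CommRing R] {n : ℕ}

/-! ### additivity, transposition of `K` -/

omit [CommRing R] in
theorem cf_swap (s p : Fin n → R) (j : Fin n) (T : Finset (Fin n)) :
    cf s p j (tog T j) = cf p s j T := by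
  unfold cf
  simp only [mem_tog_self]
  by_cases h : j ∈ T <;> simp [h]

theorem K_transpose (s p : Fin n → R) : (K s p)ᵀ = K p s := by
  classical
  ext T S
  rw [transpose_apply]
  by_cases h : ∃ j, tog T j = S
  · obtain ⟨j, rfl⟩ := h
    have h1 := K_apply_tog s p (tog T j) j
    rw [tog_tog, sgn_tog_self, cf_swap] at h1
    rw [h1, K_apply_tog]
  · push Not at h
    rw [K_apply_eq_zero p s h, K_apply_eq_zero s p]
    intro j hj
    exact h j (by rw [← hj, tog_tog])




/-! ### signs -/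

variable (R) in
/-- `ε(T) = ∏_{a ∈ T} (-1)^(a+1)` -/
def eps (T : Finset (Fin n)) : R := ∏ a ∈ T, (-1 : R) ^ (a.val + 1)

theorem eps_mul_self (T : Finset (Fin n)) : eps R T * eps R T = 1 := by
  unfold eps
  rw [← Finset.prod_mul_distrib]
  refine Finset.prod_eq_one fun a _ => ?_
  rw [← pow_add, ← two_mul, pow_mul]; simp

theorem eps_empty : eps R (∅ : Finset (Fin n)) = 1 := by simp [eps]

theorem eps_compl (T : Finset (Fin n)) : eps R T * eps R Tᶜ = eps R (univ : Finset (Fin n)) := by
  unfold eps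
  rw [Finset.prod_mul_prod_compl]

theorem sgn_mul_sgn_compl (j : Fin n) (T : Finset (Fin n)) :
    sgn R j T * sgn R j Tᶜ = (-1) ^ j.val := by
  classical
  unfold sgn
  rw [← pow_add]
  congr 1
  rw [← Finset.card_union_of_disjoint]
  · have h : T.filter (· < j) ∪ Tᶜ.filter (· < j) = Finset.Iio j := by
      ext k
      simp only [mem_union, mem_filter, mem_compl, Finset.mem_Iio]
      tauto
    rw [h, Fin.card_Iio]
  · rw [Finset.disjoint_left]
    intro k hk hk'
    simp only [mem_filter, mem_compl] at hk hk'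
    exact hk'.1 hk.1

theorem eps_tog (j : Fin n) (T : Finset (Fin n)) :
    eps R (tog T j) = (-1) ^ (j.val + 1) * eps R T := by
  have h2 : ((-1 : R) ^ (j.val + 1)) * (-1 : R) ^ (j.val + 1) = 1 := by
    rw [← pow_add, ← two_mul, pow_mul]; simp
  unfold eps tog
  split_ifs with h
  · rw [← Finset.mul_prod_erase T _ h, ← mul_assoc, h2, one_mul]
  · rw [Finset.prod_insert h]

theorem compl_tog (j : Fin n) (T : Finset (Fin n)) : (tog T j)ᶜ = tog Tᶜ j := by
  ext k
  by_cases h : k = j
  · subst h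
    rw [mem_compl, mem_tog_self, mem_tog_self, mem_compl]
  · rw [mem_compl, mem_tog_of_ne _ h, mem_tog_of_ne _ h, mem_compl]

/-! ### the Berezin matrix -/

variable (R n) in
/-- the Berezin matrix -/
def Sb : Matrix (Finset (Fin n)) (Finset (Fin n)) R := fun T U => if Tᶜ = U then eps R T else 0

variable (R n) in
/-- the total sign -/
def epsn : R := eps R (univ : Finset (Fin n))

variable (R n) in
/-- the inverse of the Berezin matrix -/
def Sbi : Matrix (Finset (Fin n)) (Finset (Fin n)) R := epsn R n • Sb R n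

theorem epsn_mul_self : epsn R n * epsn R n = 1 := eps_mul_self _

theorem Sb_apply_compl (T : Finset (Fin n)) : Sb R n T Tᶜ = eps R T := by simp [Sb]

theorem Sb_apply_of_ne {T U : Finset (Fin n)} (h : Tᶜ ≠ U) : Sb R n T U = 0 := by simp [Sb, h]

theorem Sb_mul_apply {ρ : Type*} (B : Matrix (Finset (Fin n)) ρ R)
    (T : Finset (Fin n)) (r : ρ) : (Sb R n * B) T r = eps R T * B Tᶜ r := by
  rw [Matrix.mul_apply, Finset.sum_eq_single Tᶜ]
  · rw [Sb_apply_compl]
  · intro U _ h
    rw [Sb_apply_of_ne (Ne.symm h), zero_mul]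
  · simp

theorem mul_Sb_apply {ρ : Type*} (B : Matrix ρ (Finset (Fin n)) R)
    (r : ρ) (U : Finset (Fin n)) : (B * Sb R n) r U = eps R Uᶜ * B r Uᶜ := by
  rw [Matrix.mul_apply, Finset.sum_eq_single Uᶜ]
  · have h := Sb_apply_compl (R := R) Uᶜ
    rw [compl_compl] at h
    rw [h, mul_comm]
  · intro T _ h
    rw [Sb_apply_of_ne, mul_zero]
    intro h'
    apply h
    rw [← h', compl_compl]
  · simp

theorem Sb_mul_Sb : Sb R n * Sb R n = epsn R n • (1 : Matrix _ _ R) := by
  ext T U
  rw [Sb_mul_apply, Matrix.smul_apply, Matrix.one_apply]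
  by_cases h : T = U
  · subst h
    have h1 := Sb_apply_compl (R := R) Tᶜ
    rw [compl_compl] at h1
    rw [h1, if_pos rfl, eps_compl, smul_eq_mul, mul_one]; rfl
  · rw [if_neg h, smul_zero, Sb_apply_of_ne, mul_zero]
    rwa [compl_compl]

theorem Sb_mul_Sbi : Sb R n * Sbi R n = 1 := by
  rw [Sbi, Matrix.mul_smul, Sb_mul_Sb, smul_smul, epsn_mul_self, one_smul]

theorem Sbi_mul_Sb : Sbi R n * Sb R n = 1 := by
  rw [Sbi, Matrix.smul_mul, Sb_mul_Sb, smul_smul, epsn_mul_self, one_smul]


theorem Sb_degree {T U : Finset (Fin n)} (h : Sb R n T U ≠ 0) : T.card + U.card = n := by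
  by_cases h' : Tᶜ = U
  · subst h'
    rw [Finset.card_add_card_compl, Fintype.card_fin]
  · exact absurd (Sb_apply_of_ne h') h

theorem Sb_skew' (s p : Fin n → R) : K p s * Sb R n + Sb R n * K s p = 0 := by
  classical
  ext T U
  rw [Matrix.add_apply, mul_Sb_apply, Sb_mul_apply, Matrix.zero_apply]
  by_cases h : ∃ j, tog Tᶜ j = U
  · obtain ⟨j, rfl⟩ := h
    rw [K_apply_tog, ← compl_tog, compl_compl, K_apply_tog, eps_tog]
    have h1 := sgn_mul_sgn_compl (R := R) j T
    have h2 := sgn_mul_self (R := R) j T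
    have h3 : ((-1 : R) ^ j.val) * (-1 : R) ^ j.val = 1 := by
      rw [← pow_add, ← two_mul, pow_mul]; simp
    have h4 : cf s p j Tᶜ = cf p s j T := by
      unfold cf
      simp only [mem_compl]
      by_cases hj : j ∈ T <;> simp [hj]
    rw [h4]
    have h5 : sgn R j Tᶜ = (-1) ^ j.val * sgn R j T := by
      linear_combination (sgn R j T) * h1 - sgn R j Tᶜ * h2
    rw [h5, pow_succ]
    ring
  · push Not at h
    rw [K_apply_eq_zero s p h, mul_zero, add_zero, K_apply_eq_zero p s, mul_zero]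
    intro j hj
    exact h j (by rw [← compl_tog, hj, compl_compl])

/-- the skewness of the Berezin form -/
theorem Sb_skew (s p : Fin n → R) : (K s p)ᵀ * Sb R n + Sb R n * K s p = 0 := by
  rw [K_transpose]; exact Sb_skew' s p

theorem Sbi_skew (s p : Fin n → R) : Sbi R n * (K s p)ᵀ + K s p * Sbi R n = 0 := by
  have h := Sb_skew' p s
  rw [K_transpose, Sbi, Matrix.mul_smul, Matrix.smul_mul, ← smul_add, add_comm (Sb R n * K p s), h,
    smul_zero]

/-! ### multiplicativity -/

/-- wedge with the basis vector `j` -/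
theorem K_single_mulVec {j : Fin n} {U : Finset (Fin n)} (hj : j ∉ U) :
    K (Pi.single j (1 : R)) 0 *ᵥ Pi.single U 1 = sgn R j U • Pi.single (insert j U) (1 : R) := by
  classical
  have htog : tog U j = insert j U := by simp [tog, hj]
  ext T
  rw [Matrix.mulVec_single_one, Matrix.col_apply, Pi.smul_apply, smul_eq_mul]
  by_cases h : ∃ k, tog T k = U
  · obtain ⟨k, rfl⟩ := h
    rw [K_apply_tog]
    by_cases hk : k = j
    · subst hk
      rw [tog_tog] at htog
      rw [← htog, Pi.single_eq_same, sgn_tog_self]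
      have hkT : k ∈ T := by
        rw [mem_tog_self, not_not] at hj; exact hj
      simp [cf, hkT]
    · have h1 : T ≠ insert j (tog T k) := by
        intro h2
        rw [← htog] at h2
        have h3 : tog T j = tog T k := by
          conv_lhs => rw [h2]
          rw [tog_tog]
        exact hk (tog_injective T h3).symm
      rw [Pi.single_eq_of_ne h1]
      simp [cf, hk]
  · push Not at h
    rw [K_apply_eq_zero _ _ h]
    have h1 : T ≠ insert j U := by
      rintro rfl
      exact h j (by rw [← htog, tog_tog])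
    rw [Pi.single_eq_of_ne h1, mul_zero]

/-- a matrix that commutes with all wedge operators and maps the vacuum to `c • vacuum` is `c`. -/
theorem eq_smul_one_of_comm {B : Matrix (Finset (Fin n)) (Finset (Fin n)) R} {c : R}
    (hB : ∀ j, B * K (Pi.single j (1 : R)) 0 = K (Pi.single j (1 : R)) 0 * B)
    (h0 : B *ᵥ Pi.single ∅ 1 = c • Pi.single ∅ 1) : B = c • 1 := by
  classical
  apply Matrix.ext_of_mulVec_single
  intro U
  rw [Matrix.smul_mulVec, Matrix.one_mulVec]
  induction U using Finset.induction_on with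
  | empty => exact h0
  | insert j U hj ih =>
    have h1 := K_single_mulVec (R := R) hj
    have h2 : (Pi.single (insert j U) (1 : R) : Finset (Fin n) → R)
        = sgn R j U • (K (Pi.single j (1 : R)) 0 *ᵥ Pi.single U 1) := by
      rw [h1, smul_smul, sgn_mul_self, one_smul]
    rw [h2, Matrix.mulVec_smul, Matrix.mulVec_mulVec, hB, ← Matrix.mulVec_mulVec, ih,
      Matrix.mulVec_smul, smul_comm]

/-- **Berezin**: `Gᵀ * Sb * G = det m • Sb`. -/
theorem Sb_mult {G : Matrix (Finset (Fin n)) (Finset (Fin n)) R} {m : Matrix (Fin n) (Fin n) R}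
    (hG : ∀ j, G * K (Pi.single j 1) 0 = K (m *ᵥ Pi.single j 1) 0 * G)
    (hdeg : ∀ T U, T.card ≠ U.card → G T U = 0) (h0 : G ∅ ∅ = 1)
    (htop : G univ univ = m.det) : Gᵀ * Sb R n * G = m.det • Sb R n := by
  classical
  have key : ∀ j, Gᵀ * Sb R n * G * K (Pi.single j (1 : R)) 0
      = - (K 0 (Pi.single j (1 : R)) * (Gᵀ * Sb R n * G)) := by
    intro j
    have h1 := congrArg Matrix.transpose (hG j)
    rw [Matrix.transpose_mul, Matrix.transpose_mul, K_transpose, K_transpose] at h1
    have h2 : Sb R n * K (m *ᵥ Pi.single j 1) 0 = - (K 0 (m *ᵥ Pi.single j 1) * Sb R n) :=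
      eq_neg_of_add_eq_zero_right (Sb_skew' _ _)
    calc Gᵀ * Sb R n * G * K (Pi.single j (1 : R)) 0
        = Gᵀ * (Sb R n * K (m *ᵥ Pi.single j 1) 0) * G := by
          rw [Matrix.mul_assoc _ G, hG]; simp only [Matrix.mul_assoc]
      _ = - ((Gᵀ * K 0 (m *ᵥ Pi.single j 1)) * Sb R n * G) := by
          rw [h2, Matrix.mul_neg, Matrix.neg_mul]; simp only [Matrix.mul_assoc]
      _ = _ := by
          rw [← h1]; simp only [Matrix.mul_assoc]
  have hB : ∀ j, (Sbi R n * (Gᵀ * Sb R n * G)) * K (Pi.single j (1 : R)) 0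
      = K (Pi.single j (1 : R)) 0 * (Sbi R n * (Gᵀ * Sb R n * G)) := by
    intro j
    have h2 : Sbi R n * K 0 (Pi.single j (1 : R)) = - (K (Pi.single j (1 : R)) 0 * Sbi R n) := by
      have := Sbi_skew (R := R) (Pi.single j 1) 0
      rw [K_transpose] at this
      exact eq_neg_of_add_eq_zero_left this
    rw [Matrix.mul_assoc, key, Matrix.mul_neg, ← Matrix.mul_assoc, h2, Matrix.neg_mul, neg_neg,
      Matrix.mul_assoc]
  -- entries of `Gᵀ * Sb * G`
  have hent : ∀ T U, (Gᵀ * Sb R n * G) T U = ∑ V, G V T * (eps R V * G Vᶜ U) := by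
    intro T U
    rw [Matrix.mul_assoc, Matrix.mul_apply]
    refine Finset.sum_congr rfl fun V _ => ?_
    rw [Sb_mul_apply, Matrix.transpose_apply]
  have hdg : ∀ T U, (T.card + U.card ≠ n) → (Gᵀ * Sb R n * G) T U = 0 := by
    intro T U h
    rw [hent]
    refine Finset.sum_eq_zero fun V _ => ?_
    by_cases hV : V.card = T.card
    · rw [hdeg Vᶜ U, mul_zero, mul_zero]
      intro h'
      apply h
      rw [← h', ← hV, Finset.card_add_card_compl, Fintype.card_fin]
    · rw [hdeg V T hV, zero_mul]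
  have htp : (Gᵀ * Sb R n * G) ∅ univ = m.det := by
    rw [hent, Finset.sum_eq_single ∅]
    · rw [h0, eps_empty, one_mul, one_mul, Finset.compl_empty, htop]
    · intro V _ hV
      rw [hdeg V ∅, zero_mul]
      rwa [Finset.card_empty, Ne, Finset.card_eq_zero]
    · simp
  have hvac : ∀ c : R, (Sbi R n * (Gᵀ * Sb R n * G)) ∅ ∅ = c →
      (Sbi R n * (Gᵀ * Sb R n * G)) *ᵥ Pi.single ∅ 1 = c • Pi.single ∅ (1 : R) := by
    intro c hc
    ext T
    rw [Matrix.mulVec_single_one, Matrix.col_apply, Pi.smul_apply, smul_eq_mul]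
    by_cases hT : T = ∅
    · subst hT; rw [Pi.single_eq_same, mul_one, hc]
    · rw [Pi.single_eq_of_ne hT, mul_zero, Sbi, Matrix.smul_mul, Matrix.smul_apply, Sb_mul_apply,
        hdg, mul_zero, smul_zero]
      rw [Finset.card_empty, add_zero, Finset.card_compl, Fintype.card_fin]
      have h1 : T.card ≠ 0 := by rwa [Ne, Finset.card_eq_zero]
      have h2 := Finset.card_le_univ T
      rw [Fintype.card_fin] at h2
      omega
  have hone := eq_smul_one_of_comm hB (hvac _ rfl)
  have hc : (Sbi R n * (Gᵀ * Sb R n * G)) ∅ ∅ = m.det := by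
    have h1 : (Sbi R n * (Gᵀ * Sb R n * G)) univ univ = m.det := by
      rw [Sbi, Matrix.smul_mul, Matrix.smul_apply, Sb_mul_apply, Finset.compl_univ, htp,
        smul_eq_mul, ← mul_assoc]
      have := epsn_mul_self (R := R) (n := n)
      unfold epsn at this ⊢
      rw [this, one_mul]
    rw [← h1]
    conv_rhs => rw [hone]
    simp
  rw [hc] at hone
  calc Gᵀ * Sb R n * G = Sb R n * (Sbi R n * (Gᵀ * Sb R n * G)) := by
        rw [← Matrix.mul_assoc, Sb_mul_Sbi, Matrix.one_mul]
    _ = _ := by rw [hone, Matrix.mul_smul, Matrix.mul_one]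

/-! ### corollaries for invertible `G` -/

section inv

variable {G G' : Matrix (Finset (Fin n)) (Finset (Fin n)) R} {d : R}

/-- `S G = d G' S` when `G' = (Gᵀ)⁻¹` -/
theorem Sb_mul_of_inv (h : Gᵀ * Sb R n * G = d • Sb R n) (hinv : G' * Gᵀ = 1) :
    Sb R n * G = d • (G' * Sb R n) := by
  have h1 := congrArg (fun X => G' * X) h
  simp only [Matrix.mul_smul, ← Matrix.mul_assoc, hinv, Matrix.one_mul] at h1
  exact h1

/-- `G S⁻¹ = d S⁻¹ G'` when `G' = (Gᵀ)⁻¹` -/
theorem mul_Sbi_of_inv (h : Gᵀ * Sb R n * G = d • Sb R n) (hinv : G' * Gᵀ = 1) :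
    G * Sbi R n = d • (Sbi R n * G') := by
  have h1 := Sb_mul_of_inv h hinv
  have h2 := congrArg (fun X => Sbi R n * X * Sbi R n) h1
  simp only [← Matrix.mul_assoc, Sbi_mul_Sb, Matrix.one_mul] at h2
  rw [h2, Matrix.mul_smul, Matrix.smul_mul]
  congr 1
  rw [Matrix.mul_assoc, Matrix.mul_assoc, Sb_mul_Sbi, Matrix.mul_one]

end inv


/-- entries of `S v` -/
theorem Sb_mulVec (v : Finset (Fin n) → R) (T : Finset (Fin n)) :
    (Sb R n *ᵥ v) T = eps R T * v Tᶜ := by
  rw [Matrix.mulVec, dotProduct, Finset.sum_eq_single Tᶜ]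
  · rw [Sb_apply_compl]
  · intro U _ h
    rw [Sb_apply_of_ne (Ne.symm h), zero_mul]
  · simp

/-- entries of `S⁻¹ v` -/
theorem Sbi_mulVec (v : Finset (Fin n) → R) (T : Finset (Fin n)) :
    (Sbi R n *ᵥ v) T = epsn R n * eps R T * v Tᶜ := by
  rw [Sbi, Matrix.smul_mulVec, Pi.smul_apply, Sb_mulVec, smul_eq_mul, mul_assoc]

/-! ### ring homomorphisms (complex conjugation) -/

section map

variable {R' : Type*} [CommRing R'] (f : R →+* R')


theorem map_eps (T : Finset (Fin n)) : f (eps R T) = eps R' T := by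
  simp [eps]

theorem map_epsn : f (epsn R n) = epsn R' n := map_eps f _

theorem map_Sb : (Sb R n).map f = Sb R' n := by
  ext T U
  rw [Matrix.map_apply, Sb, Sb]
  split_ifs
  · exact map_eps f T
  · exact map_zero f

theorem map_Sbi : (Sbi R n).map f = Sbi R' n := by
  ext T U
  rw [Matrix.map_apply, Sbi, Sbi, Matrix.smul_apply, Matrix.smul_apply, smul_eq_mul, smul_eq_mul,
    map_mul, map_epsn, ← map_Sb f, Matrix.map_apply]


end map

end Crest.Agent.R273.Berezin_505
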