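import Mathlib

-- ▼ part R273/YJet_812
section

/-!
Row 273 (S0416), Part C (Yau), helper812: the exact algebraic identities behind the second and
third order a priori estimates, for commuting derivations `D i` (= `∂_i`), `B j` (= `∂_{j̄}`) on a
commutative `ℂ`-algebra `R` (germs of smooth functions) with an evaluation `ev : R → ℂ`.

`G i j = D i (B j u)`, `H = G⁻¹`, `f = log det G`, i.e. `D f = tr (H · D G)`.
-/

set_option autoImplicit false

namespace Crest.Agent.R273.YJet_812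

open Finset Matrix

/-- commuting derivations with an evaluation -/
structure Jet (n : ℕ) (R : Type*) [CommRing R] [Algebra ℂ R] where
  D : Fin n → Derivation ℂ R R
  B : Fin n → Derivation ℂ R R
  DD : ∀ i j x, D i (D j x) = D j (D i x)
  BB : ∀ i j x, B i (B j x) = B j (B i x)
  DB : ∀ i j x, D i (B j x) = B j (D i x)
  ev : R →ₐ[ℂ] ℂ

variable {n : ℕ} {R : Type*} [CommRing R] [Algebra ℂ R]

/-- entrywise derivation -/
abbrev mD (d : Derivation ℂ R R) (A : Matrix (Fin n) (Fin n) R) : Matrix (Fin n) (Fin n) R :=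
  A.map d

/-- entrywise evaluation -/
abbrev mE (e : R →ₐ[ℂ] ℂ) (A : Matrix (Fin n) (Fin n) R) : Matrix (Fin n) (Fin n) ℂ :=
  A.map e

theorem mD_mul (d : Derivation ℂ R R) (A C : Matrix (Fin n) (Fin n) R) :
    mD d (A * C) = mD d A * C + A * mD d C := by
  ext i j
  simp only [mD, Matrix.map_apply, Matrix.mul_apply, Matrix.add_apply, map_sum, Derivation.leibniz,
    smul_eq_mul, ← Finset.sum_add_distrib]
  refine Finset.sum_congr rfl fun x _ => ?_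
  ring

theorem mD_neg (d : Derivation ℂ R R) (A : Matrix (Fin n) (Fin n) R) :
    mD d (-A) = - mD d A := by
  ext i j
  simp [mD]

theorem mD_add (d : Derivation ℂ R R) (A C : Matrix (Fin n) (Fin n) R) :
    mD d (A + C) = mD d A + mD d C := by
  ext i j
  simp [mD]

theorem mD_one (d : Derivation ℂ R R) : mD d (1 : Matrix (Fin n) (Fin n) R) = 0 := by
  ext i j
  by_cases h : i = j
  · subst h; simp [mD]
  · simp [mD, Matrix.one_apply_ne h]

theorem mE_mul (e : R →ₐ[ℂ] ℂ) (A C : Matrix (Fin n) (Fin n) R) :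
    mE e (A * C) = mE e A * mE e C := by
  simp only [mE]
  exact Matrix.map_mul (f := e.toRingHom)

theorem mE_add (e : R →ₐ[ℂ] ℂ) (A C : Matrix (Fin n) (Fin n) R) :
    mE e (A + C) = mE e A + mE e C := by
  ext i j; simp [mE]

theorem mE_neg (e : R →ₐ[ℂ] ℂ) (A : Matrix (Fin n) (Fin n) R) :
    mE e (-A) = - mE e A := by
  ext i j; simp [mE]

theorem trace_mD (d : Derivation ℂ R R) (A : Matrix (Fin n) (Fin n) R) :
    d (trace A) = trace (mD d A) := by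
  simp [trace, mD, map_sum]

theorem trace_mE (e : R →ₐ[ℂ] ℂ) (A : Matrix (Fin n) (Fin n) R) :
    e (trace A) = trace (mE e A) := by
  simp [trace, mE, map_sum]

/-- derivative of the inverse matrix -/
theorem mD_inv (d : Derivation ℂ R R) {G H : Matrix (Fin n) (Fin n) R} (h : G * H = 1) :
    mD d H = -(H * mD d G * H) := by
  have h' : H * G = 1 := mul_eq_one_comm.1 h
  have h1 : mD d (G * H) = 0 := by rw [h]; exact mD_one d
  rw [mD_mul] at h1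
  have h2 : G * mD d H = -(mD d G * H) := by
    rw [eq_neg_iff_add_eq_zero, add_comm]; exact h1
  calc mD d H = (H * G) * mD d H := by rw [h', one_mul]
    _ = H * (G * mD d H) := by rw [mul_assoc]
    _ = -(H * mD d G * H) := by rw [h2, mul_neg, mul_assoc]

variable {e : R →ₐ[ℂ] ℂ} {G H : Matrix (Fin n) (Fin n) R}

theorem ev_inv (h : G * H = 1) (hG : mE e G = 1) : mE e H = 1 := by
  have h1 : mE e (G * H) = mE e 1 := by rw [h]
  have h2 : mE e (1 : Matrix (Fin n) (Fin n) R) = 1 := by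
    ext i j
    by_cases h : i = j
    · subst h; simp [mE]
    · simp [mE, Matrix.one_apply_ne h]
  rw [mE_mul, hG, one_mul, h2] at h1
  exact h1

theorem ev_mD_inv (d : Derivation ℂ R R) (h : G * H = 1) (hG : mE e G = 1) :
    mE e (mD d H) = - mE e (mD d G) := by
  rw [mD_inv d h, mE_neg, mE_mul, mE_mul, ev_inv h hG, one_mul, mul_one]

theorem ev_mD2_inv (d d' : Derivation ℂ R R) (h : G * H = 1) (hG : mE e G = 1) :
    mE e (mD d' (mD d H)) = mE e (mD d' G) * mE e (mD d G) - mE e (mD d' (mD d G))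
      + mE e (mD d G) * mE e (mD d' G) := by
  rw [mD_inv d h, mD_neg, mD_mul, mD_mul, mE_neg, mE_add, mE_mul, mE_add, mE_mul, mE_mul, mE_mul,
    mE_mul, ev_inv h hG, ev_mD_inv d' h hG]
  simp only [mul_one, one_mul, neg_mul, mul_neg]
  abel

/-- second derivative of `log det` at a point where `G = 1` -/
theorem ev_log2 (d b : Derivation ℂ R R) {f : R} (h : G * H = 1) (hG : mE e G = 1)
    (hf : b f = trace (H * mD b G)) :
    e (d (b f)) = trace (mE e (mD d (mD b G))) - trace (mE e (mD d G) * mE e (mD b G)) := by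
  rw [hf, trace_mD, trace_mE, mD_mul, mE_add, mE_mul, mE_mul, ev_inv h hG, ev_mD_inv d h hG,
    one_mul, trace_add, neg_mul, trace_neg]
  ring

/-- third derivative of `log det` at a point where `G = 1` -/
theorem ev_log3 (d d' b : Derivation ℂ R R) {f : R} (h : G * H = 1) (hG : mE e G = 1)
    (hf : b f = trace (H * mD b G)) :
    e (d' (d (b f))) = trace (mE e (mD d' (mD d (mD b G))))
      - trace (mE e (mD d G) * mE e (mD d' (mD b G)))
      - trace (mE e (mD d' G) * mE e (mD d (mD b G)))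
      + trace ((mE e (mD d' G) * mE e (mD d G) - mE e (mD d' (mD d G))
      + mE e (mD d G) * mE e (mD d' G)) * mE e (mD b G)) := by
  rw [hf, trace_mD, trace_mD, trace_mE, mD_mul, mD_add, mD_mul, mD_mul]
  simp only [mE_add, mE_mul, ev_inv h hG, ev_mD_inv d h hG, ev_mD_inv d' h hG,
    ev_mD2_inv d d' h hG, trace_add, neg_mul, trace_neg, one_mul]
  ring

/-! ### Jacobi's formula -/

theorem d_prod {ι : Type*} [DecidableEq ι] (d : Derivation ℂ R R) (s : Finset ι) (f : ι → R) :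
    d (∏ i ∈ s, f i) = ∑ i ∈ s, (∏ j ∈ s.erase i, f j) * d (f i) := by
  induction s using Finset.induction_on with
  | empty => simp
  | insert a s ha ih =>
    rw [Finset.prod_insert ha, Derivation.leibniz, ih, Finset.sum_insert ha,
      Finset.erase_insert ha, smul_eq_mul, smul_eq_mul, Finset.mul_sum, add_comm]
    congr 1
    refine Finset.sum_congr rfl fun i hi => ?_
    have hne : a ≠ i := fun h => ha (h ▸ hi)
    rw [Finset.erase_insert_of_ne hne, Finset.prod_insert (fun h => ha (Finset.mem_of_mem_erase h))]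
    ring

/-- Jacobi's formula -/
theorem d_det (d : Derivation ℂ R R) (A : Matrix (Fin n) (Fin n) R) :
    d A.det = trace (A.adjugate * A.map d) := by
  have h1 : trace (A.adjugate * A.map d) = ∑ j, (A.updateCol j fun i => d (A i j)).det := by
    simp only [trace, Matrix.diag]
    refine Finset.sum_congr rfl fun j _ => ?_
    rw [← Matrix.cramer_apply, Matrix.cramer_eq_adjugate_mulVec]
    rfl
  rw [h1, Matrix.det_apply]
  simp only [map_sum, Matrix.det_apply]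
  rw [Finset.sum_comm]
  refine Finset.sum_congr rfl fun σ _ => ?_
  rw [← Finset.smul_sum]
  have h2 : d (Equiv.Perm.sign σ • ∏ i, A (σ i) i) = Equiv.Perm.sign σ • d (∏ i, A (σ i) i) := by
    rcases Int.units_eq_one_or (Equiv.Perm.sign σ) with h | h <;> rw [h] <;> simp
  rw [h2, d_prod]
  congr 1
  refine Finset.sum_congr rfl fun j _ => ?_
  rw [← Finset.prod_erase_mul _ _ (Finset.mem_univ j)]
  congr 1
  · refine Finset.prod_congr rfl fun i hi => ?_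
    rw [Matrix.updateCol_ne (Finset.ne_of_mem_erase hi)]
  · rw [Matrix.updateCol_self]

theorem d_log {d : Derivation ℂ R R} {G H : Matrix (Fin n) (Fin n) R} (h : G * H = 1) :
    d G.det = G.det * trace (H * G.map d) := by
  have h' : H * G = 1 := mul_eq_one_comm.1 h
  have h2 : G.adjugate = G.det • H := by
    calc G.adjugate = G.adjugate * (G * H) := by rw [h, mul_one]
      _ = (G.adjugate * G) * H := by rw [mul_assoc]
      _ = G.det • H := by rw [adjugate_mul]; simp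
  rw [d_det, h2, smul_mul, trace_smul, smul_eq_mul]

/-! ### the jets of a potential -/

variable (J : Jet n R)

/-- the complex Hessian -/
def Jet.Gm (u : R) : Matrix (Fin n) (Fin n) R := Matrix.of fun i j => J.D i (J.B j u)

theorem Jet.Gm_apply (u : R) (i j : Fin n) : J.Gm u i j = J.D i (J.B j u) := rfl

theorem Jet.DB_prod (q : Fin n) {g m v : R} (hm : J.B q m = 0) (hv : J.D q v = 0) :
    J.D q (J.B q (g * (m * v))) = J.D q (J.B q g) * m * v + J.B q g * J.D q m * v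
      + J.D q g * m * J.B q v + g * J.D q m * J.B q v := by
  have h1 : J.D q (J.B q v) = 0 := by rw [J.DB, hv, map_zero]
  have h2 : J.B q (g * (m * v)) = J.B q g * m * v + g * m * J.B q v := by
    simp only [Derivation.leibniz, smul_eq_mul, hm]; ring
  rw [h2, map_add]
  simp only [Derivation.leibniz, smul_eq_mul, hv, h1]
  ring

/-- **second order identity**: `Δ G(Z, Z̄) = ∂∂̄ log det G` at `O`, for the frame killing the first
derivatives of `G`. -/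
theorem Jet.lap_g (u f : R) (H : Matrix (Fin n) (Fin n) R) (hH : J.Gm u * H = 1)
    (hG : mE J.ev (J.Gm u) = 1) (hf : ∀ p, J.B p f = trace (H * mD (J.B p) (J.Gm u)))
    (k p : Fin n) (M N : Fin n → R)
    (hM0 : ∀ x, J.ev (M x) = if k = x then 1 else 0)
    (hN0 : ∀ x, J.ev (N x) = if p = x then 1 else 0)
    (hMB : ∀ q x, J.B q (M x) = 0) (hND : ∀ q x, J.D q (N x) = 0)
    (hMD : ∀ q x, J.ev (J.D q (M x)) = - J.ev (J.D q (J.Gm u k x)))
    (hNB : ∀ q x, J.ev (J.B q (N x)) = - J.ev (J.B q (J.Gm u x p))) :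
    ∑ q, J.ev (J.D q (J.B q (∑ x, ∑ y, J.Gm u x y * (M x * N y)))) = J.ev (J.D k (J.B p f)) := by
  have hG' : ∀ x y, J.ev (J.Gm u x y) = if x = y then 1 else 0 := fun x y => by
    have := congrFun (congrFun hG x) y
    simpa [mE, Matrix.one_apply] using this
  rw [ev_log2 (J.D k) (J.B p) hH hG (hf p)]
  have e1 : ∀ q, J.ev (J.D q (J.B q (∑ x, ∑ y, J.Gm u x y * (M x * N y))))
      = J.ev (J.D q (J.B q (J.Gm u k p)))
        - ∑ x, J.ev (J.D q (J.Gm u k x)) * J.ev (J.B q (J.Gm u x p)) := by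
    intro q
    simp only [map_sum]
    have : ∀ x y, J.ev (J.D q (J.B q (J.Gm u x y * (M x * N y))))
      = J.ev (J.D q (J.B q (J.Gm u x y))) * (if k = x then 1 else 0) * (if p = y then 1 else 0)
        - J.ev (J.B q (J.Gm u x y)) * J.ev (J.D q (J.Gm u k x)) * (if p = y then 1 else 0)
        - J.ev (J.D q (J.Gm u x y)) * (if k = x then 1 else 0) * J.ev (J.B q (J.Gm u y p))
        + (if x = y then 1 else 0) * J.ev (J.D q (J.Gm u k x)) * J.ev (J.B q (J.Gm u y p)) := by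
      intro x y
      rw [J.DB_prod q (hMB q x) (hND q y)]
      simp only [map_add, map_mul, hM0, hN0, hMD, hNB, hG']
      ring
    simp only [this, Finset.sum_add_distrib, Finset.sum_sub_distrib, mul_ite, mul_one, mul_zero,
      ite_mul, zero_mul, one_mul, Finset.sum_ite_eq, Finset.mem_univ, if_true,
      Finset.sum_ite_irrel, Finset.sum_const_zero]
    have e2 : ∑ x, J.ev (J.B q (J.Gm u x p)) * J.ev (J.D q (J.Gm u k x))
        = ∑ x, J.ev (J.D q (J.Gm u k x)) * J.ev (J.B q (J.Gm u x p)) :=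
      Finset.sum_congr rfl fun x _ => mul_comm _ _
    rw [e2]
    ring
  simp only [e1, Finset.sum_sub_distrib]
  congr 1
  · simp only [trace, Matrix.diag, mE, mD, Matrix.map_apply]
    refine Finset.sum_congr rfl fun q _ => ?_
    simp only [J.Gm_apply, ← J.DB]
    rw [J.DD q k, J.BB q p]
  · simp only [trace, Matrix.diag, mE, mD, Matrix.map_apply, Matrix.mul_apply]
    refine Finset.sum_congr rfl fun q _ => Finset.sum_congr rfl fun x _ => ?_
    simp only [J.Gm_apply, ← J.DB]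
    rw [J.DD q k, J.BB q p]

/-- third derivatives of the potential -/
def Jet.T (u : R) (x y z : Fin n) : R := J.D x (J.D y (J.B z u))

theorem Jet.T_apply (u : R) (x y z : Fin n) : J.T u x y z = J.D x (J.D y (J.B z u)) := rfl

/-- **third order identity**: `Δ (u_{k i p̄})(Z, Z', W̄) = (log det G)_{k i p̄}` at `O`, for the
frame killing the first derivatives of `G`. -/
theorem Jet.lap_T (u f : R) (H : Matrix (Fin n) (Fin n) R) (hH : J.Gm u * H = 1)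
    (hG : mE J.ev (J.Gm u) = 1) (hf : ∀ p, J.B p f = trace (H * mD (J.B p) (J.Gm u)))
    (k i p : Fin n) (M M' N : Fin n → R)
    (hM0 : ∀ x, J.ev (M x) = if k = x then 1 else 0)
    (hM0' : ∀ x, J.ev (M' x) = if i = x then 1 else 0)
    (hN0 : ∀ x, J.ev (N x) = if p = x then 1 else 0)
    (hMB : ∀ q x, J.B q (M x) = 0) (hMB' : ∀ q x, J.B q (M' x) = 0)
    (hND : ∀ q x, J.D q (N x) = 0)
    (hMD : ∀ q x, J.ev (J.D q (M x)) = - J.ev (J.D q (J.Gm u k x)))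
    (hMD' : ∀ q x, J.ev (J.D q (M' x)) = - J.ev (J.D q (J.Gm u i x)))
    (hNB : ∀ q x, J.ev (J.B q (N x)) = - J.ev (J.B q (J.Gm u x p))) :
    ∑ q, J.ev (J.D q (J.B q (∑ x, ∑ y, ∑ z, J.T u x y z * ((M x * M' y) * N z))))
      = J.ev (J.D k (J.D i (J.B p f))) := by
  rw [ev_log3 (J.D i) (J.D k) (J.B p) hH hG (hf p)]
  have e1 : ∀ q, J.ev (J.D q (J.B q (∑ x, ∑ y, ∑ z, J.T u x y z * ((M x * M' y) * N z))))
      = J.ev (J.D q (J.B q (J.T u k i p)))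
        - ∑ x, J.ev (J.B q (J.T u x i p)) * J.ev (J.D q (J.Gm u k x))
        - ∑ y, J.ev (J.B q (J.T u k y p)) * J.ev (J.D q (J.Gm u i y))
        - ∑ z, J.ev (J.D q (J.T u k i z)) * J.ev (J.B q (J.Gm u z p))
        + ∑ x, ∑ z, J.ev (J.T u x i z) * J.ev (J.D q (J.Gm u k x)) * J.ev (J.B q (J.Gm u z p))
        + ∑ y, ∑ z, J.ev (J.T u k y z) * J.ev (J.D q (J.Gm u i y)) * J.ev (J.B q (J.Gm u z p)) := by
    intro q
    simp only [map_sum]
    have : ∀ x y z, J.ev (J.D q (J.B q (J.T u x y z * ((M x * M' y) * N z))))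
      = J.ev (J.D q (J.B q (J.T u x y z))) * (if k = x then 1 else 0) * (if i = y then 1 else 0)
          * (if p = z then 1 else 0)
        - J.ev (J.B q (J.T u x y z)) * J.ev (J.D q (J.Gm u k x)) * (if i = y then 1 else 0)
          * (if p = z then 1 else 0)
        - J.ev (J.B q (J.T u x y z)) * J.ev (J.D q (J.Gm u i y)) * (if k = x then 1 else 0)
          * (if p = z then 1 else 0)
        - J.ev (J.D q (J.T u x y z)) * (if k = x then 1 else 0) * (if i = y then 1 else 0)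
          * J.ev (J.B q (J.Gm u z p))
        + J.ev (J.T u x y z) * J.ev (J.D q (J.Gm u k x)) * (if i = y then 1 else 0)
          * J.ev (J.B q (J.Gm u z p))
        + J.ev (J.T u x y z) * J.ev (J.D q (J.Gm u i y)) * (if k = x then 1 else 0)
          * J.ev (J.B q (J.Gm u z p)) := by
      intro x y z
      have hm : J.B q (M x * M' y) = 0 := by
        simp only [Derivation.leibniz, smul_eq_mul, hMB, hMB']; ring
      have hm2 : J.D q (M x * M' y) = M x * J.D q (M' y) + M' y * J.D q (M x) := by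
        simp only [Derivation.leibniz, smul_eq_mul]
      rw [J.DB_prod q hm (hND q z), hm2]
      simp only [map_add, map_mul, hM0, hM0', hN0, hMD, hMD', hNB]
      ring
    simp only [this, Finset.sum_add_distrib, Finset.sum_sub_distrib, mul_ite, mul_one, mul_zero,
      ite_mul, zero_mul, Finset.sum_ite_eq, Finset.mem_univ, if_true,
      Finset.sum_ite_irrel, Finset.sum_const_zero]
  simp only [e1, Finset.sum_sub_distrib, Finset.sum_add_distrib]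
  have t1 : trace (mE J.ev (mD (J.D k) (mD (J.D i) (mD (J.B p) (J.Gm u)))))
      = ∑ q, J.ev (J.D q (J.B q (J.T u k i p))) := by
    simp only [trace, Matrix.diag, mE, mD, Matrix.map_apply]
    refine Finset.sum_congr rfl fun q _ => ?_
    simp only [J.Gm_apply, J.T_apply, ← J.DB]
    rw [J.BB p q, J.DD i q, J.DD k q]
  have t2 : ∀ i k : Fin n, trace (mE J.ev (mD (J.D i) (J.Gm u))
        * mE J.ev (mD (J.D k) (mD (J.B p) (J.Gm u))))
      = ∑ q, ∑ y, J.ev (J.B q (J.T u k y p)) * J.ev (J.D q (J.Gm u i y)) := by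
    intro i k
    simp only [trace, Matrix.diag, mE, mD, Matrix.map_apply, Matrix.mul_apply]
    refine Finset.sum_congr rfl fun q _ => Finset.sum_congr rfl fun y _ => ?_
    simp only [J.Gm_apply, J.T_apply, ← J.DB]
    rw [J.BB p q, J.DD i q, mul_comm]
  have t3 : ∑ q, ∑ x, J.ev (J.B q (J.T u x i p)) * J.ev (J.D q (J.Gm u k x))
      = ∑ q, ∑ x, J.ev (J.B q (J.T u i x p)) * J.ev (J.D q (J.Gm u k x)) := by
    refine Finset.sum_congr rfl fun q _ => Finset.sum_congr rfl fun y _ => ?_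
    simp only [J.T_apply]
    rw [J.DD y i]
  have t4 : trace (mE J.ev (mD (J.D k) (mD (J.D i) (J.Gm u))) * mE J.ev (mD (J.B p) (J.Gm u)))
      = ∑ q, ∑ z, J.ev (J.D q (J.T u k i z)) * J.ev (J.B q (J.Gm u z p)) := by
    simp only [trace, Matrix.diag, mE, mD, Matrix.map_apply, Matrix.mul_apply]
    refine Finset.sum_congr rfl fun q _ => Finset.sum_congr rfl fun z _ => ?_
    simp only [J.Gm_apply, J.T_apply, ← J.DB]
    rw [J.BB p q, J.DD i q, J.DD k q]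
  have t5 : ∀ i k : Fin n, trace (mE J.ev (mD (J.D k) (J.Gm u)) * mE J.ev (mD (J.D i) (J.Gm u))
        * mE J.ev (mD (J.B p) (J.Gm u)))
      = ∑ q, ∑ x, ∑ z, J.ev (J.D q (J.Gm u k x)) * J.ev (J.T u i x z)
        * J.ev (J.B q (J.Gm u z p)) := by
    intro i k
    simp only [trace, Matrix.diag, mE, mD, Matrix.map_apply, Matrix.mul_apply]
    refine Finset.sum_congr rfl fun q _ => ?_
    simp only [Finset.sum_mul]
    rw [Finset.sum_comm]
    refine Finset.sum_congr rfl fun x _ => Finset.sum_congr rfl fun z _ => ?_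
    simp only [J.Gm_apply, J.T_apply, ← J.DB]
    rw [J.BB p q, J.DD k q]
  have t6 : ∑ q, ∑ x, ∑ z, J.ev (J.T u x i z) * J.ev (J.D q (J.Gm u k x))
        * J.ev (J.B q (J.Gm u z p)) = ∑ q, ∑ x, ∑ z, J.ev (J.D q (J.Gm u k x))
        * J.ev (J.T u i x z) * J.ev (J.B q (J.Gm u z p)) := by
    refine Finset.sum_congr rfl fun q _ => Finset.sum_congr rfl fun x _ =>
      Finset.sum_congr rfl fun z _ => ?_
    simp only [J.T_apply]
    rw [J.DD x i]
    ring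
  have t7 : ∑ q, ∑ y, ∑ z, J.ev (J.T u k y z) * J.ev (J.D q (J.Gm u i y))
        * J.ev (J.B q (J.Gm u z p)) = ∑ q, ∑ x, ∑ z, J.ev (J.D q (J.Gm u i x))
        * J.ev (J.T u k x z) * J.ev (J.B q (J.Gm u z p)) := by
    refine Finset.sum_congr rfl fun q _ => Finset.sum_congr rfl fun x _ =>
      Finset.sum_congr rfl fun z _ => ?_
    ring
  rw [t1, t2 i k, t2 k i, t3, t6, t7, add_mul, sub_mul, trace_add, trace_sub, t4, t5 i k, t5 k i]
  ring

/-- `Δ (u_{v v̄}) = (log det G)_{v v̄} + |∂_v G|²` at `O` -/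
theorem Jet.lap_const (u f : R) (H : Matrix (Fin n) (Fin n) R) (hH : J.Gm u * H = 1)
    (hG : mE J.ev (J.Gm u) = 1) (d b : Derivation ℂ R R)
    (hdD : ∀ q x, d (J.D q x) = J.D q (d x)) (hdB : ∀ q x, d (J.B q x) = J.B q (d x))
    (hbD : ∀ q x, b (J.D q x) = J.D q (b x)) (hbB : ∀ q x, b (J.B q x) = J.B q (b x))
    (hf : b f = trace (H * mD b (J.Gm u))) :
    ∑ q, J.ev (J.D q (J.B q (d (b u)))) = J.ev (d (b f))
      + ∑ x, ∑ y, J.ev (J.D x (J.B y (d u))) * J.ev (J.D y (J.B x (b u))) := by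
  rw [ev_log2 d b hH hG hf]
  have t1 : trace (mE J.ev (mD d (mD b (J.Gm u)))) = ∑ q, J.ev (J.D q (J.B q (d (b u)))) := by
    simp only [trace, Matrix.diag, mE, mD, Matrix.map_apply]
    refine Finset.sum_congr rfl fun q _ => ?_
    simp only [J.Gm_apply, hbD, hbB, hdD, hdB]
  have t2 : trace (mE J.ev (mD d (J.Gm u)) * mE J.ev (mD b (J.Gm u)))
      = ∑ x, ∑ y, J.ev (J.D x (J.B y (d u))) * J.ev (J.D y (J.B x (b u))) := by
    simp only [trace, Matrix.diag, mE, mD, Matrix.map_apply, Matrix.mul_apply]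
    refine Finset.sum_congr rfl fun q _ => Finset.sum_congr rfl fun y _ => ?_
    simp only [J.Gm_apply, hbD, hbB, hdD, hdB]
  rw [t1, t2]
  ring

/-! ### linear combinations of the frame -/

theorem swap2 {ι A : Type*} [Fintype ι] [AddCommMonoid A] (F : ι → ι → ι → ι → A) :
    ∑ x, ∑ y, ∑ k, ∑ p, F x y k p = ∑ k, ∑ p, ∑ x, ∑ y, F x y k p := by
  calc ∑ x, ∑ y, ∑ k, ∑ p, F x y k p
      = ∑ a : ι × ι, ∑ b : ι × ι, F a.1 a.2 b.1 b.2 := by simp only [Fintype.sum_prod_type]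
    _ = ∑ b : ι × ι, ∑ a : ι × ι, F a.1 a.2 b.1 b.2 := Finset.sum_comm
    _ = _ := by simp only [Fintype.sum_prod_type]

theorem swap3 {ι A : Type*} [Fintype ι] [AddCommMonoid A] (F : ι → ι → ι → ι → ι → ι → A) :
    ∑ x, ∑ y, ∑ z, ∑ k, ∑ i, ∑ p, F x y z k i p = ∑ k, ∑ i, ∑ p, ∑ x, ∑ y, ∑ z, F x y z k i p := by
  calc ∑ x, ∑ y, ∑ z, ∑ k, ∑ i, ∑ p, F x y z k i p
      = ∑ a : ι × ι × ι, ∑ b : ι × ι × ι, F a.1 a.2.1 a.2.2 b.1 b.2.1 b.2.2 := by
        simp only [Fintype.sum_prod_type]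
    _ = ∑ b : ι × ι × ι, ∑ a : ι × ι × ι, F a.1 a.2.1 a.2.2 b.1 b.2.1 b.2.2 := Finset.sum_comm
    _ = _ := by simp only [Fintype.sum_prod_type]

/-- a frame `M` (holomorphic) and its conjugate `N` killing the first derivatives of `G` at `O` -/
structure Fr (J : Jet n R) (u : R) where
  M : Fin n → Fin n → R
  N : Fin n → Fin n → R
  M0 : ∀ k x, J.ev (M k x) = if k = x then 1 else 0
  N0 : ∀ k x, J.ev (N k x) = if k = x then 1 else 0
  MB : ∀ k q x, J.B q (M k x) = 0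
  ND : ∀ k q x, J.D q (N k x) = 0
  MD : ∀ k q x, J.ev (J.D q (M k x)) = - J.ev (J.D q (J.Gm u k x))
  NB : ∀ k q x, J.ev (J.B q (N k x)) = - J.ev (J.B q (J.Gm u x k))

variable {J} {u : R} (Φ : Fr J u)

/-- the components of the field `Z` -/
def Fr.Z (c : Fin n → ℂ) (x : Fin n) : R := ∑ k, c k • Φ.M k x

/-- the components of the conjugate field -/
def Fr.Y (c : Fin n → ℂ) (x : Fin n) : R := ∑ k, c k • Φ.N k x

/-- `G(Z, Y)` -/
def Fr.g (c c' : Fin n → ℂ) : R := ∑ x, ∑ y, J.Gm u x y * (Φ.Z c x * Φ.Y c' y)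

/-- `T(Z, Z', Y)` -/
def Fr.t (c c' c'' : Fin n → ℂ) : R :=
  ∑ x, ∑ y, ∑ z, J.T u x y z * ((Φ.Z c x * Φ.Z c' y) * Φ.Y c'' z)

theorem Fr.g_eq (c c' : Fin n → ℂ) : Φ.g c c'
    = ∑ k, ∑ p, (c k * c' p) • ∑ x, ∑ y, J.Gm u x y * (Φ.M k x * Φ.N p y) := by
  have h : ∀ x y, J.Gm u x y * (Φ.Z c x * Φ.Y c' y)
      = ∑ k, ∑ p, (c k * c' p) • (J.Gm u x y * (Φ.M k x * Φ.N p y)) := by
    intro x y
    rw [Fr.Z, Fr.Y, Finset.sum_mul_sum, Finset.mul_sum]
    refine Finset.sum_congr rfl fun k _ => ?_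
    rw [Finset.mul_sum]
    refine Finset.sum_congr rfl fun p _ => ?_
    rw [smul_mul_smul_comm, mul_smul_comm]
  simp only [Fr.g, h]
  rw [swap2 (fun x y k p => (c k * c' p) • (J.Gm u x y * (Φ.M k x * Φ.N p y)))]
  simp only [Finset.smul_sum]

theorem Fr.t_eq (c c' c'' : Fin n → ℂ) : Φ.t c c' c''
    = ∑ k, ∑ i, ∑ p, (c k * c' i * c'' p) •
        ∑ x, ∑ y, ∑ z, J.T u x y z * ((Φ.M k x * Φ.M i y) * Φ.N p z) := by
  have h : ∀ x y z, J.T u x y z * ((Φ.Z c x * Φ.Z c' y) * Φ.Y c'' z)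
      = ∑ k, ∑ i, ∑ p, (c k * c' i * c'' p) •
        (J.T u x y z * ((Φ.M k x * Φ.M i y) * Φ.N p z)) := by
    intro x y z
    rw [Fr.Z, Fr.Z, Fr.Y, Finset.sum_mul_sum, Finset.sum_mul, Finset.mul_sum]
    refine Finset.sum_congr rfl fun k _ => ?_
    rw [Finset.sum_mul_sum, Finset.mul_sum]
    refine Finset.sum_congr rfl fun i _ => ?_
    rw [Finset.mul_sum]
    refine Finset.sum_congr rfl fun p _ => ?_
    rw [smul_mul_smul_comm, smul_mul_smul_comm, mul_smul_comm]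
  simp only [Fr.t, h]
  rw [swap3 (fun x y z k i p => (c k * c' i * c'' p) •
        (J.T u x y z * ((Φ.M k x * Φ.M i y) * Φ.N p z)))]
  simp only [Finset.smul_sum]

theorem Fr.lap_g {f : R} {H : Matrix (Fin n) (Fin n) R} (hH : J.Gm u * H = 1)
    (hG : mE J.ev (J.Gm u) = 1) (hf : ∀ p, J.B p f = trace (H * mD (J.B p) (J.Gm u)))
    (c c' : Fin n → ℂ) :
    ∑ q, J.ev (J.D q (J.B q (Φ.g c c'))) = ∑ k, ∑ p, c k * c' p * J.ev (J.D k (J.B p f)) := by
  rw [Φ.g_eq]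
  simp only [map_sum, Derivation.map_smul, map_smul, smul_eq_mul]
  rw [Finset.sum_comm]
  refine Finset.sum_congr rfl fun k _ => ?_
  rw [Finset.sum_comm]
  refine Finset.sum_congr rfl fun p _ => ?_
  rw [← J.lap_g u f H hH hG hf k p (Φ.M k) (Φ.N p) (Φ.M0 k) (Φ.N0 p) (Φ.MB k) (Φ.ND p) (Φ.MD k)
    (Φ.NB p), Finset.mul_sum]
  simp only [map_sum]

theorem Fr.lap_t {f : R} {H : Matrix (Fin n) (Fin n) R} (hH : J.Gm u * H = 1)
    (hG : mE J.ev (J.Gm u) = 1) (hf : ∀ p, J.B p f = trace (H * mD (J.B p) (J.Gm u)))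
    (c c' c'' : Fin n → ℂ) :
    ∑ q, J.ev (J.D q (J.B q (Φ.t c c' c'')))
      = ∑ k, ∑ i, ∑ p, c k * c' i * c'' p * J.ev (J.D k (J.D i (J.B p f))) := by
  rw [Φ.t_eq]
  simp only [map_sum, Derivation.map_smul, map_smul, smul_eq_mul]
  rw [Finset.sum_comm]
  refine Finset.sum_congr rfl fun k _ => ?_
  rw [Finset.sum_comm]
  refine Finset.sum_congr rfl fun i _ => ?_
  rw [Finset.sum_comm]
  refine Finset.sum_congr rfl fun p _ => ?_
  rw [← J.lap_T u f H hH hG hf k i p (Φ.M k) (Φ.M i) (Φ.N p) (Φ.M0 k) (Φ.M0 i) (Φ.N0 p) (Φ.MB k)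
    (Φ.MB i) (Φ.ND p) (Φ.MD k) (Φ.MD i) (Φ.NB p), Finset.mul_sum]
  simp only [map_sum]

theorem Fr.ev_g (hG : mE J.ev (J.Gm u) = 1) (c c' : Fin n → ℂ) :
    J.ev (Φ.g c c') = ∑ k, c k * c' k := by
  have hG' : ∀ x y, J.ev (J.Gm u x y) = if x = y then 1 else 0 := fun x y => by
    have := congrFun (congrFun hG x) y
    simpa [mE, Matrix.one_apply] using this
  simp only [Fr.g, Fr.Z, Fr.Y, map_sum, map_mul, map_smul, hG', Φ.M0, Φ.N0, smul_eq_mul, mul_ite,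
    mul_one, mul_zero, ite_mul, one_mul, zero_mul, Finset.sum_ite_eq', Finset.sum_ite_eq,
    Finset.mem_univ, if_true]


theorem Fr.D_g (hG : mE J.ev (J.Gm u) = 1) (c c' : Fin n → ℂ) (q : Fin n) :
    J.ev (J.D q (Φ.g c c')) = 0 := by
  have hG' : ∀ x y, J.ev (J.Gm u x y) = if x = y then 1 else 0 := fun x y => by
    have := congrFun (congrFun hG x) y
    simpa [mE, Matrix.one_apply] using this
  have key : ∀ k p, J.ev (J.D q (∑ x, ∑ y, J.Gm u x y * (Φ.M k x * Φ.N p y))) = 0 := by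
    intro k p
    simp only [map_sum, Derivation.leibniz, smul_eq_mul, Φ.ND, mul_zero, zero_add,
      map_mul, map_add, hG', Φ.M0, Φ.N0, Φ.MD]
    simp only [mul_ite, mul_one, mul_zero, ite_mul, one_mul, zero_mul, Finset.sum_ite_eq,
      Finset.mem_univ, if_true, Finset.sum_add_distrib, mul_neg, Finset.sum_neg_distrib,
      Finset.sum_ite_irrel, Finset.sum_const_zero, Finset.sum_ite_eq']
    ring
  rw [Φ.g_eq]
  simp only [map_sum, Derivation.map_smul, map_smul, smul_eq_mul]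
  refine Finset.sum_eq_zero fun k _ => Finset.sum_eq_zero fun p _ => ?_
  have := key k p
  simp only [map_sum] at this
  rw [this, mul_zero]

theorem Fr.B_g (hG : mE J.ev (J.Gm u) = 1) (c c' : Fin n → ℂ) (q : Fin n) :
    J.ev (J.B q (Φ.g c c')) = 0 := by
  have hG' : ∀ x y, J.ev (J.Gm u x y) = if x = y then 1 else 0 := fun x y => by
    have := congrFun (congrFun hG x) y
    simpa [mE, Matrix.one_apply] using this
  have key : ∀ k p, J.ev (J.B q (∑ x, ∑ y, J.Gm u x y * (Φ.M k x * Φ.N p y))) = 0 := by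
    intro k p
    simp only [map_sum, Derivation.leibniz, smul_eq_mul, Φ.MB, mul_zero, add_zero,
      map_mul, map_add, hG', Φ.M0, Φ.N0, Φ.NB]
    simp only [mul_ite, mul_one, mul_zero, ite_mul, one_mul, zero_mul, Finset.sum_ite_eq,
      Finset.mem_univ, if_true, Finset.sum_add_distrib, mul_neg, Finset.sum_neg_distrib,
      Finset.sum_ite_irrel, Finset.sum_const_zero, Finset.sum_ite_eq']
    ring
  rw [Φ.g_eq]
  simp only [map_sum, Derivation.map_smul, map_smul, smul_eq_mul]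
  refine Finset.sum_eq_zero fun k _ => Finset.sum_eq_zero fun p _ => ?_
  have := key k p
  simp only [map_sum] at this
  rw [this, mul_zero]

end Crest.Agent.R273.YJet_812
end

-- ▼ part R273/YSm_812
section

/-!
Row 273 (S0416), helper812: the `ℂ`-algebra `Sm Ω` of smooth complex functions on an open set `Ω`
of a complex normed space, with the commuting derivations `D ξ = ∂_ξ`, `B ξ = ∂̄_ξ` (constant
vector fields `ξ`), conjugation, evaluation and the second derivative test.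
-/

set_option autoImplicit false

open Set Filter Topology Complex
open scoped ContDiff ComplexConjugate

namespace Crest.Agent.R273.YSm_812

variable {V : Type*} [NormedAddCommGroup V] [NormedSpace ℂ V]

theorem two_le : (2 : ℕ∞ω) ≤ ∞ := WithTop.coe_le_coe.2 le_top

/-- `∂_ξ f` -/
noncomputable def dz (ξ : V) (f : V → ℂ) (z : V) : ℂ :=
  (fderiv ℝ f z ξ - I * fderiv ℝ f z (I • ξ)) / 2

/-- `∂̄_ξ f` -/
noncomputable def db (ξ : V) (f : V → ℂ) (z : V) : ℂ :=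
  (fderiv ℝ f z ξ + I * fderiv ℝ f z (I • ξ)) / 2

/-- real directional derivative -/
noncomputable def dr (ξ : V) (f : V → ℂ) (z : V) : ℂ := fderiv ℝ f z ξ

open Classical in
/-- extension by zero -/
noncomputable def ex {Ω : Set V} (g : Ω → ℂ) (z : V) : ℂ := if h : z ∈ Ω then g ⟨z, h⟩ else 0

omit [NormedAddCommGroup V] [NormedSpace ℂ V] in
theorem ex_of_mem {Ω : Set V} (g : Ω → ℂ) {z : V} (h : z ∈ Ω) : ex g z = g ⟨z, h⟩ := by
  simp [ex, h]

omit [NormedAddCommGroup V] [NormedSpace ℂ V] in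
theorem ex_coe {Ω : Set V} (g : Ω → ℂ) (z : Ω) : ex g z = g z := by
  simp [ex]

/-- the algebra of smooth functions on `Ω` -/
def Sm (Ω : Set V) : Subalgebra ℂ (Ω → ℂ) where
  carrier := {g | ContDiffOn ℝ ∞ (ex g) Ω}
  mul_mem' {a b} ha hb := by
    refine (ContDiffOn.mul (𝔸 := ℂ) (𝕜 := ℝ) ha hb).congr fun z hz => ?_
    simp [ex_of_mem _ hz]
  add_mem' {a b} ha hb := by
    refine (ContDiffOn.add (𝕜 := ℝ) ha hb).congr fun z hz => ?_
    simp [ex_of_mem _ hz]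
  algebraMap_mem' c := by
    refine (contDiffOn_const (𝕜 := ℝ) (c := c)).congr fun z hz => ?_
    simp [ex_of_mem _ hz]

variable {Ω : Set V}

theorem Sm.smooth (g : Sm Ω) : ContDiffOn ℝ ∞ (ex g.1) Ω := g.2

/-- restriction of a function smooth on `Ω` -/
def mk (f : V → ℂ) (hf : ContDiffOn ℝ ∞ f Ω) : Sm Ω :=
  ⟨fun z => f z, hf.congr fun z hz => by simp [ex_of_mem _ hz]⟩

@[simp] theorem mk_apply (f : V → ℂ) (hf : ContDiffOn ℝ ∞ f Ω) (z : Ω) : (mk f hf).1 z = f z := rfl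

theorem Sm.ext' {g h : Sm Ω} (H : ∀ z : Ω, g.1 z = h.1 z) : g = h := Subtype.ext (funext H)

theorem contDiffOn_dr (hΩ : IsOpen Ω) (ξ : V) {f : V → ℂ} (hf : ContDiffOn ℝ ∞ f Ω) :
    ContDiffOn ℝ ∞ (dr ξ f) Ω := by
  have h1 : ContDiffOn ℝ ∞ (fderiv ℝ f) Ω := hf.fderiv_of_isOpen hΩ (by simp)
  exact h1.clm_apply contDiffOn_const

theorem dz_eq (ξ : V) (f : V → ℂ) : dz ξ f = fun z => (dr ξ f z - I * dr (I • ξ) f z) / 2 := rfl

theorem db_eq (ξ : V) (f : V → ℂ) : db ξ f = fun z => (dr ξ f z + I * dr (I • ξ) f z) / 2 := rfl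

theorem contDiffOn_dz (hΩ : IsOpen Ω) (ξ : V) {f : V → ℂ} (hf : ContDiffOn ℝ ∞ f Ω) :
    ContDiffOn ℝ ∞ (dz ξ f) Ω := by
  rw [dz_eq]
  exact ((contDiffOn_dr hΩ ξ hf).sub (contDiffOn_const.mul (contDiffOn_dr hΩ _ hf))).div_const 2

theorem contDiffOn_db (hΩ : IsOpen Ω) (ξ : V) {f : V → ℂ} (hf : ContDiffOn ℝ ∞ f Ω) :
    ContDiffOn ℝ ∞ (db ξ f) Ω := by
  rw [db_eq]
  exact ((contDiffOn_dr hΩ ξ hf).add (contDiffOn_const.mul (contDiffOn_dr hΩ _ hf))).div_const 2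

theorem diffAt (hΩ : IsOpen Ω) {f : V → ℂ} (hf : ContDiffOn ℝ ∞ f Ω) {z : V} (hz : z ∈ Ω) :
    DifferentiableAt ℝ f z :=
  (hf.differentiableOn (by simp)).differentiableAt (hΩ.mem_nhds hz)

theorem fderiv_congr_on (hΩ : IsOpen Ω) {f g : V → ℂ} (h : ∀ z ∈ Ω, f z = g z) {z : V}
    (hz : z ∈ Ω) : fderiv ℝ f z = fderiv ℝ g z :=
  Filter.EventuallyEq.fderiv_eq ((hΩ.eventually_mem hz).mono fun w hw => h w hw)

theorem dr_congr (hΩ : IsOpen Ω) {f g : V → ℂ} (h : ∀ z ∈ Ω, f z = g z) {z : V}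
    (hz : z ∈ Ω) (ξ : V) : dr ξ f z = dr ξ g z := by
  rw [dr, dr, fderiv_congr_on hΩ h hz]

theorem dz_congr (hΩ : IsOpen Ω) {f g : V → ℂ} (h : ∀ z ∈ Ω, f z = g z) {z : V}
    (hz : z ∈ Ω) (ξ : V) : dz ξ f z = dz ξ g z := by
  rw [dz, dz, fderiv_congr_on hΩ h hz]

theorem db_congr (hΩ : IsOpen Ω) {f g : V → ℂ} (h : ∀ z ∈ Ω, f z = g z) {z : V}
    (hz : z ∈ Ω) (ξ : V) : db ξ f z = db ξ g z := by
  rw [db, db, fderiv_congr_on hΩ h hz]

theorem dr_add {f g : V → ℂ} {z : V} (hf : DifferentiableAt ℝ f z) (hg : DifferentiableAt ℝ g z)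
    (ξ : V) : dr ξ (fun w => f w + g w) z = dr ξ f z + dr ξ g z := by
  simp only [dr]
  rw [fderiv_fun_add hf hg]; rfl

theorem dr_mul {f g : V → ℂ} {z : V} (hf : DifferentiableAt ℝ f z) (hg : DifferentiableAt ℝ g z)
    (ξ : V) : dr ξ (fun w => f w * g w) z = f z * dr ξ g z + g z * dr ξ f z := by
  simp only [dr]
  rw [fderiv_fun_mul hf hg]
  simp

theorem dr_dr (hΩ : IsOpen Ω) {f : V → ℂ} (hf : ContDiffOn ℝ ∞ f Ω) {z : V} (hz : z ∈ Ω)
    (ξ η : V) : dr ξ (dr η f) z = fderiv ℝ (fderiv ℝ f) z ξ η := by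
  have h1 : DifferentiableAt ℝ (fderiv ℝ f) z := by
    have h1 : ContDiffOn ℝ ∞ (fderiv ℝ f) Ω := hf.fderiv_of_isOpen hΩ (by simp)
    exact (h1.differentiableOn (by simp)).differentiableAt (hΩ.mem_nhds hz)
  show fderiv ℝ (fun w => fderiv ℝ f w η) z ξ = _
  rw [fderiv_clm_apply h1 (differentiableAt_const η)]
  simp

theorem dr_comm (hΩ : IsOpen Ω) {f : V → ℂ} (hf : ContDiffOn ℝ ∞ f Ω) {z : V} (hz : z ∈ Ω)
    (ξ η : V) : dr ξ (dr η f) z = dr η (dr ξ f) z := by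
  rw [dr_dr hΩ hf hz, dr_dr hΩ hf hz]
  have h : ContDiffAt ℝ ∞ f z := hf.contDiffAt (hΩ.mem_nhds hz)
  exact (h.isSymmSndFDerivAt (by
    rw [minSmoothness_of_isRCLikeNormedField]; exact two_le)) ξ η

/-- the general first order operator `a ∂_ξ + b ∂_{iξ}` -/
noncomputable def dab (a b : ℂ) (ξ : V) (f : V → ℂ) (z : V) : ℂ :=
  a * dr ξ f z + b * dr (I • ξ) f z

theorem dz_dab (ξ : V) (f : V → ℂ) : dz ξ f = dab (1 / 2) (-(I / 2)) ξ f := by
  funext z; simp only [dz, dab, dr]; ring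

theorem db_dab (ξ : V) (f : V → ℂ) : db ξ f = dab (1 / 2) (I / 2) ξ f := by
  funext z; simp only [db, dab, dr]; ring

theorem contDiffOn_dab (hΩ : IsOpen Ω) (a b : ℂ) (ξ : V) {f : V → ℂ}
    (hf : ContDiffOn ℝ ∞ f Ω) : ContDiffOn ℝ ∞ (dab a b ξ f) Ω :=
  (contDiffOn_const.mul (contDiffOn_dr hΩ ξ hf)).add
    (contDiffOn_const.mul (contDiffOn_dr hΩ _ hf))

theorem dr_const_mul (hΩ : IsOpen Ω) {f : V → ℂ} (hf : ContDiffOn ℝ ∞ f Ω) {z : V} (hz : z ∈ Ω)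
    (c : ℂ) (ξ : V) : dr ξ (fun w => c * f w) z = c * dr ξ f z := by
  rw [dr_mul (differentiableAt_const c) (diffAt hΩ hf hz)]
  have : dr ξ (fun _ : V => c) z = 0 := by simp [dr]
  rw [this, mul_zero, add_zero]

theorem dab_comm (hΩ : IsOpen Ω) {f : V → ℂ} (hf : ContDiffOn ℝ ∞ f Ω) {z : V} (hz : z ∈ Ω)
    (a b a' b' : ℂ) (ξ η : V) : dab a b ξ (dab a' b' η f) z = dab a' b' η (dab a b ξ f) z := by
  have key : ∀ (a b a' b' : ℂ) (ξ η : V), dab a b ξ (dab a' b' η f) z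
      = a * a' * dr ξ (dr η f) z + a * b' * dr ξ (dr (I • η) f) z
        + b * a' * dr (I • ξ) (dr η f) z + b * b' * dr (I • ξ) (dr (I • η) f) z := by
    intro a b a' b' ξ η
    have e : ∀ ζ : V, dr ζ (dab a' b' η f) z = a' * dr ζ (dr η f) z
        + b' * dr ζ (dr (I • η) f) z := by
      intro ζ
      show dr ζ (fun w => a' * dr η f w + b' * dr (I • η) f w) z = _
      have h1 := contDiffOn_dr hΩ η hf
      have h2 := contDiffOn_dr hΩ (I • η) hf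
      rw [dr_add ((diffAt hΩ h1 hz).const_mul a') ((diffAt hΩ h2 hz).const_mul b'),
        dr_const_mul hΩ h1 hz, dr_const_mul hΩ h2 hz]
    simp only [dab] at e ⊢
    rw [e, e]
    ring
  rw [key, key, dr_comm hΩ hf hz η ξ, dr_comm hΩ hf hz η (I • ξ), dr_comm hΩ hf hz (I • η) ξ,
    dr_comm hΩ hf hz (I • η) (I • ξ)]
  ring

/-- the derivation `a ∂_ξ + b ∂_{iξ}` of `Sm Ω` -/
noncomputable def DAB (hΩ : IsOpen Ω) (a b : ℂ) (ξ : V) : Derivation ℂ (Sm Ω) (Sm Ω) :=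
  Derivation.mk'
    { toFun := fun g => mk (dab a b ξ (ex g.1)) (contDiffOn_dab hΩ a b ξ g.2)
      map_add' := fun g h => by
        refine Sm.ext' fun z => ?_
        have e : ∀ ζ : V, dr ζ (ex (g + h).1) z = dr ζ (ex g.1) z + dr ζ (ex h.1) z := by
          intro ζ
          rw [← dr_add (diffAt hΩ g.2 z.2) (diffAt hΩ h.2 z.2)]
          exact dr_congr hΩ (fun w hw => by simp [ex_of_mem _ hw]) z.2 ζ
        show dab a b ξ (ex (g + h).1) z = dab a b ξ (ex g.1) z + dab a b ξ (ex h.1) z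
        simp only [dab, e]; ring
      map_smul' := fun c g => by
        refine Sm.ext' fun z => ?_
        have e : ∀ ζ : V, dr ζ (ex (c • g).1) z = c * dr ζ (ex g.1) z := by
          intro ζ
          rw [← dr_const_mul hΩ g.2 z.2]
          exact dr_congr hΩ (fun w hw => by simp [ex_of_mem _ hw]) z.2 ζ
        show dab a b ξ (ex (c • g).1) z = c * dab a b ξ (ex g.1) z
        simp only [dab, e]; ring }
    (fun g h => by
      refine Sm.ext' fun z => ?_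
      have e : ∀ ζ : V, dr ζ (ex (g * h).1) z = g.1 z * dr ζ (ex h.1) z
          + h.1 z * dr ζ (ex g.1) z := by
        intro ζ
        have := dr_mul (diffAt hΩ g.2 z.2) (diffAt hΩ h.2 z.2) ζ
        rw [ex_coe, ex_coe] at this
        rw [← this]
        exact dr_congr hΩ (fun w hw => by simp [ex_of_mem _ hw]) z.2 ζ
      show dab a b ξ (ex (g * h).1) z = g.1 z * dab a b ξ (ex h.1) z
        + h.1 z * dab a b ξ (ex g.1) z
      simp only [dab, e]; ring)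

theorem DAB_apply (hΩ : IsOpen Ω) (a b : ℂ) (ξ : V) (g : Sm Ω) (z : Ω) :
    (DAB hΩ a b ξ g).1 z = dab a b ξ (ex g.1) z := rfl

theorem DAB_comm (hΩ : IsOpen Ω) (a b a' b' : ℂ) (ξ η : V) (g : Sm Ω) :
    DAB hΩ a b ξ (DAB hΩ a' b' η g) = DAB hΩ a' b' η (DAB hΩ a b ξ g) := by
  refine Sm.ext' fun z => ?_
  rw [DAB_apply, DAB_apply]
  have h1 : ∀ (a b a' b' : ℂ) (ξ η : V), dab a b ξ (ex (DAB hΩ a' b' η g).1) z
      = dab a b ξ (dab a' b' η (ex g.1)) z := by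
    intro a b a' b' ξ η
    have e : ∀ ζ : V, dr ζ (ex (DAB hΩ a' b' η g).1) z = dr ζ (dab a' b' η (ex g.1)) z := fun ζ =>
      dr_congr hΩ (fun w hw => by rw [ex_of_mem _ hw, DAB_apply]) z.2 ζ
    simp only [dab] at e ⊢
    rw [e, e]
  rw [h1, h1]
  exact dab_comm hΩ g.2 z.2 a b a' b' ξ η

/-- `∂_ξ` -/
noncomputable def D (hΩ : IsOpen Ω) (ξ : V) : Derivation ℂ (Sm Ω) (Sm Ω) :=
  DAB hΩ (1 / 2) (-(I / 2)) ξ

/-- `∂̄_ξ` -/
noncomputable def B (hΩ : IsOpen Ω) (ξ : V) : Derivation ℂ (Sm Ω) (Sm Ω) :=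
  DAB hΩ (1 / 2) (I / 2) ξ

theorem DD (hΩ : IsOpen Ω) (ξ η : V) (g : Sm Ω) : D hΩ ξ (D hΩ η g) = D hΩ η (D hΩ ξ g) :=
  DAB_comm hΩ _ _ _ _ _ _ g

theorem BB (hΩ : IsOpen Ω) (ξ η : V) (g : Sm Ω) : B hΩ ξ (B hΩ η g) = B hΩ η (B hΩ ξ g) :=
  DAB_comm hΩ _ _ _ _ _ _ g

theorem DB (hΩ : IsOpen Ω) (ξ η : V) (g : Sm Ω) : D hΩ ξ (B hΩ η g) = B hΩ η (D hΩ ξ g) :=
  DAB_comm hΩ _ _ _ _ _ _ g

theorem D_apply (hΩ : IsOpen Ω) (ξ : V) (g : Sm Ω) (z : Ω) :
    (D hΩ ξ g).1 z = dz ξ (ex g.1) z := by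
  rw [dz_dab]; rfl

theorem B_apply (hΩ : IsOpen Ω) (ξ : V) (g : Sm Ω) (z : Ω) :
    (B hΩ ξ g).1 z = db ξ (ex g.1) z := by
  rw [db_dab]; rfl

theorem D_mk (hΩ : IsOpen Ω) (ξ : V) {f : V → ℂ} (hf : ContDiffOn ℝ ∞ f Ω) :
    D hΩ ξ (mk f hf) = mk (dz ξ f) (contDiffOn_dz hΩ ξ hf) := by
  refine Sm.ext' fun z => ?_
  rw [D_apply, mk_apply]
  exact dz_congr hΩ (fun w hw => by simp [ex_of_mem _ hw]) z.2 ξ

theorem B_mk (hΩ : IsOpen Ω) (ξ : V) {f : V → ℂ} (hf : ContDiffOn ℝ ∞ f Ω) :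
    B hΩ ξ (mk f hf) = mk (db ξ f) (contDiffOn_db hΩ ξ hf) := by
  refine Sm.ext' fun z => ?_
  rw [B_apply, mk_apply]
  exact db_congr hΩ (fun w hw => by simp [ex_of_mem _ hw]) z.2 ξ

/-- evaluation at `O ∈ Ω` -/
def ev (O : Ω) : Sm Ω →ₐ[ℂ] ℂ := (Pi.evalAlgHom ℂ (fun _ : Ω => ℂ) O).comp (Sm Ω).val

@[simp] theorem ev_apply (O : Ω) (g : Sm Ω) : ev O g = g.1 O := rfl

/-- conjugation -/
def cj (g : Sm Ω) : Sm Ω :=
  ⟨fun z => conj (g.1 z), by
    have h : ContDiffOn ℝ ∞ (fun w => conjCLE (ex g.1 w)) Ω :=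
      conjCLE.contDiff.comp_contDiffOn g.2
    refine h.congr fun z hz => ?_
    simp [ex_of_mem _ hz]⟩

@[simp] theorem cj_apply (g : Sm Ω) (z : Ω) : (cj g).1 z = conj (g.1 z) := rfl

theorem dr_cj (hΩ : IsOpen Ω) (g : Sm Ω) (z : Ω) (ξ : V) :
    dr ξ (ex (cj g).1) z = conj (dr ξ (ex g.1) z) := by
  have h1 : dr ξ (ex (cj g).1) z = dr ξ (fun w => conjCLE (ex g.1 w)) z :=
    dr_congr hΩ (fun w hw => by simp [ex_of_mem _ hw]) z.2 ξ
  rw [h1]
  have h2 : HasFDerivAt (fun w => conjCLE (ex g.1 w))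
      ((conjCLE : ℂ →L[ℝ] ℂ).comp (fderiv ℝ (ex g.1) z)) z :=
    (conjCLE : ℂ →L[ℝ] ℂ).hasFDerivAt.comp (z : V) (diffAt hΩ g.2 z.2).hasFDerivAt
  rw [dr, h2.fderiv]
  rfl

theorem D_cj (hΩ : IsOpen Ω) (g : Sm Ω) (ξ : V) : D hΩ ξ (cj g) = cj (B hΩ ξ g) := by
  refine Sm.ext' fun z => ?_
  rw [D_apply, cj_apply, B_apply, dz_dab, db_dab, dab, dab, dr_cj hΩ, dr_cj hΩ]
  simp only [map_add, map_mul, map_div₀, map_one, map_ofNat, conj_I]
  ring

theorem B_cj (hΩ : IsOpen Ω) (g : Sm Ω) (ξ : V) : B hΩ ξ (cj g) = cj (D hΩ ξ g) := by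
  refine Sm.ext' fun z => ?_
  rw [B_apply, cj_apply, D_apply, dz_dab, db_dab, dab, dab, dr_cj hΩ, dr_cj hΩ]
  simp only [map_add, map_mul, map_div₀, map_one, map_ofNat, map_neg, conj_I]
  ring

/-! ### linearity in the direction -/

theorem dr_smul_real (c : ℝ) (ξ : V) (f : V → ℂ) (z : V) : dr (c • ξ) f z = c * dr ξ f z := by
  simp [dr]

theorem dr_add_dir (ξ η : V) (f : V → ℂ) (z : V) : dr (ξ + η) f z = dr ξ f z + dr η f z := by
  simp [dr]

theorem dr_II (ξ : V) (f : V → ℂ) (z : V) : dr (I • I • ξ) f z = - dr ξ f z := by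
  rw [smul_smul, I_mul_I]
  simp [dr]

theorem smul_decomp (c : ℂ) (ξ : V) : c • ξ = c.re • ξ + c.im • (I • ξ) := by
  conv_lhs => rw [← re_add_im c]
  rw [add_smul, mul_smul]
  simp

theorem dr_smul_dir (c : ℂ) (ξ : V) (f : V → ℂ) (z : V) :
    dr (c • ξ) f z = c.re * dr ξ f z + c.im * dr (I • ξ) f z := by
  rw [smul_decomp, dr_add_dir, dr_smul_real, dr_smul_real]

theorem D_smul (hΩ : IsOpen Ω) (c : ℂ) (ξ : V) (g : Sm Ω) :
    D hΩ (c • ξ) g = c • D hΩ ξ g := by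
  refine Sm.ext' fun z => ?_
  show _ = c * (D hΩ ξ g).1 z
  rw [D_apply, D_apply, dz_dab, dz_dab, dab, dab, smul_comm I c ξ, dr_smul_dir c ξ,
    dr_smul_dir c (I • ξ), dr_II]
  have h : c = c.re + c.im * I := (re_add_im c).symm
  have h2 := I_mul_I
  have e : ∀ a b : ℂ, (1 / 2 : ℂ) * (c.re * a + c.im * b) + -(I / 2) * (c.re * b + c.im * -a)
      = (c.re + c.im * I) * (1 / 2 * a + -(I / 2) * b) := by
    intro a b
    linear_combination ((1 / 2 : ℂ) * c.im * b) * h2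
  rw [e, ← h]

theorem B_smul (hΩ : IsOpen Ω) (c : ℂ) (ξ : V) (g : Sm Ω) :
    B hΩ (c • ξ) g = conj c • B hΩ ξ g := by
  refine Sm.ext' fun z => ?_
  show _ = conj c * (B hΩ ξ g).1 z
  rw [B_apply, B_apply, db_dab, db_dab, dab, dab, smul_comm I c ξ, dr_smul_dir c ξ,
    dr_smul_dir c (I • ξ), dr_II]
  have h : conj c = c.re - c.im * I := by
    apply Complex.ext <;> simp
  have h2 := I_mul_I
  rw [h]
  linear_combination ((1 / 2 : ℂ) * c.im * dr (I • ξ) (ex g.1) z) * h2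

theorem D_add (hΩ : IsOpen Ω) (ξ η : V) (g : Sm Ω) :
    D hΩ (ξ + η) g = D hΩ ξ g + D hΩ η g := by
  refine Sm.ext' fun z => ?_
  show _ = (D hΩ ξ g).1 z + (D hΩ η g).1 z
  rw [D_apply, D_apply, D_apply, dz_dab, dz_dab, dz_dab]
  simp only [dab, smul_add, dr_add_dir]
  ring

theorem B_add (hΩ : IsOpen Ω) (ξ η : V) (g : Sm Ω) :
    B hΩ (ξ + η) g = B hΩ ξ g + B hΩ η g := by
  refine Sm.ext' fun z => ?_
  show _ = (B hΩ ξ g).1 z + (B hΩ η g).1 z
  rw [B_apply, B_apply, B_apply, db_dab, db_dab, db_dab]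
  simp only [dab, smul_add, dr_add_dir]
  ring

/-- `ξ ↦ ∂_ξ g` is linear -/
noncomputable def Dl (hΩ : IsOpen Ω) (g : Sm Ω) : V →ₗ[ℂ] Sm Ω where
  toFun ξ := D hΩ ξ g
  map_add' ξ η := D_add hΩ ξ η g
  map_smul' c ξ := D_smul hΩ c ξ g

/-- `ξ ↦ ∂̄_ξ g` is antilinear -/
noncomputable def Bl (hΩ : IsOpen Ω) (g : Sm Ω) : V →ₛₗ[starRingEnd ℂ] Sm Ω where
  toFun ξ := B hΩ ξ g
  map_add' ξ η := B_add hΩ ξ η g
  map_smul' c ξ := B_smul hΩ c ξ g

theorem D_sum (hΩ : IsOpen Ω) {ι : Type*} (s : Finset ι) (c : ι → ℂ) (w : ι → V) (g : Sm Ω) :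
    D hΩ (∑ i ∈ s, c i • w i) g = ∑ i ∈ s, c i • D hΩ (w i) g := by
  show Dl hΩ g _ = _
  rw [map_sum]
  simp only [map_smul]
  rfl

theorem B_sum (hΩ : IsOpen Ω) {ι : Type*} (s : Finset ι) (c : ι → ℂ) (w : ι → V) (g : Sm Ω) :
    B hΩ (∑ i ∈ s, c i • w i) g = ∑ i ∈ s, conj (c i) • B hΩ (w i) g := by
  show Bl hΩ g _ = _
  rw [map_sum]
  simp only [LinearMap.map_smulₛₗ]
  rfl

/-- a real linear continuous function; the case of a complex linear one -/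
theorem dr_clm (l : V →L[ℂ] ℂ) (c : ℂ) (ξ : V) (z : V) : dr ξ (fun w => l w + c) z = l ξ := by
  have h : HasFDerivAt (fun w => l w + c) (l.restrictScalars ℝ) z :=
    ((l.restrictScalars ℝ).hasFDerivAt (x := z)).add_const c
  rw [dr, h.fderiv]; rfl

theorem aff_smooth (Ω : Set V) (l : V →L[ℂ] ℂ) (c : ℂ) :
    ContDiffOn ℝ ∞ (fun w => l w + c) Ω := by
  have h : ContDiff ℝ ∞ (fun w => l.restrictScalars ℝ w + c) :=
    (l.restrictScalars ℝ).contDiff.add contDiff_const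
  exact h.contDiffOn

/-- affine holomorphic function -/
noncomputable def aff (Ω : Set V) (l : V →L[ℂ] ℂ) (c : ℂ) : Sm Ω :=
  mk (fun w => l w + c) (aff_smooth Ω l c)

@[simp] theorem aff_apply (l : V →L[ℂ] ℂ) (c : ℂ) (z : Ω) : (aff Ω l c).1 z = l z + c := rfl

theorem D_aff (hΩ : IsOpen Ω) (l : V →L[ℂ] ℂ) (c : ℂ) (ξ : V) :
    D hΩ ξ (aff Ω l c) = algebraMap ℂ (Sm Ω) (l ξ) := by
  rw [aff, D_mk]
  refine Sm.ext' fun z => ?_
  show dz ξ (fun w => l w + c) z = l ξ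
  rw [dz_dab, dab, dr_clm, dr_clm, map_smul, smul_eq_mul]
  have h2 := I_mul_I
  linear_combination (-(1 / 2 : ℂ) * l ξ) * h2

theorem B_aff (hΩ : IsOpen Ω) (l : V →L[ℂ] ℂ) (c : ℂ) (ξ : V) :
    B hΩ ξ (aff Ω l c) = 0 := by
  rw [aff, B_mk]
  refine Sm.ext' fun z => ?_
  show db ξ (fun w => l w + c) z = 0
  rw [db_dab, dab, dr_clm, dr_clm, map_smul, smul_eq_mul]
  have h2 := I_mul_I
  linear_combination ((1 / 2 : ℂ) * l ξ) * h2


/-! ### second derivative test -/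

theorem deriv2_nonneg {g : ℝ → ℝ} (hg : ContDiffAt ℝ 2 g 0) (hmin : IsLocalMin g 0) :
    0 ≤ deriv (deriv g) 0 := by
  by_contra hneg
  push Not at hneg
  have h0 : deriv g 0 = 0 := hmin.deriv_eq_zero
  have hmax : IsLocalMax g 0 := isLocalMax_of_deriv_deriv_neg hneg h0 hg.continuousAt
  have hc : g =ᶠ[𝓝 0] fun _ => g 0 := by
    filter_upwards [hmin, hmax] with x h1 h2 using le_antisymm h2 h1
  have h1 : deriv g =ᶠ[𝓝 0] deriv fun _ => g 0 := hc.deriv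
  have h2 : deriv (deriv g) 0 = deriv (deriv fun _ : ℝ => g 0) 0 := h1.deriv_eq
  rw [h2] at hneg
  simp at hneg

/-- second directional derivative of a real function at a local minimum -/
theorem dr2_nonneg (hΩ : IsOpen Ω) {f : V → ℂ} (hf : ContDiffOn ℝ ∞ f Ω) {O : V} (hO : O ∈ Ω)
    (hmin : IsLocalMin (fun z => (f z).re) O) (ξ : V) : 0 ≤ (dr ξ (dr ξ f) O).re := by
  let g : ℝ → ℝ := fun t => (f (O + t • ξ)).re
  have hline : ContDiff ℝ ∞ (fun t : ℝ => O + t • ξ) :=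
    contDiff_const.add (contDiff_id.smul contDiff_const)
  have h0 : (fun t : ℝ => O + t • ξ) 0 = O := by simp
  have hmem : ∀ᶠ t in 𝓝 (0 : ℝ), O + t • ξ ∈ Ω := by
    have := hline.continuous.continuousAt (x := (0 : ℝ))
    exact this.eventually (by rw [h0]; exact hΩ.mem_nhds hO)
  have hg1 : ContDiffAt ℝ 2 g 0 := by
    have hfa : ContDiffAt ℝ 2 f O := (hf.contDiffAt (hΩ.mem_nhds hO)).of_le
      two_le
    have h1 : ContDiffAt ℝ 2 (fun t : ℝ => f (O + t • ξ)) 0 := by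
      refine ContDiffAt.comp (g := f) (f := fun t : ℝ => O + t • ξ) 0 ?_ (hline.contDiffAt.of_le
        two_le)
      show ContDiffAt ℝ 2 f ((fun t : ℝ => O + t • ξ) 0)
      rw [h0]; exact hfa
    exact (reCLM.contDiff.contDiffAt).comp 0 h1
  have hgmin : IsLocalMin g 0 := by
    have h1 : ContinuousAt (fun t : ℝ => O + t • ξ) 0 := hline.continuous.continuousAt
    have h2 : ∀ᶠ z in 𝓝 O, (f O).re ≤ (f z).re := hmin
    have h3 := h1.eventually (by rw [h0]; exact h2)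
    filter_upwards [h3] with t ht
    simpa [g] using ht
  have hd : ∀ t : ℝ, O + t • ξ ∈ Ω → deriv g t = (dr ξ f (O + t • ξ)).re := by
    intro t ht
    have hl : HasDerivAt (fun t : ℝ => O + t • ξ) ξ t := by
      simpa using ((hasDerivAt_id t).smul_const ξ).const_add O
    have h1 := (diffAt hΩ hf ht).hasFDerivAt.comp_hasDerivAt t hl
    exact (reCLM.hasFDerivAt.comp_hasDerivAt t h1).deriv
  have hd2 : deriv (deriv g) 0 = (dr ξ (dr ξ f) O).re := by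
    have h1 : deriv g =ᶠ[𝓝 0] fun t => (dr ξ f (O + t • ξ)).re := hmem.mono hd
    rw [h1.deriv_eq]
    have hl : HasDerivAt (fun t : ℝ => O + t • ξ) ξ 0 := by
      simpa using ((hasDerivAt_id (0 : ℝ)).smul_const ξ).const_add O
    have h2 : HasFDerivAt (dr ξ f) (fderiv ℝ (dr ξ f) O) ((fun t : ℝ => O + t • ξ) 0) := by
      rw [h0]
      exact (diffAt hΩ (contDiffOn_dr hΩ ξ hf) hO).hasFDerivAt
    have h3 := h2.comp_hasDerivAt (0 : ℝ) hl
    exact (reCLM.hasFDerivAt.comp_hasDerivAt (0 : ℝ) h3).deriv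
  rw [← hd2]
  exact deriv2_nonneg hg1 hgmin

theorem DB_self (hΩ : IsOpen Ω) (ξ : V) (g : Sm Ω) (z : Ω) :
    (D hΩ ξ (B hΩ ξ g)).1 z
      = (dr ξ (dr ξ (ex g.1)) z + dr (I • ξ) (dr (I • ξ) (ex g.1)) z) / 4 := by
  have e : ∀ ζ : V, dr ζ (ex (B hΩ ξ g).1) z = (dr ζ (dr ξ (ex g.1)) z
      + I * dr ζ (dr (I • ξ) (ex g.1)) z) / 2 := by
    intro ζ
    have h1 : dr ζ (ex (B hΩ ξ g).1) z = dr ζ (fun w => (1 / 2 : ℂ) * dr ξ (ex g.1) w
        + (I / 2) * dr (I • ξ) (ex g.1) w) z :=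
      dr_congr hΩ (fun w hw => by rw [ex_of_mem _ hw, B_apply, db_dab]; rfl) z.2 ζ
    have h2 := contDiffOn_dr hΩ ξ g.2
    have h3 := contDiffOn_dr hΩ (I • ξ) g.2
    rw [h1, dr_add ((diffAt hΩ h2 z.2).const_mul _) ((diffAt hΩ h3 z.2).const_mul _),
      dr_const_mul hΩ h2 z.2, dr_const_mul hΩ h3 z.2]
    ring
  rw [D_apply, dz_dab, dab, e, e, dr_comm hΩ g.2 z.2 (I • ξ) ξ]
  have := I_mul_I
  linear_combination (-(1 / 4 : ℂ) * dr (I • ξ) (dr (I • ξ) (ex g.1)) z) * this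

/-- **second derivative test** for `∂_ξ ∂̄_ξ` -/
theorem lap_nonneg (hΩ : IsOpen Ω) (g : Sm Ω) (O : Ω)
    (hmin : ∀ᶠ z in 𝓝 (O : V), (ex g.1 O).re ≤ (ex g.1 z).re) (ξ : V) :
    0 ≤ (ev O (D hΩ ξ (B hΩ ξ g))).re := by
  rw [ev_apply, DB_self]
  have h1 := dr2_nonneg hΩ g.2 O.2 hmin ξ
  have h2 := dr2_nonneg hΩ g.2 O.2 hmin (I • ξ)
  have : ((dr ξ (dr ξ (ex g.1)) O + dr (I • ξ) (dr (I • ξ) (ex g.1)) O) / 4).re
      = ((dr ξ (dr ξ (ex g.1)) O).re + (dr (I • ξ) (dr (I • ξ) (ex g.1)) O).re) / 4 := by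
    rw [← add_re]
    simp
  rw [this]
  positivity

end Crest.Agent.R273.YSm_812
end

-- ▼ part R273/YC3_812
section

/-!
Row 273 (S0416), Part C (Yau), helper812: local Calabi third order estimate, part 1:
the jet of a potential at a point in a unitary frame, `log det`, the core inequality.
-/

set_option autoImplicit false
set_option linter.unusedSimpArgs false
set_option linter.unusedSectionVars false

open Set Filter Topology Complex
open scoped ContDiff ComplexConjugate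

namespace Crest.Agent.R273.YC3_812

open Crest.Agent.R273.YSm_812 Crest.Agent.R273.YJet_812

variable {n : ℕ} {V : Type*} [NormedAddCommGroup V] [NormedSpace ℂ V] {Ω : Set V}

/-- `u_{ξ η̄}` -/
noncomputable def U2 (hΩ : IsOpen Ω) (u : Sm Ω) (ξ η : V) : Sm Ω := D hΩ ξ (B hΩ η u)

/-- `u_{ξ ζ η̄}` -/
noncomputable def U3 (hΩ : IsOpen Ω) (u : Sm Ω) (ξ ζ η : V) : Sm Ω := D hΩ ξ (D hΩ ζ (B hΩ η u))

/-- the jet at `O` in the frame `w` -/
noncomputable def jet (hΩ : IsOpen Ω) (w : Fin n → V) (O : Ω) : Jet n (Sm Ω) where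
  D a := D hΩ (w a)
  B a := B hΩ (w a)
  DD _ _ x := DD hΩ _ _ x
  BB _ _ x := BB hΩ _ _ x
  DB _ _ x := DB hΩ _ _ x
  ev := ev O

theorem jet_Gm (hΩ : IsOpen Ω) (w : Fin n → V) (O : Ω) (u : Sm Ω) (i j : Fin n) :
    (jet hΩ w O).Gm u i j = U2 hΩ u (w i) (w j) := rfl


theorem cj_add (g h : Sm Ω) : cj (g + h) = cj g + cj h := Sm.ext' fun z => by simp

theorem cj_U2 (hΩ : IsOpen Ω) {u : Sm Ω} (hu : cj u = u) (ξ η : V) :
    cj (U2 hΩ u ξ η) = U2 hΩ u η ξ := by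
  rw [U2, U2, ← B_cj, ← D_cj, hu, DB]

theorem conj_U2 (hΩ : IsOpen Ω) {u : Sm Ω} (hu : cj u = u) (ξ η : V) (z : Ω) :
    conj ((U2 hΩ u ξ η).1 z) = (U2 hΩ u η ξ).1 z := by
  rw [← cj_U2 hΩ hu ξ η]; rfl

/-- units of `Sm Ω` -/
theorem exists_mul_eq_one (g : Sm Ω) (hg : ∀ z : Ω, g.1 z ≠ 0) : ∃ h : Sm Ω, g * h = 1 := by
  have hs : ContDiffOn ℝ ∞ (fun z => (ex g.1 z)⁻¹) Ω :=
    ContDiffOn.inv g.2 fun z hz => by rw [ex_of_mem _ hz]; exact hg ⟨z, hz⟩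
  refine ⟨mk _ hs, Sm.ext' fun z => ?_⟩
  show g.1 z * (ex g.1 z)⁻¹ = 1
  rw [ex_coe]
  exact mul_inv_cancel₀ (hg z)

theorem exists_inv (G : Matrix (Fin n) (Fin n) (Sm Ω)) (hG : ∀ z : Ω, (G.det).1 z ≠ 0) :
    ∃ H : Matrix (Fin n) (Fin n) (Sm Ω), G * H = 1 := by
  obtain ⟨h, hh⟩ := exists_mul_eq_one G.det hG
  have hu : IsUnit G.det := IsUnit.of_mul_eq_one h hh
  exact ⟨G⁻¹, Matrix.mul_nonsing_inv G hu⟩

theorem dr_exp (hΩ : IsOpen Ω) (f : Sm Ω) (c : ℂ) (ζ : V) (z : Ω) :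
    dr ζ (fun w => c * exp (ex f.1 w)) z = c * exp (f.1 z) * dr ζ (ex f.1) z := by
  have h1 : HasFDerivAt (ex f.1) (fderiv ℝ (ex f.1) z) z := (diffAt hΩ f.2 z.2).hasFDerivAt
  have h2 : HasFDerivAt (fun w => exp (ex f.1 w)) (exp (ex f.1 z) • fderiv ℝ (ex f.1) z) z :=
    h1.cexp
  have h3 := h2.const_mul c
  rw [dr, h3.fderiv, dr, ex_coe]
  simp
  ring

/-- `d f = tr (G⁻¹ dG)` for `f = log det G + const` -/
theorem dlog (hΩ : IsOpen Ω) {G H : Matrix (Fin n) (Fin n) (Sm Ω)} (hH : G * H = 1)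
    {c : ℂ} (hc : c ≠ 0) (f : Sm Ω) (hf : ∀ z : Ω, (G.det).1 z = c * exp (f.1 z))
    (a b : ℂ) (ξ : V) :
    DAB hΩ a b ξ f = Matrix.trace (H * mD (DAB hΩ a b ξ) G) := by
  have h1 := d_log (d := DAB hΩ a b ξ) hH
  have h2 : DAB hΩ a b ξ G.det = G.det * DAB hΩ a b ξ f := by
    refine Sm.ext' fun z => ?_
    show dab a b ξ (ex G.det.1) z = G.det.1 z * dab a b ξ (ex f.1) z
    have e : ∀ ζ : V, dr ζ (ex G.det.1) z = G.det.1 z * dr ζ (ex f.1) z := by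
      intro ζ
      rw [hf z, ← dr_exp hΩ f c ζ z]
      exact dr_congr hΩ (fun w hw => by rw [ex_of_mem _ hw, ex_of_mem _ hw]; exact hf ⟨w, hw⟩) z.2 ζ
    simp only [dab, e]
    ring
  rw [h2] at h1
  have h3 : ∀ z : Ω, (DAB hΩ a b ξ f).1 z = (Matrix.trace (H * mD (DAB hΩ a b ξ) G)).1 z := by
    intro z
    have h4 : (G.det * DAB hΩ a b ξ f).1 z
        = (G.det * Matrix.trace (H * mD (DAB hΩ a b ξ) G)).1 z := by rw [h1]
    have h5 : G.det.1 z ≠ 0 := by rw [hf z]; exact mul_ne_zero hc (exp_ne_zero _)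
    exact mul_left_cancel₀ h5 h4
  exact Sm.ext' h3

variable [FiniteDimensional ℂ V]

/-- the linear forms `∑_q ev (D_q G_{kx}) l_q` -/
noncomputable def Lc (hΩ : IsOpen Ω) (w : Module.Basis (Fin n) ℂ V) (O : Ω) (u : Sm Ω)
    (k x : Fin n) : V →L[ℂ] ℂ :=
  ∑ q, (U3 hΩ u (w q) (w k) (w x)).1 O • LinearMap.toContinuousLinearMap (w.coord q)

theorem Lc_apply (hΩ : IsOpen Ω) (w : Module.Basis (Fin n) ℂ V) (O : Ω) (u : Sm Ω)
    (k x q : Fin n) : Lc hΩ w O u k x (w q) = (U3 hΩ u (w q) (w k) (w x)).1 O := by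
  simp [Lc, Finsupp.single_apply]

/-- the frame killing the first derivatives of the complex Hessian at `O` -/
noncomputable def fr (hΩ : IsOpen Ω) (w : Module.Basis (Fin n) ℂ V) (O : Ω) (u : Sm Ω)
    (hu : cj u = u) : Fr (jet hΩ w O) u where
  M k x := aff Ω (-(Lc hΩ w O u k x)) ((if k = x then 1 else 0) + Lc hΩ w O u k x O)
  N k x := cj (aff Ω (-(Lc hΩ w O u k x)) ((if k = x then 1 else 0) + Lc hΩ w O u k x O))
  M0 k x := by
    show (ev O) _ = _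
    simp
  N0 k x := by
    show (ev O) _ = _
    simp only [ev_apply, cj_apply, aff_apply]
    split_ifs <;> simp
  MB k q x := B_aff hΩ _ _ _
  ND k q x := by
    show D hΩ (w q) (cj _) = 0
    rw [D_cj, B_aff]
    exact Sm.ext' fun z => by simp
  MD k q x := by
    show (ev O) (D hΩ (w q) _) = _
    rw [D_aff]
    show -(Lc hΩ w O u k x) (w q) = _
    rw [Lc_apply]
    rfl
  NB k q x := by
    show (ev O) (B hΩ (w q) (cj _)) = _
    rw [B_cj, D_aff]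
    show conj (-(Lc hΩ w O u k x) (w q)) = _
    rw [Lc_apply, map_neg]
    show -(conj ((U3 hΩ u (w q) (w k) (w x)).1 O)) = - (B hΩ (w q) (U2 hΩ u (w x) (w k))).1 O
    congr 1
    have : cj (U3 hΩ u (w q) (w k) (w x)) = B hΩ (w q) (U2 hΩ u (w x) (w k)) := by
      rw [U3, ← B_cj]
      congr 1
      exact cj_U2 hΩ hu (w k) (w x)
    rw [← this]
    rfl

/-! ### the core inequality -/

theorem DB_A {R : Type*} [CommRing R] [Algebra ℂ R] (J : Jet n R) (q : Fin n) (A g1 g2 g3 : R)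
    (h1 : J.ev g1 = 1) (h2 : J.ev g2 = 1) (h3 : J.ev g3 = 1)
    (d1 : J.ev (J.D q g1) = 0) (d2 : J.ev (J.D q g2) = 0) (d3 : J.ev (J.D q g3) = 0)
    (b1 : J.ev (J.B q g1) = 0) (b2 : J.ev (J.B q g2) = 0) (b3 : J.ev (J.B q g3) = 0) :
    J.ev (J.D q (J.B q (A * (g1 * g2 * g3)))) = J.ev (J.D q (J.B q A))
      + J.ev A * (J.ev (J.D q (J.B q g1)) + J.ev (J.D q (J.B q g2)) + J.ev (J.D q (J.B q g3))) := by
  simp only [Derivation.leibniz, smul_eq_mul, map_add, map_mul, h1, h2, h3, d1, d2, d3, b1, b2, b3]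
  ring

theorem DB_X {R : Type*} [CommRing R] [Algebra ℂ R] (J : Jet n R) (q : Fin n) (χ t t' : R) :
    J.ev (J.D q (J.B q (χ * χ * (t * t'))))
      = (2 * J.ev (J.D q χ) * J.ev (J.B q χ) + 2 * J.ev χ * J.ev (J.D q (J.B q χ)))
          * (J.ev t * J.ev t')
        + 2 * J.ev χ * J.ev (J.D q χ) * (J.ev (J.B q t) * J.ev t' + J.ev t * J.ev (J.B q t'))
        + 2 * J.ev χ * J.ev (J.B q χ) * (J.ev (J.D q t) * J.ev t' + J.ev t * J.ev (J.D q t'))
        + J.ev χ ^ 2 * (J.ev (J.D q (J.B q t)) * J.ev t' + J.ev (J.B q t) * J.ev (J.D q t')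
          + J.ev (J.D q t) * J.ev (J.B q t') + J.ev t * J.ev (J.D q (J.B q t'))) := by
  simp only [Derivation.leibniz, smul_eq_mul, map_add, map_mul]
  ring

theorem num_ineq (X l : ℝ) (d T x y L : ℂ) :
    (2 * X * l - 6 * ‖d‖ ^ 2) * ‖T‖ ^ 2 + 2 * X ^ 2 * (L * conj T).re
      ≤ ((2 * d * conj d + 2 * X * l) * (T * conj T)
        + 2 * X * d * (y * conj T + T * conj x) + 2 * X * conj d * (x * conj T + T * conj y)
        + (X : ℂ) ^ 2 * (L * conj T + y * conj y + x * conj x + T * conj L)).re := by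
  have e : ((2 * d * conj d + 2 * X * l) * (T * conj T)
        + 2 * X * d * (y * conj T + T * conj x) + 2 * X * conj d * (x * conj T + T * conj y)
        + (X : ℂ) ^ 2 * (L * conj T + y * conj y + x * conj x + T * conj L))
      = (((2 * ‖d‖ ^ 2 + 2 * X * l) * ‖T‖ ^ 2 + X ^ 2 * (‖x‖ ^ 2 + ‖y‖ ^ 2) : ℝ) : ℂ)
        + (2 * X : ℝ) * ((d * y * conj T + conj (d * y * conj T))
          + (d * conj x * T + conj (d * conj x * T)))
        + ((X ^ 2 : ℝ) : ℂ) * (L * conj T + conj (L * conj T)) := by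
    have h1 : ∀ a : ℂ, ((‖a‖ ^ 2 : ℝ) : ℂ) = a * conj a := fun a => by
      rw [mul_conj, normSq_eq_norm_sq]
    push_cast [h1]
    simp only [map_mul, conj_conj]
    ring
  rw [e]
  have h3 : ∀ a : ℂ, a + conj a = ((2 * a.re : ℝ) : ℂ) := fun a => by
    rw [add_conj]
  rw [h3, h3, h3]
  simp only [← ofReal_add, ← ofReal_mul, ofReal_re]
  have b1 : -(‖d‖ * ‖y‖ * ‖T‖) ≤ (d * y * conj T).re := by
    have := abs_re_le_norm (d * y * conj T)
    rw [norm_mul, norm_mul, norm_conj] at this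
    exact neg_le_of_abs_le this
  have b2 : (d * y * conj T).re ≤ (‖d‖ * ‖y‖ * ‖T‖) := by
    have := abs_re_le_norm (d * y * conj T)
    rw [norm_mul, norm_mul, norm_conj] at this
    exact le_of_abs_le this
  have b3 : -(‖d‖ * ‖x‖ * ‖T‖) ≤ (d * conj x * T).re := by
    have := abs_re_le_norm (d * conj x * T)
    rw [norm_mul, norm_mul, norm_conj] at this
    exact neg_le_of_abs_le this
  have b4 : (d * conj x * T).re ≤ (‖d‖ * ‖x‖ * ‖T‖) := by
    have := abs_re_le_norm (d * conj x * T)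
    rw [norm_mul, norm_mul, norm_conj] at this
    exact le_of_abs_le this
  have c1 : -(|X| * (‖d‖ * ‖y‖ * ‖T‖)) ≤ X * (d * y * conj T).re := by
    have : |X * (d * y * conj T).re| ≤ |X| * (‖d‖ * ‖y‖ * ‖T‖) := by
      rw [abs_mul]; exact mul_le_mul_of_nonneg_left (abs_le.2 ⟨b1, b2⟩) (abs_nonneg _)
    exact neg_le_of_abs_le this
  have c2 : -(|X| * (‖d‖ * ‖x‖ * ‖T‖)) ≤ X * (d * conj x * T).re := by
    have : |X * (d * conj x * T).re| ≤ |X| * (‖d‖ * ‖x‖ * ‖T‖) := by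
      rw [abs_mul]; exact mul_le_mul_of_nonneg_left (abs_le.2 ⟨b3, b4⟩) (abs_nonneg _)
    exact neg_le_of_abs_le this
  have s1 : 0 ≤ (|X| * ‖y‖ - 2 * (‖d‖ * ‖T‖)) ^ 2 := sq_nonneg _
  have s2 : 0 ≤ (|X| * ‖x‖ - 2 * (‖d‖ * ‖T‖)) ^ 2 := sq_nonneg _
  have hX : |X| ^ 2 = X ^ 2 := sq_abs X
  have s1' : 0 ≤ X ^ 2 * ‖y‖ ^ 2 - 4 * (|X| * (‖d‖ * ‖y‖ * ‖T‖)) + 4 * (‖d‖ ^ 2 * ‖T‖ ^ 2) := by
    rw [← hX]; nlinarith [s1]
  have s2' : 0 ≤ X ^ 2 * ‖x‖ ^ 2 - 4 * (|X| * (‖d‖ * ‖x‖ * ‖T‖)) + 4 * (‖d‖ ^ 2 * ‖T‖ ^ 2) := by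
    rw [← hX]; nlinarith [s2]
  nlinarith [c1, c2, s1', s2']

/-- hypotheses on the potential `u` and the right hand side `F`:
`det u_{i j̄} = c0 e^{F + ε u}` in the basis `e`, uniform ellipticity and bounds. -/
structure Dat (hΩ : IsOpen Ω) (e : Fin n → V) (lam Lam K : ℝ) where
  u : Sm Ω
  F : Sm Ω
  eps : ℝ
  c0 : ℝ
  hu : cj u = u
  c0pos : 0 < c0
  heps : |eps| ≤ K
  det : ∀ z : Ω, ((Matrix.of fun i j => U2 hΩ u (e i) (e j)).det).1 z
    = c0 * exp (F.1 z + eps * u.1 z)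
  low : ∀ (z : Ω) (ξ : V), lam * ‖ξ‖ ^ 2 ≤ ((U2 hΩ u ξ ξ).1 z).re
  upp : ∀ (z : Ω) (ξ : V), ((U2 hΩ u ξ ξ).1 z).re ≤ Lam * ‖ξ‖ ^ 2
  F2 : ∀ (z : Ω) (ξ : V), ‖(U2 hΩ F ξ ξ).1 z‖ ≤ K * ‖ξ‖ ^ 2
  F3 : ∀ (z : Ω) (ξ ζ η : V), ‖(U3 hΩ F ξ ζ η).1 z‖ ≤ K * ‖ξ‖ * ‖ζ‖ * ‖η‖

theorem U2_sum_left (hΩ : IsOpen Ω) (u : Sm Ω) {ι : Type*} (s : Finset ι) (c : ι → ℂ)
    (w : ι → V) (η : V) : U2 hΩ u (∑ i ∈ s, c i • w i) η = ∑ i ∈ s, c i • U2 hΩ u (w i) η :=
  D_sum hΩ s c w _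

theorem U2_sum_right (hΩ : IsOpen Ω) (u : Sm Ω) {ι : Type*} (s : Finset ι) (c : ι → ℂ)
    (w : ι → V) (ξ : V) : U2 hΩ u ξ (∑ i ∈ s, c i • w i)
      = ∑ i ∈ s, conj (c i) • U2 hΩ u ξ (w i) := by
  rw [U2, B_sum, map_sum]
  simp only [Derivation.map_smul]
  rfl

theorem U3_sum_left (hΩ : IsOpen Ω) (u : Sm Ω) {ι : Type*} (s : Finset ι) (c : ι → ℂ)
    (w : ι → V) (ζ η : V) : U3 hΩ u (∑ i ∈ s, c i • w i) ζ η
      = ∑ i ∈ s, c i • U3 hΩ u (w i) ζ η :=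
  D_sum hΩ s c w _

theorem U3_sum_mid (hΩ : IsOpen Ω) (u : Sm Ω) {ι : Type*} (s : Finset ι) (c : ι → ℂ)
    (w : ι → V) (ξ η : V) : U3 hΩ u ξ (∑ i ∈ s, c i • w i) η
      = ∑ i ∈ s, c i • U3 hΩ u ξ (w i) η := by
  rw [U3, D_sum, map_sum]
  simp only [Derivation.map_smul]
  rfl

theorem U3_sum_right (hΩ : IsOpen Ω) (u : Sm Ω) {ι : Type*} (s : Finset ι) (c : ι → ℂ)
    (w : ι → V) (ξ ζ : V) : U3 hΩ u ξ ζ (∑ i ∈ s, c i • w i)
      = ∑ i ∈ s, conj (c i) • U3 hΩ u ξ ζ (w i) := by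
  rw [U3, B_sum, map_sum, map_sum]
  simp only [Derivation.map_smul]
  rfl

/-- sesquilinear expansion -/
theorem U2_expand (hΩ : IsOpen Ω) (u : Sm Ω) (c c' : Fin n → ℂ) (w : Fin n → V) (z : Ω) :
    (U2 hΩ u (∑ i, c i • w i) (∑ j, c' j • w j)).1 z
      = ∑ i, ∑ j, c i * conj (c' j) * (U2 hΩ u (w i) (w j)).1 z := by
  rw [U2_sum_left]
  have : ∀ i, U2 hΩ u (w i) (∑ j, c' j • w j) = ∑ j, conj (c' j) • U2 hΩ u (w i) (w j) :=
    fun i => U2_sum_right hΩ u _ _ _ _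
  simp only [this]
  show (ev z) _ = _
  simp only [map_sum, map_smul, smul_eq_mul, ev_apply, Finset.mul_sum]
  refine Finset.sum_congr rfl fun i _ => Finset.sum_congr rfl fun j _ => ?_
  ring

theorem U3_expand (hΩ : IsOpen Ω) (u : Sm Ω) (c c' c'' : Fin n → ℂ) (w : Fin n → V) (z : Ω) :
    (U3 hΩ u (∑ i, c i • w i) (∑ j, c' j • w j) (∑ k, c'' k • w k)).1 z
      = ∑ i, ∑ j, ∑ k, c i * c' j * conj (c'' k) * (U3 hΩ u (w i) (w j) (w k)).1 z := by
  rw [U3_sum_left]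
  have h1 : ∀ i η, U3 hΩ u (w i) (∑ j, c' j • w j) η = ∑ j, c' j • U3 hΩ u (w i) (w j) η :=
    fun i η => U3_sum_mid hΩ u _ _ _ _ _
  have h2 : ∀ i j, U3 hΩ u (w i) (w j) (∑ k, c'' k • w k)
      = ∑ k, conj (c'' k) • U3 hΩ u (w i) (w j) (w k) :=
    fun i j => U3_sum_right hΩ u _ _ _ _ _
  simp only [h1, h2]
  show (ev z) _ = _
  simp only [map_sum, map_smul, smul_eq_mul, ev_apply, Finset.mul_sum]
  refine Finset.sum_congr rfl fun i _ => Finset.sum_congr rfl fun j _ =>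
    Finset.sum_congr rfl fun k _ => ?_
  ring

/-! ### values of the fields -/

/-- the vector field with components `Z` -/
noncomputable def Zv (hΩ : IsOpen Ω) (w : Module.Basis (Fin n) ℂ V) (O : Ω) (u : Sm Ω)
    (hu : cj u = u) (c : Fin n → ℂ) (z : Ω) : V := ∑ x, ((fr hΩ w O u hu).Z c x).1 z • w x

theorem Y_eq (hΩ : IsOpen Ω) (w : Module.Basis (Fin n) ℂ V) (O : Ω) (u : Sm Ω)
    (hu : cj u = u) (c : Fin n → ℂ) (y : Fin n) (z : Ω) :
    ((fr hΩ w O u hu).Y (fun k => conj (c k)) y).1 z = conj (((fr hΩ w O u hu).Z c y).1 z) := by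
  show (ev z) _ = conj ((ev z) _)
  simp only [Fr.Y, Fr.Z, map_sum, map_smul, smul_eq_mul, map_mul]
  rfl

theorem g_val (hΩ : IsOpen Ω) (w : Module.Basis (Fin n) ℂ V) (O : Ω) (u : Sm Ω)
    (hu : cj u = u) (c : Fin n → ℂ) (z : Ω) :
    ((fr hΩ w O u hu).g c (fun k => conj (c k))).1 z
      = (U2 hΩ u (Zv hΩ w O u hu c z) (Zv hΩ w O u hu c z)).1 z := by
  rw [Zv, U2_expand]
  show (ev z) _ = _
  simp only [Fr.g, map_sum, map_mul]
  refine Finset.sum_congr rfl fun x _ => Finset.sum_congr rfl fun y _ => ?_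
  simp only [ev_apply]
  rw [Y_eq, jet_Gm]
  ring

theorem t_val (hΩ : IsOpen Ω) (w : Module.Basis (Fin n) ℂ V) (O : Ω) (u : Sm Ω)
    (hu : cj u = u) (c c' c'' : Fin n → ℂ) (z : Ω) :
    ((fr hΩ w O u hu).t c c' (fun k => conj (c'' k))).1 z
      = (U3 hΩ u (Zv hΩ w O u hu c z) (Zv hΩ w O u hu c' z) (Zv hΩ w O u hu c'' z)).1 z := by
  rw [Zv, Zv, Zv, U3_expand]
  show (ev z) _ = _
  simp only [Fr.t, map_sum, map_mul]
  refine Finset.sum_congr rfl fun x _ => Finset.sum_congr rfl fun y _ =>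
    Finset.sum_congr rfl fun k _ => ?_
  simp only [ev_apply]
  rw [Y_eq]
  show (U3 hΩ u (w x) (w y) (w k)).1 z * _ = _
  ring

theorem Zv_O (hΩ : IsOpen Ω) (w : Module.Basis (Fin n) ℂ V) (O : Ω) (u : Sm Ω)
    (hu : cj u = u) (c : Fin n → ℂ) : Zv hΩ w O u hu c O = ∑ x, c x • w x := by
  rw [Zv]
  refine Finset.sum_congr rfl fun x _ => ?_
  congr 1
  show (jet hΩ w O).ev _ = _
  simp only [Fr.Z, map_sum, map_smul, (fr hΩ w O u hu).M0, smul_eq_mul, mul_ite, mul_one, mul_zero,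
    Finset.sum_ite_eq', Finset.mem_univ, if_true]

/-! ### the determinant in a frame -/

theorem det_frame (hΩ : IsOpen Ω) (e w : Module.Basis (Fin n) ℂ V) (u : Sm Ω) :
    ∃ c : ℂ, c ≠ 0 ∧ ∀ z : Ω, ((Matrix.of fun i j => U2 hΩ u (w i) (w j)).det).1 z
      = c * ((Matrix.of fun i j => U2 hΩ u (e i) (e j)).det).1 z := by
  let C : Matrix (Fin n) (Fin n) ℂ := (e.toMatrix w).transpose
  have hC : C.det ≠ 0 := by
    rw [Matrix.det_transpose]
    have : Invertible (e.toMatrix w) := e.invertibleToMatrix w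
    exact (Matrix.isUnit_det_of_invertible (e.toMatrix w)).ne_zero
  refine ⟨C.det * conj C.det, mul_ne_zero hC ((map_ne_zero _).2 hC), fun z => ?_⟩
  have h1 : ∀ (b : Module.Basis (Fin n) ℂ V), ((Matrix.of fun i j => U2 hΩ u (b i) (b j)).det).1 z
      = (Matrix.of fun i j => (U2 hΩ u (b i) (b j)).1 z).det := by
    intro b
    show (ev z) _ = _
    rw [AlgHom.map_det]
    rfl
  rw [h1, h1]
  have hw : ∀ a, w a = ∑ i, C a i • e i := fun a => by
    have := e.sum_toMatrix_smul_self w a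
    rw [← this]
    rfl
  have h2 : (Matrix.of fun i j => (U2 hΩ u (w i) (w j)).1 z)
      = C * (Matrix.of fun i j => (U2 hΩ u (e i) (e j)).1 z) * C.conjTranspose := by
    ext a b
    rw [Matrix.of_apply, hw a, hw b, U2_expand]
    simp only [Matrix.mul_apply, Matrix.conjTranspose_apply, Matrix.of_apply, Finset.sum_mul]
    rw [Finset.sum_comm]
    refine Finset.sum_congr rfl fun i _ => Finset.sum_congr rfl fun j _ => ?_
    simp only [RCLike.star_def]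
    ring
  rw [h2, Matrix.det_mul, Matrix.det_mul, Matrix.det_conjTranspose]
  simp only [RCLike.star_def]
  ring

end Crest.Agent.R273.YC3_812
end

-- ▼ part R273/YC3b_812
section

/-!
Row 273 (S0416), Part C (Yau), helper812: local Calabi third order estimate, part 2:
the inequality at the maximum point.
-/

set_option autoImplicit false
set_option linter.unusedSimpArgs false
set_option linter.unusedSectionVars false

open Set Filter Topology Complex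
open scoped ContDiff ComplexConjugate

namespace Crest.Agent.R273.YC3_812

open Crest.Agent.R273.YSm_812 Crest.Agent.R273.YJet_812

variable {n : ℕ} {V : Type*} [NormedAddCommGroup V] [NormedSpace ℂ V] {Ω : Set V}
  [FiniteDimensional ℂ V]

/-- `f = F + ε u` -/
noncomputable def Dat.f {hΩ : IsOpen Ω} {e : Fin n → V} {lam Lam K : ℝ}
    (d : Dat hΩ e lam Lam K) : Sm Ω := d.F + (d.eps : ℂ) • d.u

section core

variable {hΩ : IsOpen Ω} {e : Module.Basis (Fin n) ℂ V} {lam Lam K : ℝ}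
  (d : Dat hΩ e lam Lam K) (w : Module.Basis (Fin n) ℂ V) (O : Ω)
  (hw : ∀ a b, (U2 hΩ d.u (w a) (w b)).1 O = if a = b then 1 else 0)

include hw in
theorem mE_one : mE (jet hΩ w O).ev ((jet hΩ w O).Gm d.u) = 1 := by
  ext a b
  show (U2 hΩ d.u (w a) (w b)).1 O = _
  rw [hw, Matrix.one_apply]

theorem f_val (z : Ω) : d.f.1 z = d.F.1 z + d.eps * d.u.1 z := rfl

theorem exists_H : ∃ H : Matrix (Fin n) (Fin n) (Sm Ω), (jet hΩ w O).Gm d.u * H = 1 ∧
    ∀ (a b : ℂ) (ξ : V), DAB hΩ a b ξ d.f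
      = Matrix.trace (H * mD (DAB hΩ a b ξ) ((jet hΩ w O).Gm d.u)) := by
  obtain ⟨c, hc, hdet⟩ := det_frame hΩ e w d.u
  have h1 : ∀ z : Ω, (((jet hΩ w O).Gm d.u).det).1 z = (c * d.c0) * exp (d.f.1 z) := by
    intro z
    have h2 := hdet z
    rw [d.det z] at h2
    rw [f_val, mul_assoc]
    exact h2
  have hc0 : c * (d.c0 : ℂ) ≠ 0 := mul_ne_zero hc (by exact_mod_cast d.c0pos.ne')
  obtain ⟨H, hH⟩ := exists_inv ((jet hΩ w O).Gm d.u) (fun z => by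
    rw [h1]; exact mul_ne_zero hc0 (exp_ne_zero _))
  exact ⟨H, hH, fun a b ξ => dlog hΩ hH hc0 d.f h1 a b ξ⟩

theorem U2_f (ξ : V) (z : Ω) : (U2 hΩ d.f ξ ξ).1 z
    = (U2 hΩ d.F ξ ξ).1 z + d.eps * (U2 hΩ d.u ξ ξ).1 z := by
  have : U2 hΩ d.f ξ ξ = U2 hΩ d.F ξ ξ + (d.eps : ℂ) • U2 hΩ d.u ξ ξ := by
    simp only [U2, Dat.f, map_add, Derivation.map_smul]
  rw [this]
  rfl

theorem U3_f (ξ ζ η : V) (z : Ω) : (U3 hΩ d.f ξ ζ η).1 z
    = (U3 hΩ d.F ξ ζ η).1 z + d.eps * (U3 hΩ d.u ξ ζ η).1 z := by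
  have : U3 hΩ d.f ξ ζ η = U3 hΩ d.F ξ ζ η + (d.eps : ℂ) • U3 hΩ d.u ξ ζ η := by
    simp only [U3, Dat.f, map_add, Derivation.map_smul]
  rw [this]
  rfl

include hw in
/-- `Δ g = f_{ξ ξ̄}` -/
theorem lap_g_val (c : Fin n → ℂ) :
    ∑ q, ev O (D hΩ (w q) (B hΩ (w q)
      ((fr hΩ w O d.u d.hu).g c (fun k => conj (c k)))))
      = (U2 hΩ d.f (∑ i, c i • w i) (∑ i, c i • w i)).1 O := by
  obtain ⟨H, hH, hf⟩ := exists_H d w O
  have h := (fr hΩ w O d.u d.hu).lap_g hH (mE_one d w O hw) (fun p => hf _ _ _) c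
    (fun k => conj (c k))
  rw [U2_expand]
  exact h

include hw in
/-- `Δ t = f_{ξ ζ η̄}` -/
theorem lap_t_val (c c' c'' : Fin n → ℂ) :
    ∑ q, ev O (D hΩ (w q) (B hΩ (w q)
      ((fr hΩ w O d.u d.hu).t c c' (fun k => conj (c'' k)))))
      = (U3 hΩ d.f (∑ i, c i • w i) (∑ i, c' i • w i) (∑ i, c'' i • w i)).1 O := by
  obtain ⟨H, hH, hf⟩ := exists_H d w O
  have h := (fr hΩ w O d.u d.hu).lap_t hH (mE_one d w O hw) (fun p => hf _ _ _) c c'
    (fun k => conj (c'' k))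
  rw [U3_expand]
  exact h

include hw in
/-- `Δ u_{v v̄} = f_{v v̄} + |∂_v G|²` -/
theorem lap_tr_val (v : V) :
    ∑ q, ev O (D hΩ (w q) (B hΩ (w q) (U2 hΩ d.u v v)))
      = (U2 hΩ d.f v v).1 O
        + ((∑ x, ∑ y, ‖(U3 hΩ d.u v (w x) (w y)).1 O‖ ^ 2 : ℝ) : ℂ) := by
  obtain ⟨H, hH, hf⟩ := exists_H d w O
  have h := (jet hΩ w O).lap_const d.u d.f H hH (mE_one d w O hw) (D hΩ v) (B hΩ v)
    (fun q x => DD hΩ _ _ x) (fun q x => DB hΩ _ _ x) (fun q x => (DB hΩ _ _ x).symm)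
    (fun q x => BB hΩ _ _ x) (hf _ _ _)
  refine h.trans ?_
  congr 1
  push_cast
  refine Finset.sum_congr rfl fun x _ => Finset.sum_congr rfl fun y _ => ?_
  have h1 : (jet hΩ w O).ev ((jet hΩ w O).D x ((jet hΩ w O).B y (D hΩ v d.u)))
      = (U3 hΩ d.u v (w x) (w y)).1 O := by
    show (D hΩ (w x) (B hΩ (w y) (D hΩ v d.u))).1 O = _
    rw [← DB, DD]
    rfl
  have h2 : (jet hΩ w O).ev ((jet hΩ w O).D y ((jet hΩ w O).B x (B hΩ v d.u)))
      = conj ((U3 hΩ d.u v (w x) (w y)).1 O) := by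
    show (D hΩ (w y) (B hΩ (w x) (B hΩ v d.u))).1 O = (cj (U3 hΩ d.u v (w x) (w y))).1 O
    have : cj (U3 hΩ d.u v (w x) (w y)) = D hΩ (w y) (B hΩ (w x) (B hΩ v d.u)) := by
      rw [U3, ← B_cj, ← B_cj, ← D_cj, d.hu, ← DB, ← DB, BB]
    rw [this]
  rw [h1, h2, mul_conj, normSq_eq_norm_sq]
  push_cast
  rfl

/-- real elements have real values -/
theorem im_zero {g : Sm Ω} (hg : cj g = g) (z : Ω) : (g.1 z).im = 0 := by
  have h : conj (g.1 z) = g.1 z := by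
    conv_rhs => rw [← hg]
    rfl
  exact Complex.conj_eq_iff_im.1 h

theorem re_eq {g : Sm Ω} (hg : cj g = g) (z : Ω) : g.1 z = ((g.1 z).re : ℂ) := by
  apply Complex.ext
  · simp
  · simp [im_zero hg z]

include hw in
/-- **the inequality at the maximum point** -/
theorem core_ineq (χ τ : Sm Ω) (hχ : cj χ = χ) (hτ : cj τ = τ) (m K' : ℝ)
    (c1 c2 c3 : Fin n → ℂ) (h1 : ∑ k, c1 k * conj (c1 k) = 1) (h2 : ∑ k, c2 k * conj (c2 k) = 1)
    (h3 : ∑ k, c3 k * conj (c3 k) = 1)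
    (hmax : ∀ᶠ z in 𝓝 (O : V), ∀ (hz : z ∈ Ω) (ξ ζ η : V),
      (χ.1 ⟨z, hz⟩).re ^ 2 * ‖(U3 hΩ d.u ξ ζ η).1 ⟨z, hz⟩‖ ^ 2
        ≤ (m - K' * (τ.1 ⟨z, hz⟩).re) * ((U2 hΩ d.u ξ ξ).1 ⟨z, hz⟩).re
          * ((U2 hΩ d.u ζ ζ).1 ⟨z, hz⟩).re * ((U2 hΩ d.u η η).1 ⟨z, hz⟩).re)
    (heq : (χ.1 O).re ^ 2 * ‖(U3 hΩ d.u (∑ i, c1 i • w i) (∑ i, c2 i • w i)
      (∑ i, c3 i • w i)).1 O‖ ^ 2 = m - K' * (τ.1 O).re) :
    0 ≤ - K' * (∑ q, ev O (D hΩ (w q) (B hΩ (w q) τ))).re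
      + (m - K' * (τ.1 O).re) * (((U2 hΩ d.f (∑ i, c1 i • w i) (∑ i, c1 i • w i)).1 O).re
        + ((U2 hΩ d.f (∑ i, c2 i • w i) (∑ i, c2 i • w i)).1 O).re
        + ((U2 hΩ d.f (∑ i, c3 i • w i) (∑ i, c3 i • w i)).1 O).re)
      - (∑ q, ((2 * (χ.1 O).re * ((U2 hΩ χ (w q) (w q)).1 O).re
          - 6 * ‖(D hΩ (w q) χ).1 O‖ ^ 2) * ‖(U3 hΩ d.u (∑ i, c1 i • w i) (∑ i, c2 i • w i)
      (∑ i, c3 i • w i)).1 O‖ ^ 2))
      - 2 * (χ.1 O).re ^ 2 * ((U3 hΩ d.f (∑ i, c1 i • w i) (∑ i, c2 i • w i)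
      (∑ i, c3 i • w i)).1 O * conj ((U3 hΩ d.u (∑ i, c1 i • w i) (∑ i, c2 i • w i)
      (∑ i, c3 i • w i)).1 O)).re := by
  obtain ⟨g1, hg1⟩ : ∃ g1, g1 = (fr hΩ w O d.u d.hu).g c1 (fun k => conj (c1 k)) := ⟨_, rfl⟩
  obtain ⟨g2, hg2⟩ : ∃ g2, g2 = (fr hΩ w O d.u d.hu).g c2 (fun k => conj (c2 k)) := ⟨_, rfl⟩
  obtain ⟨g3, hg3⟩ : ∃ g3, g3 = (fr hΩ w O d.u d.hu).g c3 (fun k => conj (c3 k)) := ⟨_, rfl⟩
  obtain ⟨t, ht⟩ : ∃ t, t = (fr hΩ w O d.u d.hu).t c1 c2 (fun k => conj (c3 k)) := ⟨_, rfl⟩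
  obtain ⟨A, hA⟩ : ∃ A : Sm Ω, A = algebraMap ℂ (Sm Ω) m - (K' : ℂ) • τ := ⟨_, rfl⟩
  have hAv : ∀ z : Ω, A.1 z = ((m - K' * (τ.1 z).re : ℝ) : ℂ) := by
    intro z
    rw [hA]
    show (m : ℂ) - (K' : ℂ) * τ.1 z = _
    rw [re_eq hτ z]; push_cast; simp
  have hG := mE_one d w O hw
  have hT : t.1 O = (U3 hΩ d.u (∑ i, c1 i • w i) (∑ i, c2 i • w i) (∑ i, c3 i • w i)).1 O := by
    rw [ht, t_val, Zv_O, Zv_O, Zv_O]
  obtain ⟨s, hs⟩ : ∃ s : Sm Ω, s = A * (g1 * g2 * g3) - χ * χ * (t * cj t) := ⟨_, rfl⟩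
  have e1 : (jet hΩ w O).ev g1 = 1 := by
    rw [hg1, (fr hΩ w O d.u d.hu).ev_g hG]; exact h1
  have e2 : (jet hΩ w O).ev g2 = 1 := by
    rw [hg2, (fr hΩ w O d.u d.hu).ev_g hG]; exact h2
  have e3 : (jet hΩ w O).ev g3 = 1 := by
    rw [hg3, (fr hΩ w O d.u d.hu).ev_g hG]; exact h3
  have hsA : ∀ z : Ω, s.1 z
      = A.1 z * (g1.1 z * g2.1 z * g3.1 z) - χ.1 z * χ.1 z * (t.1 z * conj (t.1 z)) := by
    intro z; rw [hs]; rfl
  have hsv : ∀ z : Ω, (s.1 z).re = (m - K' * (τ.1 z).re) *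
      ((U2 hΩ d.u (Zv hΩ w O d.u d.hu c1 z) (Zv hΩ w O d.u d.hu c1 z)).1 z).re *
      ((U2 hΩ d.u (Zv hΩ w O d.u d.hu c2 z) (Zv hΩ w O d.u d.hu c2 z)).1 z).re *
      ((U2 hΩ d.u (Zv hΩ w O d.u d.hu c3 z) (Zv hΩ w O d.u d.hu c3 z)).1 z).re
      - (χ.1 z).re ^ 2 * ‖(U3 hΩ d.u (Zv hΩ w O d.u d.hu c1 z) (Zv hΩ w O d.u d.hu c2 z)
        (Zv hΩ w O d.u d.hu c3 z)).1 z‖ ^ 2 := by
    intro z
    have r1 : g1.1 z = (((U2 hΩ d.u (Zv hΩ w O d.u d.hu c1 z)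
        (Zv hΩ w O d.u d.hu c1 z)).1 z).re : ℂ) := by
      rw [hg1, g_val]; exact re_eq (cj_U2 hΩ d.hu _ _) z
    have r2 : g2.1 z = (((U2 hΩ d.u (Zv hΩ w O d.u d.hu c2 z)
        (Zv hΩ w O d.u d.hu c2 z)).1 z).re : ℂ) := by
      rw [hg2, g_val]; exact re_eq (cj_U2 hΩ d.hu _ _) z
    have r3 : g3.1 z = (((U2 hΩ d.u (Zv hΩ w O d.u d.hu c3 z)
        (Zv hΩ w O d.u d.hu c3 z)).1 z).re : ℂ) := by
      rw [hg3, g_val]; exact re_eq (cj_U2 hΩ d.hu _ _) z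
    have r4 : t.1 z = (U3 hΩ d.u (Zv hΩ w O d.u d.hu c1 z) (Zv hΩ w O d.u d.hu c2 z)
        (Zv hΩ w O d.u d.hu c3 z)).1 z := by rw [ht, t_val]
    have r5 : t.1 z * conj (t.1 z) = ((‖t.1 z‖ ^ 2 : ℝ) : ℂ) := by
      rw [mul_conj, normSq_eq_norm_sq]
    rw [hsA, hAv, r5, r1, r2, r3, re_eq hχ z, ← r4]
    simp only [← ofReal_mul, ← ofReal_sub, ofReal_re]
    ring
  have hs0 : (ex s.1 O).re = 0 := by
    rw [ex_coe]
    have b1 : g1.1 O = 1 := e1
    have b2 : g2.1 O = 1 := e2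
    have b3 : g3.1 O = 1 := e3
    have r5 : t.1 O * conj (t.1 O) = ((‖t.1 O‖ ^ 2 : ℝ) : ℂ) := by
      rw [mul_conj, normSq_eq_norm_sq]
    rw [hsA, b1, b2, b3, hAv, r5, re_eq hχ O, hT]
    simp only [mul_one, ← ofReal_mul, ← ofReal_sub, ofReal_re]
    rw [← heq]
    ring
  have hmin : ∀ᶠ z in 𝓝 (O : V), (ex s.1 O).re ≤ (ex s.1 z).re := by
    filter_upwards [hmax, hΩ.mem_nhds O.2] with z hz hz'
    rw [hs0, ex_of_mem _ hz', hsv]
    have := hz hz' (Zv hΩ w O d.u d.hu c1 ⟨z, hz'⟩) (Zv hΩ w O d.u d.hu c2 ⟨z, hz'⟩)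
      (Zv hΩ w O d.u d.hu c3 ⟨z, hz'⟩)
    linarith
  have hL : 0 ≤ (∑ q, ev O (D hΩ (w q) (B hΩ (w q) s))).re := by
    rw [Complex.re_sum]
    exact Finset.sum_nonneg fun q _ => lap_nonneg hΩ s O hmin (w q)
  have hq : ∀ q, ev O (D hΩ (w q) (B hΩ (w q) s))
      = - (K' : ℂ) * ev O (D hΩ (w q) (B hΩ (w q) τ))
        + ((m - K' * (τ.1 O).re : ℝ) : ℂ) * (ev O (D hΩ (w q) (B hΩ (w q) g1))
          + ev O (D hΩ (w q) (B hΩ (w q) g2)) + ev O (D hΩ (w q) (B hΩ (w q) g3)))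
        - ((2 * (D hΩ (w q) χ).1 O * conj ((D hΩ (w q) χ).1 O)
            + 2 * ((χ.1 O).re : ℂ) * (((U2 hΩ χ (w q) (w q)).1 O).re : ℂ))
            * (t.1 O * conj (t.1 O))
          + 2 * ((χ.1 O).re : ℂ) * (D hΩ (w q) χ).1 O * ((B hΩ (w q) t).1 O * conj (t.1 O)
            + t.1 O * conj ((D hΩ (w q) t).1 O))
          + 2 * ((χ.1 O).re : ℂ) * conj ((D hΩ (w q) χ).1 O) * ((D hΩ (w q) t).1 O * conj (t.1 O)
            + t.1 O * conj ((B hΩ (w q) t).1 O))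
          + ((χ.1 O).re : ℂ) ^ 2 * ((D hΩ (w q) (B hΩ (w q) t)).1 O * conj (t.1 O)
            + (B hΩ (w q) t).1 O * conj ((B hΩ (w q) t).1 O)
            + (D hΩ (w q) t).1 O * conj ((D hΩ (w q) t).1 O)
            + t.1 O * conj ((D hΩ (w q) (B hΩ (w q) t)).1 O))) := by
    intro q
    have dg : ∀ c : Fin n → ℂ, (jet hΩ w O).ev ((jet hΩ w O).D q
        ((fr hΩ w O d.u d.hu).g c (fun k => conj (c k)))) = 0 := fun c =>
      (fr hΩ w O d.u d.hu).D_g hG _ _ q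
    have bg : ∀ c : Fin n → ℂ, (jet hΩ w O).ev ((jet hΩ w O).B q
        ((fr hΩ w O d.u d.hu).g c (fun k => conj (c k)))) = 0 := fun c =>
      (fr hΩ w O d.u d.hu).B_g hG _ _ q
    have a1 := DB_A (jet hΩ w O) q A g1 g2 g3 e1 e2 e3 (by rw [hg1]; exact dg c1)
      (by rw [hg2]; exact dg c2) (by rw [hg3]; exact dg c3) (by rw [hg1]; exact bg c1)
      (by rw [hg2]; exact bg c2) (by rw [hg3]; exact bg c3)
    have a2 := DB_X (jet hΩ w O) q χ t (cj t)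
    have a3 : (jet hΩ w O).D q ((jet hΩ w O).B q s)
        = (jet hΩ w O).D q ((jet hΩ w O).B q (A * (g1 * g2 * g3)))
        - (jet hΩ w O).D q ((jet hΩ w O).B q (χ * χ * (t * cj t))) := by rw [hs, map_sub, map_sub]
    have a4 : (jet hΩ w O).D q ((jet hΩ w O).B q A)
        = - ((K' : ℂ) • (jet hΩ w O).D q ((jet hΩ w O).B q τ)) := by
      rw [hA, map_sub, map_sub, Derivation.map_smul, Derivation.map_smul,
        Derivation.map_algebraMap, map_zero, zero_sub]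
    have a5 : (jet hΩ w O).ev A = ((m - K' * (τ.1 O).re : ℝ) : ℂ) := hAv O
    have b1 : (jet hΩ w O).ev ((jet hΩ w O).B q χ) = conj ((D hΩ (w q) χ).1 O) := by
      show (B hΩ (w q) χ).1 O = (cj (D hΩ (w q) χ)).1 O
      rw [← B_cj, hχ]
    have b2 : (jet hΩ w O).ev ((jet hΩ w O).D q ((jet hΩ w O).B q χ))
        = (((U2 hΩ χ (w q) (w q)).1 O).re : ℂ) := re_eq (cj_U2 hΩ hχ (w q) (w q)) O
    have b3 : (jet hΩ w O).ev χ = ((χ.1 O).re : ℂ) := re_eq hχ O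
    have b4 : (jet hΩ w O).ev ((jet hΩ w O).B q (cj t)) = conj ((D hΩ (w q) t).1 O) := by
      show (B hΩ (w q) (cj t)).1 O = (cj (D hΩ (w q) t)).1 O
      rw [B_cj]
    have b5 : (jet hΩ w O).ev ((jet hΩ w O).D q (cj t)) = conj ((B hΩ (w q) t).1 O) := by
      show (D hΩ (w q) (cj t)).1 O = (cj (B hΩ (w q) t)).1 O
      rw [D_cj]
    have b6 : (jet hΩ w O).ev ((jet hΩ w O).D q ((jet hΩ w O).B q (cj t)))
        = conj ((D hΩ (w q) (B hΩ (w q) t)).1 O) := by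
      show (D hΩ (w q) (B hΩ (w q) (cj t))).1 O = (cj (D hΩ (w q) (B hΩ (w q) t))).1 O
      rw [B_cj, D_cj, DB]
    have a6 : ev O (D hΩ (w q) (B hΩ (w q) s))
        = (jet hΩ w O).ev ((jet hΩ w O).D q ((jet hΩ w O).B q s)) := rfl
    have k1 : (jet hΩ w O).ev ((jet hΩ w O).D q χ) = (D hΩ (w q) χ).1 O := rfl
    have k2 : (jet hΩ w O).ev (cj t) = conj (t.1 O) := rfl
    have k3 : (jet hΩ w O).ev t = t.1 O := rfl
    have k4 : (jet hΩ w O).ev ((jet hΩ w O).D q t) = (D hΩ (w q) t).1 O := rfl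
    have k5 : (jet hΩ w O).ev ((jet hΩ w O).B q t) = (B hΩ (w q) t).1 O := rfl
    have k6 : ∀ g : Sm Ω, (jet hΩ w O).ev ((jet hΩ w O).D q ((jet hΩ w O).B q g))
        = ev O (D hΩ (w q) (B hΩ (w q) g)) := fun _ => rfl
    have k7 : ev O (D hΩ (w q) (B hΩ (w q) t)) = (D hΩ (w q) (B hΩ (w q) t)).1 O := rfl
    rw [a6, a3, map_sub, a1, a2, a4, a5, map_neg, map_smul, smul_eq_mul, b1, b2, b3, b4, b5, b6,
      k1, k2, k3, k4, k5, k6 τ, k6 g1, k6 g2, k6 g3, k6 t, k7]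
    ring
  have l1 := lap_g_val d w O hw c1
  have l2 := lap_g_val d w O hw c2
  have l3 := lap_g_val d w O hw c3
  have l4 := lap_t_val d w O hw c1 c2 c3
  rw [← hg1] at l1
  rw [← hg2] at l2
  rw [← hg3] at l3
  rw [← ht] at l4
  have hle : ∀ q, (ev O (D hΩ (w q) (B hΩ (w q) s))).re
      ≤ - K' * (ev O (D hΩ (w q) (B hΩ (w q) τ))).re
        + (m - K' * (τ.1 O).re) * ((ev O (D hΩ (w q) (B hΩ (w q) g1))).re
          + (ev O (D hΩ (w q) (B hΩ (w q) g2))).re + (ev O (D hΩ (w q) (B hΩ (w q) g3))).re)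
        - ((2 * (χ.1 O).re * ((U2 hΩ χ (w q) (w q)).1 O).re
          - 6 * ‖(D hΩ (w q) χ).1 O‖ ^ 2) * ‖t.1 O‖ ^ 2
          + 2 * (χ.1 O).re ^ 2 * (ev O (D hΩ (w q) (B hΩ (w q) t)) * conj (t.1 O)).re) := by
    intro q
    have hn := num_ineq (χ.1 O).re ((U2 hΩ χ (w q) (w q)).1 O).re ((D hΩ (w q) χ).1 O) (t.1 O)
      ((D hΩ (w q) t).1 O) ((B hΩ (w q) t).1 O) (ev O (D hΩ (w q) (B hΩ (w q) t)))
    rw [hq q, sub_re, add_re]
    have r1 : (-(K' : ℂ) * ev O (D hΩ (w q) (B hΩ (w q) τ))).re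
        = - K' * (ev O (D hΩ (w q) (B hΩ (w q) τ))).re := by
      rw [← ofReal_neg, re_ofReal_mul]
    rw [r1, re_ofReal_mul, add_re, add_re]
    exact sub_le_sub_left hn _
  have hsum : (∑ q, ev O (D hΩ (w q) (B hΩ (w q) s))).re
      ≤ ∑ q, (- K' * (ev O (D hΩ (w q) (B hΩ (w q) τ))).re
        + (m - K' * (τ.1 O).re) * ((ev O (D hΩ (w q) (B hΩ (w q) g1))).re
          + (ev O (D hΩ (w q) (B hΩ (w q) g2))).re + (ev O (D hΩ (w q) (B hΩ (w q) g3))).re)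
        - ((2 * (χ.1 O).re * ((U2 hΩ χ (w q) (w q)).1 O).re
          - 6 * ‖(D hΩ (w q) χ).1 O‖ ^ 2) * ‖t.1 O‖ ^ 2
          + 2 * (χ.1 O).re ^ 2 * (ev O (D hΩ (w q) (B hΩ (w q) t)) * conj (t.1 O)).re)) := by
    rw [Complex.re_sum]
    exact Finset.sum_le_sum fun q _ => hle q
  refine (hL.trans hsum).trans (le_of_eq ?_)
  simp only [Finset.sum_sub_distrib, Finset.sum_add_distrib, ← Finset.mul_sum]
  rw [← Complex.re_sum, ← Complex.re_sum, ← Complex.re_sum, ← Complex.re_sum, ← Complex.re_sum,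
    ← Finset.sum_mul, l1, l2, l3, ← Finset.sum_mul, l4, hT, ← Finset.sum_mul]
  ring

end core

end Crest.Agent.R273.YC3_812
end

-- ▼ part R273/YC3c_812

/-!
Row 273 (S0416), Part C (Yau), helper812: local Calabi third order estimate, part 3:
unitary frames, the cutoff, the estimate on a ball.
-/

set_option autoImplicit false
set_option linter.unusedSimpArgs false
set_option linter.unusedSectionVars false

open Set Filter Topology Complex
open scoped ContDiff ComplexConjugate ComplexOrder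

namespace Crest.Agent.R273.YC3_812

open Crest.Agent.R273.YSm_812 Crest.Agent.R273.YJet_812

variable {n : ℕ}

/-- diagonalisation of a positive definite matrix by congruence -/
theorem exists_congr_one (A : Matrix (Fin n) (Fin n) ℂ) (hA : A.PosDef) :
    ∃ C : Matrix (Fin n) (Fin n) ℂ, C * A * C.conjTranspose = 1 := by
  have hH := hA.isHermitian
  have h1 := hH.conjStarAlgAut_star_eigenvectorUnitary
  rw [Unitary.conjStarAlgAut_star_apply] at h1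
  set Um : Matrix (Fin n) (Fin n) ℂ := (hH.eigenvectorUnitary : Matrix (Fin n) (Fin n) ℂ) with hUm
  have hpos := fun i => hA.eigenvalues_pos i
  let Dm : Matrix (Fin n) (Fin n) ℂ := Matrix.diagonal fun i => (((Real.sqrt (hH.eigenvalues i))⁻¹ : ℝ) : ℂ)
  have hD : Dm.conjTranspose = Dm := by
    simp only [Dm, Matrix.diagonal_conjTranspose]
    congr 1
    funext i
    simp
  refine ⟨Dm * star Um, ?_⟩
  have h2 : (Dm * star Um) * A * (Dm * star Um).conjTranspose = Dm * (star Um * A * Um) * Dm := by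
    rw [Matrix.conjTranspose_mul, hD, Matrix.star_eq_conjTranspose,
      Matrix.conjTranspose_conjTranspose]
    simp only [Matrix.mul_assoc]
  rw [h2, h1]
  simp only [Dm, Matrix.diagonal_mul_diagonal]
  rw [← Matrix.diagonal_one]
  congr 1
  funext i
  have hs : Real.sqrt (hH.eigenvalues i) ≠ 0 := (Real.sqrt_pos.2 (hpos i)).ne'
  simp only [Function.comp_apply, Pi.one_apply]
  have h3 : ((hH.eigenvalues i : ℝ) : ℂ)
      = (((Real.sqrt (hH.eigenvalues i)) * (Real.sqrt (hH.eigenvalues i)) : ℝ) : ℂ) := by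
    rw [Real.mul_self_sqrt (hpos i).le]
  show _ * ((hH.eigenvalues i : ℝ) : ℂ) * _ = 1
  rw [h3]
  simp only [← ofReal_mul]
  rw [← ofReal_one]
  congr 1
  field_simp

variable {V : Type*} [NormedAddCommGroup V] [NormedSpace ℂ V] {Ω : Set V}
  [FiniteDimensional ℂ V]

/-- the quadratic form in a basis -/
theorem U2_repr (hΩ : IsOpen Ω) (u : Sm Ω) (e : Module.Basis (Fin n) ℂ V) (ξ : V) (z : Ω) :
    (U2 hΩ u ξ ξ).1 z
      = ∑ i, ∑ j, e.repr ξ i * conj (e.repr ξ j) * (U2 hΩ u (e i) (e j)).1 z := by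
  conv_lhs => rw [← e.sum_repr ξ]
  exact U2_expand hΩ u _ _ _ z

/-- the Gram matrix is positive definite -/
theorem posDef_gram (hΩ : IsOpen Ω) {u : Sm Ω} (hu : cj u = u) (e : Module.Basis (Fin n) ℂ V)
    (z : Ω) (hpos : ∀ ξ : V, ξ ≠ 0 → 0 < ((U2 hΩ u ξ ξ).1 z).re) :
    (Matrix.of fun i j => (U2 hΩ u (e i) (e j)).1 z).PosDef := by
  refine Matrix.PosDef.of_dotProduct_mulVec_pos ?_ fun x hx => ?_
  · ext i j
    simp only [Matrix.conjTranspose_apply, Matrix.of_apply]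
    exact conj_U2 hΩ hu (e j) (e i) z
  · set ξ : V := ∑ i, conj (x i) • e i with hξ
    have hr : ∀ i, e.repr ξ i = conj (x i) := fun i => by
      rw [hξ]; simp [Finsupp.single_apply]
    have hξ0 : ξ ≠ 0 := by
      intro h0
      apply hx
      funext i
      have := hr i
      rw [h0] at this
      simp at this
      exact (map_eq_zero _).1 this.symm
    have h1 := hpos ξ hξ0
    have h2 : star x ⬝ᵥ (Matrix.of fun i j => (U2 hΩ u (e i) (e j)).1 z).mulVec x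
        = (U2 hΩ u ξ ξ).1 z := by
      rw [U2_repr hΩ u e ξ z]
      simp only [hr, dotProduct, Matrix.mulVec, Matrix.of_apply, Finset.mul_sum, Pi.star_apply]
      refine Finset.sum_congr rfl fun i _ => Finset.sum_congr rfl fun j _ => ?_
      simp only [RCLike.star_def, conj_conj]
      ring
    rw [h2, re_eq (cj_U2 hΩ hu ξ ξ) z]
    exact_mod_cast h1

/-- unitary frames -/
theorem exists_frame (hΩ : IsOpen Ω) {u : Sm Ω} (hu : cj u = u) (e : Module.Basis (Fin n) ℂ V)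
    (z : Ω) (hpos : ∀ ξ : V, ξ ≠ 0 → 0 < ((U2 hΩ u ξ ξ).1 z).re) :
    ∃ w : Module.Basis (Fin n) ℂ V, ∀ a b, (U2 hΩ u (w a) (w b)).1 z = if a = b then 1 else 0 := by
  obtain ⟨C, hC⟩ := exists_congr_one _ (posDef_gram hΩ hu e z hpos)
  let w0 : Fin n → V := fun a => ∑ i, C a i • e i
  have hw0 : ∀ a b, (U2 hΩ u (w0 a) (w0 b)).1 z = if a = b then 1 else 0 := by
    intro a b
    have h1 : (U2 hΩ u (w0 a) (w0 b)).1 z
        = (C * (Matrix.of fun i j => (U2 hΩ u (e i) (e j)).1 z) * C.conjTranspose) a b := by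
      rw [U2_expand]
      simp only [Matrix.mul_apply, Matrix.conjTranspose_apply, Matrix.of_apply, Finset.sum_mul]
      rw [Finset.sum_comm]
      refine Finset.sum_congr rfl fun i _ => Finset.sum_congr rfl fun j _ => ?_
      simp only [RCLike.star_def]
      ring
    rw [h1, hC, Matrix.one_apply]
  have hli : LinearIndependent ℂ w0 := by
    rw [Fintype.linearIndependent_iff]
    intro g hg i
    have h1 : (U2 hΩ u (∑ a, g a • w0 a) (w0 i)).1 z = g i := by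
      rw [U2_sum_left]
      show (ev z) _ = _
      simp only [map_sum, map_smul, smul_eq_mul, ev_apply, hw0, mul_ite, mul_one, mul_zero,
        Finset.sum_ite_eq', Finset.mem_univ, if_true]
    rw [hg] at h1
    have h2 : U2 hΩ u 0 (w0 i) = 0 := by
      have := U2_sum_left hΩ u (∅ : Finset (Fin n)) (fun _ => 0) w0 (w0 i)
      simpa using this
    rw [h2] at h1
    exact h1.symm
  have hcard : Fintype.card (Fin n) = Module.finrank ℂ V := by
    rw [Module.finrank_eq_card_basis e]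
  rcases Nat.eq_zero_or_pos n with h0 | h0
  · subst h0
    exact ⟨e, fun a => a.elim0⟩
  · have : Nonempty (Fin n) := ⟨⟨0, h0⟩⟩
    refine ⟨basisOfLinearIndependentOfCardEqFinrank hli hcard, fun a b => ?_⟩
    rw [coe_basisOfLinearIndependentOfCardEqFinrank]
    exact hw0 a b

/-! ### the cutoff on `EuclideanSpace ℂ (Fin n)` -/

section cut

variable {Ω' : Set (EuclideanSpace ℂ (Fin n))}

/-- coordinate functions centred at `z₀` -/
noncomputable def co (Ω' : Set (EuclideanSpace ℂ (Fin n))) (z₀ : EuclideanSpace ℂ (Fin n))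
    (k : Fin n) : Sm Ω' := aff Ω' (EuclideanSpace.proj k) (-(z₀ k))

/-- the cutoff `ρ² - |z - z₀|²` -/
noncomputable def cut (Ω' : Set (EuclideanSpace ℂ (Fin n))) (z₀ : EuclideanSpace ℂ (Fin n))
    (ρ : ℝ) : Sm Ω' :=
  algebraMap ℂ (Sm Ω') ((ρ ^ 2 : ℝ) : ℂ) - ∑ k, co Ω' z₀ k * cj (co Ω' z₀ k)

theorem cut_val (z₀ : EuclideanSpace ℂ (Fin n)) (ρ : ℝ) (z : Ω') :
    (cut Ω' z₀ ρ).1 z = ((ρ ^ 2 - ‖(z : EuclideanSpace ℂ (Fin n)) - z₀‖ ^ 2 : ℝ) : ℂ) := by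
  rw [← ev_apply z (cut Ω' z₀ ρ), cut, map_sub, map_sum]
  have h1 : (ev z) (algebraMap ℂ (Sm Ω') ((ρ ^ 2 : ℝ) : ℂ)) = ((ρ ^ 2 : ℝ) : ℂ) := rfl
  rw [h1, EuclideanSpace.norm_sq_eq]
  push_cast
  congr 1
  refine Finset.sum_congr rfl fun k _ => ?_
  have h2 : (ev z) (co Ω' z₀ k * cj (co Ω' z₀ k))
      = ((z : EuclideanSpace ℂ (Fin n)) k - z₀ k) * conj ((z : EuclideanSpace ℂ (Fin n)) k - z₀ k) := by
    show (co Ω' z₀ k).1 z * conj ((co Ω' z₀ k).1 z) = _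
    simp only [co, aff_apply, ← sub_eq_add_neg]
    rfl
  rw [h2, mul_conj, normSq_eq_norm_sq]
  push_cast
  rfl

theorem cj_cut (z₀ : EuclideanSpace ℂ (Fin n)) (ρ : ℝ) : cj (cut Ω' z₀ ρ) = cut Ω' z₀ ρ := by
  refine Sm.ext' fun z => ?_
  rw [cj_apply, cut_val, conj_ofReal]

theorem D_co (hΩ : IsOpen Ω') (z₀ ξ : EuclideanSpace ℂ (Fin n)) (k : Fin n) :
    D hΩ ξ (co Ω' z₀ k) = algebraMap ℂ (Sm Ω') (ξ k) := by
  rw [co, D_aff]; rfl

theorem B_co (hΩ : IsOpen Ω') (z₀ ξ : EuclideanSpace ℂ (Fin n)) (k : Fin n) :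
    B hΩ ξ (co Ω' z₀ k) = 0 := B_aff hΩ _ _ _

theorem cj_algebraMap (c : ℂ) : cj (algebraMap ℂ (Sm Ω') c) = algebraMap ℂ (Sm Ω') (conj c) :=
  Sm.ext' fun _ => rfl

theorem D_cut (hΩ : IsOpen Ω') (z₀ ξ : EuclideanSpace ℂ (Fin n)) (ρ : ℝ) :
    D hΩ ξ (cut Ω' z₀ ρ) = - ∑ k, ξ k • cj (co Ω' z₀ k) := by
  rw [cut, map_sub, Derivation.map_algebraMap, zero_sub, map_sum]
  congr 1
  refine Finset.sum_congr rfl fun k _ => ?_
  rw [Derivation.leibniz, D_cj, B_co, D_co]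
  have : cj (0 : Sm Ω') = 0 := Sm.ext' fun z => by simp
  rw [this, smul_zero, zero_add, smul_eq_mul, Algebra.smul_def, mul_comm]

theorem norm_D_cut (hΩ : IsOpen Ω') (z₀ ξ : EuclideanSpace ℂ (Fin n)) (ρ : ℝ) (z : Ω') :
    ‖(D hΩ ξ (cut Ω' z₀ ρ)).1 z‖ ≤ ‖ξ‖ * ‖(z : EuclideanSpace ℂ (Fin n)) - z₀‖ := by
  have h1 : (D hΩ ξ (cut Ω' z₀ ρ)).1 z = - inner ℂ ((z : EuclideanSpace ℂ (Fin n)) - z₀) ξ := by
    rw [D_cut, ← ev_apply z (-∑ k, ξ k • cj (co Ω' z₀ k))]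
    simp only [map_neg, map_sum, map_smul, smul_eq_mul, PiLp.inner_apply]
    congr 1
  rw [h1, norm_neg, mul_comm]
  exact norm_inner_le_norm _ _

theorem U2_cut (hΩ : IsOpen Ω') (z₀ ξ : EuclideanSpace ℂ (Fin n)) (ρ : ℝ) (z : Ω') :
    (U2 hΩ (cut Ω' z₀ ρ) ξ ξ).1 z = ((-‖ξ‖ ^ 2 : ℝ) : ℂ) := by
  rw [U2, DB, D_cut, map_neg, map_sum]
  have h1 : ∀ k, B hΩ ξ (ξ k • cj (co Ω' z₀ k)) = ξ k • algebraMap ℂ (Sm Ω') (conj (ξ k)) := by
    intro k
    rw [Derivation.map_smul, B_cj, D_co, cj_algebraMap]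
  simp only [h1]
  rw [← ev_apply z (-∑ k, ξ k • algebraMap ℂ (Sm Ω') (conj (ξ k)))]
  simp only [map_neg, map_sum, map_smul, smul_eq_mul]
  rw [EuclideanSpace.norm_sq_eq]
  push_cast
  congr 1
  refine Finset.sum_congr rfl fun k _ => ?_
  have h2 : (ev z) (algebraMap ℂ (Sm Ω') (conj (ξ k))) = conj (ξ k) := rfl
  rw [h2, mul_conj, normSq_eq_norm_sq]
  push_cast
  rfl

end cut

end Crest.Agent.R273.YC3_812
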