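import Crest.Agent.R273.YauMax_635
import Crest.Agent.R273.GreenM_5

/-!
# R273 (S0416), Part C, C2 estimate (helper289), part 1: linear algebra

`bf M x y = ∑ M a b x_a conj y_b`.
-/

set_option autoImplicit false
set_option linter.unusedSectionVars false

open Set Filter Topology Complex Matrix
open scoped ContDiff Matrix ComplexConjugate ComplexOrder

namespace Crest.Agent.R273.C2a_289

open Crest.Agent.R273.GreenM_5

noncomputable section

variable {n : ℕ}

/-- the sesquilinear form of a matrix -/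
def bf (M : Matrix (Fin n) (Fin n) ℂ) (x y : Fin n → ℂ) : ℂ := x ⬝ᵥ (M *ᵥ star y)

theorem bf_eq_sum (M : Matrix (Fin n) (Fin n) ℂ) (x y : Fin n → ℂ) :
    bf M x y = ∑ a, ∑ b, M a b * x a * conj (y b) := by
  simp only [bf, dotProduct, Matrix.mulVec, Pi.star_apply, RCLike.star_def, Finset.mul_sum]
  refine Finset.sum_congr rfl fun a _ => Finset.sum_congr rfl fun b _ => ?_
  ring

variable (M N : Matrix (Fin n) (Fin n) ℂ) (x y x' y' : Fin n → ℂ)




theorem bf_add_left : bf M (x + x') y = bf M x y + bf M x' y := by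
  simp [bf, add_dotProduct]

theorem bf_add_right : bf M x (y + y') = bf M x y + bf M x y' := by
  simp [bf, Matrix.mulVec_add, dotProduct_add]



theorem bf_smul_left (c : ℂ) : bf M (c • x) y = c * bf M x y := by
  simp [bf, smul_dotProduct]

theorem bf_smul_right (c : ℂ) : bf M x (c • y) = conj c * bf M x y := by
  simp [bf, star_smul, Matrix.mulVec_smul, dotProduct_smul]



theorem bf_conj : conj (bf M x y) = bf Mᴴ y x := by
  rw [bf_eq_sum, bf_eq_sum, map_sum, Finset.sum_comm]
  refine Finset.sum_congr rfl fun a _ => ?_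
  rw [map_sum]
  refine Finset.sum_congr rfl fun b _ => ?_
  rw [map_mul, map_mul, Complex.conj_conj, Matrix.conjTranspose_apply, RCLike.star_def]
  ring

variable {M N x y x' y'}


theorem bf_star (M : Matrix (Fin n) (Fin n) ℂ) (x : Fin n → ℂ) :
    bf M x x = star (star x) ⬝ᵥ (M *ᵥ star x) := by
  rw [star_star]; rfl


theorem bf_pos (h : M.PosDef) {x : Fin n → ℂ} (hx : x ≠ 0) : 0 < bf M x x := by
  rw [bf_star]
  exact h.dotProduct_mulVec_pos (star_ne_zero.2 hx)






theorem gram_psd {G : Matrix (Fin n) (Fin n) ℂ} (hG : G.PosSemidef) (r : Fin n → Fin n → ℂ) :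
    (Matrix.of fun k l => bf G (r k) (r l)).PosSemidef := by
  have h := hG.mul_mul_conjTranspose_same (Matrix.of r)
  convert h using 1
  ext k l
  simp only [Matrix.of_apply, bf_eq_sum, Matrix.mul_apply, Matrix.conjTranspose_apply,
    RCLike.star_def, Finset.sum_mul]
  rw [Finset.sum_comm]
  refine Finset.sum_congr rfl fun a _ => Finset.sum_congr rfl fun b _ => ?_
  ring

/-- the Cauchy-Schwarz matrix is positive semidefinite -/
theorem cs_psd {G : Matrix (Fin n) (Fin n) ℂ} (hG : G.PosDef) {v : Fin n → ℂ} (hv : v ≠ 0)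
    (q : Fin n → Fin n → ℂ) :
    (Matrix.of fun k l => bf G (q k) (q l) * bf G v v - bf G (q k) v * bf G v (q l)).PosSemidef := by
  have h0 : 0 < bf G v v := bf_pos hG hv
  set g := bf G v v with hg
  have hgr : conj g = g := by rw [hg, bf_conj, hG.1.eq]
  have h := (gram_psd hG.posSemidef fun k => q k + (-(bf G (q k) v / g)) • v).smul h0.le
  convert h using 1
  ext k l
  simp only [Matrix.of_apply, Matrix.smul_apply, smul_eq_mul, bf_add_left, bf_add_right,
    bf_smul_left, bf_smul_right, map_neg, map_div₀, hgr, bf_conj, hG.1.eq]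
  rw [← hg]
  have h1 : g ≠ 0 := h0.ne'
  field_simp
  ring

theorem trace_mul_nonneg {N S : Matrix (Fin n) (Fin n) ℂ} (hN : N.PosSemidef)
    (hS : S.PosSemidef) : 0 ≤ (N * S).trace := by
  obtain ⟨B, rfl⟩ := exists_msqrt hS
  rw [← Matrix.mul_assoc, Matrix.trace_mul_comm, ← Matrix.mul_assoc]
  exact (hN.mul_mul_conjTranspose_same B).trace_nonneg

/-- `G ≤ tr(X⁻¹ G) X` -/
theorem bf_le_trace {X G : Matrix (Fin n) (Fin n) ℂ} (hX : X.PosDef) (hG : G.PosSemidef)
    {v : Fin n → ℂ} (hv : v ≠ 0) : bf G v v ≤ (X⁻¹ * G).trace * bf X v v := by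
  have hd : X.det ≠ 0 := hX.det_pos.ne'
  have h : X⁻¹ * X = 1 := Matrix.nonsing_inv_mul _ (isUnit_iff_ne_zero.2 hd)
  have hTh : (X⁻¹)ᴴ = X⁻¹ := hX.inv.1.eq
  have h1 := trace_mul_nonneg (cs_psd hX hv fun k => X⁻¹ k) hG
  have e1 : ∀ k l, bf X (X⁻¹ k) (X⁻¹ l) = X⁻¹ k l := by
    intro k l
    have : (X⁻¹ * X * (X⁻¹)ᴴ) k l = bf X (X⁻¹ k) (X⁻¹ l) := by
      simp only [bf_eq_sum, Matrix.mul_apply, Matrix.conjTranspose_apply, RCLike.star_def,
        Finset.sum_mul]
      rw [Finset.sum_comm]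
      refine Finset.sum_congr rfl fun a _ => Finset.sum_congr rfl fun b _ => ?_
      ring
    rw [← this, h, Matrix.one_mul, hTh]
  have e2 : ∀ k, bf X (X⁻¹ k) v = conj (v k) := by
    intro k
    have : (X⁻¹ *ᵥ (X *ᵥ star v)) k = bf X (X⁻¹ k) v := rfl
    rw [← this, Matrix.mulVec_mulVec, h, Matrix.one_mulVec]
    rfl
  have e3 : ∀ k, bf X v (X⁻¹ k) = v k := by
    intro k
    have := bf_conj X (X⁻¹ k) v
    rw [hX.1.eq, e2, Complex.conj_conj] at this
    exact this.symm
  have h2 : ((Matrix.of fun k l => bf X (X⁻¹ k) (X⁻¹ l) * bf X v v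
      - bf X (X⁻¹ k) v * bf X v (X⁻¹ l)) * G).trace = (X⁻¹ * G).trace * bf X v v - bf G v v := by
    simp only [Matrix.trace, Matrix.diag_apply, Matrix.mul_apply, Matrix.of_apply, e1, e2, e3,
      sub_mul, Finset.sum_sub_distrib]
    congr 1
    · rw [Finset.sum_mul]
      refine Finset.sum_congr rfl fun a _ => ?_
      rw [Finset.sum_mul]
      refine Finset.sum_congr rfl fun b _ => ?_
      ring
    · rw [bf_eq_sum, Finset.sum_comm]
      refine Finset.sum_congr rfl fun a _ => Finset.sum_congr rfl fun b _ => ?_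
      ring
  rw [h2] at h1
  exact sub_nonneg.1 h1







end

end Crest.Agent.R273.C2a_289
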