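import Mathlib
import Crest.Agent.R273.YauMax_635

-- ▼ part R273/YauLim_635
section

/-!
# R273 (S0416), Part C, YAU (helper635): limits of `C^{2,a}` bounded sequences along ultrafilters

`lim_c2` : if `v k` are `C²` on a ball of a finite dimensional space with `‖D²v‖ ≤ S`, `D²v`
`a`-Hölder with constant `S` and `|v| ≤ S`, then the pointwise limit along an ultrafilter is `C²` on
the smaller ball, with Hölder second derivative, and the second derivatives converge pointwise.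
-/

set_option autoImplicit false
set_option linter.unusedSectionVars false

open Set Filter Topology Metric
open scoped ContDiff

namespace Crest.Agent.R273.YauLim_635

variable {E : Type*} [NormedAddCommGroup E] [NormedSpace ℝ E]
variable {F : Type*} [NormedAddCommGroup F] [NormedSpace ℝ F]

/-- bounded sequences in proper spaces have limits along ultrafilters -/
theorem exists_lim [FiniteDimensional ℝ F] (U : Ultrafilter ℕ) {x : ℕ → F} {S : ℝ}
    (h : ∀ k, ‖x k‖ ≤ S) : ∃ y, Tendsto x U (𝓝 y) := by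
  have : ProperSpace F := FiniteDimensional.proper ℝ F
  have hc : IsCompact (closedBall (0 : F) S) := isCompact_closedBall _ _
  obtain ⟨y, -, hy⟩ := hc.ultrafilter_le_nhds (U.map x) (by
    rw [le_principal_iff]
    exact Ultrafilter.mem_coe.2 (by
      have : x ⁻¹' (closedBall (0 : F) S) = univ := by
        ext k; simp [h k]
      rw [Ultrafilter.mem_map, this]; exact univ_mem))
  exact ⟨y, hy⟩

/-- Taylor estimate with Hölder derivative on a convex set -/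
theorem taylor_holder {f : E → F} {s : Set E} (hs : Convex ℝ s) {a S : ℝ} (ha : 0 ≤ a)
    (hd : ∀ z ∈ s, DifferentiableAt ℝ f z)
    (hS : ∀ z ∈ s, ∀ w ∈ s, ‖fderiv ℝ f z - fderiv ℝ f w‖ ≤ S * ‖z - w‖ ^ a)
    {z w : E} (hz : z ∈ s) (hw : w ∈ s) :
    ‖f w - f z - fderiv ℝ f z (w - z)‖ ≤ S * ‖w - z‖ ^ a * ‖w - z‖ := by
  have hseg : segment ℝ z w ⊆ s := hs.segment_subset hz hw
  have hS0 : z ≠ w → 0 ≤ S := by
    intro hzw
    have h1 := (norm_nonneg _).trans (hS z hz w hw)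
    have h2 : 0 < ‖z - w‖ ^ a := Real.rpow_pos_of_pos (norm_pos_iff.2 (sub_ne_zero.2 hzw)) a
    exact nonneg_of_mul_nonneg_left h1 h2
  rcases eq_or_ne z w with rfl | hzw
  · simp
  have h1 : ∀ x ∈ segment ℝ z w, HasFDerivWithinAt (fun x => f x - fderiv ℝ f z x)
      (fderiv ℝ f x - fderiv ℝ f z) (segment ℝ z w) x := fun x hx =>
    ((hd x (hseg hx)).hasFDerivAt.sub (fderiv ℝ f z).hasFDerivAt).hasFDerivWithinAt
  have h2 : ∀ x ∈ segment ℝ z w, ‖fderiv ℝ f x - fderiv ℝ f z‖ ≤ S * ‖w - z‖ ^ a := by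
    intro x hx
    refine (hS x (hseg hx) z hz).trans ?_
    refine mul_le_mul_of_nonneg_left ?_ (hS0 hzw)
    refine Real.rpow_le_rpow (norm_nonneg _) ?_ ha
    have := segment_subset_closedBall_left z w hx
    rw [mem_closedBall, dist_eq_norm] at this
    rwa [dist_eq_norm, norm_sub_rev z w] at this
  have h3 := (convex_segment z w).norm_image_sub_le_of_norm_hasFDerivWithin_le h1 h2
    (left_mem_segment ℝ z w) (right_mem_segment ℝ z w)
  have h4 : f w - f z - fderiv ℝ f z (w - z) = f w - fderiv ℝ f z w - (f z - fderiv ℝ f z z) := by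
    rw [map_sub]; abel
  rw [h4]
  exact h3

/-- an estimate `‖f w - f z - L (w - z)‖ ≤ S ‖w - z‖^(1 + a)` gives the derivative -/
theorem hasFDerivAt_of_taylor {f : E → F} {L : E →L[ℝ] F} {z : E} {s : Set E} (hs : s ∈ 𝓝 z)
    {a S : ℝ} (ha : 0 < a) (h : ∀ w ∈ s, ‖f w - f z - L (w - z)‖ ≤ S * ‖w - z‖ ^ a * ‖w - z‖) :
    HasFDerivAt f L z := by
  rw [hasFDerivAt_iff_isLittleO, Asymptotics.isLittleO_iff]
  intro c hc
  have h1 : Tendsto (fun w : E => S * ‖w - z‖ ^ a) (𝓝 z) (𝓝 0) := by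
    have h2 : Continuous fun w : E => S * ‖w - z‖ ^ a :=
      continuous_const.mul ((continuous_norm.comp (continuous_id.sub continuous_const)).rpow_const
        fun _ => Or.inr ha.le)
    have h3 := h2.tendsto z
    simpa [Real.zero_rpow ha.ne'] using h3
  filter_upwards [hs, h1.eventually (gt_mem_nhds hc)] with w hw hw2
  exact (h w hw).trans (mul_le_mul_of_nonneg_right hw2.le (norm_nonneg _))

/-- limits of `C^{1,a}` bounded sequences -/
theorem lim_c1 (U : Ultrafilter ℕ) {z₀ : E} {r a S : ℝ} (ha : 0 < a)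
    {v : ℕ → E → F} {V : E → F} {V1 : E → E →L[ℝ] F}
    (hd : ∀ k, ∀ z ∈ ball z₀ r, DifferentiableAt ℝ (v k) z)
    (hS : ∀ k, ∀ z ∈ ball z₀ r, ∀ w ∈ ball z₀ r,
      ‖fderiv ℝ (v k) z - fderiv ℝ (v k) w‖ ≤ S * ‖z - w‖ ^ a)
    (hV : ∀ z ∈ ball z₀ r, Tendsto (fun k => v k z) U (𝓝 (V z)))
    (hV1 : ∀ z ∈ ball z₀ r, Tendsto (fun k => fderiv ℝ (v k) z) U (𝓝 (V1 z))) :
    (∀ z ∈ ball z₀ r, HasFDerivAt V (V1 z) z) ∧
      ∀ z ∈ ball z₀ r, ∀ w ∈ ball z₀ r, ‖V1 z - V1 w‖ ≤ S * ‖z - w‖ ^ a := by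
  refine ⟨fun z hz => ?_, fun z hz w hw => ?_⟩
  · refine hasFDerivAt_of_taylor (isOpen_ball.mem_nhds hz) ha (S := S) fun w hw => ?_
    have h1 : Tendsto (fun k => ‖v k w - v k z - fderiv ℝ (v k) z (w - z)‖) U
        (𝓝 ‖V w - V z - V1 z (w - z)‖) := by
      refine (((hV w hw).sub (hV z hz)).sub ?_).norm
      exact ((ContinuousLinearMap.apply ℝ F (w - z)).continuous.tendsto _).comp (hV1 z hz)
    exact le_of_tendsto h1 (Eventually.of_forall fun k =>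
      taylor_holder (convex_ball _ _) ha.le (hd k) (hS k) hz hw)
  · have h1 : Tendsto (fun k => ‖fderiv ℝ (v k) z - fderiv ℝ (v k) w‖) U (𝓝 ‖V1 z - V1 w‖) :=
      ((hV1 z hz).sub (hV1 w hw)).norm
    exact le_of_tendsto h1 (Eventually.of_forall fun k => hS k z hz w hw)

/-- a bound of the gradient by the function and its second derivative -/
theorem grad_bound {v : E → ℝ} {z₀ : E} {r S : ℝ} (hr : 0 < r) (hS0 : 0 ≤ S)
    (hd : ∀ z ∈ ball z₀ (2 * r), DifferentiableAt ℝ v z)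
    (hd2 : ∀ z ∈ ball z₀ (2 * r), DifferentiableAt ℝ (fderiv ℝ v) z)
    (h0 : ∀ z ∈ ball z₀ (2 * r), |v z| ≤ S)
    (h2 : ∀ z ∈ ball z₀ (2 * r), ‖fderiv ℝ (fderiv ℝ v) z‖ ≤ S) {z : E} (hz : z ∈ ball z₀ r) :
    ‖fderiv ℝ v z‖ ≤ 4 * S / r + S * r := by
  have hzz : z ∈ ball z₀ (2 * r) := ball_subset_ball (by linarith) hz
  have hlip : ∀ z ∈ ball z₀ (2 * r), ∀ w ∈ ball z₀ (2 * r),
      ‖fderiv ℝ v z - fderiv ℝ v w‖ ≤ S * ‖z - w‖ ^ (1 : ℝ) := by
    intro z hz w hw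
    rw [Real.rpow_one]
    exact (convex_ball z₀ (2 * r)).norm_image_sub_le_of_norm_fderiv_le hd2 h2 hw hz
  refine ContinuousLinearMap.opNorm_le_of_unit_norm (by positivity) fun u hu => ?_
  set w : E := z + (r / 2) • u with hw
  have hwz : w - z = (r / 2) • u := by rw [hw]; abel
  have hnw : ‖w - z‖ = r / 2 := by rw [hwz, norm_smul, hu, mul_one, Real.norm_of_nonneg (by linarith)]
  have hwb : w ∈ ball z₀ (2 * r) := by
    rw [mem_ball] at hz ⊢
    have h3 : dist w z = r / 2 := by rw [dist_eq_norm, hnw]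
    have := dist_triangle w z z₀
    linarith
  have h3 := taylor_holder (convex_ball z₀ (2 * r)) (by norm_num) hd hlip hzz hwb
  rw [Real.rpow_one, hnw, hwz, map_smul] at h3
  have h4 := h0 z hzz
  have h5 := h0 w hwb
  have h6 : |(r / 2) * fderiv ℝ v z u| ≤ 2 * S + S * (r / 2) * (r / 2) := by
    have h7 : (r / 2) * fderiv ℝ v z u
        = (v w - v z) - (v w - v z - (r / 2) • fderiv ℝ v z u) := by
      simp only [smul_eq_mul]; ring
    rw [h7]
    refine (abs_sub _ _).trans ?_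
    have h8 : |v w - v z| ≤ 2 * S := (abs_sub _ _).trans (by linarith)
    rw [Real.norm_eq_abs] at h3
    linarith
  rw [abs_mul, abs_of_pos (by linarith : (0 : ℝ) < r / 2)] at h6
  rw [Real.norm_eq_abs]
  have h9 : |fderiv ℝ v z u| ≤ (2 * S + S * (r / 2) * (r / 2)) / (r / 2) := by
    rw [le_div_iff₀ (by linarith)]; linarith
  refine h9.trans ?_
  have h10 : (2 * S + S * (r / 2) * (r / 2)) / (r / 2) = 4 * S / r + S * (r / 2) := by
    field_simp
    ring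
  rw [h10]
  nlinarith [mul_nonneg hS0 hr.le]

/-- **limits of `C^{2,a}` bounded sequences** -/
theorem lim_c2 [FiniteDimensional ℝ E] (U : Ultrafilter ℕ) {z₀ : E} {r a S : ℝ} (hr : 0 < r) (ha : 0 < a) (hS0 : 0 ≤ S)
    {v : ℕ → E → ℝ} {V : E → ℝ}
    (hv : ∀ k, ContDiffOn ℝ 2 (v k) (ball z₀ (2 * r)))
    (h0 : ∀ k, ∀ z ∈ ball z₀ (2 * r), |v k z| ≤ S)
    (h2 : ∀ k, ∀ z ∈ ball z₀ (2 * r), ‖fderiv ℝ (fderiv ℝ (v k)) z‖ ≤ S)
    (h3 : ∀ k, ∀ z ∈ ball z₀ (2 * r), ∀ w ∈ ball z₀ (2 * r),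
      ‖fderiv ℝ (fderiv ℝ (v k)) z - fderiv ℝ (fderiv ℝ (v k)) w‖ ≤ S * ‖z - w‖ ^ a)
    (hV : ∀ z ∈ ball z₀ r, Tendsto (fun k => v k z) U (𝓝 (V z))) :
    ContDiffOn ℝ 2 V (ball z₀ r) ∧
      (∀ z ∈ ball z₀ r,
        Tendsto (fun k => fderiv ℝ (fderiv ℝ (v k)) z) U (𝓝 (fderiv ℝ (fderiv ℝ V) z))) ∧
      ∀ z ∈ ball z₀ r, ∀ w ∈ ball z₀ r,
        ‖fderiv ℝ (fderiv ℝ V) z - fderiv ℝ (fderiv ℝ V) w‖ ≤ S * ‖z - w‖ ^ a := by
  have hsub : ball z₀ r ⊆ ball z₀ (2 * r) := ball_subset_ball (by linarith)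
  have hc : ∀ k, ∀ z ∈ ball z₀ (2 * r), ContDiffAt ℝ 2 (v k) z := fun k z hz =>
    (hv k).contDiffAt (isOpen_ball.mem_nhds hz)
  have hd : ∀ k, ∀ z ∈ ball z₀ (2 * r), DifferentiableAt ℝ (v k) z := fun k z hz =>
    (hc k z hz).differentiableAt (by norm_num)
  have hd2 : ∀ k, ∀ z ∈ ball z₀ (2 * r), DifferentiableAt ℝ (fderiv ℝ (v k)) z := fun k z hz =>
    ((hc k z hz).fderiv_right (m := 1) (by norm_num)).differentiableAt (by norm_num)
  have h1 : ∀ k, ∀ z ∈ ball z₀ r, ‖fderiv ℝ (v k) z‖ ≤ 4 * S / r + S * r := fun k z hz =>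
    grad_bound hr hS0 (hd k) (hd2 k) (h0 k) (h2 k) hz
  have e1 : ∀ z, ∃ y, z ∈ ball z₀ r → Tendsto (fun k => fderiv ℝ (v k) z) U (𝓝 y) := by
    intro z
    by_cases hz : z ∈ ball z₀ r
    · obtain ⟨y, hy⟩ := exists_lim (F := E →L[ℝ] ℝ) U
        (x := fun k => fderiv ℝ (v k) z) (fun k => h1 k z hz)
      exact ⟨y, fun _ => hy⟩
    · exact ⟨0, fun h => absurd h hz⟩
  have e2 : ∀ z, ∃ y, z ∈ ball z₀ r → Tendsto (fun k => fderiv ℝ (fderiv ℝ (v k)) z) U (𝓝 y) := by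
    intro z
    by_cases hz : z ∈ ball z₀ r
    · obtain ⟨y, hy⟩ := exists_lim (F := E →L[ℝ] E →L[ℝ] ℝ) (S := S) U
        (x := fun k => fderiv ℝ (fderiv ℝ (v k)) z) (fun k => h2 k z (hsub hz))
      exact ⟨y, fun _ => hy⟩
    · exact ⟨0, fun h => absurd h hz⟩
  choose V1 hV1 using e1
  choose V2 hV2 using e2
  have hlip : ∀ k, ∀ z ∈ ball z₀ r, ∀ w ∈ ball z₀ r,
      ‖fderiv ℝ (v k) z - fderiv ℝ (v k) w‖ ≤ S * ‖z - w‖ ^ (1 : ℝ) := by
    intro k z hz w hw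
    rw [Real.rpow_one]
    exact (convex_ball z₀ r).norm_image_sub_le_of_norm_fderiv_le (fun x hx => hd2 k x (hsub hx))
      (fun x hx => h2 k x (hsub hx)) hw hz
  obtain ⟨k1, -⟩ := lim_c1 (E := E) (F := ℝ) U (z₀ := z₀) (r := r) (a := 1) (S := S) one_pos
    (fun k z hz => hd k z (hsub hz)) hlip hV hV1
  obtain ⟨k2, k3⟩ := lim_c1 (E := E) (F := E →L[ℝ] ℝ) U (z₀ := z₀) (r := r) (a := a) (S := S) ha
    (fun k z hz => hd2 k z (hsub hz)) (fun k z hz w hw => h3 k z (hsub hz) w (hsub hw)) hV1 hV2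
  have q1 : ∀ z ∈ ball z₀ r, fderiv ℝ V z = V1 z := fun z hz => (k1 z hz).fderiv
  have q2 : ∀ z ∈ ball z₀ r, HasFDerivAt (fderiv ℝ V) (V2 z) z := fun z hz =>
    (k2 z hz).congr_of_eventuallyEq (by
      filter_upwards [isOpen_ball.mem_nhds hz] with w hw using q1 w hw)
  have q3 : ∀ z ∈ ball z₀ r, fderiv ℝ (fderiv ℝ V) z = V2 z := fun z hz => (q2 z hz).fderiv
  refine ⟨?_, fun z hz => by rw [q3 z hz]; exact hV2 z hz, fun z hz w hw => by
    rw [q3 z hz, q3 w hw]; exact k3 z hz w hw⟩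
  have hcont : ContinuousOn V2 (ball z₀ r) := by
    intro z hz
    have h4 : Tendsto (fun w : E => S * ‖w - z‖ ^ a) (𝓝 z) (𝓝 0) := by
      have h5 : Continuous fun w : E => S * ‖w - z‖ ^ a :=
        continuous_const.mul ((continuous_norm.comp (continuous_id.sub continuous_const)).rpow_const
          fun _ => Or.inr ha.le)
      have h6 := h5.tendsto z
      simpa [Real.zero_rpow ha.ne'] using h6
    have h7 : Tendsto (fun w => ‖V2 w - V2 z‖) (𝓝[ball z₀ r] z) (𝓝 0) := ?_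
    · exact (tendsto_iff_norm_sub_tendsto_zero (f := V2)).2 h7
    refine squeeze_zero' (Eventually.of_forall fun x => norm_nonneg (V2 x - V2 z)) ?_
      (h4.mono_left nhdsWithin_le_nhds)
    filter_upwards [self_mem_nhdsWithin] with w hw using k3 w hw z hz
  have hu : UniqueDiffOn ℝ (ball z₀ r) := isOpen_ball.uniqueDiffOn
  rw [show (2 : WithTop ℕ∞) = 1 + 1 by norm_num, contDiffOn_succ_iff_fderiv_of_isOpen isOpen_ball]
  refine ⟨fun z hz => (k1 z hz).differentiableAt.differentiableWithinAt, by simp, ?_⟩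
  rw [show (1 : WithTop ℕ∞) = 0 + 1 by norm_num, contDiffOn_succ_iff_fderiv_of_isOpen isOpen_ball]
  refine ⟨fun z hz => (q2 z hz).differentiableAt.differentiableWithinAt, by simp, ?_⟩
  rw [contDiffOn_zero]
  exact hcont.congr fun z hz => q3 z hz

end Crest.Agent.R273.YauLim_635
end

-- ▼ part R273/YauLoc_635

/-!
# R273 (S0416), Part C, YAU (helper635): local compactness of solutions

* `SchFlat`     : interior Schauder estimate for the flat Laplacian (statement)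
* `local_limit` : `C3Stmt`, `SchFlat` => limits of solutions of the Monge-Ampere equation
-/

set_option autoImplicit false
set_option linter.unusedSectionVars false

open Set Filter Topology Complex Metric
open scoped ContDiff Matrix ComplexConjugate

namespace Crest.Agent.R273.YauLoc_635

open Crest.Agent.R275.Geo Crest.Agent.R275.Core144 Crest.Agent.R275.GC293
open Crest.Agent.R273.Defs_333 Crest.Agent.R273.YauDefs_635 Crest.Agent.R273.HM_333
open Crest.Agent.R273.YauCh_635 Crest.Agent.R273.Hess_333 Crest.Agent.R273.HessB_333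
open Crest.Agent.R273.Kah_333 Crest.Agent.R273.YauMax_635 Crest.Agent.R273.YauLim_635

noncomputable section

/-- interior Schauder estimate for the flat Laplacian `4 tr ∂∂̄` -/
def SchFlat : Prop :=
  ∀ (n : ℕ) (r N : ℝ), 0 < r → ∃ C : ℝ,
    ∀ (z₀ : Cn n) (u : Cn n → ℝ), ContDiffOn ℝ ∞ u (ball z₀ r) →
      (∀ z ∈ ball z₀ r, |u z| ≤ N) →
      (∀ z ∈ ball z₀ r, ‖(cH u z).trace‖ ≤ N) →
      (∀ z ∈ ball z₀ r, ∀ w ∈ ball z₀ r, ‖(cH u z).trace - (cH u w).trace‖ ≤ N * ‖z - w‖) →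
      (∀ z ∈ ball z₀ (r / 2), ‖fderiv ℝ (fderiv ℝ u) z‖ ≤ C) ∧
        ∀ z ∈ ball z₀ (r / 2), ∀ w ∈ ball z₀ (r / 2),
          ‖fderiv ℝ (fderiv ℝ u) z - fderiv ℝ (fderiv ℝ u) w‖ ≤ C * ‖z - w‖ ^ (1 / 2 : ℝ)

variable {n : ℕ}

theorem contDiffOn_cH {u : Cn n → ℝ} {U : Set (Cn n)} (hU : IsOpen U) (hu : ContDiffOn ℝ ∞ u U)
    (a b : Fin n) : ContDiffOn ℝ ∞ (fun z => cH u z a b) U :=
  (contDiffOn_hess hU hu a b).congr fun z hz => by
    rw [cH_eq_hess (hu.contDiffAt (hU.mem_nhds hz))]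

theorem cH_diag {u : Cn n → ℝ} {z : Cn n} (hu : ContDiffAt ℝ 2 u z) (a : Fin n) :
    cH u z a a = ((lev u z (EuclideanSpace.single a 1) / 4 : ℝ) : ℂ) := by
  have hs : D2 u z (EuclideanSpace.single a 1) (EuclideanSpace.single a I) =
      D2 u z (EuclideanSpace.single a I) (EuclideanSpace.single a 1) :=
    Levi_145.fd_symm hu _ _
  have h1 : (I • (EuclideanSpace.single a (1 : ℂ) : Cn n)) = EuclideanSpace.single a I := by
    ext b
    simp [Pi.single_apply]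
  rw [lev_D2, h1]
  simp only [cH, Matrix.of_apply, hs, sub_self]
  push_cast
  ring

theorem trace_le {u : Cn n → ℝ} {z : Cn n} (hu : ContDiffAt ℝ 2 u z) {hi : ℝ}
    (h0 : ∀ v, 0 ≤ lev u z v) (h1 : ∀ v, lev u z v ≤ hi * ‖v‖ ^ 2) :
    ‖(cH u z).trace‖ ≤ n * hi := by
  rw [Matrix.trace]
  refine (norm_sum_le _ _).trans ?_
  have h2 : ∀ a ∈ (Finset.univ : Finset (Fin n)), ‖(cH u z).diag a‖ ≤ hi := by
    intro a _
    rw [Matrix.diag_apply, cH_diag hu, Complex.norm_real, Real.norm_of_nonneg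
      (div_nonneg (h0 _) (by norm_num))]
    have h3 := h1 (EuclideanSpace.single a 1)
    have h4 := h0 (EuclideanSpace.single a 1)
    rw [EuclideanSpace.norm_single] at h3
    simp only [norm_one, one_pow, mul_one] at h3
    linarith
  refine (Finset.sum_le_sum h2).trans ?_
  simp

theorem trace_lip {u : Cn n → ℝ} {z₀ : Cn n} {r C : ℝ} (hu : ContDiffOn ℝ ∞ u (ball z₀ r))
    (hC : ∀ z ∈ ball z₀ r, ∀ a b, ‖fderiv ℝ (fun w => cH u w a b) z‖ ≤ C) {z w : Cn n}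
    (hz : z ∈ ball z₀ r) (hw : w ∈ ball z₀ r) :
    ‖(cH u z).trace - (cH u w).trace‖ ≤ n * C * ‖z - w‖ := by
  have h1 : ∀ a, ‖cH u z a a - cH u w a a‖ ≤ C * ‖z - w‖ := by
    intro a
    refine (convex_ball z₀ r).norm_image_sub_le_of_norm_fderiv_le (f := fun w => cH u w a a)
      (fun y hy => ?_) (fun y hy => hC y hy a a) hw hz
    exact ((contDiffOn_cH isOpen_ball hu a a).contDiffAt (isOpen_ball.mem_nhds hy)).differentiableAt
      (by simp)
  rw [Matrix.trace, Matrix.trace, ← Finset.sum_sub_distrib]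
  refine (norm_sum_le _ _).trans ((Finset.sum_le_sum fun a _ => h1 a).trans ?_)
  simp [mul_assoc]

theorem local_limit (h3 : C3Stmt) (hS : SchFlat) (U : Ultrafilter ℕ) {z₀ : Cn n}
    {r lo hi K N : ℝ} (hr : 0 < r) (hlo : 0 < lo)
    {u f : ℕ → Cn n → ℝ} {V : Cn n → ℝ}
    (hu : ∀ k, ContDiffOn ℝ ∞ (u k) (ball z₀ r)) (hf : ∀ k, ContDiffOn ℝ ∞ (f k) (ball z₀ r))
    (hlev : ∀ k, ∀ z ∈ ball z₀ r, ∀ v, lo * ‖v‖ ^ 2 ≤ lev (u k) z v ∧
      lev (u k) z v ≤ hi * ‖v‖ ^ 2)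
    (hdet : ∀ k, ∀ z ∈ ball z₀ r, (cH (u k) z).det = (Real.exp (f k z) : ℂ))
    (hfK : ∀ k, ∀ z ∈ ball z₀ r, ∀ j : ℕ, 1 ≤ j → j ≤ 3 → ‖iteratedFDeriv ℝ j (f k) z‖ ≤ K)
    (huN : ∀ k, ∀ z ∈ ball z₀ r, |u k z| ≤ N)
    (hV : ∀ z ∈ ball z₀ r, Tendsto (fun k => u k z) U (𝓝 (V z))) :
    ∃ ρ C : ℝ, 0 < ρ ∧ ρ ≤ r ∧ ContDiffOn ℝ 2 V (ball z₀ ρ) ∧
      (∀ z ∈ ball z₀ ρ, Tendsto (fun k => fderiv ℝ (fderiv ℝ (u k)) z) U
        (𝓝 (fderiv ℝ (fderiv ℝ V) z))) ∧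
      ∀ z ∈ ball z₀ ρ, ∀ w ∈ ball z₀ ρ,
        ‖fderiv ℝ (fderiv ℝ V) z - fderiv ℝ (fderiv ℝ V) w‖ ≤ C * ‖z - w‖ ^ (1 / 2 : ℝ) := by
  obtain ⟨C₃, hC₃⟩ := h3 n r lo hi K hr hlo
  set N' : ℝ := max N (max (n * hi) (n * C₃)) with hN'
  obtain ⟨C, hC⟩ := hS n (r / 2) N' (by linarith)
  have hsub : ball z₀ (r / 2) ⊆ ball z₀ r := ball_subset_ball (by linarith)
  have key : ∀ k, (∀ z ∈ ball z₀ (r / 2 / 2), ‖fderiv ℝ (fderiv ℝ (u k)) z‖ ≤ C) ∧
        ∀ z ∈ ball z₀ (r / 2 / 2), ∀ w ∈ ball z₀ (r / 2 / 2),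
          ‖fderiv ℝ (fderiv ℝ (u k)) z - fderiv ℝ (fderiv ℝ (u k)) w‖
            ≤ C * ‖z - w‖ ^ (1 / 2 : ℝ) := by
    intro k
    have hc := hC₃ z₀ (u k) (f k) (hu k) (hf k) (hlev k) (hdet k) (hfK k)
    refine hC z₀ (u k) ((hu k).mono hsub) (fun z hz => ?_) (fun z hz => ?_) (fun z hz w hw => ?_)
    · exact (huN k z (hsub hz)).trans (le_max_left _ _)
    · have hz' := hsub hz
      have h2 : ContDiffAt ℝ 2 (u k) z :=
        ((hu k).contDiffAt (isOpen_ball.mem_nhds hz')).of_le two_le_inf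
      refine (trace_le h2 (hi := hi) (fun v => ?_) (fun v => (hlev k z hz' v).2)).trans
        ((le_max_left _ _).trans (le_max_right _ _))
      exact le_trans (by positivity) (hlev k z hz' v).1
    · refine (trace_lip ((hu k).mono hsub) hc hz hw).trans ?_
      exact mul_le_mul_of_nonneg_right ((le_max_right _ _).trans (le_max_right _ _))
        (norm_nonneg _)
  set S : ℝ := max (max N C) 0 with hSdef
  have hCS : C ≤ S := (le_max_right _ _).trans (le_max_left _ _)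
  have hNS : N ≤ S := (le_max_left _ _).trans (le_max_left _ _)
  have e2 : 2 * (r / 8) = r / 2 / 2 := by ring
  have hsub2 : ball z₀ (2 * (r / 8)) ⊆ ball z₀ r := ball_subset_ball (by linarith)
  obtain ⟨g1, g2, g3⟩ := lim_c2 U (z₀ := z₀) (r := r / 8) (a := 1 / 2) (S := S) (by linarith)
    (by norm_num) (le_max_right _ _) (v := u) (V := V)
    (fun k => ((hu k).mono hsub2).of_le two_le_inf)
    (fun k z hz => (huN k z (hsub2 hz)).trans hNS)
    (fun k z hz => ((key k).1 z (by rwa [e2] at hz)).trans hCS)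
    (fun k z hz w hw => ((key k).2 z (by rwa [e2] at hz) w (by rwa [e2] at hw)).trans
      (mul_le_mul_of_nonneg_right hCS (Real.rpow_nonneg (norm_nonneg _) _)))
    (fun z hz => hV z (ball_subset_ball (by linarith) hz))
  exact ⟨r / 8, S, by linarith, by linarith, g1, g2, g3⟩

end

end Crest.Agent.R273.YauLoc_635
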