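import Crest.Agent.R273.C2a_793

-- ▼ part R273/C2b_793
section

/-!
# R273 / Yau C² estimate (helper793), part b: the inequality for the new metric

* `log_quad_lower` : if `u_{a b̄}(x) = δ_ab` then
  `lev (log det u_{ab̄}) x v / lev u x v ≤ ∑_c lev (log u_{V V̄}) x e_c`, `V` holomorphic, `V x = v`
-/

set_option autoImplicit false
set_option linter.unusedSectionVars false

open Set Filter Topology Complex
open scoped ContDiff Matrix ComplexConjugate

namespace Crest.Agent.R273.C2b_793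

open Crest.Agent.R275.Geo Crest.Agent.R275.Core144 Crest.Agent.R275.GC293
open Crest.Agent.R275.OmT75
open Crest.Agent.R273.Levi_145 Crest.Agent.R273.C2a_793

noncomputable section

variable {n : ℕ} {u : Cn n → ℝ} {x : Cn n} {V : Cn n → Cn n}

/-- `τ_c(b) = ∑ ∂_c u_{a b̄} v_a` -/
def tau (u : Cn n → ℝ) (x v : Cn n) (c b : Fin n) : ℂ := ∑ a, tt u x a b c * v a

/-- the fourth order term -/
def RR (u : Cn n → ℝ) (x v : Cn n) (c d : Fin n) : ℂ :=
  ∑ a, ∑ b, hs (fun z => hs (cx u) z a b) x c d * (v a * conj (v b))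

theorem hs_QV_one (hu : ContDiffAt ℝ ∞ u x) (h1 : Um u x = 1)
    (hV : ∀ᶠ z in 𝓝 x, DifferentiableAt ℂ V z) (c : Fin n) :
    hs (cx (QV u V)) x c c = RR u x (V x) c c - ∑ b, ((‖tau u x (V x) c b‖ ^ 2 : ℝ) : ℂ)
      + ∑ b, ((‖tau u x (V x) c b + (fderiv ℂ V x (ee c)) b‖ ^ 2 : ℝ) : ℂ) := by
  rw [hs_QV hu hV]
  set v := V x with hv
  set B : Fin n → ℂ := fun b => (fderiv ℂ V x (ee c)) b with hB
  have e1 : ∀ a b, hs (cx u) x a b = (1 : Matrix (Fin n) (Fin n) ℂ) a b := fun a b => by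
    rw [← h1]; rfl
  have hBb : ∀ b, (fderiv ℂ V x (ee c)) b = B b := fun b => rfl
  simp only [hBb, e1, Finset.sum_add_distrib]
  have s1 : ∑ a, ∑ b, (1 : Matrix (Fin n) (Fin n) ℂ) a b * (B a * conj (B b)) =
      ∑ b, B b * conj (B b) := by
    simp [Matrix.one_apply]
  have s2 : ∑ a, ∑ b, tt u x a b c * (v a * conj (B b)) = ∑ b, tau u x v c b * conj (B b) := by
    rw [Finset.sum_comm]
    refine Finset.sum_congr rfl fun b _ => ?_
    rw [tau, Finset.sum_mul]
    exact Finset.sum_congr rfl fun a _ => by ring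
  have s3 : ∑ a, ∑ b, conj (tt u x b a c) * (B a * conj (v b)) =
      ∑ a, B a * conj (tau u x v c a) := by
    refine Finset.sum_congr rfl fun a _ => ?_
    rw [tau, map_sum, Finset.mul_sum]
    refine Finset.sum_congr rfl fun b _ => ?_
    rw [map_mul]; ring
  rw [s1, s2, s3]
  have s4 : ∀ b, ((‖tau u x v c b + B b‖ ^ 2 : ℝ) : ℂ) = ((‖tau u x v c b‖ ^ 2 : ℝ) : ℂ)
      + B b * conj (B b) + tau u x v c b * conj (B b) + B b * conj (tau u x v c b) := by
    intro b
    push_cast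
    rw [← Complex.mul_conj', ← Complex.mul_conj', map_add]
    ring
  simp only [s4, Finset.sum_add_distrib, RR]
  ring

theorem dj_QV_one (hu : ContDiffAt ℝ ∞ u x) (h1 : Um u x = 1)
    (hV : ∀ᶠ z in 𝓝 x, DifferentiableAt ℂ V z) (c : Fin n) :
    dj c (cx (QV u V)) x =
      ∑ b, (tau u x (V x) c b + (fderiv ℂ V x (ee c)) b) * conj (V x b) := by
  rw [dj_QV hu hV]
  have e1 : ∀ a b, hs (cx u) x a b = (1 : Matrix (Fin n) (Fin n) ℂ) a b := fun a b => by
    rw [← h1]; rfl
  simp only [e1, Finset.sum_add_distrib, add_mul]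
  congr 1
  · rw [Finset.sum_comm]
    refine Finset.sum_congr rfl fun b _ => ?_
    rw [tau, Finset.sum_mul]
    exact Finset.sum_congr rfl fun a _ => by ring
  · simp [Matrix.one_apply]

theorem lev_one (hu : ContDiffAt ℝ ∞ u x) (h1 : Um u x = 1) (v : Cn n) :
    lev u x v = ∑ b, ‖v b‖ ^ 2 := by
  have h : ((lev u x v : ℝ) : ℂ) = ((∑ b, ‖v b‖ ^ 2 : ℝ) : ℂ) := by
    rw [lev_eq (sm2 hu)]
    have e1 : ∀ a b, hs (cx u) x a b = (1 : Matrix (Fin n) (Fin n) ℂ) a b := fun a b => by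
      rw [← h1]; rfl
    simp only [e1]
    push_cast
    simp [Matrix.one_apply, ← Complex.mul_conj']
  exact_mod_cast h

/-- the Levi form of `log det` at a point where the metric is the identity -/
theorem lev_ld_one (hu : ContDiffAt ℝ ∞ u x) (h1 : Um u x = 1) (v : Cn n) :
    ((lev (ld u) x v : ℝ) : ℂ) =
      ∑ c, (RR u x v c c - ∑ b, ((‖tau u x v c b‖ ^ 2 : ℝ) : ℂ)) := by
  have hx : (Um u x).det.re ≠ 0 := by rw [h1, Matrix.det_one, Complex.one_re]; exact one_ne_zero
  have hr : ∀ᶠ y in 𝓝 x, (Um u y).det = (((Um u y).det.re : ℝ) : ℂ) := by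
    filter_upwards [ev_sm2 hu] with y hy
    exact det_Um_real hy
  rw [lev_eq (sm2 (sm_ld hu hx))]
  have e : ∀ a b, hs (cx (ld u)) x a b = (∑ i, hs (fun z => hs (cx u) z a b) x i i)
      - ∑ i, ∑ j, tt u x i j a * conj (tt u x i j b) := by
    intro a b
    have := hs_log_det (U := Um u) (x := x) (fun i j => sm2 (sm_Um hu i j)) h1 hr a b
    have e2 : (cx fun y => Real.log (Um u y).det.re) = cx (ld u) := rfl
    rw [e2] at this
    rw [this]
    congr 1
    · refine Finset.sum_congr rfl fun i _ => ?_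
      exact hs_hs_comm (sm_cx hu) a b i i
    · refine Finset.sum_congr rfl fun i _ => Finset.sum_congr rfl fun j _ => ?_
      have h3 := dbj_tt hu j i b
      simp only [Um_apply]
      rw [h3]
      rfl
  simp only [e, sub_mul, Finset.sum_sub_distrib, Finset.sum_mul]
  congr 1
  · unfold RR
    rw [Finset.sum_comm' (t' := Finset.univ) (s' := fun _ => Finset.univ) (by simp)]
    have e3 : ∀ b, ∑ a, ∑ i, hs (fun z => hs (cx u) z a b) x i i * v a * conj (v b)
        = ∑ i, ∑ a, hs (fun z => hs (cx u) z a b) x i i * v a * conj (v b) := fun b =>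
      Finset.sum_comm
    simp only [e3]
    rw [Finset.sum_comm]
    refine Finset.sum_congr rfl fun i _ => ?_
    rw [Finset.sum_comm]
    exact Finset.sum_congr rfl fun a _ => Finset.sum_congr rfl fun b _ => by ring
  · have e4 : ∀ c b, ((‖tau u x v c b‖ ^ 2 : ℝ) : ℂ) = ∑ a, ∑ d,
        tt u x c b a * conj (tt u x c b d) * v a * conj (v d) := by
      intro c b
      push_cast
      rw [← Complex.mul_conj', tau, map_sum, Finset.sum_mul_sum]
      refine Finset.sum_congr rfl fun a _ => Finset.sum_congr rfl fun d _ => ?_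
      rw [tt_symm hu a b c, tt_symm hu d b c, map_mul]
      ring
    simp only [e4]
    rw [sum4_comm (fun a b i j => tt u x i j a * conj (tt u x i j b) * v a * conj (v b))]

/-- **the inequality for the new metric** -/
theorem log_quad_lower (hu : ContDiffAt ℝ ∞ u x) (h1 : Um u x = 1)
    (hV : ∀ᶠ z in 𝓝 x, DifferentiableAt ℂ V z) (h0 : V x ≠ 0) :
    lev (ld u) x (V x) / lev u x (V x) ≤
      ∑ c, lev (fun z => Real.log (QV u V z)) x (ee c) := by
  set v := V x with hv
  have hQ : QV u V x = ∑ b, ‖v b‖ ^ 2 := lev_one hu h1 v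
  have hQl : lev u x v = QV u V x := rfl
  have hQ0 : 0 < QV u V x := by
    rw [hQ]
    have : ∃ b, v b ≠ 0 := by
      by_contra hc
      push Not at hc
      exact h0 (by ext b; simpa using hc b)
    obtain ⟨b, hb⟩ := this
    exact Finset.sum_pos' (fun _ _ => by positivity) ⟨b, Finset.mem_univ b, by positivity⟩
  set s : Fin n → Fin n → ℂ := fun c b => tau u x v c b + (fderiv ℂ V x (ee c)) b with hs'
  have hlev : ∀ c, lev (QV u V) x (ee c) =
      (RR u x v c c).re - ∑ b, ‖tau u x v c b‖ ^ 2 + ∑ b, ‖s c b‖ ^ 2 := by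
    intro c
    have e1 := lev_ee (c2_QV hu hV) c
    rw [hs_QV_one hu h1 hV] at e1
    have e2 := congrArg Complex.re e1
    simp only [Complex.ofReal_re, Complex.add_re, Complex.sub_re, Complex.re_sum] at e2
    exact e2
  have hterm : ∀ c, ((RR u x v c c).re - ∑ b, ‖tau u x v c b‖ ^ 2) / QV u V x ≤
      lev (fun z => Real.log (QV u V z)) x (ee c) := by
    intro c
    rw [lev_log (c2_QV hu hV) hQ0, hlev c, gr_ee, dj_QV_one hu h1 hV]
    have hcs : ‖∑ b, s c b * conj (v b)‖ ^ 2 ≤ (∑ b, ‖s c b‖ ^ 2) * (∑ b, ‖v b‖ ^ 2) := by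
      have h3 : ‖∑ b, s c b * conj (v b)‖ ≤ ∑ b, ‖s c b‖ * ‖v b‖ := by
        refine (norm_sum_le _ _).trans (le_of_eq ?_)
        exact Finset.sum_congr rfl fun b _ => by rw [norm_mul, RCLike.norm_conj]
      calc ‖∑ b, s c b * conj (v b)‖ ^ 2 ≤ (∑ b, ‖s c b‖ * ‖v b‖) ^ 2 := by
            gcongr
        _ ≤ _ := Finset.sum_mul_sq_le_sq_mul_sq _ _ _
    rw [← hQ] at hcs
    have h4 : ‖∑ b, s c b * conj (v b)‖ ^ 2 / QV u V x ^ 2 ≤ (∑ b, ‖s c b‖ ^ 2) / QV u V x := by
      rw [div_le_div_iff₀ (by positivity) hQ0]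
      nlinarith [hcs, hQ0]
    have h5 : ((RR u x v c c).re - ∑ b, ‖tau u x v c b‖ ^ 2 + ∑ b, ‖s c b‖ ^ 2) / QV u V x =
        ((RR u x v c c).re - ∑ b, ‖tau u x v c b‖ ^ 2) / QV u V x
          + (∑ b, ‖s c b‖ ^ 2) / QV u V x := by
      rw [add_div]
    rw [h5]
    have h6 : (∑ b, (tau u x (V x) c b + (fderiv ℂ V x (ee c)) b) * conj (V x b)) =
      ∑ b, s c b * conj (v b) := rfl
    rw [h6]
    linarith
  have hsum : lev (ld u) x v = ∑ c, ((RR u x v c c).re - ∑ b, ‖tau u x v c b‖ ^ 2) := by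
    have e1 := congrArg Complex.re (lev_ld_one hu h1 v)
    simpa only [Complex.ofReal_re, Complex.sub_re, Complex.re_sum] using e1
  rw [hQl, hsum, Finset.sum_div]
  exact Finset.sum_le_sum fun c _ => hterm c

end

end Crest.Agent.R273.C2b_793
end

-- ▼ part R273/C2c_793
section

/-!
# R273 / Yau C² estimate (helper793), part c: the background metric

* `exists_field` : for `w` with positive Levi form there is a holomorphic field `V`, `V x = v`, with
  `lev (log w_{V V̄}) x ξ ≤ RR w x v (ξ,ξ) / lev w x v`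
* `field_bound` : uniform version on compact sets
-/

set_option autoImplicit false
set_option linter.unusedSectionVars false

open Set Filter Topology Complex
open scoped ContDiff Matrix ComplexConjugate ComplexOrder

namespace Crest.Agent.R273.C2c_793

open Crest.Agent.R275.Geo Crest.Agent.R275.Core144 Crest.Agent.R275.GC293
open Crest.Agent.R275.OmT75
open Crest.Agent.R273.Levi_145 Crest.Agent.R273.C2a_793 Crest.Agent.R273.C2b_793

noncomputable section

variable {n : ℕ} {w : Cn n → ℝ} {x : Cn n}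

/-- positive Levi form gives a positive definite matrix -/
theorem quad_Um (h : ContDiffAt ℝ 2 w x) (v : Cn n) :
    ((lev w x v : ℝ) : ℂ) = star (fun a => conj (v a)) ⬝ᵥ (Um w x *ᵥ fun a => conj (v a)) := by
  rw [lev_eq h]
  simp only [dotProduct, Matrix.mulVec, Pi.star_apply, RCLike.star_def, Complex.conj_conj,
    Um_apply, Finset.mul_sum]
  exact Finset.sum_congr rfl fun a _ => Finset.sum_congr rfl fun b _ => by ring

theorem Um_posDef (h : ContDiffAt ℝ 2 w x) (hp : ∀ v : Cn n, v ≠ 0 → 0 < lev w x v) :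
    (Um w x).PosDef := by
  refine Matrix.PosDef.of_dotProduct_mulVec_pos (Um_herm h) fun y hy => ?_
  have h1 := quad_Um h (WithLp.toLp 2 fun a => conj (y a))
  have e : (fun a => conj ((WithLp.toLp 2 fun a => conj (y a) : Cn n) a)) = y := by
    funext a
    simp
  rw [e] at h1
  have h2 := hp (WithLp.toLp 2 fun a => conj (y a)) (by
    intro h0
    apply hy
    funext a
    have := congrFun (congrArg WithLp.ofLp h0) a
    simpa using this)
  rw [← h1]
  exact_mod_cast h2

/-- an affine vector field -/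
def aff (x v : Cn n) (B : Cn n →L[ℂ] Cn n) (z : Cn n) : Cn n := v + B (z - x)

theorem aff_self (x v : Cn n) (B : Cn n →L[ℂ] Cn n) : aff x v B x = v := by simp [aff]

theorem hasFDerivAt_aff (x v : Cn n) (B : Cn n →L[ℂ] Cn n) (z : Cn n) :
    HasFDerivAt (aff x v B) B z := by
  have h1 : HasFDerivAt (fun z : Cn n => z - x) (ContinuousLinearMap.id ℂ (Cn n)) z :=
    (hasFDerivAt_id z).sub_const x
  have h2 : HasFDerivAt (fun z : Cn n => B (z - x)) (B.comp (ContinuousLinearMap.id ℂ (Cn n))) z :=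
    B.hasFDerivAt.comp z h1
  rw [ContinuousLinearMap.comp_id] at h2
  exact h2.const_add v

theorem diff_aff (x v : Cn n) (B : Cn n →L[ℂ] Cn n) (z : Cn n) :
    DifferentiableAt ℂ (aff x v B) z := (hasFDerivAt_aff x v B z).differentiableAt

theorem fderiv_aff (x v : Cn n) (B : Cn n →L[ℂ] Cn n) (z : Cn n) : fderiv ℂ (aff x v B) z = B :=
  (hasFDerivAt_aff x v B z).fderiv

/-- the fourth order form -/
def R4 (w : Cn n → ℝ) (x v ξ : Cn n) : ℝ :=
  (∑ c, ∑ d, RR w x v c d * ξ c * conj (ξ d)).re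

/-- choice of a vector field for the background metric -/
theorem exists_field (hw : ContDiffAt ℝ ∞ w x) (hp : ∀ v : Cn n, v ≠ 0 → 0 < lev w x v)
    {v : Cn n} (hv : v ≠ 0) :
    ∃ B : Cn n →L[ℂ] Cn n, ∀ ξ,
      lev (fun z => Real.log (QV w (aff x v B) z)) x ξ ≤ R4 w x v ξ / lev w x v := by
  have hpd := Um_posDef (sm2 hw) hp
  have hdet : IsUnit (Um w x).transpose.det := by
    rw [Matrix.det_transpose]
    exact hpd.det_pos.ne'.isUnit
  set T : Matrix (Fin n) (Fin n) ℂ := Matrix.of fun b c => tau w x v c b with hT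
  set Bm : Matrix (Fin n) (Fin n) ℂ := - ((Um w x).transpose⁻¹ * T) with hBm
  have hB0 : (Um w x).transpose * Bm = - T := by
    rw [hBm, Matrix.mul_neg, ← Matrix.mul_assoc, Matrix.mul_nonsing_inv _ hdet, Matrix.one_mul]
  set B : Cn n →L[ℂ] Cn n := Matrix.toEuclideanCLM (n := Fin n) (𝕜 := ℂ) Bm with hB
  have hBe : ∀ ξ : Cn n, ∀ a, (B ξ) a = ∑ c, Bm a c * ξ c := by
    intro ξ a
    rfl
  have hBc : ∀ c a, (B (ee c)) a = Bm a c := by
    intro c a
    rw [hBe]
    simp [ee]
  have key : ∀ b c, ∑ a, hs (cx w) x a b * Bm a c = - tau w x v c b := by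
    intro b c
    have := congrFun (congrFun hB0 b) c
    rw [Matrix.mul_apply] at this
    simpa [hT, Um_apply] using this
  refine ⟨B, fun ξ => ?_⟩
  have hV : ∀ᶠ z in 𝓝 x, DifferentiableAt ℂ (aff x v B) z :=
    Eventually.of_forall (diff_aff x v B)
  have hQ : QV w (aff x v B) x = lev w x v := by rw [QV, aff_self]
  have hQ0 : 0 < QV w (aff x v B) x := by rw [hQ]; exact hp v hv
  rw [lev_log (c2_QV hw hV) hQ0]
  have h1 : lev (QV w (aff x v B)) x ξ = R4 w x v ξ - lev w x (B ξ) := by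
    have e : ∀ c d, hs (cx (QV w (aff x v B))) x c d = RR w x v c d
        - ∑ a, ∑ b, hs (cx w) x a b * Bm a c * conj (Bm b d) := by
      intro c d
      rw [hs_QV hw hV, aff_self, fderiv_aff]
      simp only [hBc, Finset.sum_add_distrib]
      have s1 : (∑ a, ∑ b, hs (cx w) x a b * (Bm a c * conj (Bm b d)))
          + ∑ a, ∑ b, tt w x a b c * (v a * conj (Bm b d)) = 0 := by
        rw [Finset.sum_comm, Finset.sum_comm (f := fun a b => tt w x a b c * (v a * conj (Bm b d))),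
          ← Finset.sum_add_distrib]
        refine Finset.sum_eq_zero fun b _ => ?_
        have e1 : ∑ a, hs (cx w) x a b * (Bm a c * conj (Bm b d)) =
            (∑ a, hs (cx w) x a b * Bm a c) * conj (Bm b d) := by
          rw [Finset.sum_mul]
          exact Finset.sum_congr rfl fun a _ => by ring
        have e2 : ∑ a, tt w x a b c * (v a * conj (Bm b d)) = tau w x v c b * conj (Bm b d) := by
          rw [tau, Finset.sum_mul]
          exact Finset.sum_congr rfl fun a _ => by ring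
        rw [e1, e2, key]
        ring
      have s2 : ∑ a, ∑ b, conj (tt w x b a d) * (Bm a c * conj (v b)) =
          - ∑ a, ∑ b, hs (cx w) x a b * Bm a c * conj (Bm b d) := by
        rw [← Finset.sum_neg_distrib]
        refine Finset.sum_congr rfl fun a _ => ?_
        have e3 : ∑ b, conj (tt w x b a d) * (Bm a c * conj (v b)) =
            Bm a c * conj (tau w x v d a) := by
          rw [tau, map_sum, Finset.mul_sum]
          refine Finset.sum_congr rfl fun b _ => ?_
          rw [map_mul]; ring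
        have e4 : conj (tau w x v d a) = - ∑ b, hs (cx w) x a b * conj (Bm b d) := by
          have := congrArg conj (key a d)
          rw [map_neg, map_sum] at this
          rw [← neg_eq_iff_eq_neg.2 this.symm.symm]
          simp only [map_mul, hs_herm (sm2 hw)]
        rw [e3, e4, mul_neg, Finset.mul_sum]
        congr 1
        exact Finset.sum_congr rfl fun b _ => by ring
      rw [RR, s2]
      linear_combination s1
    have h2 : ((lev (QV w (aff x v B)) x ξ : ℝ) : ℂ) =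
        (∑ c, ∑ d, RR w x v c d * ξ c * conj (ξ d)) - ((lev w x (B ξ) : ℝ) : ℂ) := by
      rw [lev_eq (c2_QV hw hV), lev_eq (sm2 hw)]
      simp only [e, sub_mul, Finset.sum_sub_distrib]
      congr 1
      simp only [Finset.sum_mul]
      rw [sum4_comm (fun c d a b => hs (cx w) x a b * Bm a c * conj (Bm b d) * ξ c * conj (ξ d))]
      refine Finset.sum_congr rfl fun a _ => Finset.sum_congr rfl fun b _ => ?_
      rw [hBe, hBe, map_sum, mul_assoc, Finset.sum_mul_sum, Finset.mul_sum]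
      refine Finset.sum_congr rfl fun c _ => ?_
      rw [Finset.mul_sum]
      refine Finset.sum_congr rfl fun d _ => ?_
      rw [map_mul]; ring
    have h3 := congrArg Complex.re h2
    simpa [R4] using h3
  have h2 : 0 ≤ lev w x (B ξ) := by
    rcases eq_or_ne (B ξ) 0 with h0 | h0
    · rw [h0, lev_zero]
    · exact (hp _ h0).le
  rw [h1, hQ]
  rw [hQ] at hQ0
  have h3 : (R4 w x v ξ - lev w x (B ξ)) / lev w x v ≤ R4 w x v ξ / lev w x v := by
    gcongr
    linarith
  have h4 : 0 ≤ ‖gr (QV w (aff x v B)) x ξ‖ ^ 2 / lev w x v ^ 2 := by positivity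
  linarith

theorem norm_apply_le' (v : Cn n) (a : Fin n) : ‖v a‖ ≤ ‖v‖ := PiLp.norm_apply_le v a

/-- bound of the fourth order form on compact sets -/
theorem R4_bound {U K : Set (Cn n)} (hU : IsOpen U) (hw : ContDiffOn ℝ ∞ w U) (hK : IsCompact K)
    (hKU : K ⊆ U) : ∃ C : ℝ, 0 ≤ C ∧ ∀ z ∈ K, ∀ v ξ, R4 w z v ξ ≤ C * ‖v‖ ^ 2 * ‖ξ‖ ^ 2 := by
  have hc : ContDiffOn ℝ ∞ (cx w) U := Complex.ofRealCLM.contDiff.comp_contDiffOn hw
  have h1 : ∀ a b c d : Fin n, ∃ C : ℝ, ∀ z ∈ K, ‖hs (fun z => hs (cx w) z a b) z c d‖ ≤ C :=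
    fun a b c d => hK.exists_bound_of_continuousOn
      ((contDiffOn_hs hU (contDiffOn_hs hU hc a b) c d).continuousOn.mono hKU)
  choose C hC using h1
  refine ⟨∑ c, ∑ d, ∑ a, ∑ b, |C a b c d|, by positivity, fun z hz v ξ => ?_⟩
  have h2 : ∀ c d, ‖RR w z v c d‖ ≤ (∑ a, ∑ b, |C a b c d|) * ‖v‖ ^ 2 := by
    intro c d
    unfold RR
    rw [Finset.sum_mul]
    refine (norm_sum_le _ _).trans (Finset.sum_le_sum fun a _ => ?_)
    rw [Finset.sum_mul]
    refine (norm_sum_le _ _).trans (Finset.sum_le_sum fun b _ => ?_)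
    rw [norm_mul, norm_mul, RCLike.norm_conj]
    have h3 := (hC a b c d z hz).trans (le_abs_self _)
    have h4 := norm_apply_le' v a
    have h5 := norm_apply_le' v b
    calc ‖hs (fun z => hs (cx w) z a b) z c d‖ * (‖v a‖ * ‖v b‖)
        ≤ |C a b c d| * (‖v‖ * ‖v‖) := by gcongr
      _ = _ := by ring
  unfold R4
  refine (Complex.re_le_norm _).trans ?_
  rw [Finset.sum_mul, Finset.sum_mul]
  refine (norm_sum_le _ _).trans (Finset.sum_le_sum fun c _ => ?_)
  rw [Finset.sum_mul, Finset.sum_mul]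
  refine (norm_sum_le _ _).trans (Finset.sum_le_sum fun d _ => ?_)
  rw [norm_mul, norm_mul, RCLike.norm_conj]
  have h4 := norm_apply_le' ξ c
  have h5 := norm_apply_le' ξ d
  calc ‖RR w z v c d‖ * ‖ξ c‖ * ‖ξ d‖
      ≤ ((∑ a, ∑ b, |C a b c d|) * ‖v‖ ^ 2) * ‖ξ‖ * ‖ξ‖ := by
        have := h2 c d
        gcongr
    _ = _ := by ring

/-- **vector fields for the background metric, uniform bound on compact sets** -/
theorem field_bound {U K : Set (Cn n)} (hU : IsOpen U) (hw : ContDiffOn ℝ ∞ w U)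
    (hp : ∀ z ∈ U, ∀ v : Cn n, v ≠ 0 → 0 < lev w z v) (hK : IsCompact K) (hKU : K ⊆ U) :
    ∃ β : ℝ, 0 ≤ β ∧ ∀ x ∈ K, ∀ v : Cn n, v ≠ 0 → ∃ B : Cn n →L[ℂ] Cn n, ∀ ξ,
      lev (fun z => Real.log (QV w (aff x v B) z)) x ξ ≤ β * lev w x ξ := by
  obtain ⟨C, hC0, hC⟩ := R4_bound hU hw hK hKU
  obtain ⟨c, hc0, hc⟩ := YauCh_635.lev_lower hU (hw.of_le YauCh_635.two_le_inf) hK hKU
    (fun z hz v hv => by
      rw [YauDefs_635.lev333_eq_lev145]
      have := hp z (hKU hz) v hv
      linarith)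
  have hc' : ∀ z ∈ K, ∀ v, c / 4 * ‖v‖ ^ 2 ≤ lev w z v := by
    intro z hz v
    have := hc z hz v
    rw [YauDefs_635.lev333_eq_lev145] at this
    linarith
  refine ⟨C / (c / 4) ^ 2, by positivity, fun x hx v hv => ?_⟩
  have hsm : ContDiffAt ℝ ∞ w x := hw.contDiffAt (hU.mem_nhds (hKU hx))
  obtain ⟨B, hB⟩ := exists_field hsm (hp x (hKU hx)) hv
  refine ⟨B, fun ξ => (hB ξ).trans ?_⟩
  have hv0 : 0 < ‖v‖ := norm_pos_iff.2 hv
  have h1 : 0 < lev w x v := hp x (hKU hx) v hv
  calc R4 w x v ξ / lev w x v ≤ (C * ‖v‖ ^ 2 * ‖ξ‖ ^ 2) / lev w x v := by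
        have := hC x hx v ξ
        gcongr
    _ ≤ (C * ‖v‖ ^ 2 * ‖ξ‖ ^ 2) / (c / 4 * ‖v‖ ^ 2) := by
        have := hc' x hx v
        gcongr
    _ = C / (c / 4) ^ 2 * (c / 4 * ‖ξ‖ ^ 2) := by field_simp
    _ ≤ C / (c / 4) ^ 2 * lev w x ξ := by
        have := hc' x hx ξ
        gcongr

end

end Crest.Agent.R273.C2c_793
end

-- ▼ part R273/C2d_793
section

/-!
# R273 / Yau C² estimate (helper793), part d: linear changes of coordinates, linear algebra

* `Um_lin` : `u_{a b̄}` in linear coordinates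
* `exists_norm` : coordinates in which `u_{a b̄}(x) = δ_ab`
* `lev_le_trace` : a nonnegative Levi form is bounded by its trace
* `lev_le_of_det` : `w ≤ τ u`, `det u = κ det w` imply `u ≤ κ τ^(n-1) w`
* `new_metric` : the inequality of part b in an adapted basis
-/

set_option autoImplicit false
set_option linter.unusedSectionVars false

open Set Filter Topology Complex
open scoped ContDiff Matrix ComplexConjugate ComplexOrder MatrixOrder

namespace Crest.Agent.R273.C2d_793

open Crest.Agent.R275.Geo Crest.Agent.R275.Core144 Crest.Agent.R275.GC293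
open Crest.Agent.R275.OmT75
open Crest.Agent.R273.Levi_145 Crest.Agent.R273.C2a_793 Crest.Agent.R273.C2b_793
open Crest.Agent.R273.C2c_793

noncomputable section

variable {n : ℕ} {u w : Cn n → ℝ} {x : Cn n}

/-- the linear map of a matrix -/
def ml (E : Matrix (Fin n) (Fin n) ℂ) : Cn n →L[ℂ] Cn n :=
  Matrix.toEuclideanCLM (n := Fin n) (𝕜 := ℂ) E

theorem ml_apply (E : Matrix (Fin n) (Fin n) ℂ) (y : Cn n) (a : Fin n) :
    (ml E y) a = ∑ c, E a c * y c := rfl

theorem ml_ee (E : Matrix (Fin n) (Fin n) ℂ) (c a : Fin n) : (ml E (ee c)) a = E a c := by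
  rw [ml_apply]; simp [ee]

theorem ml_mul (E F : Matrix (Fin n) (Fin n) ℂ) (y : Cn n) : ml E (ml F y) = ml (E * F) y := by
  ext a
  simp only [ml_apply, Matrix.mul_apply, Finset.mul_sum, Finset.sum_mul]
  rw [Finset.sum_comm]
  exact Finset.sum_congr rfl fun c _ => Finset.sum_congr rfl fun d _ => by ring

theorem ml_one (y : Cn n) : ml (1 : Matrix (Fin n) (Fin n) ℂ) y = y := by
  ext a
  rw [ml_apply]
  simp [Matrix.one_apply]

/-- `y ↦ x + E y` -/
def TT (x : Cn n) (E : Matrix (Fin n) (Fin n) ℂ) (y : Cn n) : Cn n := x + ml E y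

theorem TT_zero (x : Cn n) (E : Matrix (Fin n) (Fin n) ℂ) : TT x E 0 = x := by simp [TT]

theorem anal_TT (x : Cn n) (E : Matrix (Fin n) (Fin n) ℂ) (y : Cn n) :
    AnalyticAt ℂ (TT x E) y := analyticAt_const.add ((ml E).analyticAt y)

theorem fderiv_TT (x : Cn n) (E : Matrix (Fin n) (Fin n) ℂ) (y : Cn n) :
    fderiv ℂ (TT x E) y = ml E :=
  ((ml E).hasFDerivAt.const_add x).fderiv

theorem sm_TT (x : Cn n) (E : Matrix (Fin n) (Fin n) ℂ) : ContDiff ℝ ∞ (TT x E) := by
  have h : ContDiff ℝ ∞ (fun y : Cn n => (ml E).restrictScalars ℝ y) :=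
    ((ml E).restrictScalars ℝ).contDiff
  exact contDiff_const.add h

theorem sm_comp_TT (hu : ContDiffAt ℝ ∞ u x) (E : Matrix (Fin n) (Fin n) ℂ) :
    ContDiffAt ℝ ∞ (fun y => u (TT x E y)) 0 := by
  have h : ContDiffAt ℝ ∞ u (TT x E 0) := by rwa [TT_zero]
  exact h.comp 0 (sm_TT x E).contDiffAt

theorem Um_lin {E : Matrix (Fin n) (Fin n) ℂ} {y : Cn n} (hu : ContDiffAt ℝ 2 u (TT x E y)) :
    Um (fun y => u (TT x E y)) y = Eᵀ * Um u (TT x E y) * E.map conj := by
  ext a b
  have h := hs_comp (f := cx u) (T := TT x E) (z := y) (anal_TT x E y) (cx_c2 hu) a b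
  have e : (cx fun y => u (TT x E y)) = fun y => cx u (TT x E y) := rfl
  rw [Um_apply, e, h, fderiv_TT]
  have e2 : ∀ c a : Fin n, ((ml E) (EuclideanSpace.single a 1)) c = E c a := fun c a => ml_ee E a c
  simp only [e2, Matrix.mul_apply, Matrix.transpose_apply, Matrix.map_apply, Um_apply,
    Finset.sum_mul]
  rw [Finset.sum_comm]
  exact Finset.sum_congr rfl fun c _ => Finset.sum_congr rfl fun d _ => by ring

theorem det_lin {E : Matrix (Fin n) (Fin n) ℂ} {y : Cn n} (hu : ContDiffAt ℝ 2 u (TT x E y)) :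
    (Um (fun y => u (TT x E y)) y).det = ((‖E.det‖ ^ 2 : ℝ) : ℂ) * (Um u (TT x E y)).det := by
  rw [Um_lin hu, Matrix.det_mul, Matrix.det_mul, Matrix.det_transpose]
  have h : (E.map conj).det = conj E.det := by
    have := RingHom.map_det (starRingEnd ℂ) E
    rw [this]; rfl
  rw [h]
  push_cast
  rw [← Complex.mul_conj']
  ring

/-- adapted linear coordinates -/
theorem exists_norm (hu : (Um u x).PosDef) : ∃ E : Matrix (Fin n) (Fin n) ℂ, E.det ≠ 0 ∧
    Eᵀ * Um u x * E.map conj = 1 := by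
  obtain ⟨C, hC⟩ := CStarAlgebra.nonneg_iff_eq_star_mul_self.mp hu.posSemidef.nonneg
  rw [Matrix.star_eq_conjTranspose] at hC
  have hdet : (Um u x).det ≠ 0 := hu.det_pos.ne'
  have hCu : IsUnit C.det := by
    rw [isUnit_iff_ne_zero]
    intro h0
    apply hdet
    rw [hC, Matrix.det_mul, h0, mul_zero]
  have hcc : ((C⁻¹).map conj).map conj = C⁻¹ := by ext a b; simp
  refine ⟨(C⁻¹).map conj, ?_, ?_⟩
  · have h : ((C⁻¹).map conj).det = conj (C⁻¹).det := by
      have := RingHom.map_det (starRingEnd ℂ) (C⁻¹)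
      rw [this]; rfl
    rw [h]
    intro h0
    have h1 : (C⁻¹).det = 0 := by simpa using h0
    have h2 := Matrix.nonsing_inv_mul C hCu
    have h3 := congrArg Matrix.det h2
    rw [Matrix.det_mul, h1, zero_mul, Matrix.det_one] at h3
    exact zero_ne_one h3
  · rw [hcc, hC]
    have e1 : ((C⁻¹).map conj)ᵀ = (C⁻¹)ᴴ := rfl
    rw [e1]
    have e2 : (C⁻¹)ᴴ * Cᴴ = 1 := by
      rw [← Matrix.conjTranspose_mul, Matrix.mul_nonsing_inv _ hCu, Matrix.conjTranspose_one]
    calc (C⁻¹)ᴴ * (Cᴴ * C) * C⁻¹ = ((C⁻¹)ᴴ * Cᴴ) * (C * C⁻¹) := by simp only [Matrix.mul_assoc]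
      _ = 1 := by rw [e2, Matrix.mul_nonsing_inv _ hCu, Matrix.one_mul]

theorem lev_lin (hu : ContDiffAt ℝ 2 u x) (E : Matrix (Fin n) (Fin n) ℂ) (η : Cn n) :
    lev (fun y => u (TT x E y)) 0 η = lev u x (ml E η) := by
  have h := lev_comp (u := u) (T := TT x E) (z := 0) (anal_TT x E 0) (by rwa [TT_zero]) η
  rw [h, fderiv_TT, TT_zero]

/-- a nonnegative Levi form is bounded by its trace -/
theorem lev_le_trace (hw : ContDiffAt ℝ 2 w x) (hp : ∀ v, 0 ≤ lev w x v) (η : Cn n) :
    lev w x η ≤ (∑ c, lev w x (ee c)) * ∑ b, ‖η b‖ ^ 2 := by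
  have hps : (Um w x).PosSemidef := by
    refine Matrix.PosSemidef.of_dotProduct_mulVec_nonneg (Um_herm hw) fun y => ?_
    have h1 := quad_Um hw (WithLp.toLp 2 fun a => conj (y a))
    have e : (fun a => conj ((WithLp.toLp 2 fun a => conj (y a) : Cn n) a)) = y := by
      funext a
      simp
    rw [e] at h1
    rw [← h1]
    exact_mod_cast hp _
  obtain ⟨C, hC⟩ := CStarAlgebra.nonneg_iff_eq_star_mul_self.mp hps.nonneg
  rw [Matrix.star_eq_conjTranspose] at hC
  have h2 : ∀ v : Cn n, lev w x v = ∑ i, ‖∑ a, C i a * conj (v a)‖ ^ 2 := by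
    intro v
    have h3 := quad_Um hw v
    rw [hC, ← Matrix.mulVec_mulVec, Matrix.dotProduct_mulVec, ← Matrix.star_mulVec] at h3
    have h4 : ((lev w x v : ℝ) : ℂ) = ((∑ i, ‖∑ a, C i a * conj (v a)‖ ^ 2 : ℝ) : ℂ) := by
      rw [h3]
      simp only [dotProduct, Matrix.mulVec, Pi.star_apply, RCLike.star_def]
      push_cast
      refine Finset.sum_congr rfl fun i _ => ?_
      rw [mul_comm, Complex.mul_conj']
    exact_mod_cast h4
  have h5 : ∀ c, lev w x (ee c) = ∑ i, ‖C i c‖ ^ 2 := by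
    intro c
    rw [h2]
    refine Finset.sum_congr rfl fun i _ => ?_
    congr 2
    simp [ee]
  rw [h2 η]
  simp only [h5]
  rw [Finset.sum_comm, Finset.sum_mul]
  refine Finset.sum_le_sum fun i _ => ?_
  calc ‖∑ a, C i a * conj (η a)‖ ^ 2 ≤ (∑ a, ‖C i a‖ * ‖η a‖) ^ 2 := by
        have h6 : ‖∑ a, C i a * conj (η a)‖ ≤ ∑ a, ‖C i a‖ * ‖η a‖ := by
          refine (norm_sum_le _ _).trans (le_of_eq ?_)
          exact Finset.sum_congr rfl fun a _ => by rw [norm_mul, RCLike.norm_conj]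
        gcongr
    _ ≤ _ := Finset.sum_mul_sq_le_sq_mul_sq _ _ _

/-- determinant bound in adapted coordinates -/
theorem lev_le_det_one {c κ : ℝ} (hu : ContDiffAt ℝ 2 u x) (hc : 0 < c)
    (hl : ∀ η, c * ∑ b, ‖η b‖ ^ 2 ≤ lev u x η) (hd : (Um u x).det = (κ : ℂ)) (η : Cn n) :
    lev u x η ≤ κ / c ^ (n - 1) * ∑ b, ‖η b‖ ^ 2 := by
  have hH := Um_herm hu
  -- quadratic form in terms of `y = conj η`
  have hq : ∀ y : Fin n → ℂ, ((lev u x (WithLp.toLp 2 fun a => conj (y a)) : ℝ) : ℂ) =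
      star y ⬝ᵥ (Um u x *ᵥ y) := by
    intro y
    have h1 := quad_Um hu (WithLp.toLp 2 fun a => conj (y a))
    have e : (fun a => conj ((WithLp.toLp 2 fun a => conj (y a) : Cn n) a)) = y := by
      funext a
      simp
    rwa [e] at h1
  have hev : ∀ i, c ≤ hH.eigenvalues i := by
    intro i
    rw [hH.eigenvalues_eq i]
    set y : Fin n → ℂ := ⇑(hH.eigenvectorBasis i) with hy
    have h1 := hq y
    rw [← h1]
    have h2 := hl (WithLp.toLp 2 fun a => conj (y a))
    have h3 : ∑ b, ‖(WithLp.toLp 2 fun a => conj (y a) : Cn n) b‖ ^ 2 = 1 := by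
      have h4 : ‖hH.eigenvectorBasis i‖ = 1 := hH.eigenvectorBasis.orthonormal.1 i
      have h5 := EuclideanSpace.norm_sq_eq (hH.eigenvectorBasis i)
      rw [h4] at h5
      simp only [RCLike.norm_conj]
      rw [← hy] at h5
      rw [← h5]; norm_num
    rw [h3, mul_one] at h2
    exact h2
  have hprod : (∏ i, hH.eigenvalues i) = κ := by
    have h1 := hH.det_eq_prod_eigenvalues
    rw [hd] at h1
    have h2 : ((κ : ℝ) : ℂ) = ((∏ i, hH.eigenvalues i : ℝ) : ℂ) := by
      rw [h1]; push_cast; rfl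
    exact_mod_cast h2.symm
  have hup : ∀ i, hH.eigenvalues i ≤ κ / c ^ (n - 1) := by
    intro i
    rw [le_div_iff₀ (by positivity), ← hprod, ← Finset.mul_prod_erase Finset.univ _ (Finset.mem_univ i)]
    have h0 : 0 ≤ hH.eigenvalues i := hc.le.trans (hev i)
    refine mul_le_mul_of_nonneg_left ?_ h0
    have hcard : (Finset.univ.erase i).card = n - 1 := by simp
    calc c ^ (n - 1) = ∏ _j ∈ Finset.univ.erase i, c := by rw [Finset.prod_const, hcard]
      _ ≤ ∏ j ∈ Finset.univ.erase i, hH.eigenvalues j :=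
        Finset.prod_le_prod (fun _ _ => hc.le) fun j _ => hev j
  -- `(κ / c^(n-1)) - U` is positive semidefinite
  set m : ℝ := κ / c ^ (n - 1) with hm
  have hps : (((m : ℝ) : ℂ) • (1 : Matrix (Fin n) (Fin n) ℂ) - Um u x).PosSemidef := by
    have hs := hH.spectral_theorem
    set P := hH.eigenvectorUnitary
    have h4 : (P : Matrix (Fin n) (Fin n) ℂ) * star (P : Matrix (Fin n) (Fin n) ℂ) = 1 :=
      Unitary.coe_mul_star_self P
    have h2 : ((m : ℝ) : ℂ) • (1 : Matrix (Fin n) (Fin n) ℂ) - Um u x =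
        (P : Matrix (Fin n) (Fin n) ℂ) *
        (Matrix.diagonal fun i => (((m - hH.eigenvalues i : ℝ)) : ℂ)) *
          star (P : Matrix (Fin n) (Fin n) ℂ) := by
      have h3 : (Matrix.diagonal fun i => (((m - hH.eigenvalues i : ℝ)) : ℂ)) =
          ((m : ℝ) : ℂ) • (1 : Matrix (Fin n) (Fin n) ℂ) -
            Matrix.diagonal (RCLike.ofReal ∘ hH.eigenvalues) := by
        rw [← Matrix.diagonal_one, ← Matrix.diagonal_smul, Matrix.diagonal_sub]
        congr 1
        funext i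
        simp
      rw [h3, Matrix.mul_sub, Matrix.sub_mul, Matrix.mul_smul, Matrix.mul_one, Matrix.smul_mul, h4]
      congr 1
    rw [h2]
    have h5 : (Matrix.diagonal fun i => (((m - hH.eigenvalues i : ℝ)) : ℂ)).PosSemidef :=
      Matrix.PosSemidef.diagonal fun i => by
        have := hup i
        have h6 : 0 ≤ m - hH.eigenvalues i := by linarith
        show (0 : ℂ) ≤ _
        exact_mod_cast h6
    have := h5.mul_mul_conjTranspose_same (P : Matrix (Fin n) (Fin n) ℂ)
    exact this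
  have h6 := hps.dotProduct_mulVec_nonneg (fun a => conj (η a))
  rw [Matrix.sub_mulVec, dotProduct_sub, ← quad_Um hu η] at h6
  have h7 : star (fun a => conj (η a)) ⬝ᵥ ((((m : ℝ) : ℂ) • (1 : Matrix (Fin n) (Fin n) ℂ)) *ᵥ
      fun a => conj (η a)) = ((m * ∑ b, ‖η b‖ ^ 2 : ℝ) : ℂ) := by
    rw [Matrix.smul_mulVec, Matrix.one_mulVec, dotProduct_smul]
    simp only [dotProduct, Pi.star_apply, RCLike.star_def, Complex.conj_conj, smul_eq_mul]
    push_cast
    congr 1
    exact Finset.sum_congr rfl fun b _ => by rw [Complex.mul_conj']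
  rw [h7] at h6
  have h8 : 0 ≤ m * ∑ b, ‖η b‖ ^ 2 - lev u x η := by exact_mod_cast h6
  linarith

theorem ml_inv {E : Matrix (Fin n) (Fin n) ℂ} (hE : E.det ≠ 0) (v : Cn n) :
    ml E (ml E⁻¹ v) = v := by
  rw [ml_mul, Matrix.mul_nonsing_inv _ (isUnit_iff_ne_zero.2 hE), ml_one]

theorem lev_nn_zero (h : ∀ v : Cn n, v ≠ 0 → 0 < lev w x v) (v : Cn n) :
    0 ≤ lev w x v := by
  rcases eq_or_ne v 0 with h0 | h0
  · rw [h0, lev_zero]
  · exact (h v h0).le

/-- `w ≤ τ u`, `det u = κ det w` imply `u ≤ κ τ^(n-1) w` -/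
theorem lev_le_of_det {τ κ : ℝ} (hu : ContDiffAt ℝ ∞ u x) (hw : ContDiffAt ℝ ∞ w x)
    (hwp : (Um w x).PosDef) (hτ : 0 < τ) (hle : ∀ v, lev w x v ≤ τ * lev u x v)
    (hd : (Um u x).det = (κ : ℂ) * (Um w x).det) (v : Cn n) :
    lev u x v ≤ κ * τ ^ (n - 1) * lev w x v := by
  obtain ⟨E, hE, hE1⟩ := exists_norm hwp
  have hu0 : ContDiffAt ℝ 2 u (TT x E 0) := by rw [TT_zero]; exact sm2 hu
  have hw0 : ContDiffAt ℝ 2 w (TT x E 0) := by rw [TT_zero]; exact sm2 hw
  have h1 : Um (fun y => w (TT x E y)) 0 = 1 := by rw [Um_lin hw0, TT_zero, hE1]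
  have h2 := det_lin hu0
  have h3 := det_lin hw0
  rw [h1, Matrix.det_one, TT_zero] at h3
  rw [TT_zero, hd, ← mul_assoc, mul_comm _ (κ : ℂ), mul_assoc, ← h3, mul_one] at h2
  have h4 := lev_le_det_one (c := τ⁻¹) (sm2 (sm_comp_TT hu E)) (inv_pos.2 hτ) (fun η => by
    rw [lev_lin (sm2 hu), ← lev_one (sm_comp_TT hw E) h1 η, lev_lin (sm2 hw)]
    rw [inv_mul_le_iff₀ hτ]
    exact hle _) h2 (ml E⁻¹ v)
  rw [lev_lin (sm2 hu), ← lev_one (sm_comp_TT hw E) h1, lev_lin (sm2 hw), ml_inv hE] at h4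
  refine h4.trans (le_of_eq ?_)
  rw [inv_pow]
  field_simp

/-- **the inequality for the new metric, in an adapted basis** -/
theorem new_metric (hu : ContDiffAt ℝ ∞ u x) (hp : (Um u x).PosDef) {V : Cn n → Cn n}
    (hV : ∀ᶠ z in 𝓝 x, DifferentiableAt ℂ V z) (h0 : V x ≠ 0) :
    ∃ e : Fin n → Cn n,
      (lev (ld u) x (V x) / lev u x (V x) ≤
        ∑ c, lev (fun z => Real.log (QV u V z)) x (e c)) ∧
      (∀ c, lev u x (e c) = 1) ∧
      (∀ w : Cn n → ℝ, ContDiffAt ℝ ∞ w x → (∀ v, 0 ≤ lev w x v) → ∀ v,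
        lev w x v ≤ (∑ c, lev w x (e c)) * lev u x v) := by
  obtain ⟨E, hE, hE1⟩ := exists_norm hp
  have hu0 : ContDiffAt ℝ 2 u (TT x E 0) := by rw [TT_zero]; exact sm2 hu
  have h1 : Um (fun y => u (TT x E y)) 0 = 1 := by rw [Um_lin hu0, TT_zero, hE1]
  have hus := sm_comp_TT hu E
  have hone : ∀ η, lev u x (ml E η) = ∑ b, ‖η b‖ ^ 2 := fun η => by
    rw [← lev_lin (sm2 hu), lev_one hus h1]
  have hTc : Tendsto (TT x E) (𝓝 0) (𝓝 x) := by
    have := (sm_TT x E).continuous.tendsto 0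
    rwa [TT_zero] at this
  refine ⟨fun c => ml E (ee c), ?_, fun c => ?_, fun w hw hw0 v => ?_⟩
  · set W : Cn n → Cn n := fun y => ml E⁻¹ (V (TT x E y)) with hW
    have hWd : ∀ᶠ y in 𝓝 0, DifferentiableAt ℂ W y := by
      filter_upwards [hTc.eventually hV] with y hy
      have h2 : DifferentiableAt ℂ (fun y => V (TT x E y)) y :=
        hy.comp y (anal_TT x E y).differentiableAt
      exact (ml E⁻¹).differentiableAt.comp y h2
    have hW0 : ml E (W 0) = V x := by rw [hW]; simp only [TT_zero]; exact ml_inv hE _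
    have hWne : W 0 ≠ 0 := by
      intro h
      rw [h, map_zero] at hW0
      exact h0 hW0.symm
    have key := log_quad_lower hus h1 hWd hWne
    have hQe : QV (fun y => u (TT x E y)) W =ᶠ[𝓝 0] fun y => QV u V (TT x E y) := by
      filter_upwards [hTc.eventually (ev_sm2 hu)] with y hy
      unfold QV
      rw [lev_comp (u := u) (T := TT x E) (anal_TT x E y) hy, fderiv_TT]
      simp only [hW]
      rw [ml_inv hE]
    have hQ0 : 0 < QV u V x := by
      unfold QV
      rw [← hW0, hone]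
      have : ∃ b, W 0 b ≠ 0 := by
        by_contra hc
        push Not at hc
        exact hWne (by ext b; simpa using hc b)
      obtain ⟨b, hb⟩ := this
      exact Finset.sum_pos' (fun _ _ => by positivity) ⟨b, Finset.mem_univ b, by positivity⟩
    have hQc : ContDiffAt ℝ 2 (fun z => Real.log (QV u V z)) x := (c2_QV hu hV).log hQ0.ne'
    have hlog : ∀ η, lev (fun z => Real.log (QV (fun y => u (TT x E y)) W z)) 0 η =
        lev (fun z => Real.log (QV u V z)) x (ml E η) := by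
      intro η
      have e1 : (fun z => Real.log (QV (fun y => u (TT x E y)) W z)) =ᶠ[𝓝 0]
          fun y => (fun z => Real.log (QV u V z)) (TT x E y) := by
        filter_upwards [hQe] with y hy
        rw [hy]
      rw [lev_congr e1]
      exact lev_lin hQc E η
    have hdp : 0 < (Um u x).det.re := (Complex.pos_iff.1 hp.det_pos).1
    have hdc : ContinuousAt (fun z => (Um u z).det.re) x :=
      (Complex.reCLM.contDiff.contDiffAt.comp x (cd_det (sm_Um hu))).continuousAt
    have hld : ∀ η, lev (ld fun y => u (TT x E y)) 0 η = lev (ld u) x (ml E η) := by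
      intro η
      have e1 : (ld fun y => u (TT x E y)) =ᶠ[𝓝 0]
          fun y => (fun z => Real.log (‖E.det‖ ^ 2) + ld u z) (TT x E y) := by
        filter_upwards [hTc.eventually (ev_sm2 hu),
          hTc.eventually (hdc.eventually (lt_mem_nhds hdp))] with y hy hy2
        unfold ld
        rw [det_lin hy, Complex.re_ofReal_mul]
        have h5 : ‖E.det‖ ^ 2 ≠ 0 := by
          have := norm_ne_zero_iff.2 hE
          positivity
        exact Real.log_mul h5 hy2.ne'
      have e2 : ContDiffAt ℝ 2 (ld u) x := sm2 (sm_ld hu hdp.ne')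
      rw [lev_congr e1, lev_lin (contDiffAt_const.add e2),
        lev_add (u := fun _ => Real.log (‖E.det‖ ^ 2)) contDiffAt_const e2, lev_const, zero_add]
    simp only [hlog] at key
    rw [hld, hW0] at key
    have e3 : lev (fun y => u (TT x E y)) 0 (W 0) = lev u x (V x) := by
      rw [lev_lin (sm2 hu), hW0]
    rw [e3] at key
    exact key
  · rw [hone]
    simp [ee, apply_ite, ite_pow]
  · have h2 := lev_le_trace (sm2 (sm_comp_TT hw E)) (fun v => by
      rw [lev_lin (sm2 hw)]; exact hw0 _) (ml E⁻¹ v)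
    simp only [lev_lin (sm2 hw)] at h2
    rw [← hone, ml_inv hE] at h2
    exact h2

end

end Crest.Agent.R273.C2d_793
end

-- ▼ part R273/C2e_793

/-!
# R273 / Yau C² estimate (helper793), part e: the maximum point

* `at_max` : at a local maximum of `log u_{V V̄} - log w_{V V̄} - A (u - w)` the new metric is
  bounded by the background metric
-/

set_option autoImplicit false
set_option linter.unusedSectionVars false

open Set Filter Topology Complex
open scoped ContDiff Matrix ComplexConjugate ComplexOrder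

namespace Crest.Agent.R273.C2e_793

open Crest.Agent.R275.Geo Crest.Agent.R275.Core144 Crest.Agent.R275.GC293
open Crest.Agent.R275.OmT75
open Crest.Agent.R273.Levi_145 Crest.Agent.R273.C2a_793 Crest.Agent.R273.C2b_793
open Crest.Agent.R273.C2c_793 Crest.Agent.R273.C2d_793

noncomputable section

variable {n : ℕ} {x : Cn n}

theorem lev_nonpos_of_localMax {F : Cn n → ℝ} (hF : ContDiffAt ℝ 2 F x) (hm : IsLocalMax F x)
    (v : Cn n) : lev F x v ≤ 0 := by
  have h1 : IsLocalMin (fun z => - F z) x := hm.neg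
  have h2 := YauMax_635.lev_nonneg_of_localMin hF.neg h1 v
  rw [YauDefs_635.lev333_eq_lev145, lev_neg hF] at h2
  linarith

theorem ld_eq {w u f : Cn n → ℝ} (hw : ContDiffAt ℝ ∞ w x) (hwp : (Um w x).PosDef)
    (hMA : ∀ᶠ z in 𝓝 x, (Um u z).det = (Real.exp (f z) : ℂ) * (Um w z).det) :
    ld u =ᶠ[𝓝 x] fun z => f z + ld w z := by
  have hdp : 0 < (Um w x).det.re := (Complex.pos_iff.1 hwp.det_pos).1
  have hdc : ContinuousAt (fun z => (Um w z).det.re) x :=
    (Complex.reCLM.contDiff.contDiffAt.comp x (cd_det (sm_Um hw))).continuousAt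
  filter_upwards [hMA, hdc.eventually (lt_mem_nhds hdp)] with z h1 h2
  unfold ld
  rw [h1, Complex.re_ofReal_mul, Real.log_mul (Real.exp_pos _).ne' h2.ne', Real.log_exp]

theorem QV_pos {u : Cn n → ℝ} {V : Cn n → Cn n} (hu0 : ∀ v, v ≠ 0 → 0 < lev u x v)
    (hV0 : V x ≠ 0) : 0 < QV u V x := hu0 _ hV0

/-- **the estimate at the maximum point** -/
theorem at_max {w u f : Cn n → ℝ} {V : Cn n → Cn n} {β γ K A : ℝ}
    (hw : ContDiffAt ℝ ∞ w x) (hu : ContDiffAt ℝ ∞ u x) (hf : ContDiffAt ℝ ∞ f x)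
    (hw0 : ∀ v, v ≠ 0 → 0 < lev w x v) (hu0 : ∀ v, v ≠ 0 → 0 < lev u x v)
    (hMA : ∀ᶠ z in 𝓝 x, (Um u z).det = (Real.exp (f z) : ℂ) * (Um w z).det)
    (hV : ∀ᶠ z in 𝓝 x, DifferentiableAt ℂ V z) (hV0 : V x ≠ 0)
    (hβ : ∀ ξ, lev (fun z => Real.log (QV w V z)) x ξ ≤ β * lev w x ξ)
    (hγ : -(γ * lev w x (V x)) ≤ lev (ld w) x (V x))
    (hK : -(K * lev w x (V x)) ≤ lev f x (V x)) (hγ0 : 0 ≤ γ) (hK0 : 0 ≤ K)
    (hA : A = K + γ + β + 1)
    (hmax : IsLocalMax (fun z => Real.log (QV u V z) - Real.log (QV w V z) - A * (u z - w z)) x)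
    (v : Cn n) : lev u x v ≤ Real.exp (f x) * (A * n) ^ (n - 1) * lev w x v := by
  have hwp := Um_posDef (sm2 hw) hw0
  have hup := Um_posDef (sm2 hu) hu0
  have hwn : ∀ v, 0 ≤ lev w x v := lev_nn_zero hw0
  obtain ⟨e, he1, he2, he3⟩ := new_metric hu hup hV hV0
  set τ : ℝ := ∑ c, lev w x (e c) with hτ
  have hWτ := he3 w hw hwn
  have hQu : 0 < QV u V x := QV_pos hu0 hV0
  have hQw : 0 < QV w V x := QV_pos hw0 hV0
  have hVu : 0 < lev u x (V x) := hu0 _ hV0
  have hVw : 0 < lev w x (V x) := hw0 _ hV0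
  have hτ0 : 0 < τ := by
    have h1 := hWτ (V x)
    by_contra hc
    push Not at hc
    nlinarith
  have hlu : ContDiffAt ℝ 2 (fun z => Real.log (QV u V z)) x := (c2_QV hu hV).log hQu.ne'
  have hlw : ContDiffAt ℝ 2 (fun z => Real.log (QV w V z)) x := (c2_QV hw hV).log hQw.ne'
  have hφ : ContDiffAt ℝ 2 (fun z => u z - w z) x := (sm2 hu).sub (sm2 hw)
  have hlev : ∀ ξ, lev (fun z => Real.log (QV u V z)) x ξ ≤
      lev (fun z => Real.log (QV w V z)) x ξ + A * (lev u x ξ - lev w x ξ) := by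
    intro ξ
    have h1 := lev_nonpos_of_localMax ((hlu.sub hlw).sub (contDiffAt_const.mul hφ)) hmax ξ
    rw [lev_sub (u := fun z => Real.log (QV u V z) - Real.log (QV w V z))
      (v := fun z => A * (u z - w z)) (hlu.sub hlw) (contDiffAt_const.mul hφ),
      lev_sub hlu hlw, lev_const_mul A hφ, lev_sub (sm2 hu) (sm2 hw)] at h1
    linarith
  have hsum : ∑ c, lev (fun z => Real.log (QV u V z)) x (e c) ≤ β * τ + A * (n - τ) := by
    calc ∑ c, lev (fun z => Real.log (QV u V z)) x (e c)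
        ≤ ∑ c, (β * lev w x (e c) + A * (lev u x (e c) - lev w x (e c))) :=
          Finset.sum_le_sum fun c _ => (hlev (e c)).trans (by linarith [hβ (e c)])
      _ = β * τ + A * (n - τ) := by
          rw [Finset.sum_add_distrib, ← Finset.mul_sum, ← Finset.mul_sum, Finset.sum_sub_distrib]
          simp only [he2]
          rw [hτ]
          simp
  have hldu : lev (ld u) x (V x) = lev f x (V x) + lev (ld w) x (V x) := by
    have hdp : 0 < (Um w x).det.re := (Complex.pos_iff.1 hwp.det_pos).1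
    rw [lev_congr (ld_eq hw hwp hMA), lev_add (sm2 hf) (sm2 (sm_ld hw hdp.ne'))]
  have h1 : -((K + γ) * τ) ≤ lev (ld u) x (V x) / lev u x (V x) := by
    rw [le_div_iff₀ hVu, hldu]
    have h2 := hWτ (V x)
    have h3 : (K + γ) * lev w x (V x) ≤ (K + γ) * (τ * lev u x (V x)) :=
      mul_le_mul_of_nonneg_left h2 (by positivity)
    nlinarith
  have hτA : τ ≤ A * n := by
    have h2 := h1.trans (he1.trans hsum)
    rw [hA] at h2 ⊢
    nlinarith
  have hAn : 0 < A * n := hτ0.trans_le hτA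
  have hle : ∀ v, lev w x v ≤ (A * n) * lev u x v := fun v =>
    (hWτ v).trans (mul_le_mul_of_nonneg_right hτA (lev_nn_zero hu0 v))
  exact lev_le_of_det hu hw hwp hAn hle hMA.self_of_nhds v

end

end Crest.Agent.R273.C2e_793
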