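import Crest.Agent.R273.RegA_844
import Crest.Agent.R271.W_792

-- ▼ part R273/RegB_844
section

/-!
# Row 273, leaf REG (helper844), part B: regularisation of psh functions on a Riemann domain

`PSH ψ` : upper semicontinuous, locally bounded below, sub-mean value property on complex discs
contained in charts.  `reg κ ε ψ` : convolution, defined wherever the translations by vectors of
length `< ε` are defined.  Main result: `exists_reg`.
-/

set_option autoImplicit false
set_option linter.unusedSectionVars false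

open MeasureTheory Set Metric Filter Topology
open scoped ENNReal ContDiff

noncomputable section

namespace Crest.Agent.R273.Reg_844

open Crest.Agent.R275.FL606 Crest.Agent.R271.Ho51
open Crest.Agent.R271.W792 (lev)

variable {n : ℕ} {M : Type*} [TopologicalSpace M] [RDom n M]

/-! ### translations -/

/-- inverse charts agree on preconnected sets -/
lemma symm_eqOn [T2Space M] {e e' : OpenPartialHomeomorph M (Fin n → ℂ)} (he : IsCh e)
    (he' : IsCh e') {s : Set (Fin n → ℂ)} (hs : IsPreconnected s) (h1 : s ⊆ e.target)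
    (h2 : s ⊆ e'.target) {z0 : Fin n → ℂ} (hz0 : z0 ∈ s) (h0 : e.symm z0 = e'.symm z0) :
    EqOn e.symm e'.symm s := by
  refine (T2Space.isSeparatedMap (cp : M → (Fin n → ℂ))).eqOn_of_comp_eqOn
    (cp_lh (M := M)).isLocallyInjective hs (e.symm.continuousOn.mono h1)
    (e'.symm.continuousOn.mono h2) ?_ hz0 h0
  intro z hz
  simp only [Function.comp_apply]
  rw [he.cp_symm (h1 hz), he'.cp_symm (h2 hz)]

/-- the translations of `x` by all vectors of length `< r` are defined -/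
def Adm (r : ℝ) (x : M) : Prop :=
  ∃ e : OpenPartialHomeomorph M (Fin n → ℂ), IsCh e ∧ x ∈ e.source ∧ ball (cp x) r ⊆ e.target

lemma Adm.mono {r s : ℝ} {x : M} (h : Adm r x) (hs : s ≤ r) : Adm s x := by
  obtain ⟨e, he, hx, hb⟩ := h
  exact ⟨e, he, hx, (ball_subset_ball hs).trans hb⟩

lemma exists_adm_one (x : M) : ∃ r : ℝ, 0 < r ∧ ball (cp x) r ⊆ (ch x).target := by
  obtain ⟨r, hr, hb⟩ := Metric.isOpen_iff.1 (ch x).open_target (cp x)
    ((isCh_ch x).cp_mem (mem_ch x))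
  exact ⟨r, hr, hb⟩

lemma Adm.shift {e : OpenPartialHomeomorph M (Fin n → ℂ)} (he : IsCh e) {z : Fin n → ℂ}
    (hz : z ∈ e.target) {r : ℝ} (hb : ball z r ⊆ e.target) : Adm r (e.symm z) :=
  ⟨e, he, e.map_target hz, by rwa [he.cp_symm hz]⟩

/-- around a compact set the translations by small vectors are defined -/
lemma exists_adm {C : Set M} (hC : IsCompact C) : ∃ r : ℝ, 0 < r ∧ ∀ x ∈ C, Adm r x := by
  refine hC.induction_on (p := fun s => ∃ r : ℝ, 0 < r ∧ ∀ x ∈ s, Adm r x) ?_ ?_ ?_ ?_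
  · exact ⟨1, one_pos, by simp⟩
  · rintro s t hst ⟨r, hr, h⟩
    exact ⟨r, hr, fun x hx => h x (hst hx)⟩
  · rintro s t ⟨r, hr, h⟩ ⟨r', hr', h'⟩
    refine ⟨min r r', lt_min hr hr', fun x hx => ?_⟩
    rcases hx with hx | hx
    · exact (h x hx).mono (min_le_left _ _)
    · exact (h' x hx).mono (min_le_right _ _)
  · intro x _
    obtain ⟨r, hr, hb⟩ := exists_adm_one x
    refine ⟨(ch x).source ∩ cp ⁻¹' ball (cp x) (r / 2), ?_, r / 2, by positivity, ?_⟩
    · apply mem_nhdsWithin_of_mem_nhds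
      exact Filter.inter_mem ((ch x).open_source.mem_nhds (mem_ch x))
        (cp_cont.continuousAt.preimage_mem_nhds (ball_mem_nhds _ (by positivity)))
    · rintro y ⟨hy1, hy2⟩
      refine ⟨ch x, isCh_ch x, hy1, fun z hz => hb ?_⟩
      rw [mem_preimage, mem_ball] at hy2
      rw [mem_ball] at hz ⊢
      calc dist z (cp x) ≤ dist z (cp y) + dist (cp y) (cp x) := dist_triangle _ _ _
        _ < r := by linarith

/-! ### psh functions -/

/-- plurisubharmonic function, locally bounded, upper semicontinuous -/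
structure PSH (ψ : M → ℝ) : Prop where
  usc : UpperSemicontinuous ψ
  bdd : ∀ x, ∃ c : ℝ, ∀ᶠ y in 𝓝 x, c ≤ ψ y
  sm : ∀ e : OpenPartialHomeomorph M (Fin n → ℂ), IsCh e → SM 0 (ψ ∘ e.symm) e.target

lemma PSH.exists_bound {ψ : M → ℝ} (h : PSH ψ) {C : Set M} (hC : IsCompact C) :
    ∃ K : ℝ, ∀ x ∈ C, |ψ x| ≤ K := by
  refine hC.induction_on (p := fun s => ∃ K : ℝ, ∀ x ∈ s, |ψ x| ≤ K) ?_ ?_ ?_ ?_
  · exact ⟨1, by simp⟩
  · rintro s t hst ⟨r, h⟩
    exact ⟨r, fun x hx => h x (hst hx)⟩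
  · rintro s t ⟨r, h⟩ ⟨r', h'⟩
    refine ⟨max r r', fun x hx => ?_⟩
    rcases hx with hx | hx
    · exact (h x hx).trans (le_max_left _ _)
    · exact (h' x hx).trans (le_max_right _ _)
  · intro x _
    obtain ⟨c, hc⟩ := h.bdd x
    have h1 : ∀ᶠ y in 𝓝 x, ψ y < ψ x + 1 := h.usc x _ (by linarith)
    refine ⟨{y | c ≤ ψ y ∧ ψ y < ψ x + 1}, mem_nhdsWithin_of_mem_nhds (hc.and h1),
      max |c| |ψ x + 1|, ?_⟩
    rintro y ⟨hy1, hy2⟩
    rw [abs_le]
    constructor
    · have := neg_abs_le c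
      have := le_max_left |c| |ψ x + 1|
      linarith
    · have := le_abs_self (ψ x + 1)
      have := le_max_right |c| |ψ x + 1|
      linarith

lemma measurable_ind {ψ : M → ℝ} (h : UpperSemicontinuous ψ)
    (e : OpenPartialHomeomorph M (Fin n → ℂ)) {B : Set (Fin n → ℂ)} (hB : IsOpen B)
    (hBe : B ⊆ e.target) : Measurable (B.indicator (ψ ∘ e.symm)) := by
  apply measurable_of_Iio
  intro c
  have h1 : IsOpen (B ∩ e.symm ⁻¹' {x | ψ x < c}) :=
    (e.symm.continuousOn.mono hBe).isOpen_inter_preimage hB (h.isOpen_preimage c)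
  have h2 : B.indicator (ψ ∘ e.symm) ⁻¹' Iio c =
      (B ∩ e.symm ⁻¹' {x | ψ x < c}) ∪ (Bᶜ ∩ {_y | (0 : ℝ) < c}) := by
    ext y
    by_cases hy : y ∈ B
    · simp [hy]
    · simp [hy]
  rw [h2]
  exact h1.measurableSet.union (hB.measurableSet.compl.inter (MeasurableSet.const _))

/-- local representative -/
lemma PSH.loc {ψ : M → ℝ} (h : PSH ψ) {e : OpenPartialHomeomorph M (Fin n → ℂ)} (he : IsCh e)
    {z : Fin n → ℂ} {r s : ℝ} (hb : ball z r ⊆ e.target) (hs : s < r) :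
    ∃ (f : (Fin n → ℂ) → ℝ) (K : ℝ), Measurable f ∧ EqOn f (ψ ∘ e.symm) (ball z s) ∧
      (∀ y ∈ ball z s, |f y| ≤ K) ∧ SM 0 f (ball z s) := by
  have hsub : ball z s ⊆ e.target := (ball_subset_ball hs.le).trans hb
  have hcl : closedBall z s ⊆ e.target := (closedBall_subset_ball hs).trans hb
  obtain ⟨K, hK⟩ := h.exists_bound ((isCompact_closedBall z s).image_of_continuousOn
    (e.symm.continuousOn.mono hcl))
  have heq : EqOn ((ball z s).indicator (ψ ∘ e.symm)) (ψ ∘ e.symm) (ball z s) :=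
    fun y hy => indicator_of_mem hy _
  refine ⟨(ball z s).indicator (ψ ∘ e.symm), K, measurable_ind h.usc e isOpen_ball hsub,
    heq, fun y hy => ?_, ?_⟩
  · rw [heq hy]
    exact hK _ ⟨y, ball_subset_closedBall hy, rfl⟩
  · intro y v hd
    have h1 := h.sm e he y v (fun w hw => hsub (hd w hw))
    have h2 : y ∈ ball z s := by simpa using hd 0 (by simp)
    rw [heq h2]
    refine h1.trans (le_of_eq ?_)
    congr 1
    apply Real.circleAverage_congr_sphere
    intro w hw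
    rw [abs_one, mem_sphere, dist_zero_right] at hw
    exact (heq (hd w hw.le)).symm

/-- Levi form in a chart -/
lemma lev_eq_chart {φ : M → ℝ} {e : OpenPartialHomeomorph M (Fin n → ℂ)} (he : IsCh e) {x : M}
    (hx : x ∈ e.source) (hs : ContDiffAt ℝ 2 (φ ∘ e.symm) (cp x)) (w : Fin n → ℂ) :
    lev φ x w = (1 / 4) * (fderiv ℝ (fderiv ℝ (φ ∘ e.symm)) (cp x) w w +
      fderiv ℝ (fderiv ℝ (φ ∘ e.symm)) (cp x) (Complex.I • w) (Complex.I • w)) := by
  have key : ∀ v : Fin n → ℂ, D (fun y => D φ y v) x v =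
      fderiv ℝ (fderiv ℝ (φ ∘ e.symm)) (cp x) v v := by
    intro v
    rw [D_eq he hx]
    have h1 : ((fun y => D φ y v) ∘ e.symm) =ᶠ[𝓝 (cp x)]
        fun z => fderiv ℝ (φ ∘ e.symm) z v := by
      filter_upwards [e.open_target.mem_nhds (he.cp_mem hx)] with z hz
      simp only [Function.comp_apply]
      rw [D_symm he hz φ]
    rw [h1.fderiv_eq]
    have h3 : DifferentiableAt ℝ (fderiv ℝ (φ ∘ e.symm)) (cp x) :=
      (hs.fderiv_right (m := 1) (by norm_num)).differentiableAt (by simp)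
    rw [fderiv_clm_apply h3 (differentiableAt_const v)]
    simp
  unfold lev
  rw [key, key]

/-! ### the regularisation -/

variable {κ : (Fin n → ℂ) → ℝ}

/-- the regularisation -/
def reg (κ : (Fin n → ℂ) → ℝ) (ε : ℝ) (ψ : M → ℝ) (x : M) : ℝ :=
  open Classical in
  if h : Adm ε x then regF volume κ ε (ψ ∘ h.choose.symm) (cp x) else 0

lemma reg_eq [T2Space M] (hκ : Ker volume κ) {ε : ℝ} (hε : 0 < ε) (ψ : M → ℝ)
    {e : OpenPartialHomeomorph M (Fin n → ℂ)} (he : IsCh e) {x : M} (hx : x ∈ e.source)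
    (hb : ball (cp x) ε ⊆ e.target) : reg κ ε ψ x = regF volume κ ε (ψ ∘ e.symm) (cp x) := by
  have h : Adm ε x := ⟨e, he, hx, hb⟩
  unfold reg
  rw [dif_pos h]
  apply regF_congr volume hκ hε
  intro y hy
  obtain ⟨h1, h2, h3⟩ := h.choose_spec
  have := symm_eqOn h1 he (convex_ball (cp x) ε).isPreconnected h3 hb (mem_ball_self hε)
    (by rw [h1.symm_cp h2, he.symm_cp hx])
  simp only [Function.comp_apply]
  rw [this hy]

lemma reg_symm [T2Space M] (hκ : Ker volume κ) {ε : ℝ} (hε : 0 < ε) (ψ : M → ℝ)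
    {e : OpenPartialHomeomorph M (Fin n → ℂ)} (he : IsCh e) {z : Fin n → ℂ}
    (hb : ball z ε ⊆ e.target) : reg κ ε ψ (e.symm z) = regF volume κ ε (ψ ∘ e.symm) z := by
  have hz : z ∈ e.target := hb (mem_ball_self hε)
  rw [reg_eq hκ hε ψ he (e.map_target hz) (by rwa [he.cp_symm hz]), he.cp_symm hz]

variable [T2Space M] {ψ : M → ℝ}

/-- a common local description of `reg` -/
lemma PSH.reg_loc (h : PSH ψ) (hκ : Ker volume κ) {ε r : ℝ} (hε : 0 < ε) (hr : ε < r) {x : M}
    (hx : Adm r x) : ∃ (e : OpenPartialHomeomorph M (Fin n → ℂ)) (f : (Fin n → ℂ) → ℝ) (K δ : ℝ),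
      IsCh e ∧ x ∈ e.source ∧ 0 < δ ∧ ball (cp x) (ε + δ) ⊆ e.target ∧ Measurable f ∧
      EqOn f (ψ ∘ e.symm) (ball (cp x) (ε + δ)) ∧ (∀ y ∈ ball (cp x) (ε + δ), |f y| ≤ K) ∧
      SM 0 f (ball (cp x) (ε + δ)) ∧
      EqOn (reg κ ε ψ ∘ e.symm) (regF volume κ ε f) (ball (cp x) δ) := by
  obtain ⟨e, he, hxe, hb⟩ := hx
  obtain ⟨f, K, hf, hfe, hfK, hfS⟩ := h.loc he hb (s := ε + (r - ε) / 2) (by linarith)
  have hsub : ball (cp x) (ε + (r - ε) / 2) ⊆ e.target :=
    (ball_subset_ball (by linarith)).trans hb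
  refine ⟨e, f, K, (r - ε) / 2, he, hxe, by linarith, hsub, hf, hfe, hfK, hfS, ?_⟩
  intro z hz
  have h1 : ball z ε ⊆ ball (cp x) (ε + (r - ε) / 2) := by
    intro y hy
    rw [mem_ball] at *
    calc dist y (cp x) ≤ dist y z + dist z (cp x) := dist_triangle _ _ _
      _ < _ := by linarith
  simp only [Function.comp_apply]
  rw [reg_symm hκ hε ψ he (h1.trans hsub)]
  apply regF_congr volume hκ hε
  intro y hy
  exact (hfe (h1 hy)).symm

/-- (L1) -/
lemma PSH.le_reg (h : PSH ψ) (hκ : Ker volume κ) {ε r : ℝ} (hε : 0 < ε) (hr : ε < r) {x : M}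
    (hx : Adm r x) : ψ x ≤ reg κ ε ψ x := by
  obtain ⟨e, f, K, δ, he, hxe, hδ, hsub, hf, hfe, hfK, hfS, hreg⟩ := h.reg_loc hκ hε hr hx
  have h1 := le_regF volume hκ hf hfK hfS hε (z := cp x) (ball_subset_ball (by linarith))
  have h2 := hfe (mem_ball_self (by linarith : (0:ℝ) < ε + δ))
  have h3 := hreg (mem_ball_self hδ)
  simp only [Function.comp_apply, he.symm_cp hxe] at h2 h3
  rw [h3, ← h2]
  exact h1

/-- (L2) -/
lemma PSH.contDiffAt_reg (h : PSH ψ) (hκ : Ker volume κ) (hs : ContDiff ℝ ∞ κ) {ε r : ℝ}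
    (hε : 0 < ε) (hr : ε < r) {x : M} (hx : Adm r x) :
    ContDiffAt ℝ (⊤ : ℕ∞) (reg κ ε ψ ∘ (ch x).symm) (cp x) := by
  obtain ⟨e, f, K, δ, he, hxe, hδ, hsub, hf, hfe, hfK, hfS, hreg⟩ := h.reg_loc hκ hε hr hx
  have h1 := contDiffAt_regF volume hκ hs hf hε hδ hfK
  have h2 : (reg κ ε ψ ∘ (ch x).symm) =ᶠ[𝓝 (cp x)] regF volume κ ε f :=
    (comp_germ (isCh_ch x) he (mem_ch x) hxe _).trans
      (hreg.eventuallyEq_of_mem (ball_mem_nhds _ hδ))
  exact h1.congr_of_eventuallyEq h2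

/-- (L3) -/
lemma PSH.lev_reg_nonneg (h : PSH ψ) (hκ : Ker volume κ) (hs : ContDiff ℝ ∞ κ) {ε r : ℝ}
    (hε : 0 < ε) (hr : ε < r) {x : M} (hx : Adm r x) (w : Fin n → ℂ) :
    0 ≤ lev (reg κ ε ψ) x w := by
  obtain ⟨e, f, K, δ, he, hxe, hδ, hsub, hf, hfe, hfK, hfS, hreg⟩ := h.reg_loc hκ hε hr hx
  have h1 := contDiffAt_regF volume hκ hs hf hε hδ hfK
  have h2 : (reg κ ε ψ ∘ e.symm) =ᶠ[𝓝 (cp x)] regF volume κ ε f :=
    hreg.eventuallyEq_of_mem (ball_mem_nhds _ hδ)
  have h3 : ContDiffAt ℝ 2 (regF volume κ ε f) (cp x) := h1.of_le (by norm_cast)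
  rw [lev_eq_chart he hxe (h3.congr_of_eventuallyEq h2), h2.fderiv.fderiv_eq]
  have h4 := lap_nonneg h3 (v := w) (by
    have hr1 : ∀ᶠ r : ℝ in 𝓝[>] 0, r < δ / (2 * (‖w‖ + 1)) :=
      nhdsWithin_le_nhds (gt_mem_nhds (by positivity))
    filter_upwards [hr1, self_mem_nhdsWithin] with r hr2 hr0
    have hr0 : 0 < r := hr0
    apply regF_le_av volume hκ hf hfK hfS hε
    intro t ht
    have h5 : r * (2 * (‖w‖ + 1)) < δ := (lt_div_iff₀ (by positivity)).1 hr2
    have h6 : ‖t • (r • w)‖ < δ := by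
      rw [norm_smul, norm_smul, Real.norm_eq_abs, abs_of_pos hr0]
      calc ‖t‖ * (r * ‖w‖) ≤ 1 * (r * ‖w‖) := by gcongr
        _ < δ := by nlinarith [norm_nonneg w]
    apply ball_subset_ball'
    rw [dist_eq_norm, add_sub_cancel_left]
    linarith)
  linarith

/-- (L4) Hartogs type upper bound -/
lemma PSH.reg_lt (h : PSH ψ) (hκ : Ker volume κ) {C : Set M} (hC : IsCompact C) {g : M → ℝ}
    (hg : ∀ x ∈ C, ContinuousAt g x) (hlt : ∀ x ∈ C, ψ x < g x) :
    ∃ ε₀ : ℝ, 0 < ε₀ ∧ ∀ ε, 0 < ε → ε ≤ ε₀ → ∀ x ∈ C, reg κ ε ψ x < g x := by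
  refine hC.induction_on (p := fun S => ∃ ε₀ : ℝ, 0 < ε₀ ∧ ∀ ε, 0 < ε → ε ≤ ε₀ → ∀ x ∈ S,
      reg κ ε ψ x < g x) ?_ ?_ ?_ ?_
  · exact ⟨1, one_pos, by simp⟩
  · rintro s t hst ⟨r, hr, h⟩
    exact ⟨r, hr, fun ε h1 h2 x hx => h ε h1 h2 x (hst hx)⟩
  · rintro s t ⟨r, hr, h⟩ ⟨r', hr', h'⟩
    refine ⟨min r r', lt_min hr hr', fun ε h1 h2 x hx => ?_⟩
    rcases hx with hx | hx
    · exact h ε h1 (h2.trans (min_le_left _ _)) x hx
    · exact h' ε h1 (h2.trans (min_le_right _ _)) x hx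
  · intro x hx
    obtain ⟨c, hc1, hc2⟩ := exists_between (hlt x hx)
    obtain ⟨r₁, hr₁, hb₁⟩ := exists_adm_one x
    -- a small ball on which ψ < c and g > c
    have hev : ∀ᶠ z in 𝓝 (cp x), ψ ((ch x).symm z) < c ∧ c < g ((ch x).symm z) := by
      have h1 : ContinuousAt (ch x).symm (cp x) :=
        (ch x).symm.continuousAt (by simpa using (isCh_ch x).cp_mem (mem_ch x))
      have h2 : ∀ᶠ y in 𝓝 x, ψ y < c ∧ c < g y :=
        (h.usc x c hc1).and ((hg x hx).eventually (lt_mem_nhds hc2))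
      have h3 : Tendsto (ch x).symm (𝓝 (cp x)) (𝓝 x) := by
        have := h1
        rwa [ContinuousAt, symm_cp] at this
      exact h3.eventually h2
    obtain ⟨r₂, hr₂, hb₂⟩ := Metric.eventually_nhds_iff_ball.1 hev
    set r := min r₁ r₂ with hr
    have hr0 : 0 < r := lt_min hr₁ hr₂
    refine ⟨(ch x).source ∩ cp ⁻¹' ball (cp x) (r / 3), ?_, r / 3, by positivity, ?_⟩
    · apply mem_nhdsWithin_of_mem_nhds
      exact Filter.inter_mem ((ch x).open_source.mem_nhds (mem_ch x))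
        (cp_cont.continuousAt.preimage_mem_nhds (ball_mem_nhds _ (by positivity)))
    · rintro ε hε hεr y ⟨hy1, hy2⟩
      rw [mem_preimage, mem_ball] at hy2
      have hsub : ball (cp y) (2 * (r / 3)) ⊆ ball (cp x) r := by
        apply ball_subset_ball'
        linarith
      have hadm : Adm (2 * (r / 3)) y :=
        ⟨ch x, isCh_ch x, hy1, hsub.trans ((ball_subset_ball (min_le_left _ _)).trans hb₁)⟩
      obtain ⟨e, f, K, δ, he, hxe, hδ, hse, hf, hfe, hfK, hfS, hreg⟩ :=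
        h.reg_loc hκ hε (r := 2 * (r / 3)) (by linarith) hadm
      have h3 := hreg (mem_ball_self hδ)
      simp only [Function.comp_apply, he.symm_cp hxe] at h3
      rw [h3]
      have h6 : ball (cp y) ε ⊆ ball (cp y) (ε + δ) := ball_subset_ball (by linarith)
      have h7 : ball (cp y) ε ⊆ ball (cp x) r := (ball_subset_ball (by linarith)).trans hsub
      have h4 : regF volume κ ε f (cp y) ≤ c := by
        refine regF_le volume hκ hf hfK hε h6 fun z hz => ?_
        rw [hfe (h6 hz)]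
        have h5 := symm_eqOn he (isCh_ch x) (convex_ball (cp y) ε).isPreconnected (h6.trans hse)
          (h7.trans ((ball_subset_ball (min_le_left _ _)).trans hb₁)) (mem_ball_self hε)
          (by rw [he.symm_cp hxe, (isCh_ch x).symm_cp hy1])
        simp only [Function.comp_apply]
        rw [h5 hz]
        exact (hb₂ z (ball_subset_ball (min_le_right _ _) (h7 hz))).1.le
      have h8 : c < g y := by
        have := (hb₂ (cp y) (ball_subset_ball (min_le_right _ _) (h7 (mem_ball_self hε)))).2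
        rwa [(isCh_ch x).symm_cp hy1] at this
      linarith

end Crest.Agent.R273.Reg_844
end
end

-- ▼ part R273/RegC_844

/-!
# Row 273, leaf REG (helper844), part C: the regularisation theorem and closure properties of `PSH`
-/

set_option autoImplicit false
set_option linter.unusedSectionVars false

open MeasureTheory Set Metric Filter Topology
open scoped ENNReal ContDiff

noncomputable section

namespace Crest.Agent.R273.Reg_844

open Crest.Agent.R275.FL606 Crest.Agent.R271.Ho51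
open Crest.Agent.R271.W792 (lev)

variable {n : ℕ} {M : Type*} [TopologicalSpace M] [RDom n M]

/-- a Riemann domain is locally compact -/
lemma locallyCompact_rdom (n : ℕ) (M : Type*) [TopologicalSpace M] [RDom n M] :
    LocallyCompactSpace M := by
  refine ⟨fun x U hU => ?_⟩
  have h1 : IsOpen ((ch x).target ∩ (ch x).symm ⁻¹' (interior U)) :=
    (ch x).symm.continuousOn.isOpen_inter_preimage (ch x).open_target isOpen_interior
  have h2 : cp x ∈ (ch x).target ∩ (ch x).symm ⁻¹' (interior U) := by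
    refine ⟨(isCh_ch x).cp_mem (mem_ch x), ?_⟩
    rw [mem_preimage, symm_cp]
    exact mem_interior_iff_mem_nhds.2 hU
  obtain ⟨r, hr, hb⟩ := Metric.isOpen_iff.1 h1 _ h2
  have hcl : closedBall (cp x) (r / 2) ⊆ (ch x).target ∩ (ch x).symm ⁻¹' (interior U) :=
    (closedBall_subset_ball (by linarith)).trans hb
  refine ⟨(ch x).symm '' closedBall (cp x) (r / 2), ?_, ?_,
    (isCompact_closedBall _ _).image_of_continuousOn
      ((ch x).symm.continuousOn.mono (hcl.trans inter_subset_left))⟩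
  · have h3 : (ch x).source ∩ cp ⁻¹' ball (cp x) (r / 2) ∈ 𝓝 x :=
      Filter.inter_mem ((ch x).open_source.mem_nhds (mem_ch x))
        (cp_cont.continuousAt.preimage_mem_nhds (ball_mem_nhds _ (by positivity)))
    refine Filter.mem_of_superset h3 ?_
    rintro y ⟨hy1, hy2⟩
    exact ⟨cp y, ball_subset_closedBall hy2, (isCh_ch x).symm_cp hy1⟩
  · rintro _ ⟨z, hz, rfl⟩
    exact interior_subset (hcl hz).2

lemma lev_add_const (φ : M → ℝ) (c : ℝ) (x : M) (w : Fin n → ℂ) :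
    lev (fun y => φ y + c) x w = lev φ x w := by
  have h : D (fun y => φ y + c) = D φ := by
    funext y
    exact fderiv_add_const c
  unfold lev
  rw [h]

/-- **Regularisation theorem.** -/
theorem exists_reg [T2Space M] {ψ : M → ℝ} (h : PSH ψ) {C : Set M} (hC : IsCompact C) :
    ∃ (U : Set M) (φ : ℕ → M → ℝ), IsOpen U ∧ C ⊆ U ∧
      (∀ k, ∀ x ∈ U, ContDiffAt ℝ (⊤ : ℕ∞) (φ k ∘ (ch x).symm) (cp x)) ∧
      (∀ k, ∀ x ∈ U, ∀ w, 0 ≤ lev (φ k) x w) ∧
      (∀ x ∈ U, Antitone fun k => φ k x) ∧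
      (∀ k, ∀ x ∈ U, ψ x ≤ φ k x) ∧
      (∀ x ∈ U, Tendsto (fun k => φ k x) atTop (𝓝 (ψ x))) := by
  have := locallyCompact_rdom n M
  obtain ⟨C', hC', hCC'⟩ := exists_compact_superset hC
  obtain ⟨r, hr, hadm⟩ := exists_adm hC'
  obtain ⟨κ, hκ, hs⟩ := exists_ker_pi n
  -- one step
  have step : ∀ (k : ℕ) (ε : {ε : ℝ // 0 < ε ∧ ε < r}), ∃ ε' : {ε : ℝ // 0 < ε ∧ ε < r},
      (ε' : ℝ) ≤ ε / 2 ∧ ∀ x ∈ C', reg κ ε' ψ x < reg κ ε ψ x + (1 / 2 : ℝ) ^ k := by
    rintro k ⟨ε, hε, hεr⟩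
    obtain ⟨ε₀, hε₀, h0⟩ := h.reg_lt hκ hC' (g := fun x => reg κ ε ψ x + (1 / 2 : ℝ) ^ k)
      (fun x hx => by
        have h1 := (h.contDiffAt_reg hκ hs hε hεr (hadm x hx)).continuousAt
        have h2 : ContinuousAt (fun y => (reg κ ε ψ ∘ (ch x).symm) (cp y)) x :=
          ContinuousAt.comp (g := reg κ ε ψ ∘ (ch x).symm) h1 cp_cont.continuousAt
        exact (h2.congr (eventually_eq_comp (isCh_ch x) (mem_ch x) _).symm).add
          continuousAt_const)
      (fun x hx => by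
        have h1 := h.le_reg hκ hε hεr (hadm x hx)
        have h2 : (0 : ℝ) < (1 / 2 : ℝ) ^ k := by positivity
        linarith)
    refine ⟨⟨min ε₀ (ε / 2), lt_min hε₀ (by positivity),
      (min_le_right _ _).trans_lt (by linarith)⟩, min_le_right _ _, fun x hx => ?_⟩
    exact h0 _ (lt_min hε₀ (by positivity)) (min_le_left _ _) x hx
  choose nxt hnxt1 hnxt2 using step
  let e : ℕ → {ε : ℝ // 0 < ε ∧ ε < r} := fun k =>
    Nat.rec ⟨r / 2, by positivity, by linarith⟩ (fun k ε => nxt k ε) k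
  have he : ∀ k, e (k + 1) = nxt k (e k) := fun k => rfl
  have hsmall : ∀ k : ℕ, (e k).1 ≤ r * (1 / 2 : ℝ) ^ k := by
    intro k
    induction k with
    | zero => rw [pow_zero, mul_one]; exact (e 0).2.2.le
    | succ k ih =>
      rw [he, pow_succ]
      have := hnxt1 k (e k)
      linarith
  have htend : Tendsto (fun k : ℕ => ((e k).1 : ℝ)) atTop (𝓝 0) := by
    have h1 : Tendsto (fun k : ℕ => r * (1 / 2 : ℝ) ^ k) atTop (𝓝 (r * 0)) :=
      (tendsto_pow_atTop_nhds_zero_of_lt_one (by norm_num) (by norm_num)).const_mul r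
    rw [mul_zero] at h1
    exact squeeze_zero (fun k => (e k).2.1.le) hsmall h1
  refine ⟨interior C', fun k x => reg κ (e k).1 ψ x + 2 * (1 / 2 : ℝ) ^ k, isOpen_interior, hCC',
    ?_, ?_, ?_, ?_, ?_⟩
  · intro k x hx
    have h1 := h.contDiffAt_reg hκ hs (e k).2.1 (e k).2.2 (hadm x (interior_subset hx))
    exact h1.add contDiffAt_const
  · intro k x hx w
    rw [lev_add_const]
    exact h.lev_reg_nonneg hκ hs (e k).2.1 (e k).2.2 (hadm x (interior_subset hx)) w
  · intro x hx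
    refine antitone_nat_of_succ_le fun k => ?_
    have h1 := hnxt2 k (e k) x (interior_subset hx)
    rw [← he] at h1
    simp only [pow_succ]
    linarith
  · intro k x hx
    have h1 := h.le_reg hκ (e k).2.1 (e k).2.2 (hadm x (interior_subset hx))
    have h2 : (0 : ℝ) < (1 / 2 : ℝ) ^ k := by positivity
    linarith
  · intro x hx
    have hreg : Tendsto (fun k => reg κ (e k).1 ψ x) atTop (𝓝 (ψ x)) := by
      rw [tendsto_order]
      constructor
      · intro a ha
        exact Eventually.of_forall fun k =>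
          ha.trans_le (h.le_reg hκ (e k).2.1 (e k).2.2 (hadm x (interior_subset hx)))
      · intro a ha
        obtain ⟨ε₀, hε₀, h0⟩ := h.reg_lt hκ (isCompact_singleton (x := x)) (g := fun _ => a)
          (fun _ _ => continuousAt_const) (fun y hy => by rw [mem_singleton_iff.1 hy]; exact ha)
        filter_upwards [htend.eventually (gt_mem_nhds hε₀)] with k hk
        exact h0 _ (e k).2.1 hk.le x rfl
    have h2 : Tendsto (fun k : ℕ => 2 * (1 / 2 : ℝ) ^ k) atTop (𝓝 (2 * 0)) :=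
      (tendsto_pow_atTop_nhds_zero_of_lt_one (by norm_num) (by norm_num)).const_mul 2
    simpa using hreg.add h2

/-! ### circles in charts -/

lemma continuous_circ_chart {e : OpenPartialHomeomorph M (Fin n → ℂ)} {z v : Fin n → ℂ}
    (hd : ∀ w : ℂ, ‖w‖ ≤ 1 → z + w • v ∈ e.target) :
    Continuous (fun θ : ℝ => e.symm (z + ang θ • v)) := by
  rw [continuous_iff_continuousAt]
  intro θ
  have h1 : Continuous (fun θ : ℝ => z + ang θ • v) := by
    have := continuous_ang
    fun_prop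
  have h2 : ContinuousAt e.symm (z + ang θ • v) :=
    e.symm.continuousAt (by simpa using disc_ang hd θ)
  exact ContinuousAt.comp (g := e.symm) h2 h1.continuousAt

lemma isCompact_disc_chart {e : OpenPartialHomeomorph M (Fin n → ℂ)} {z v : Fin n → ℂ}
    (hd : ∀ w : ℂ, ‖w‖ ≤ 1 → z + w • v ∈ e.target) :
    IsCompact ((fun w : ℂ => e.symm (z + w • v)) '' closedBall 0 1) := by
  refine (isCompact_closedBall (0 : ℂ) 1).image_of_continuousOn ?_
  refine e.symm.continuousOn.comp (by fun_prop) ?_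
  intro w hw
  rw [mem_closedBall, dist_zero_right] at hw
  exact hd w hw

lemma mem_disc_chart {e : OpenPartialHomeomorph M (Fin n → ℂ)} {z v : Fin n → ℂ} (θ : ℝ) :
    e.symm (z + ang θ • v) ∈ (fun w : ℂ => e.symm (z + w • v)) '' closedBall 0 1 :=
  ⟨ang θ, by rw [mem_closedBall, dist_zero_right]; exact (norm_ang θ).le, rfl⟩

/-- bounded upper semicontinuous functions are integrable on circles -/
lemma integrable_circ_usc {ψ : M → ℝ} (h : UpperSemicontinuous ψ) {e : OpenPartialHomeomorph M (Fin n → ℂ)}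
    {z v : Fin n → ℂ} (hd : ∀ w : ℂ, ‖w‖ ≤ 1 → z + w • v ∈ e.target) {K : ℝ}
    (hK : ∀ x ∈ (fun w : ℂ => e.symm (z + w • v)) '' closedBall 0 1, |ψ x| ≤ K) :
    Integrable (fun θ : ℝ => (ψ ∘ e.symm) (z + ang θ • v)) circ := by
  have h1 : UpperSemicontinuous (fun θ : ℝ => ψ (e.symm (z + ang θ • v))) :=
    h.comp (continuous_circ_chart hd)
  refine Integrable.of_bound h1.measurable.aestronglyMeasurable K ?_
  exact Eventually.of_forall fun θ => by
    rw [Real.norm_eq_abs]; exact hK _ (mem_disc_chart θ)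

lemma PSH.integrable_circ {ψ : M → ℝ} (h : PSH ψ) {e : OpenPartialHomeomorph M (Fin n → ℂ)}
    {z v : Fin n → ℂ} (hd : ∀ w : ℂ, ‖w‖ ≤ 1 → z + w • v ∈ e.target) :
    Integrable (fun θ : ℝ => (ψ ∘ e.symm) (z + ang θ • v)) circ := by
  obtain ⟨K, hK⟩ := h.exists_bound (isCompact_disc_chart hd)
  exact integrable_circ_usc h.usc hd hK

lemma PSH.le_av {ψ : M → ℝ} (h : PSH ψ) {e : OpenPartialHomeomorph M (Fin n → ℂ)} (he : IsCh e)
    {z v : Fin n → ℂ} (hd : ∀ w : ℂ, ‖w‖ ≤ 1 → z + w • v ∈ e.target) :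
    ψ (e.symm z) ≤ av (ψ ∘ e.symm) z v := by
  have := (h.sm e he).le hd
  simpa using this

/-- constructor -/
lemma PSH.mk' {ψ : M → ℝ} (h1 : UpperSemicontinuous ψ)
    (h2 : ∀ x, ∃ c : ℝ, ∀ᶠ y in 𝓝 x, c ≤ ψ y)
    (h3 : ∀ e : OpenPartialHomeomorph M (Fin n → ℂ), IsCh e → ∀ z v : Fin n → ℂ,
      (∀ w : ℂ, ‖w‖ ≤ 1 → z + w • v ∈ e.target) → ψ (e.symm z) ≤ av (ψ ∘ e.symm) z v) :
    PSH ψ :=
  ⟨h1, h2, fun e he => SM.of_le fun z v hd => by simpa using h3 e he z v hd⟩

/-! ### closure properties -/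

lemma PSH.const (c : ℝ) : PSH (fun _ : M => c) :=
  PSH.mk' continuous_const.upperSemicontinuous
    (fun _ => ⟨c, Eventually.of_forall fun _ => le_rfl⟩)
    (fun e he z v hd => by simp [av])

lemma PSH.add {ψ ψ' : M → ℝ} (h : PSH ψ) (h' : PSH ψ') : PSH (fun x => ψ x + ψ' x) := by
  refine PSH.mk' (h.usc.add h'.usc) (fun x => ?_) (fun e he z v hd => ?_)
  · obtain ⟨c, hc⟩ := h.bdd x
    obtain ⟨c', hc'⟩ := h'.bdd x
    exact ⟨c + c', (hc.and hc').mono fun y hy => add_le_add hy.1 hy.2⟩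
  · have h1 := h.le_av he hd
    have h2 := h'.le_av he hd
    have h3 : av ((fun x => ψ x + ψ' x) ∘ e.symm) z v = av (ψ ∘ e.symm) z v +
        av (ψ' ∘ e.symm) z v := by
      unfold av
      rw [← integral_add (h.integrable_circ hd) (h'.integrable_circ hd)]
      rfl
    rw [h3]
    exact add_le_add h1 h2

lemma PSH.const_mul {ψ : M → ℝ} (h : PSH ψ) {c : ℝ} (hc : 0 ≤ c) : PSH (fun x => c * ψ x) := by
  rcases hc.eq_or_lt with rfl | hc
  · simpa using PSH.const (n := n) (M := M) 0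
  refine PSH.mk' ?_ (fun x => ?_) (fun e he z v hd => ?_)
  · intro x y hy
    have h1 : ψ x < y / c := by rwa [lt_div_iff₀ hc, mul_comm]
    filter_upwards [h.usc x _ h1] with t ht
    rwa [lt_div_iff₀ hc, mul_comm] at ht
  · obtain ⟨a, ha⟩ := h.bdd x
    exact ⟨c * a, ha.mono fun y hy => mul_le_mul_of_nonneg_left hy hc.le⟩
  · have h3 : av ((fun x => c * ψ x) ∘ e.symm) z v = c * av (ψ ∘ e.symm) z v := by
      unfold av
      rw [← integral_const_mul]
      rfl
    rw [h3]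
    exact mul_le_mul_of_nonneg_left (h.le_av he hd) hc.le

lemma PSH.sup {ψ ψ' : M → ℝ} (h : PSH ψ) (h' : PSH ψ') : PSH (fun x => max (ψ x) (ψ' x)) := by
  have husc : UpperSemicontinuous (fun x => max (ψ x) (ψ' x)) := by
    intro x y hy
    filter_upwards [h.usc x y ((le_max_left _ _).trans_lt hy),
      h'.usc x y ((le_max_right _ _).trans_lt hy)] with t h1 h2
    exact max_lt h1 h2
  have hb : ∀ {e : OpenPartialHomeomorph M (Fin n → ℂ)} {z v : Fin n → ℂ}
      (_hd : ∀ w : ℂ, ‖w‖ ≤ 1 → z + w • v ∈ e.target),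
      Integrable (fun θ : ℝ => ((fun x => max (ψ x) (ψ' x)) ∘ e.symm) (z + ang θ • v)) circ := by
    intro e z v hd
    exact (h.integrable_circ hd).sup (h'.integrable_circ hd)
  refine PSH.mk' husc (fun x => ?_) (fun e he z v hd => ?_)
  · obtain ⟨c, hc⟩ := h.bdd x
    exact ⟨c, hc.mono fun y hy => hy.trans (le_max_left _ _)⟩
  · refine max_le ((h.le_av he hd).trans ?_) ((h'.le_av he hd).trans ?_)
    · exact integral_mono (h.integrable_circ hd) (hb hd) fun θ => le_max_left _ _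
    · exact integral_mono (h'.integrable_circ hd) (hb hd) fun θ => le_max_right _ _

/-- smooth functions with nonnegative Levi form -/
lemma PSH.of_smooth {φ : M → ℝ} (hs : Sm φ) (hl : ∀ x w, 0 ≤ lev φ x w) : PSH φ := by
  refine PSH.mk' hs.continuous.upperSemicontinuous (fun x => ⟨φ x - 1, ?_⟩)
    (fun e he z v hd => ?_)
  · exact (hs.continuous.continuousAt.eventually (lt_mem_nhds (by linarith : φ x - 1 < φ x))).mono
      fun y hy => le_of_lt hy
  · rw [av_eq_circleAverage]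
    have hC : ∀ w : ℂ, ‖w‖ ≤ 1 → ContDiffAt ℝ 2 (φ ∘ e.symm) (z + w • v) := fun w hw =>
      (hs.contDiffAt' he (hd w hw)).of_le (by norm_cast)
    have h1 := Crest.Agent.R275.FL884.le_circleAverage_of_contDiffAt
      (ψ := fun w : ℂ => (φ ∘ e.symm) (z + w • v)) (c := 0) (fun w hw => by
        rw [mem_closedBall, dist_zero_right] at hw
        have h1 : ContDiff ℝ 2 (fun w : ℂ => z + w • v) := by fun_prop
        exact ContDiffAt.comp (g := φ ∘ e.symm) w (hC w hw) h1.contDiffAt)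
      (fun w hw => by
        rw [mem_closedBall, dist_zero_right] at hw
        rw [snd_line_at (hC w hw), snd_line_at (hC w hw), one_smul, mul_zero, neg_zero]
        have hx : e.symm (z + w • v) ∈ e.source := e.map_target (hd w hw)
        have hcp : cp (e.symm (z + w • v)) = z + w • v := he.cp_symm (hd w hw)
        have h2 := hl (e.symm (z + w • v)) v
        rw [lev_eq_chart he hx (by rw [hcp]; exact hC w hw), hcp] at h2
        linarith)
    simpa using h1

end Crest.Agent.R273.Reg_844
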