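import Crest.Agent.R271.T7b1_868
import Crest.Agent.R271.T7b2_88
import Crest.Agent.R271.H7a_51
import Crest.Agent.R271.T2_361
import Crest.Agent.R271.Engine_51
import Crest.Agent.R271.T7a_297

-- ▼ part R273/TwW_34
section

/-!
# Row 273, twisted engine: the weights `ψ, χ` and the cut-offs `η_ν`, with an arbitrary extra
growth function `L` (helper34; adapted from `R271/T7b1_868`)
-/

set_option autoImplicit false
set_option linter.unusedSectionVars false

noncomputable section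

open Set Filter Topology MeasureTheory
open Crest.Agent.R271.Ho51

namespace Crest.Agent.R273.TwW_34

open Crest.Agent.R271.H868

variable {n : ℕ} {M : Type*} [TopologicalSpace M] [RDom n M]

variable [T2Space M] [SecondCountableTopology M] [MeasurableSpace M] [BorelSpace M]

theorem exists_weights {μ : Measure M} (hμ : IsLeb μ) (rho : M → ℝ) (hρ : Sm rho)
    (hcpt : ∀ t : ℝ, IsCompact {x | rho x ≤ t}) (hL : ∀ x w, nsq w ≤ Levi rho x w) (a : ℝ)
    (h : M → ℝ) (hh : Continuous h) (L : M → ℝ) (hLs : Sm L) (hL0 : ∀ x, 0 ≤ L x)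
    (D0 : ℝ) (hD0 : 0 ≤ D0) :
    ∃ psi chi : M → ℝ, Sm psi ∧ Sm chi ∧ (∀ x, 0 ≤ psi x) ∧
      (∀ x, rho x ≤ a → psi x = 0 ∧ chi x = 0) ∧ (∀ x, 2 * psi x ≤ chi x) ∧
      (∀ x w, D0 * nsq (fun j => dz j (fun y => (psi y : ℂ)) x) * nsq w ≤ Levi chi x w) ∧
      (∫⁻ x, ENNReal.ofReal (|h x| * Real.exp (psi x - chi x)) ∂μ < ⊤) ∧
      ∃ eta : ℕ → M → ℝ, (∀ nu, Sm (eta nu) ∧ HasCompactSupport (eta nu) ∧
        (∀ x, 0 ≤ eta nu x ∧ eta nu x ≤ 1) ∧
        ∀ x, nsq (fun j => dz j (fun y => (eta nu y : ℂ)) x) ≤ Real.exp (psi x - L x)) ∧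
        ∀ x, ∀ᶠ nu in atTop, ∀ᶠ y in 𝓝 x, eta nu y = 1 := by
  obtain ⟨C, hC0, hC, hCneg⟩ := exists_deriv_st_bound
  have := hμ.locallyFinite
  have hρc : Continuous rho := hρ.continuous
  have hst : ContDiff ℝ (⊤ : ℕ∞) Real.smoothTransition := Real.smoothTransition.contDiff
  -- the square of the gradient of `rho`
  set q : M → ℝ := fun x => nsq (fun j => dz j (fun y => (rho y : ℂ)) x) with hq
  have hqs : Sm q := Sm_nsq_dz hρ.ofReal
  have hq0 : ∀ x, 0 ≤ q x := fun x => nsq_nonneg _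
  have hpos : ∀ x, 1 ≤ 1 + C * q x := fun x => by
    have := mul_nonneg hC0 (hq0 x); linarith
  set psi : M → ℝ := fun x => Real.smoothTransition (rho x - (a + 1)) *
    (Real.log (1 + C * q x) + L x) with hpsi
  have hpsis : Sm psi := by
    have h1 : Sm (fun x => Real.smoothTransition (rho x - (a + 1))) :=
      Sm.comp (g := fun t : ℝ => Real.smoothTransition (t - (a + 1)))
        (hst.comp (contDiff_id.sub contDiff_const)) hρ
    have h2 : Sm (fun x => Real.log (1 + C * q x)) := by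
      refine Sm.comp_at (g := fun s => Real.log (1 + C * s)) hqs fun x => ?_
      refine ContDiffAt.log ?_ ?_
      · exact contDiffAt_const.add (contDiffAt_const.mul contDiffAt_id)
      · have := hpos x; linarith
    exact h1.mulR (h2.add hLs)
  have hpsi0 : ∀ x, 0 ≤ psi x := fun x =>
    mul_nonneg (Real.smoothTransition.nonneg _) (add_nonneg (Real.log_nonneg (hpos x)) (hL0 x))
  have hpsiz : ∀ x, rho x ≤ a + 1 → psi x = 0 := fun x hx => by
    simp only [hpsi]
    rw [Real.smoothTransition.zero_of_nonpos (by linarith), zero_mul]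
  set r : M → ℝ := fun x => nsq (fun j => dz j (fun y => (psi y : ℂ)) x) with hr
  have hrs : Sm r := Sm_nsq_dz hpsis.ofReal
  have hr0 : ∀ x, 0 ≤ r x := fun x => nsq_nonneg _
  have hrz : ∀ x, rho x < a + 1 → r x = 0 := fun x hx => by
    have h1 : (fun y => (psi y : ℂ)) =ᶠ[𝓝 x] fun _ => 0 := by
      filter_upwards [hρc.continuousAt.eventually_lt continuousAt_const hx] with y hy
      rw [hpsiz y hy.le]; simp
    have h2 : ∀ j, dz j (fun y => (psi y : ℂ)) x = 0 := fun j => by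
      rw [dz_congr h1, dz_const]
    simp only [hr, h2, nsq]
    simp
  -- the sequence `b`
  have hcont : Continuous fun x => 2 * psi x + D0 * r x + |h x| + psi x :=
    (((continuous_const.mul hpsis.continuous).add (continuous_const.mul hrs.continuous)).add
      hh.abs).add hpsis.continuous
  have hbd : ∀ k : ℕ, ∃ c : ℝ, ∀ x, rho x ≤ a + k + 2 → 2 * psi x + D0 * r x + |h x| + psi x ≤ c := by
    intro k
    obtain ⟨c, hc⟩ := (hcpt (a + k + 2)).exists_bound_of_continuousOn hcont.continuousOn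
    exact ⟨c, fun x hx => (Real.le_norm_self _).trans (hc x hx)⟩
  choose c hc using hbd
  set b : ℕ → ℝ := fun k => c k + (μ {x | rho x ≤ a + k + 2}).toReal + k with hb
  obtain ⟨X, hX, hXz, hXpos, hXb⟩ := Crest.Agent.R271.H88.exists_convex_weight a b
  set chi : M → ℝ := fun x => X (rho x) with hchi
  have hchis : Sm chi := Sm.comp hX hρ
  -- the index `k` of a point
  have hidx : ∀ x, a + 1 ≤ rho x → ∃ k : ℕ, a + k + 1 ≤ rho x ∧ rho x ≤ a + k + 2 := by
    intro x hx
    refine ⟨⌊rho x - (a + 1)⌋₊, ?_, ?_⟩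
    · have := Nat.floor_le (a := rho x - (a + 1)) (by linarith)
      linarith
    · have := (Nat.lt_floor_add_one (rho x - (a + 1))).le
      linarith
  have hkey : ∀ x (k : ℕ), a + k + 1 ≤ rho x → rho x ≤ a + k + 2 →
      2 * psi x + D0 * r x + |h x| + psi x + (μ {x | rho x ≤ a + k + 2}).toReal + k ≤ chi x ∧
      2 * psi x + D0 * r x + |h x| + psi x + (μ {x | rho x ≤ a + k + 2}).toReal + k
        ≤ deriv X (rho x) := by
    intro x k h1 h2
    have h3 := hc k x h2
    have h4 := hXb k (rho x) h1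
    simp only [hb] at h4
    constructor
    · have := h4.1; simp only [hchi]; linarith
    · have := h4.2; linarith
  have hvol : ∀ k : ℕ, 0 ≤ (μ {x | rho x ≤ a + k + 2}).toReal := fun k => ENNReal.toReal_nonneg
  refine ⟨psi, chi, hpsis, hchis, hpsi0, fun x hx => ⟨hpsiz x (by linarith), hXz _ hx⟩, ?_, ?_, ?_,
    ?_⟩
  · intro x
    rcases le_or_gt (rho x) (a + 1) with hx | hx
    · rw [hpsiz x hx, mul_zero]; exact (hXpos _).1
    · obtain ⟨k, h1, h2⟩ := hidx x hx.le
      have h3 := (hkey x k h1 h2).1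
      have h4 := hvol k
      have h5 := mul_nonneg hD0 (hr0 x)
      have h6 := hpsi0 x
      have h7 := abs_nonneg (h x)
      have h8 : (0 : ℝ) ≤ k := Nat.cast_nonneg k
      linarith
  · intro x w
    have hLx := hL x w
    have hw := nsq_nonneg w
    have e := Levi_comp hρ hX x w
    have hX2 : 0 ≤ deriv (deriv X) (rho x) * ‖∑ j, dz j (fun y => (rho y : ℂ)) x * w j‖ ^ 2 :=
      mul_nonneg (hXpos _).2.2 (sq_nonneg _)
    change D0 * r x * nsq w ≤ Levi (fun y => X (rho y)) x w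
    rw [e]
    rcases lt_or_ge (rho x) (a + 1) with hx | hx
    · rw [hrz x hx, mul_zero, zero_mul]
      exact add_nonneg (mul_nonneg (hXpos _).2.1 (hw.trans hLx)) hX2
    · obtain ⟨k, h1, h2⟩ := hidx x hx
      have h3 := (hkey x k h1 h2).2
      have h4 := hvol k
      have h5 := mul_nonneg hD0 (hr0 x)
      have h6 := hpsi0 x
      have h7 := abs_nonneg (h x)
      have h8 : (0 : ℝ) ≤ k := Nat.cast_nonneg k
      have h9 : D0 * r x ≤ deriv X (rho x) := by linarith
      have h10 : D0 * r x * nsq w ≤ deriv X (rho x) * Levi rho x w :=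
        mul_le_mul h9 hLx hw (hXpos _).2.1
      linarith
  · -- integrability
    set F : M → ENNReal := fun x => ENNReal.ofReal (|h x| * Real.exp (psi x - chi x)) with hF
    set S : ℕ → Set M := fun k => {x | a + k + 1 ≤ rho x ∧ rho x ≤ a + k + 2} with hS
    have hcov : (univ : Set M) ⊆ {x | rho x ≤ a + 1} ∪ ⋃ k, S k := by
      intro x _
      rcases le_or_gt (rho x) (a + 1) with hx | hx
      · exact Or.inl hx
      · obtain ⟨k, h1, h2⟩ := hidx x hx.le
        exact Or.inr (mem_iUnion.2 ⟨k, h1, h2⟩)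
    have hS' : ∀ k, ∫⁻ x in S k, F x ∂μ ≤ ENNReal.ofReal (Real.exp (-(k : ℝ))) := by
      intro k
      have hSm : MeasurableSet (S k) :=
        (measurableSet_le measurable_const hρc.measurable).inter
          (measurableSet_le hρc.measurable measurable_const)
      have hfin : μ {x | rho x ≤ a + k + 2} ≠ ⊤ := (hcpt _).measure_lt_top.ne
      set V : ℝ := (μ {x | rho x ≤ a + k + 2}).toReal with hV
      have hSV : μ (S k) ≤ ENNReal.ofReal V := by
        rw [hV, ENNReal.ofReal_toReal hfin]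
        exact measure_mono fun x hx => hx.2
      have hpt : ∀ x ∈ S k, F x ≤ ENNReal.ofReal (Real.exp (-(V + k))) := by
        intro x hx
        apply ENNReal.ofReal_le_ofReal
        have h3 := (hkey x k hx.1 hx.2).1
        have h5 := mul_nonneg hD0 (hr0 x)
        have h6 := hpsi0 x
        have h7 : |h x| ≤ Real.exp |h x| := (by
          have := Real.add_one_le_exp |h x|; linarith)
        calc |h x| * Real.exp (psi x - chi x)
            ≤ Real.exp |h x| * Real.exp (psi x - chi x) :=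
              mul_le_mul_of_nonneg_right h7 (Real.exp_pos _).le
          _ = Real.exp (|h x| + (psi x - chi x)) := (Real.exp_add _ _).symm
          _ ≤ Real.exp (-(V + k)) := by
              apply Real.exp_le_exp.2
              linarith
      calc ∫⁻ x in S k, F x ∂μ ≤ ∫⁻ _ in S k, ENNReal.ofReal (Real.exp (-(V + k))) ∂μ :=
            setLIntegral_mono measurable_const hpt
        _ = ENNReal.ofReal (Real.exp (-(V + k))) * μ (S k) := setLIntegral_const _ _
        _ ≤ ENNReal.ofReal (Real.exp (-(V + k))) * ENNReal.ofReal V := by gcongr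
        _ = ENNReal.ofReal (Real.exp (-(V + k)) * V) :=
            (ENNReal.ofReal_mul (Real.exp_pos _).le).symm
        _ ≤ ENNReal.ofReal (Real.exp (-(k : ℝ))) := by
            apply ENNReal.ofReal_le_ofReal
            have h7 : V ≤ Real.exp V := (by have := Real.add_one_le_exp V; linarith)
            calc Real.exp (-(V + k)) * V ≤ Real.exp (-(V + k)) * Real.exp V :=
                  mul_le_mul_of_nonneg_left h7 (Real.exp_pos _).le
              _ = Real.exp (-(k : ℝ)) := by rw [← Real.exp_add]; congr 1; ring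
    have hK : ∫⁻ x in {x | rho x ≤ a + 1}, F x ∂μ < ⊤ := by
      have hFc : Continuous fun x => |h x| * Real.exp (psi x - chi x) :=
        hh.abs.mul (Real.continuous_exp.comp (hpsis.continuous.sub hchis.continuous))
      obtain ⟨c', hc'⟩ := (hcpt (a + 1)).exists_bound_of_continuousOn hFc.continuousOn
      calc ∫⁻ x in {x | rho x ≤ a + 1}, F x ∂μ
          ≤ ∫⁻ _ in {x | rho x ≤ a + 1}, ENNReal.ofReal c' ∂μ :=
            setLIntegral_mono measurable_const fun x hx =>
              ENNReal.ofReal_le_ofReal ((Real.le_norm_self _).trans (hc' x hx))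
        _ = ENNReal.ofReal c' * μ {x | rho x ≤ a + 1} := setLIntegral_const _ _
        _ < ⊤ := ENNReal.mul_lt_top ENNReal.ofReal_lt_top (hcpt _).measure_lt_top
    calc ∫⁻ x, F x ∂μ = ∫⁻ x in univ, F x ∂μ := by rw [Measure.restrict_univ]
      _ ≤ ∫⁻ x in {x | rho x ≤ a + 1} ∪ ⋃ k, S k, F x ∂μ := lintegral_mono_set hcov
      _ ≤ ∫⁻ x in {x | rho x ≤ a + 1}, F x ∂μ + ∫⁻ x in ⋃ k, S k, F x ∂μ :=
          lintegral_union_le _ _ _
      _ ≤ ∫⁻ x in {x | rho x ≤ a + 1}, F x ∂μ + ∑' k, ∫⁻ x in S k, F x ∂μ := by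
          gcongr
          exact lintegral_iUnion_le _ _
      _ ≤ ∫⁻ x in {x | rho x ≤ a + 1}, F x ∂μ +
            ∑' k : ℕ, ENNReal.ofReal (Real.exp (-(k : ℝ))) := by
          gcongr with k
          exact hS' k
      _ < ⊤ := by
          refine ENNReal.add_lt_top.2 ⟨hK, ?_⟩
          rw [← ENNReal.ofReal_tsum_of_nonneg (fun k => (Real.exp_pos _).le)
            Real.summable_exp_neg_nat]
          exact ENNReal.ofReal_lt_top
  · -- cut-offs
    set eta : ℕ → M → ℝ := fun nu x => 1 - Real.smoothTransition (rho x - (nu + a + 2)) with heta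
    have hes : ∀ nu, Sm (eta nu) := fun nu =>
      Sm.comp (g := fun t : ℝ => 1 - Real.smoothTransition (t - (nu + a + 2)))
        (contDiff_const.sub (hst.comp (contDiff_id.sub contDiff_const))) hρ
    refine ⟨eta, fun nu => ⟨hes nu, ?_, ?_, ?_⟩, ?_⟩
    · refine HasCompactSupport.intro (hcpt (nu + a + 3)) fun x hx => ?_
      simp only [mem_ofPred_eq, not_le] at hx
      simp only [heta]
      rw [Real.smoothTransition.one_of_one_le (by linarith), sub_self]
    · intro x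
      have h1 := Real.smoothTransition.nonneg (rho x - (nu + a + 2))
      have h2 := Real.smoothTransition.le_one (rho x - (nu + a + 2))
      simp only [heta]
      constructor <;> linarith
    · intro x
      set s : ℝ := rho x - (nu + a + 2) with hs
      have hd : HasDerivAt (fun t : ℝ => 1 - Real.smoothTransition (t - (nu + a + 2)))
          (-(deriv Real.smoothTransition s)) (rho x) := by
        have h1 : HasDerivAt Real.smoothTransition (deriv Real.smoothTransition s) s :=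
          (hst.differentiable (by simp) _).hasDerivAt
        have h2 : HasDerivAt (fun t : ℝ => t - (nu + a + 2)) 1 (rho x) :=
          (hasDerivAt_id _).sub_const _
        have h3 := (HasDerivAt.comp (rho x) h1 h2).const_sub 1
        simpa using h3
      have h1 : ∀ j, dz j (fun y => (eta nu y : ℂ)) x =
          ((-(deriv Real.smoothTransition s) : ℝ) : ℂ) * dz j (fun y => (rho y : ℂ)) x := fun j =>
        dz_comp_real hρ (hes nu) x hd j
      have h2 : nsq (fun j => dz j (fun y => (eta nu y : ℂ)) x) =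
          (deriv Real.smoothTransition s) ^ 2 * q x := by
        simp only [h1]
        rw [nsq_smul_real, neg_sq]
      rw [h2]
      rcases lt_or_ge (rho x) (a + 2) with hx | hx
      · have : s < 0 := by
          have : (0 : ℝ) ≤ nu := Nat.cast_nonneg nu
          rw [hs]; linarith
        rw [hCneg s this]
        simpa using (Real.exp_pos _).le
      · have h3 : psi x - L x = Real.log (1 + C * q x) := by
          simp only [hpsi]
          rw [Real.smoothTransition.one_of_one_le (by linarith), one_mul]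
          ring
        rw [h3, Real.exp_log (by have := hpos x; linarith)]
        have := mul_le_mul_of_nonneg_right (hC s) (hq0 x)
        linarith
    · intro x
      obtain ⟨N, hN⟩ := exists_nat_gt (rho x - (a + 2))
      filter_upwards [eventually_ge_atTop N] with nu hnu
      have h1 : rho x < nu + a + 2 := by
        have : (N : ℝ) ≤ nu := by exact_mod_cast hnu
        linarith
      filter_upwards [hρc.continuousAt.eventually_lt continuousAt_const h1] with y hy
      simp only [heta]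
      rw [Real.smoothTransition.zero_of_nonpos (by linarith), sub_zero]

end Crest.Agent.R273.TwW_34
end
end

-- ▼ part R273/TwP_34
section

/-!
# Row 273, twisted engine: from test forms to compactly supported `L²` forms
(helper34; adapted from `R271/T7b2_88`)
-/

set_option autoImplicit false
set_option linter.unusedSectionVars false

noncomputable section

open Set Filter Topology MeasureTheory ComplexConjugate
open scoped ENNReal

namespace Crest.Agent.R273.TwP_34

open Crest.Agent.R271.Ho51 Crest.Agent.R271.H88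

variable {n : ℕ} {M : Type*} [TopologicalSpace M] [RDom n M] [MeasurableSpace M] [BorelSpace M]
  {μ : Measure M} [T2Space M] {Phi chi psi : M → ℝ} {al : M → (Fin n → ℂ)} {K0 : ℝ}

/-- the estimate for compactly supported `L²` forms, from the estimate for test forms -/
theorem pairC_of_test (hμ : IsLeb μ) (hPhi : Sm Phi) (hchi : Sm chi)
    (hpsi : Sm psi) (hal : Continuous al)
    (htest : ∀ f : M → (Fin n → ℂ), Sm f → HasCompactSupport f →
      ‖∫ x, (∑ j, al x j * conj (f x j)) * (Real.exp (-(Phi x + chi x - psi x)) : ℂ) ∂μ‖ ^ 2 ≤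
      K0 * (2 * ∫ x, ‖(Lop n (D f x)).1 - ∑ j, f x j *
          dz j (fun y => ((Phi y + chi y - psi y : ℝ) : ℂ)) x‖ ^ 2 *
            Real.exp (-(Phi x + chi x)) ∂μ +
        (1 / 2) * ∑ j, ∑ k, ∫ x, ‖(Lop n (D f x)).2 j k‖ ^ 2 *
            Real.exp (-(Phi x + chi x)) ∂μ)) :
    PairC μ Phi chi psi al K0 := by
  intro v d s K hv hd hs hK hvK hdK hsK hw
  have hloc := hμ.locallyFinite
  -- a relatively compact neighbourhood of `K`
  obtain ⟨U, K', hU, hKU, hUK', hK'⟩ : ∃ U K' : Set M, IsOpen U ∧ K ⊆ U ∧ U ⊆ K' ∧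
      IsCompact K' := by
    obtain ⟨m, c, g, hg, hsum⟩ := exists_pou (M := M) hK
    refine ⟨{x | 0 < ∑ i, g i x}, ⋃ i, tsupport (g i), ?_, ?_, ?_, ?_⟩
    · exact isOpen_lt continuous_const (Sm.sum fun i _ => (hg i).1).continuous
    · intro x hx
      have := hsum.self_of_nhdsSet x hx
      simp [this]
    · intro x hx
      by_contra hcon
      have h0 : ∑ i, g i x = 0 := Finset.sum_eq_zero fun i _ => by
        by_contra hne
        exact hcon (mem_iUnion.2 ⟨i, subset_tsupport _ hne⟩)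
      rw [mem_ofPred_eq, h0] at hx
      exact lt_irrefl _ hx
    · exact isCompact_iUnion fun i => (hg i).2.1
  have hwm : MemLp (fun x => (d x, s x)) 2 μ := by
    refine MemLp.of_le_mul (g := fun x => ‖d x‖ + ‖s x‖) (c := 1) (hd.norm.add hs.norm)
      (hd.1.prodMk hs.1) (Eventually.of_forall fun x => ?_)
    rw [one_mul, Real.norm_of_nonneg (by positivity), Prod.norm_def]
    exact max_le (le_add_of_nonneg_right (norm_nonneg _)) (le_add_of_nonneg_left (norm_nonneg _))
  have hKK' : K ⊆ K' := hKU.trans hUK'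
  have hε : ∀ k : ℕ, (0 : ℝ≥0∞) < ((k : ℝ≥0∞) + 1)⁻¹ := fun k => by
    rw [ENNReal.inv_pos]; simp
  choose f hfs hfc hfU hf1 hf2 using fun k : ℕ => density_compact hμ (Lop n) v
    (fun x => (d x, s x)) hv hwm K hK hvK (fun x hx => by rw [hdK x hx, hsK x hx]; rfl) hw U hU hKU
    ((k : ℝ≥0∞) + 1)⁻¹ (hε k)
  have hfz : ∀ k, ∀ x ∉ K', f k x = 0 := fun k x hx =>
    image_eq_zero_of_notMem_tsupport fun hc => hx (hUK' (hfU k hc))
  have hDz : ∀ k, ∀ x ∉ K', D (f k) x = 0 := fun k x hx =>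
    image_eq_zero_of_notMem_tsupport fun hc => hx (hUK' (hfU k (tsupport_D _ hc)))
  have hvz : ∀ x ∉ K', v x = 0 := fun x hx => hvK x fun hc => hx (hKK' hc)
  have hdz : ∀ x ∉ K', d x = 0 := fun x hx => hdK x fun hc => hx (hKK' hc)
  have hsz : ∀ x ∉ K', s x = 0 := fun x hx => hsK x fun hc => hx (hKK' hc)
  have hinv : Tendsto (fun k : ℕ => ((k : ℝ≥0∞) + 1)⁻¹) atTop (𝓝 0) := by
    have h1 := ENNReal.tendsto_inv_nat_nhds_zero
    have h3 := (tendsto_add_atTop_iff_nat (f := fun k : ℕ => ((k : ℝ≥0∞))⁻¹) 1).2 h1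
    simpa using h3
  -- the two basic convergences
  have t1 : Tendsto (fun k => eLpNorm (f k - v) 2 μ) atTop (𝓝 0) :=
    tendsto_of_tendsto_of_tendsto_of_le_of_le tendsto_const_nhds hinv (fun _ => zero_le) hf1
  have t2 : Tendsto (fun k => eLpNorm (fun x => Lop n (D (f k) x) - (d x, s x)) 2 μ) atTop
      (𝓝 0) :=
    tendsto_of_tendsto_of_tendsto_of_le_of_le tendsto_const_nhds hinv (fun _ => zero_le) hf2
  have mfv : ∀ k, AEStronglyMeasurable (f k - v) μ := fun k =>
    (hfs k).continuous.aestronglyMeasurable.sub hv.1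
  have mDf : ∀ k, AEStronglyMeasurable (fun x => Lop n (D (f k) x)) μ := fun k =>
    ((Lop n).continuous.comp (hfs k).D.continuous).aestronglyMeasurable
  have mw : ∀ k, AEStronglyMeasurable (fun x => Lop n (D (f k) x) - (d x, s x)) μ := fun k =>
    (mDf k).sub hwm.1
  -- weights
  set E1 : M → ℝ := fun x => Real.exp (-(Phi x + chi x - psi x)) with hE1
  set E2 : M → ℝ := fun x => Real.exp (-(Phi x + chi x) / 2) with hE2
  set th : Fin n → M → ℂ := fun j x => dz j (fun y => ((Phi y + chi y - psi y : ℝ) : ℂ)) x with hth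
  have hE1c : Continuous E1 := Real.continuous_exp.comp
    ((hPhi.continuous.add hchi.continuous).sub hpsi.continuous).neg
  have hE2c : Continuous E2 := Real.continuous_exp.comp
    ((hPhi.continuous.add hchi.continuous).neg.div_const 2)
  have hE2sq : ∀ x, Real.exp (-(Phi x + chi x)) = E2 x ^ 2 := fun x => by
    rw [hE2, sq, ← Real.exp_add]; congr 1; ring
  have hthc : ∀ j, Continuous (th j) := fun j =>
    ((Sm.ofReal ((hPhi.add hchi).sub hpsi)).dz j).continuous
  obtain ⟨C2, hC2⟩ := hK'.exists_bound_of_continuousOn hE2c.continuousOn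
  obtain ⟨C3, hC3⟩ := hK'.exists_bound_of_continuousOn
    (f := fun x => ∑ j, ‖th j x‖) (continuous_finsetSum _ fun j _ => (hthc j).norm).continuousOn
  obtain ⟨C1, hC1⟩ := hK'.exists_bound_of_continuousOn
    (f := fun x => (∑ j, ‖al x j‖) * E1 x)
    ((continuous_finsetSum _ fun j _ => ((continuous_apply j).comp hal).norm).mul hE1c).continuousOn
  have hC2' : ∀ x ∈ K', E2 x ≤ |C2| := fun x hx =>
    (le_abs_self _).trans ((hC2 x hx).trans (le_abs_self _))
  have hC3' : ∀ x ∈ K', ∑ j, ‖th j x‖ ≤ |C3| := fun x hx =>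
    (le_abs_self _).trans ((hC3 x hx).trans (le_abs_self _))
  have hC1' : ∀ x ∈ K', (∑ j, ‖al x j‖) * E1 x ≤ |C1| := fun x hx =>
    (le_abs_self _).trans ((hC1 x hx).trans (le_abs_self _))
  have hE2p : ∀ x, 0 ≤ E2 x := fun x => (Real.exp_pos _).le
  have hE1p : ∀ x, 0 ≤ E1 x := fun x => (Real.exp_pos _).le
  -- the pairing converges
  have hsumle : ∀ (x : M) (a b : Fin n → ℂ), ‖∑ j, a j * conj (b j)‖ ≤ (∑ j, ‖a j‖) * ‖b‖ := by
    intro x a b
    refine (norm_sum_le _ _).trans ?_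
    rw [Finset.sum_mul]
    refine Finset.sum_le_sum fun j _ => ?_
    rw [norm_mul, Complex.norm_conj]
    gcongr
    exact norm_le_pi_norm b j
  have hsumle' : ∀ (x : M) (a b : Fin n → ℂ), ‖∑ j, b j * a j‖ ≤ (∑ j, ‖a j‖) * ‖b‖ := by
    intro x a b
    refine (norm_sum_le _ _).trans ?_
    rw [Finset.sum_mul]
    refine Finset.sum_le_sum fun j _ => ?_
    rw [norm_mul, mul_comm]
    gcongr
    exact norm_le_pi_norm b j
  have mcomp : ∀ {u : M → (Fin n → ℂ)}, AEStronglyMeasurable u μ → ∀ j : Fin n,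
      AEStronglyMeasurable (fun x => u x j) μ := fun {u} hu j =>
    (continuous_apply j).comp_aestronglyMeasurable hu
  have mpair : ∀ {u : M → (Fin n → ℂ)}, AEStronglyMeasurable u μ →
      AEStronglyMeasurable (fun x => (∑ j, al x j * conj (u x j)) * (E1 x : ℂ)) μ := by
    intro u hu
    refine AEStronglyMeasurable.mul ?_
      (Complex.continuous_ofReal.comp hE1c).aestronglyMeasurable
    refine Finset.aestronglyMeasurable_fun_sum _ fun j _ => ?_
    exact (((continuous_apply j).comp hal).aestronglyMeasurable).mul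
      (Complex.continuous_conj.comp_aestronglyMeasurable (mcomp hu j))
  have hPb : ∀ (u u' : M → (Fin n → ℂ)), (∀ x ∉ K', u x = 0) → (∀ x ∉ K', u' x = 0) → ∀ x,
      ‖(∑ j, al x j * conj (u x j)) * (E1 x : ℂ) - (∑ j, al x j * conj (u' x j)) * (E1 x : ℂ)‖ ≤
        |C1| * ‖u x - u' x‖ := by
    intro u u' hu hu' x
    have e : (∑ j, al x j * conj (u x j)) * (E1 x : ℂ) -
        (∑ j, al x j * conj (u' x j)) * (E1 x : ℂ) =
        (∑ j, al x j * conj ((u x - u' x) j)) * (E1 x : ℂ) := by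
      rw [← sub_mul, ← Finset.sum_sub_distrib]
      congr 1
      refine Finset.sum_congr rfl fun j _ => ?_
      rw [Pi.sub_apply, map_sub]; ring
    rw [e, norm_mul, Complex.norm_real, Real.norm_of_nonneg (hE1p x)]
    by_cases hx : x ∈ K'
    · calc ‖∑ j, al x j * conj ((u x - u' x) j)‖ * E1 x
          ≤ ((∑ j, ‖al x j‖) * ‖u x - u' x‖) * E1 x :=
            mul_le_mul_of_nonneg_right (hsumle x (al x) (u x - u' x)) (hE1p x)
        _ = ((∑ j, ‖al x j‖) * E1 x) * ‖u x - u' x‖ := by ring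
        _ ≤ |C1| * ‖u x - u' x‖ := mul_le_mul_of_nonneg_right (hC1' x hx) (norm_nonneg _)
    · rw [hu x hx, hu' x hx]
      simp
  have hfin : IsFiniteMeasure (μ.restrict K') :=
    ⟨by rw [Measure.restrict_apply_univ]; exact hK'.measure_lt_top⟩
  have hu1 : ∀ {u : M → (Fin n → ℂ)}, MemLp u 2 μ → (∀ x ∉ K', u x = 0) → Integrable u μ := by
    intro u hu hu0
    have h1 : IntegrableOn u K' μ :=
      memLp_one_iff_integrable.1 ((hu.restrict K').mono_exponent (by norm_num))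
    refine (integrableOn_iff_integrable_of_support_subset ?_).1 h1
    intro x hx
    by_contra hc
    exact hx (hu0 x hc)
  have hPi : ∀ {u : M → (Fin n → ℂ)}, MemLp u 2 μ → (∀ x ∉ K', u x = 0) →
      Integrable (fun x => (∑ j, al x j * conj (u x j)) * (E1 x : ℂ)) μ := by
    intro u hu hu0
    refine ((hu1 hu hu0).norm.const_mul |C1|).mono' (mpair hu.1) (Eventually.of_forall fun x => ?_)
    have := hPb u 0 hu0 (fun _ _ => rfl) x
    simpa using this
  have hfm : ∀ k, MemLp (f k) 2 μ := fun k =>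
    (hfs k).continuous.memLp_of_hasCompactSupport (hfc k)
  have tP : Tendsto (fun k => ∫ x, (∑ j, al x j * conj (f k x j)) * (E1 x : ℂ) ∂μ) atTop
      (𝓝 (∫ x, (∑ j, al x j * conj (v x j)) * (E1 x : ℂ) ∂μ)) := by
    refine tendsto_integral_of_L1' _ (hPi hv hvz).aestronglyMeasurable
      (Eventually.of_forall fun k => hPi (hfm k) (hfz k)) ?_
    have hle : ∀ k, eLpNorm ((fun x => (∑ j, al x j * conj (f k x j)) * (E1 x : ℂ)) -
        fun x => (∑ j, al x j * conj (v x j)) * (E1 x : ℂ)) 1 μ ≤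
        ENNReal.ofReal |C1| * (eLpNorm (f k - v) 2 μ * (μ K') ^ (1 / 2 : ℝ)) := by
      intro k
      refine (eLpNorm_le_mul_eLpNorm_of_ae_le_mul (g := f k - v) (c := |C1|)
        (Eventually.of_forall fun x => hPb (f k) v (hfz k) hvz x) 1).trans ?_
      gcongr
      have hsup : Function.support (f k - v) ⊆ K' := by
        intro x hx
        by_contra hc
        apply hx
        rw [Pi.sub_apply, hfz k x hc, hvz x hc, sub_zero]
      rw [← eLpNorm_restrict_eq_of_support_subset hsup]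
      refine (eLpNorm_le_eLpNorm_mul_rpow_measure_univ (p := 1) (q := 2) (by norm_num)
        (mfv k).restrict).trans ?_
      rw [Measure.restrict_apply_univ]
      have e1 : (1 / ENNReal.toReal 1 - 1 / ENNReal.toReal 2 : ℝ) = 1 / 2 := by
        simp; norm_num
      rw [e1]
      gcongr
      exact Measure.restrict_le_self
    have hlim : Tendsto (fun k => ENNReal.ofReal |C1| *
        (eLpNorm (f k - v) 2 μ * (μ K') ^ (1 / 2 : ℝ))) atTop (𝓝 0) := by
      have h1 := ENNReal.Tendsto.mul_const (b := (μ K') ^ (1 / 2 : ℝ)) t1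
        (Or.inr (ENNReal.rpow_ne_top_of_nonneg (by norm_num) hK'.measure_ne_top))
      have h3 := ENNReal.Tendsto.const_mul (a := ENNReal.ofReal |C1|) h1
        (Or.inr ENNReal.ofReal_ne_top)
      simpa using h3
    exact tendsto_of_tendsto_of_tendsto_of_le_of_le tendsto_const_nhds hlim (fun _ => zero_le) hle
  -- the divergence term
  have hE2n : ∀ x, ‖((E2 x : ℝ) : ℂ)‖ = E2 x := fun x => by
    rw [Complex.norm_real, Real.norm_of_nonneg (hE2p x)]
  have hE2cc : Continuous fun x => ((E2 x : ℝ) : ℂ) := Complex.continuous_ofReal.comp hE2c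
  have hAb : ∀ (w w' : M → ℂ × (Fin n → Fin n → ℂ)) (u u' : M → (Fin n → ℂ)),
      (∀ x ∉ K', w x = 0) → (∀ x ∉ K', w' x = 0) → (∀ x ∉ K', u x = 0) →
      (∀ x ∉ K', u' x = 0) → ∀ x,
      ‖((E2 x : ℝ) : ℂ) * ((w x).1 - ∑ j, u x j * th j x) -
        ((E2 x : ℝ) : ℂ) * ((w' x).1 - ∑ j, u' x j * th j x)‖ ≤
        (|C2| * (1 + |C3|)) * (‖w x - w' x‖ + ‖u x - u' x‖) := by
    intro w w' u u' hw0 hw0' hu hu' x
    have e : ((E2 x : ℝ) : ℂ) * ((w x).1 - ∑ j, u x j * th j x) -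
        ((E2 x : ℝ) : ℂ) * ((w' x).1 - ∑ j, u' x j * th j x) =
        ((E2 x : ℝ) : ℂ) * ((w x - w' x).1 - ∑ j, (u x - u' x) j * th j x) := by
      have : ∑ j, (u x - u' x) j * th j x = ∑ j, u x j * th j x - ∑ j, u' x j * th j x := by
        rw [← Finset.sum_sub_distrib]
        exact Finset.sum_congr rfl fun j _ => by rw [Pi.sub_apply]; ring
      rw [this, Prod.fst_sub]; ring
    rw [e, norm_mul, hE2n]
    by_cases hx : x ∈ K'
    · have h1 : ‖(w x - w' x).1 - ∑ j, (u x - u' x) j * th j x‖ ≤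
          ‖w x - w' x‖ + |C3| * ‖u x - u' x‖ := by
        refine (norm_sub_le _ _).trans (add_le_add (norm_fst_le _) ?_)
        refine (hsumle' x (fun j => th j x) (u x - u' x)).trans ?_
        exact mul_le_mul_of_nonneg_right (hC3' x hx) (norm_nonneg _)
      calc E2 x * ‖(w x - w' x).1 - ∑ j, (u x - u' x) j * th j x‖
          ≤ |C2| * (‖w x - w' x‖ + |C3| * ‖u x - u' x‖) :=
            mul_le_mul (hC2' x hx) h1 (norm_nonneg _) (abs_nonneg _)
        _ ≤ |C2| * ((1 + |C3|) * (‖w x - w' x‖ + ‖u x - u' x‖)) := by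
            refine mul_le_mul_of_nonneg_left ?_ (abs_nonneg _)
            have := abs_nonneg C3
            have h3 := norm_nonneg (w x - w' x)
            have h4 := norm_nonneg (u x - u' x)
            nlinarith
        _ = _ := by ring
    · rw [hw0 x hx, hw0' x hx, hu x hx, hu' x hx]
      simp
  have hLz : ∀ k, ∀ x ∉ K', Lop n (D (f k) x) = 0 := fun k x hx => by
    rw [hDz k x hx, map_zero]
  have hdsz : ∀ x ∉ K', ((d x, s x) : ℂ × (Fin n → Fin n → ℂ)) = 0 := fun x hx => by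
    rw [hdz x hx, hsz x hx]; rfl
  have mAv : AEStronglyMeasurable (fun x => ((E2 x : ℝ) : ℂ) * (d x - ∑ j, v x j * th j x)) μ := by
    refine hE2cc.aestronglyMeasurable.mul (hd.1.sub ?_)
    exact Finset.aestronglyMeasurable_fun_sum _ fun j _ =>
      (mcomp hv.1 j).mul (hthc j).aestronglyMeasurable
  have hAv : MemLp (fun x => ((E2 x : ℝ) : ℂ) * (d x - ∑ j, v x j * th j x)) 2 μ := by
    refine MemLp.of_le_mul (g := fun x => ‖(d x, s x)‖ + ‖v x‖) (c := |C2| * (1 + |C3|))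
      (hwm.norm.add hv.norm) mAv (Eventually.of_forall fun x => ?_)
    have := hAb (fun x => (d x, s x)) 0 v 0 hdsz (fun _ _ => rfl) hvz (fun _ _ => rfl) x
    simp only [Pi.zero_apply, sub_zero, Prod.fst_zero, zero_mul, Finset.sum_const_zero,
      mul_zero] at this
    rwa [Real.norm_of_nonneg (by positivity)]
  have hAf : ∀ k, MemLp (fun x => ((E2 x : ℝ) : ℂ) * ((Lop n (D (f k) x)).1 -
      ∑ j, f k x j * th j x)) 2 μ := by
    intro k
    refine Continuous.memLp_of_hasCompactSupport ?_ ?_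
    · refine hE2cc.mul ((continuous_fst.comp ((Lop n).continuous.comp (hfs k).D.continuous)).sub ?_)
      exact continuous_finsetSum _ fun j _ =>
        ((continuous_apply j).comp (hfs k).continuous).mul (hthc j)
    · refine HasCompactSupport.intro hK' fun x hx => ?_
      rw [hLz k x hx, hfz k x hx]
      simp
  have tA := tendsto_sq hAf hAv (tendsto_of_bound mw mfv t2 t1 (C := |C2| * (1 + |C3|))
    (by positivity) fun k x => hAb (fun x => Lop n (D (f k) x)) (fun x => (d x, s x)) (f k) v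
      (hLz k) hdsz (hfz k) hvz x)
  -- the curl terms
  have hBb : ∀ (w w' : M → ℂ × (Fin n → Fin n → ℂ)) (j i : Fin n),
      (∀ x ∉ K', w x = 0) → (∀ x ∉ K', w' x = 0) → ∀ x,
      ‖((E2 x : ℝ) : ℂ) * (w x).2 j i - ((E2 x : ℝ) : ℂ) * (w' x).2 j i‖ ≤
        |C2| * (‖w x - w' x‖ + ‖w x - w' x‖) := by
    intro w w' j i hw0 hw0' x
    rw [← mul_sub, norm_mul, hE2n]
    by_cases hx : x ∈ K'
    · have h1 : ‖(w x).2 j i - (w' x).2 j i‖ ≤ ‖w x - w' x‖ :=
        ((norm_le_pi_norm ((w x - w' x).2 j) i).trans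
          (norm_le_pi_norm ((w x - w' x).2) j)).trans (norm_snd_le _)
      calc E2 x * ‖(w x).2 j i - (w' x).2 j i‖ ≤ |C2| * ‖w x - w' x‖ :=
            mul_le_mul (hC2' x hx) h1 (norm_nonneg _) (abs_nonneg _)
        _ ≤ |C2| * (‖w x - w' x‖ + ‖w x - w' x‖) :=
            mul_le_mul_of_nonneg_left (le_add_of_nonneg_left (norm_nonneg _)) (abs_nonneg _)
    · rw [hw0 x hx, hw0' x hx]
      simp
  have tB : ∀ j i : Fin n, Tendsto (fun k => ∫ x, ‖((E2 x : ℝ) : ℂ) *
      (Lop n (D (f k) x)).2 j i‖ ^ 2 ∂μ) atTop (𝓝 (∫ x, ‖((E2 x : ℝ) : ℂ) * s x j i‖ ^ 2 ∂μ)) := by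
    intro j i
    have cji : Continuous fun q : Fin n → Fin n → ℂ => q j i :=
      (continuous_apply i).comp (continuous_apply j)
    have m1 : AEStronglyMeasurable (fun x => ((E2 x : ℝ) : ℂ) * s x j i) μ :=
      hE2cc.aestronglyMeasurable.mul (cji.comp_aestronglyMeasurable hs.1)
    have m2 : MemLp (fun x => ((E2 x : ℝ) : ℂ) * s x j i) 2 μ := by
      refine MemLp.of_le_mul (g := fun x => ‖(d x, s x)‖ + ‖(d x, s x)‖) (c := |C2|)
        (hwm.norm.add hwm.norm) m1 (Eventually.of_forall fun x => ?_)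
      have := hBb (fun x => (d x, s x)) 0 j i hdsz (fun _ _ => rfl) x
      simp only [Pi.zero_apply, sub_zero, Prod.snd_zero, mul_zero] at this
      rwa [Real.norm_of_nonneg (by positivity)]
    have m3 : ∀ k, MemLp (fun x => ((E2 x : ℝ) : ℂ) * (Lop n (D (f k) x)).2 j i) 2 μ := by
      intro k
      refine Continuous.memLp_of_hasCompactSupport ?_ ?_
      · exact hE2cc.mul (cji.comp
          (continuous_snd.comp ((Lop n).continuous.comp (hfs k).D.continuous)))
      · refine HasCompactSupport.intro hK' fun x hx => ?_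
        rw [hLz k x hx]
        simp
    exact tendsto_sq m3 m2 (tendsto_of_bound mw mw t2 t2 (C := |C2|) (abs_nonneg _) fun k x =>
      hBb (fun x => Lop n (D (f k) x)) (fun x => (d x, s x)) j i (hLz k) hdsz x)
  have eA : ∀ (z : M → ℂ), ∫ x, ‖z x‖ ^ 2 * Real.exp (-(Phi x + chi x)) ∂μ =
      ∫ x, ‖((E2 x : ℝ) : ℂ) * z x‖ ^ 2 ∂μ := by
    intro z
    refine integral_congr_ae (Eventually.of_forall fun x => ?_)
    show ‖z x‖ ^ 2 * Real.exp (-(Phi x + chi x)) = ‖((E2 x : ℝ) : ℂ) * z x‖ ^ 2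
    rw [norm_mul, hE2n, mul_pow, hE2sq, mul_comm]
  have hineq : ∀ k, ‖∫ x, (∑ j, al x j * conj (f k x j)) * (E1 x : ℂ) ∂μ‖ ^ 2 ≤
      K0 * (2 * ∫ x, ‖((E2 x : ℝ) : ℂ) * ((Lop n (D (f k) x)).1 - ∑ j, f k x j * th j x)‖ ^ 2 ∂μ +
        (1 / 2) * ∑ j, ∑ i, ∫ x, ‖((E2 x : ℝ) : ℂ) * (Lop n (D (f k) x)).2 j i‖ ^ 2 ∂μ) := by
    intro k
    have h3 := htest (f k) (hfs k) (hfc k)
    simp only [eA] at h3
    exact h3
  simp only [eA]
  refine le_of_tendsto_of_tendsto' (tP.norm.pow 2) ?_ hineq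
  exact ((tA.const_mul 2).add ((tendsto_finsetSum _ fun j _ =>
    tendsto_finsetSum _ fun i _ => tB j i).const_mul (1 / 2))).const_mul K0

end Crest.Agent.R273.TwP_34
end
end

-- ▼ part R273/TwA_34
section

/-!
# Row 273, twisted engine: the twisted a priori inequality for test forms (helper34)

`Bt c Φ ψ q x w = Levi (Φ + ψ) x w - c q/(q-1) |∑ w_j ∂_j ψ|²` is the twisted curvature form
(`e^{-ψ} = η`, `q = 1 + λ/η` in the usual Ohsawa–Takegoshi notation; `c > 1` arbitrary).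
-/

set_option autoImplicit false
set_option linter.unusedSectionVars false

noncomputable section

open Set Filter Topology MeasureTheory ComplexConjugate
open scoped ENNReal

namespace Crest.Agent.R273.TwA_34

open Crest.Agent.R271.Ho51 Crest.Agent.R271.H88 Crest.Agent.R271

variable {n : ℕ} {M : Type*} [TopologicalSpace M] [RDom n M]

/-- the twisted curvature form -/
def Bt (c : ℝ) (Φ ψ q : M → ℝ) (x : M) (w : Fin n → ℂ) : ℝ :=
  Levi (fun y => Φ y + ψ y) x w -
    c * (q x / (q x - 1)) * ‖∑ j, w j * dz j (fun y => (ψ y : ℂ)) x‖ ^ 2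

lemma Bt_zero (c : ℝ) (Φ ψ q : M → ℝ) (x : M) : Bt c Φ ψ q x 0 = 0 := by
  simp [Bt, Levi]

/-- Young's inequality with a parameter -/
lemma young (a b : ℂ) {q : ℝ} (hq : 1 < q) :
    ‖a - b‖ ^ 2 ≤ q * ‖a‖ ^ 2 + (q / (q - 1)) * ‖b‖ ^ 2 := by
  have h1 : ‖a - b‖ ≤ ‖a‖ + ‖b‖ := norm_sub_le a b
  have h2 := pow_le_pow_left₀ (norm_nonneg _) h1 2
  have h3 : 0 < q - 1 := by linarith
  have h4 : (q / (q - 1)) = 1 + 1 / (q - 1) := by field_simp; ring
  have h5 : 2 * ‖a‖ * ‖b‖ ≤ (q - 1) * ‖a‖ ^ 2 + 1 / (q - 1) * ‖b‖ ^ 2 := by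
    have h6 : 0 ≤ ((q - 1) * ‖a‖ - ‖b‖) ^ 2 / (q - 1) := by positivity
    have h7 : ((q - 1) * ‖a‖ - ‖b‖) ^ 2 / (q - 1) =
        (q - 1) * ‖a‖ ^ 2 + 1 / (q - 1) * ‖b‖ ^ 2 - 2 * ‖a‖ * ‖b‖ := by
      field_simp; ring
    linarith
  rw [h4]
  nlinarith

/-- Young's inequality, second form -/
lemma young_add (a b : ℂ) {c : ℝ} (hc : 1 < c) :
    ‖a + b‖ ^ 2 ≤ c * ‖a‖ ^ 2 + (c / (c - 1)) * ‖b‖ ^ 2 := by
  have := young a (-b) hc
  rwa [sub_neg_eq_add, norm_neg] at this

lemma ratio_le {q : ℝ} (hq : 2 ≤ q) : q / (q - 1) ≤ 2 := by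
  rw [div_le_iff₀ (by linarith)]
  linarith

lemma ratio_nonneg {q : ℝ} (hq : 2 ≤ q) : 0 ≤ q / (q - 1) := by
  apply div_nonneg <;> linarith

section cont

lemma Bt_continuous {c : ℝ} {Φ ψ q : M → ℝ} (hΦ : Sm Φ) (hψ : Sm ψ) (hq : Sm q) (hq2 : ∀ x, 2 ≤ q x)
    {f : M → Fin n → ℂ} (hf : Continuous f) : Continuous (fun x => Bt c Φ ψ q x (f x)) := by
  have hL : Continuous (fun x => Levi (fun y => Φ y + ψ y) x (f x)) := by
    unfold Levi
    refine Complex.continuous_re.comp ?_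
    refine continuous_finsetSum _ fun j _ => continuous_finsetSum _ fun k _ => ?_
    exact (((((hΦ.add hψ).ofReal.db k).dz j).continuous).mul ((continuous_apply j).comp hf)).mul
      (Complex.continuous_conj.comp ((continuous_apply k).comp hf))
  unfold Bt
  refine hL.sub ((continuous_const.mul ?_).mul ((Continuous.norm ?_).pow 2))
  · exact hq.continuous.div (hq.continuous.sub continuous_const)
      fun x => by have := hq2 x; intro h; linarith
  · exact continuous_finsetSum _ fun j _ =>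
      ((continuous_apply j).comp hf).mul (hψ.ofReal.dz j).continuous

end cont

variable [T2Space M] [SecondCountableTopology M] [MeasurableSpace M] [BorelSpace M]
  {μ : Measure M}

/-- **the twisted a priori inequality** for test forms -/
theorem apriori_tw (hμ : IsLeb μ) {c : ℝ} (hc1 : 1 < c) {φ ψt ψc q : M → ℝ} (hφ : Sm φ) (hψt : Sm ψt) (hψc : Sm ψc)
    (hq : Sm q) (hq2 : ∀ x, 2 ≤ q x)
    {f : M → (Fin n → ℂ)} (hf : Sm f) (hc : HasCompactSupport f) :
    ∫ x, Levi φ x (f x) * Real.exp (-φ x) ∂μ ≤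
      ∫ x, ‖∑ j, (dz j (fun y => f y j) x -
        f x j * dz j (fun y => ((φ y - (ψt y + ψc y) : ℝ) : ℂ)) x)‖ ^ 2 *
          (q x * Real.exp (-φ x)) ∂μ
      + ∫ x, c * (q x / (q x - 1)) * ‖∑ j, f x j * dz j (fun y => (ψt y : ℂ)) x‖ ^ 2 *
          Real.exp (-φ x) ∂μ
      + (2 * (c / (c - 1))) * ∫ x, nsq (f x) * nsq (fun j => dz j (fun y => (ψc y : ℂ)) x) * Real.exp (-φ x) ∂μ
      + (1 / 2) * ∑ j, ∑ k, ∫ x, ‖db j (fun y => f y k) x - db k (fun y => f y j) x‖ ^ 2 *
        Real.exp (-φ x) ∂μ := by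
  have hE : Continuous (fun x => Real.exp (-φ x)) := (H361.sm_Er hφ).continuous
  have := hμ.locallyFinite
  have hfj : ∀ j, Continuous (fun x => f x j) := fun j => (hf.pi_apply j).continuous
  have hψ : Sm (fun y => ψt y + ψc y) := hψt.add hψc
  -- the functions
  set A : M → ℝ := fun x => Levi φ x (f x) * Real.exp (-φ x) with hA
  set B : M → ℝ := fun x => ‖∑ j, (dz j (fun y => f y j) x -
        f x j * dz j (fun y => ((φ y - (ψt y + ψc y) : ℝ) : ℂ)) x)‖ ^ 2 *
          (q x * Real.exp (-φ x)) with hB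
  set T : M → ℝ := fun x => c * (q x / (q x - 1)) *
    ‖∑ j, f x j * dz j (fun y => (ψt y : ℂ)) x‖ ^ 2 * Real.exp (-φ x) with hT
  set C : M → ℝ := fun x => nsq (f x) * nsq (fun j => dz j (fun y => (ψc y : ℂ)) x) *
    Real.exp (-φ x) with hC
  set S : Fin n → Fin n → M → ℝ := fun j k x =>
    ‖db j (fun y => f y k) x - db k (fun y => f y j) x‖ ^ 2 * Real.exp (-φ x) with hS
  have hdiff : ∀ j x, dz j (fun y => ((φ y - (ψt y + ψc y) : ℝ) : ℂ)) x =
      dz j (fun y => (φ y : ℂ)) x - (dz j (fun y => (ψt y : ℂ)) x +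
        dz j (fun y => (ψc y : ℂ)) x) := by
    intro j x
    rw [← dz_add hψt.ofReal hψc.ofReal, ← dz_sub hφ.ofReal (hψt.ofReal.add hψc.ofReal)]
    refine dz_congr (Eventually.of_forall fun y => ?_) j
    simp
  have hsmd : Sm (fun y => φ y - (ψt y + ψc y)) := hφ.sub hψ
  -- integrability
  have cB : Continuous B := by
    refine ((Continuous.norm ?_).pow 2).mul (hq.continuous.mul hE)
    refine continuous_finsetSum _ fun j _ => ?_
    exact ((hf.pi_apply j).dz j).continuous.sub ((hfj j).mul (hsmd.ofReal.dz j).continuous)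
  have cT : Continuous T := by
    refine ((continuous_const.mul ?_).mul ((Continuous.norm ?_).pow 2)).mul hE
    · exact hq.continuous.div (hq.continuous.sub continuous_const)
        fun x => by have := hq2 x; intro h; linarith
    · exact continuous_finsetSum _ fun j _ => (hfj j).mul (hψt.ofReal.dz j).continuous
  have cC : Continuous C := by
    refine (Continuous.mul ?_ ?_).mul hE
    · exact continuous_finsetSum _ fun j _ => ((hfj j).norm.pow 2)
    · exact continuous_finsetSum _ fun j _ => ((hψc.ofReal.dz j).continuous.norm.pow 2)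
  have cS : ∀ j k, Continuous (S j k) := fun j k =>
    ((((hf.pi_apply k).db j).continuous.sub ((hf.pi_apply j).db k).continuous).norm.pow 2).mul hE
  have cA : Continuous A := by
    refine Continuous.mul (Complex.continuous_re.comp ?_) hE
    refine continuous_finsetSum _ fun j _ => continuous_finsetSum _ fun k _ => ?_
    exact (((hφ.ofReal.db k).dz j).continuous.mul (hfj j)).mul (Complex.continuous_conj.comp (hfj k))
  have iA : Integrable A μ := cA.integrable_of_hasCompactSupport <| H361.hcs_of_zero hc fun x hx => by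
    have h0 : f x = 0 := image_eq_zero_of_notMem_tsupport hx
    simp [hA, Levi, h0]
  have iB : Integrable B μ := cB.integrable_of_hasCompactSupport <| H361.hcs_of_zero hc fun x hx => by
    have h0 : f x = 0 := image_eq_zero_of_notMem_tsupport hx
    have h1 : ∀ j, dz j (fun y => f y j) x = 0 := fun j =>
      H361.dz_zero_of_notMem (fun h => hx (H361.tsupport_pi j h)) j
    simp [hB, h0, h1]
  have iT : Integrable T μ := cT.integrable_of_hasCompactSupport <| H361.hcs_of_zero hc fun x hx => by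
    have h0 : f x = 0 := image_eq_zero_of_notMem_tsupport hx
    simp [hT, h0]
  have iC : Integrable C μ := cC.integrable_of_hasCompactSupport <| H361.hcs_of_zero hc fun x hx => by
    have h0 : f x = 0 := image_eq_zero_of_notMem_tsupport hx
    simp [hC, nsq, h0]
  have iS : ∀ j k, Integrable (S j k) μ := fun j k =>
    (cS j k).integrable_of_hasCompactSupport <| H361.hcs_of_zero hc fun x hx => by
      have h1 : ∀ j k, db j (fun y => f y k) x = 0 := fun j k =>
        H361.db_zero_of_notMem (fun h => hx (H361.tsupport_pi k h)) j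
      simp [hS, h1]
  obtain ⟨iD, hD⟩ := H361.integral_Dv hμ hφ hf hc
  have hD' : ∫ x, (H361.Dv φ f x).re ∂μ = 0 := by
    have := integral_re iD
    simp only [RCLike.re_eq_complex_re] at this
    rw [this, hD]; simp
  -- pointwise inequality
  have hpt : ∀ x, A x ≤ B x + T x + (2 * (c / (c - 1))) * C x + (1 / 2) * ∑ j, ∑ k, S j k x -
      (H361.Dv φ f x).re := by
    intro x
    have h1 := H361.basic_pointwise hφ hf x
    have h2 : 0 ≤ ∑ j, ∑ k, ‖db j (fun y => f y k) x‖ ^ 2 * Real.exp (-φ x) :=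
      Finset.sum_nonneg fun j _ => Finset.sum_nonneg fun k _ => by positivity
    set a : ℂ := ∑ j, (dz j (fun y => f y j) x -
        f x j * dz j (fun y => ((φ y - (ψt y + ψc y) : ℝ) : ℂ)) x) with ha
    set bt : ℂ := ∑ j, f x j * dz j (fun y => (ψt y : ℂ)) x with hbt
    set bc : ℂ := ∑ j, f x j * dz j (fun y => (ψc y : ℂ)) x with hbc
    have e1 : ∑ j, H361.dl φ j (fun y => f y j) x = a - (bt + bc) := by
      rw [ha, hbt, hbc, ← Finset.sum_add_distrib, ← Finset.sum_sub_distrib]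
      refine Finset.sum_congr rfl fun j _ => ?_
      rw [hdiff, H361.dl]; ring
    have h3 : ‖∑ j, H361.dl φ j (fun y => f y j) x‖ ^ 2 ≤ q x * ‖a‖ ^ 2 +
        c * (q x / (q x - 1)) * ‖bt‖ ^ 2 +
        (2 * (c / (c - 1))) * (nsq (f x) * nsq (fun j => dz j (fun y => (ψc y : ℂ)) x)) := by
      rw [e1]
      refine (young a (bt + bc) (by have := hq2 x; linarith)).trans ?_
      have e2 : ‖bt + bc‖ ^ 2 ≤ c * ‖bt‖ ^ 2 + (c / (c - 1)) * ‖bc‖ ^ 2 := young_add bt bc hc1
      have ec : 0 ≤ c / (c - 1) := div_nonneg (by linarith) (by linarith)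
      have e3 : ‖bc‖ ^ 2 ≤ nsq (f x) * nsq (fun j => dz j (fun y => (ψc y : ℂ)) x) :=
        H361.cs_sum _ _
      have e4 := ratio_le (hq2 x)
      have e5 := ratio_nonneg (hq2 x)
      have e6 : (q x / (q x - 1)) * ‖bt + bc‖ ^ 2 ≤
          (q x / (q x - 1)) * (c * ‖bt‖ ^ 2 + (c / (c - 1)) * ‖bc‖ ^ 2) :=
        mul_le_mul_of_nonneg_left e2 e5
      have e7 : (q x / (q x - 1)) * ‖bc‖ ^ 2 ≤ 2 * ‖bc‖ ^ 2 :=
        mul_le_mul_of_nonneg_right e4 (sq_nonneg _)
      have e8 : (c / (c - 1)) * ((q x / (q x - 1)) * ‖bc‖ ^ 2) ≤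
          (c / (c - 1)) * (2 * (nsq (f x) * nsq (fun j => dz j (fun y => (ψc y : ℂ)) x))) :=
        mul_le_mul_of_nonneg_left (by linarith) ec
      nlinarith
    have h4 := mul_le_mul_of_nonneg_right h3 (Real.exp_pos (-φ x)).le
    simp only [hA, hB, hC, hS, hT]
    nlinarith [h1, h2, h4]
  calc ∫ x, A x ∂μ ≤ ∫ x, (B x + T x + (2 * (c / (c - 1))) * C x + (1 / 2) * ∑ j, ∑ k, S j k x -
        (H361.Dv φ f x).re) ∂μ := by
        refine integral_mono iA ?_ hpt
        exact (((iB.add iT).add (iC.const_mul _)).add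
          ((integrable_finsetSum _ fun j _ => integrable_finsetSum _ fun k _ => iS j k).const_mul
            (1 / 2))).sub iD.re
    _ = _ := by
        rw [integral_sub, integral_add, integral_add, integral_add, integral_const_mul,
          integral_const_mul, integral_finsetSum, hD', sub_zero]
        · congr 2
          refine Finset.sum_congr rfl fun j _ => ?_
          rw [integral_finsetSum _ fun k _ => iS j k]
        · exact fun j _ => integrable_finsetSum _ fun k _ => iS j k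
        · exact iB
        · exact iT
        · exact iB.add iT
        · exact iC.const_mul _
        · exact (iB.add iT).add (iC.const_mul _)
        · exact (integrable_finsetSum _ fun j _ => integrable_finsetSum _ fun k _ =>
            iS j k).const_mul (1 / 2)
        · exact ((iB.add iT).add (iC.const_mul _)).add
            ((integrable_finsetSum _ fun j _ => integrable_finsetSum _ fun k _ =>
              iS j k).const_mul (1 / 2))
        · exact iD.re

end Crest.Agent.R273.TwA_34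
end
end

-- ▼ part R273/TwB_34
section

/-!
# Row 273, twisted engine: the pairing estimate for test forms (helper34)
-/

set_option autoImplicit false
set_option linter.unusedSectionVars false

noncomputable section

open Set Filter Topology MeasureTheory ComplexConjugate
open scoped ENNReal

namespace Crest.Agent.R273.TwB_34

open Crest.Agent.R271.Ho51 Crest.Agent.R271.H88 Crest.Agent.R271 Crest.Agent.R273.TwA_34

variable {n : ℕ} {M : Type*} [TopologicalSpace M] [RDom n M]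
  [T2Space M] [SecondCountableTopology M] [MeasurableSpace M] [BorelSpace M]
  {μ : Measure M} {Φ ψt ψc χ q : M → ℝ} {al : M → (Fin n → ℂ)} {κ : M → ℝ} {K0 c : ℝ}

/-- Cauchy–Schwarz for the pairing. -/
lemma pairing_cs_tw (hμ : IsLeb μ) (hΦ : Sm Φ) (hψt : Sm ψt) (hχ : Sm χ)
    (hq : Sm q) (hq2 : ∀ x, 2 ≤ q x)
    (hpos : ∀ x w, 0 ≤ Bt c Φ ψt q x w)
    (h2 : ∀ x, 2 * ψc x ≤ χ x) (hκ0 : ∀ x, 0 ≤ κ x) (hκm : Measurable κ)
    (hk : ∀ x (w : Fin n → ℂ), ‖∑ j, al x j * conj (w j)‖ ^ 2 ≤ κ x * Bt c Φ ψt q x w)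
    (hK0 : 0 ≤ K0)
    (hK : ∫⁻ x, ENNReal.ofReal (κ x * Real.exp (ψt x - Φ x)) ∂μ ≤ ENNReal.ofReal K0)
    {f : M → (Fin n → ℂ)} (hf : Sm f) (hfc : HasCompactSupport f) :
    ‖∫ x, (∑ j, al x j * conj (f x j)) * (Real.exp (-(Φ x + χ x - ψc x)) : ℂ) ∂μ‖ ^ 2 ≤
      K0 * ∫ x, Bt c Φ ψt q x (f x) * Real.exp (-(Φ x + ψt x + χ x)) ∂μ := by
  have hloc := hμ.locallyFinite
  set a : M → ℝ := fun x => κ x * Real.exp (ψt x - Φ x) with ha
  set b : M → ℝ := fun x => Bt c Φ ψt q x (f x) * Real.exp (-(Φ x + ψt x + χ x)) with hb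
  have ha0 : ∀ x, 0 ≤ a x := fun x => mul_nonneg (hκ0 x) (Real.exp_pos _).le
  have hb0 : ∀ x, 0 ≤ b x := fun x => mul_nonneg (hpos x _) (Real.exp_pos _).le
  have hbc : Continuous b := (Bt_continuous hΦ hψt hq hq2 hf.continuous).mul
    (Real.continuous_exp.comp ((hΦ.continuous.add hψt.continuous).add hχ.continuous).neg)
  have hbs : HasCompactSupport b := by
    refine hfc.mono' ?_
    intro x hx
    by_contra hxs
    apply hx
    simp only [hb]
    rw [image_eq_zero_of_notMem_tsupport hxs, Bt_zero, zero_mul]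
  have hbi : Integrable b μ := hbc.integrable_of_hasCompactSupport hbs
  have ham : Measurable a := hκm.mul
    (Real.measurable_exp.comp (hψt.continuous.measurable.sub hΦ.continuous.measurable))
  have hbm : Measurable b := hbc.measurable
  have hpt : ∀ x, ‖(∑ j, al x j * conj (f x j)) *
      (Real.exp (-(Φ x + χ x - ψc x)) : ℂ)‖ ≤ Real.sqrt (a x) * Real.sqrt (b x) := by
    intro x
    rw [norm_mul, Complex.norm_real, Real.norm_of_nonneg (Real.exp_pos _).le,
      ← Real.sqrt_mul (ha0 x)]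
    apply Real.le_sqrt_of_sq_le
    rw [mul_pow]
    have e1 : Real.exp (-(Φ x + χ x - ψc x)) ^ 2 ≤
        Real.exp (ψt x - Φ x) * Real.exp (-(Φ x + ψt x + χ x)) := by
      rw [sq, ← Real.exp_add, ← Real.exp_add]
      apply Real.exp_le_exp.2
      have := h2 x
      linarith
    calc ‖∑ j, al x j * conj (f x j)‖ ^ 2 * Real.exp (-(Φ x + χ x - ψc x)) ^ 2
        ≤ (κ x * Bt c Φ ψt q x (f x)) *
            (Real.exp (ψt x - Φ x) * Real.exp (-(Φ x + ψt x + χ x))) :=
          mul_le_mul (hk x (f x)) e1 (by positivity) (mul_nonneg (hκ0 x) (hpos x _))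
      _ = a x * b x := by simp only [ha, hb]; ring
  have key : ‖∫ x, (∑ j, al x j * conj (f x j)) *
      (Real.exp (-(Φ x + χ x - ψc x)) : ℂ) ∂μ‖ₑ ^ 2 ≤
      (∫⁻ x, ENNReal.ofReal (a x) ∂μ) * ∫⁻ x, ENNReal.ofReal (b x) ∂μ := by
    have h3 : ‖∫ x, (∑ j, al x j * conj (f x j)) *
        (Real.exp (-(Φ x + χ x - ψc x)) : ℂ) ∂μ‖ₑ ≤
        ∫⁻ x, ENNReal.ofReal (Real.sqrt (a x)) * ENNReal.ofReal (Real.sqrt (b x)) ∂μ := by
      refine (enorm_integral_le_lintegral_enorm _).trans (lintegral_mono fun x => ?_)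
      rw [← ofReal_norm, ← ENNReal.ofReal_mul (Real.sqrt_nonneg _)]
      exact ENNReal.ofReal_le_ofReal (hpt x)
    have h4 := ENNReal.lintegral_mul_le_Lp_mul_Lq μ Real.HolderConjugate.two_two
      (f := fun x => ENNReal.ofReal (Real.sqrt (a x)))
      (g := fun x => ENNReal.ofReal (Real.sqrt (b x)))
      ham.sqrt.ennreal_ofReal.aemeasurable hbm.sqrt.ennreal_ofReal.aemeasurable
    have e2 : ∀ {c : M → ℝ}, (∀ x, 0 ≤ c x) → ∀ x,
        ENNReal.ofReal (Real.sqrt (c x)) ^ (2 : ℝ) = ENNReal.ofReal (c x) := by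
      intro c hc x
      rw [ENNReal.ofReal_rpow_of_nonneg (Real.sqrt_nonneg _) (by norm_num)]
      congr 1
      rw [show (2 : ℝ) = ((2 : ℕ) : ℝ) by norm_num, Real.rpow_natCast, Real.sq_sqrt (hc x)]
    simp only [e2 ha0, e2 hb0, Pi.mul_apply] at h4
    calc ‖∫ x, (∑ j, al x j * conj (f x j)) *
        (Real.exp (-(Φ x + χ x - ψc x)) : ℂ) ∂μ‖ₑ ^ 2
        ≤ ((∫⁻ x, ENNReal.ofReal (a x) ∂μ) ^ (1 / 2 : ℝ) *
          (∫⁻ x, ENNReal.ofReal (b x) ∂μ) ^ (1 / 2 : ℝ)) ^ 2 :=
          pow_le_pow_left' (h3.trans h4) 2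
      _ = (∫⁻ x, ENNReal.ofReal (a x) ∂μ) * ∫⁻ x, ENNReal.ofReal (b x) ∂μ := by
          rw [mul_pow, ← ENNReal.rpow_natCast, ← ENNReal.rpow_natCast, ← ENNReal.rpow_mul,
            ← ENNReal.rpow_mul]
          norm_num
  have h5 : ∫⁻ x, ENNReal.ofReal (b x) ∂μ = ENNReal.ofReal (∫ x, b x ∂μ) :=
    (ofReal_integral_eq_lintegral_ofReal hbi (Eventually.of_forall hb0)).symm
  rw [h5] at key
  have h6 := key.trans (mul_le_mul_left hK _)
  rw [← ENNReal.ofReal_mul hK0, ← ofReal_norm, ← ENNReal.ofReal_pow (norm_nonneg _)] at h6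
  have h7 : 0 ≤ K0 * ∫ x, b x ∂μ := mul_nonneg hK0 (integral_nonneg hb0)
  exact (ENNReal.ofReal_le_ofReal_iff h7).1 h6

/-- the weight of level one -/
def Wt (Φ ψt χ q : M → ℝ) (x : M) : ℝ := Φ x + ψt x + χ x - Real.log (q x / 2)

/-- the difference of weights -/
def ψo (ψt ψc q : M → ℝ) (x : M) : ℝ := ψt x + ψc x - Real.log (q x / 2)

lemma sm_logq (hq : Sm q) (hq2 : ∀ x, 2 ≤ q x) : Sm (fun x => Real.log (q x / 2)) := by
  refine Sm.comp_at (g := fun s => Real.log (s / 2)) hq fun x => ?_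
  refine ContDiffAt.log ?_ ?_
  · exact contDiffAt_id.div_const 2
  · have := hq2 x
    intro h
    have h' : q x / 2 = 0 := h
    linarith

lemma sm_Wt (hΦ : Sm Φ) (hψt : Sm ψt) (hχ : Sm χ) (hq : Sm q) (hq2 : ∀ x, 2 ≤ q x) :
    Sm (Wt Φ ψt χ q) := ((hΦ.add hψt).add hχ).sub (sm_logq hq hq2)

lemma sm_ψo (hψt : Sm ψt) (hψc : Sm ψc) (hq : Sm q) (hq2 : ∀ x, 2 ≤ q x) :
    Sm (ψo ψt ψc q) := (hψt.add hψc).sub (sm_logq hq hq2)

lemma exp_Wt (hq2 : ∀ x, 2 ≤ q x) (x : M) :
    Real.exp (-(Wt Φ ψt χ q x + 0)) = (q x / 2) * Real.exp (-(Φ x + ψt x + χ x)) := by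
  have h : 0 < q x / 2 := by have := hq2 x; linarith
  have h1 : -(Wt Φ ψt χ q x + 0) = Real.log (q x / 2) + -(Φ x + ψt x + χ x) := by
    unfold Wt; ring
  rw [h1, Real.exp_add, Real.exp_log h]

lemma Wt_sub (x : M) : Wt Φ ψt χ q x + 0 - ψo ψt ψc q x = Φ x + χ x - ψc x := by
  unfold Wt ψo; ring

/-- the estimate for test forms -/
lemma pairing_test_tw (hμ : IsLeb μ) (hc1 : 1 < c) (hΦ : Sm Φ) (hψt : Sm ψt) (hψc : Sm ψc) (hχ : Sm χ)
    (hq : Sm q) (hq2 : ∀ x, 2 ≤ q x)
    (hpos : ∀ x w, 0 ≤ Bt c Φ ψt q x w)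
    (hL : ∀ x w, (2 * (c / (c - 1))) * nsq (fun j => dz j (fun y => (ψc y : ℂ)) x) * nsq w ≤ Levi χ x w)
    (h2 : ∀ x, 2 * ψc x ≤ χ x) (hκ0 : ∀ x, 0 ≤ κ x) (hκm : Measurable κ)
    (hk : ∀ x (w : Fin n → ℂ), ‖∑ j, al x j * conj (w j)‖ ^ 2 ≤ κ x * Bt c Φ ψt q x w)
    (hK0 : 0 ≤ K0)
    (hK : ∫⁻ x, ENNReal.ofReal (κ x * Real.exp (ψt x - Φ x)) ∂μ ≤ ENNReal.ofReal K0)
    (f : M → (Fin n → ℂ)) (hf : Sm f) (hfc : HasCompactSupport f) :
    ‖∫ x, (∑ j, al x j * conj (f x j)) *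
        (Real.exp (-(Wt Φ ψt χ q x + (fun _ => (0 : ℝ)) x - ψo ψt ψc q x)) : ℂ) ∂μ‖ ^ 2 ≤
      K0 * (2 * ∫ x, ‖(Lop n (D f x)).1 - ∑ j, f x j *
          dz j (fun y => ((Wt Φ ψt χ q y + (fun _ => (0 : ℝ)) y - ψo ψt ψc q y : ℝ) : ℂ)) x‖ ^ 2 *
            Real.exp (-(Wt Φ ψt χ q x + (fun _ => (0 : ℝ)) x)) ∂μ +
        (1 / 2) * ∑ j, ∑ k, ∫ x, ‖(Lop n (D f x)).2 j k‖ ^ 2 *
            Real.exp (-(Wt Φ ψt χ q x + (fun _ => (0 : ℝ)) x)) ∂μ) := by
  have hloc := hμ.locallyFinite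
  simp only [Wt_sub, exp_Wt hq2]
  refine (pairing_cs_tw hμ hΦ hψt hχ hq hq2 hpos h2 hκ0 hκm hk hK0 hK hf hfc).trans ?_
  refine mul_le_mul_of_nonneg_left ?_ hK0
  set φ : M → ℝ := fun x => Φ x + ψt x + χ x with hφdef
  have hφ : Sm φ := (hΦ.add hψt).add hχ
  have h3 := apriori_tw hμ hc1 hφ hψt hψc hq hq2 hf hfc
  have e1 : ∀ x, (Lop n (D f x)).1 - ∑ j, f x j *
          dz j (fun y => ((Φ y + χ y - ψc y : ℝ) : ℂ)) x =
      ∑ j, (dz j (fun y => f y j) x - f x j *
          dz j (fun y => ((φ y - (ψt y + ψc y) : ℝ) : ℂ)) x) := by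
    intro x
    rw [Lop_D_fst hf, Finset.sum_sub_distrib]
    congr 1
    refine Finset.sum_congr rfl fun j _ => ?_
    congr 1
    refine dz_congr (Eventually.of_forall fun y => ?_) j
    simp only [hφdef]
    congr 1
    ring
  have hcs : ∀ (g : M → ℝ), Continuous g → (∀ x ∉ tsupport f, g x = 0) → Integrable g μ := by
    intro g hg hg0
    exact hg.integrable_of_hasCompactSupport (HasCompactSupport.intro hfc hg0)
  have hf0 : ∀ x ∉ tsupport f, f x = 0 := fun x hx => image_eq_zero_of_notMem_tsupport hx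
  have hexp : Continuous fun x => Real.exp (-φ x) :=
    Real.continuous_exp.comp hφ.continuous.neg
  have hdpsi : Continuous fun x => nsq (fun j => dz j (fun y => (ψc y : ℂ)) x) := by
    refine nsq_continuous.comp ?_
    exact continuous_pi fun j => (hψc.ofReal.dz j).continuous
  have i1 : Integrable (fun x => Bt c Φ ψt q x (f x) * Real.exp (-φ x)) μ :=
    hcs _ ((Bt_continuous hΦ hψt hq hq2 hf.continuous).mul hexp) fun x hx => by
      rw [hf0 x hx, Bt_zero]; ring
  have cT : Continuous (fun x => c * (q x / (q x - 1)) *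
      ‖∑ j, f x j * dz j (fun y => (ψt y : ℂ)) x‖ ^ 2 * Real.exp (-φ x)) := by
    refine ((continuous_const.mul ?_).mul ((Continuous.norm ?_).pow 2)).mul hexp
    · exact hq.continuous.div (hq.continuous.sub continuous_const)
        fun x => by have := hq2 x; intro h; linarith
    · exact continuous_finsetSum _ fun j _ =>
        ((continuous_apply j).comp hf.continuous).mul (hψt.ofReal.dz j).continuous
  have iT : Integrable (fun x => c * (q x / (q x - 1)) *
      ‖∑ j, f x j * dz j (fun y => (ψt y : ℂ)) x‖ ^ 2 * Real.exp (-φ x)) μ :=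
    hcs _ cT fun x hx => by simp [hf0 x hx]
  have i2 : Integrable (fun x => nsq (f x) * nsq (fun j => dz j (fun y => (ψc y : ℂ)) x) *
      Real.exp (-φ x)) μ :=
    hcs _ (((nsq_continuous.comp hf.continuous).mul hdpsi).mul hexp) fun x hx => by
      rw [hf0 x hx, nsq_zero]; ring
  have i3 : Integrable (fun x => Levi φ x (f x) * Real.exp (-φ x)) μ :=
    hcs _ ((Levi_continuous hφ hf.continuous).mul hexp) fun x hx => by
      rw [hf0 x hx, Levi_zero]; ring
  have h4 : ∫ x, Bt c Φ ψt q x (f x) * Real.exp (-φ x) ∂μ +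
      ∫ x, c * (q x / (q x - 1)) *
        ‖∑ j, f x j * dz j (fun y => (ψt y : ℂ)) x‖ ^ 2 * Real.exp (-φ x) ∂μ +
      (2 * (c / (c - 1))) * ∫ x, nsq (f x) * nsq (fun j => dz j (fun y => (ψc y : ℂ)) x) * Real.exp (-φ x) ∂μ ≤
      ∫ x, Levi φ x (f x) * Real.exp (-φ x) ∂μ := by
    have i1T : Integrable (fun x => Bt c Φ ψt q x (f x) * Real.exp (-φ x) + c * (q x / (q x - 1)) *
        ‖∑ j, f x j * dz j (fun y => (ψt y : ℂ)) x‖ ^ 2 * Real.exp (-φ x)) μ := i1.add iT
    rw [← integral_const_mul, ← integral_add i1 iT, ← integral_add i1T (i2.const_mul _)]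
    refine integral_mono ((i1.add iT).add (i2.const_mul _)) i3 fun x => ?_
    show Bt c Φ ψt q x (f x) * Real.exp (-φ x) + c * (q x / (q x - 1)) *
        ‖∑ j, f x j * dz j (fun y => (ψt y : ℂ)) x‖ ^ 2 * Real.exp (-φ x) +
      (2 * (c / (c - 1))) * (nsq (f x) * nsq (fun j => dz j (fun y => (ψc y : ℂ)) x) *
        Real.exp (-φ x)) ≤ _
    have e2 : Levi φ x (f x) = Levi (fun y => Φ y + ψt y) x (f x) + Levi χ x (f x) :=
      Levi_add (hΦ.add hψt) hχ x (f x)
    rw [e2]
    unfold Bt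
    have h5 := hL x (f x)
    have h6 := Real.exp_pos (-φ x)
    have h7 : (2 * (c / (c - 1))) * (nsq (f x) * nsq (fun j => dz j (fun y => (ψc y : ℂ)) x)) ≤
      Levi χ x (f x) := by nlinarith
    nlinarith
  -- the right-hand side
  have hB : 2 * ∫ x, ‖(Lop n (D f x)).1 - ∑ j, f x j *
          dz j (fun y => ((Φ y + χ y - ψc y : ℝ) : ℂ)) x‖ ^ 2 *
            (q x / 2 * Real.exp (-φ x)) ∂μ =
      ∫ x, ‖∑ j, (dz j (fun y => f y j) x -
        f x j * dz j (fun y => ((φ y - (ψt y + ψc y) : ℝ) : ℂ)) x)‖ ^ 2 *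
          (q x * Real.exp (-φ x)) ∂μ := by
    rw [← integral_const_mul]
    refine integral_congr_ae (Eventually.of_forall fun x => ?_)
    simp only [e1]
    ring
  have hS : ∀ j k, ∫ x, ‖db j (fun y => f y k) x - db k (fun y => f y j) x‖ ^ 2 *
        Real.exp (-φ x) ∂μ ≤ ∫ x, ‖(Lop n (D f x)).2 j k‖ ^ 2 *
            (q x / 2 * Real.exp (-φ x)) ∂μ := by
    intro j k
    have c0 : Continuous fun x => ‖db j (fun y => f y k) x - db k (fun y => f y j) x‖ ^ 2 :=
      ((((hf.pi_apply k).db j).continuous.sub ((hf.pi_apply j).db k).continuous).norm.pow 2)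
    have z0 : ∀ x ∉ tsupport f,
        ‖db j (fun y => f y k) x - db k (fun y => f y j) x‖ ^ 2 = 0 := fun x hx => by
      have h1 : ∀ j k, db j (fun y => f y k) x = 0 := fun j k =>
        H361.db_zero_of_notMem (fun h => hx (H361.tsupport_pi k h)) j
      simp [h1]
    simp_rw [Lop_D_snd hf]
    refine integral_mono (hcs _ (c0.mul hexp) fun x hx => by rw [z0 x hx, zero_mul])
      (hcs _ (c0.mul ((hq.continuous.div_const 2).mul hexp)) fun x hx => by
        rw [z0 x hx, zero_mul]) fun x => ?_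
    have h5 := hq2 x
    have h6 := Real.exp_pos (-φ x)
    have h7 : Real.exp (-φ x) ≤ q x / 2 * Real.exp (-φ x) := by nlinarith
    exact mul_le_mul_of_nonneg_left h7 (sq_nonneg _)
  have hS' : (1 / 2 : ℝ) * ∑ j, ∑ k, ∫ x, ‖db j (fun y => f y k) x -
      db k (fun y => f y j) x‖ ^ 2 * Real.exp (-φ x) ∂μ ≤
      (1 / 2) * ∑ j, ∑ k, ∫ x, ‖(Lop n (D f x)).2 j k‖ ^ 2 *
            (q x / 2 * Real.exp (-φ x)) ∂μ := by
    refine mul_le_mul_of_nonneg_left ?_ (by norm_num)
    exact Finset.sum_le_sum fun j _ => Finset.sum_le_sum fun k _ => hS j k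
  rw [hB]
  linarith

/-- the compact pairing estimate in the engine's format -/
theorem pairC_tw (hμ : IsLeb μ) (hc1 : 1 < c) (hΦ : Sm Φ) (hψt : Sm ψt) (hψc : Sm ψc) (hχ : Sm χ)
    (hq : Sm q) (hq2 : ∀ x, 2 ≤ q x)
    (hpos : ∀ x w, 0 ≤ Bt c Φ ψt q x w)
    (hL : ∀ x w, (2 * (c / (c - 1))) * nsq (fun j => dz j (fun y => (ψc y : ℂ)) x) * nsq w ≤ Levi χ x w)
    (h2 : ∀ x, 2 * ψc x ≤ χ x) (hal : Continuous al) (hκ0 : ∀ x, 0 ≤ κ x) (hκm : Measurable κ)
    (hk : ∀ x (w : Fin n → ℂ), ‖∑ j, al x j * conj (w j)‖ ^ 2 ≤ κ x * Bt c Φ ψt q x w)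
    (hK0 : 0 ≤ K0)
    (hK : ∫⁻ x, ENNReal.ofReal (κ x * Real.exp (ψt x - Φ x)) ∂μ ≤ ENNReal.ofReal K0) :
    PairC μ (Wt Φ ψt χ q) (fun _ => 0) (ψo ψt ψc q) al K0 :=
  TwP_34.pairC_of_test hμ (sm_Wt hΦ hψt hχ hq hq2) (Sm.const 0) (sm_ψo hψt hψc hq hq2) hal
    fun f hf hfc => pairing_test_tw hμ hc1 hΦ hψt hψc hχ hq hq2 hpos hL h2 hκ0 hκm hk hK0 hK f hf hfc

end Crest.Agent.R273.TwB_34
end
end

-- ▼ part R273/TwL_34
section

/-!
# Row 273, twisted engine: the limit argument, with pointwise convergence (helper34; adapted from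
`R271/T7a_297`)

`limit_hol` : `F_k` holomorphic on `M`, `φ_k` continuous decreasing,
`∫_{ρ ≤ k} |F_k - G|² e^{-φ_k} ≤ K` ⇒ along an ultrafilter `F_k → F₀` pointwise, `F₀` holomorphic,
`∫ |F₀ - G|² sup_k e^{-φ_k} ≤ K`.
-/

set_option autoImplicit false
set_option linter.unusedSectionVars false

noncomputable section

open Set Filter Topology MeasureTheory Metric
open scoped ENNReal

namespace Crest.Agent.R273.TwL_34

open Crest.Agent.R271.Ho51 Crest.Agent.R271.T7a297

variable {n : ℕ} {M : Type*} [TopologicalSpace M] [RDom n M]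

variable [T2Space M] [SecondCountableTopology M] [MeasurableSpace M] [BorelSpace M]

variable {μ : Measure M} {ρ : M → ℝ} {φ : ℕ → M → ℝ} {G : M → ℂ} {F : ℕ → M → ℂ} {K : ℝ≥0∞}

/-- **limit lemma** -/
theorem limit_hol (hμ : IsLeb μ) (ρ : M → ℝ) (hρ : Continuous ρ)
    (hcpt : ∀ t, IsCompact {x | ρ x ≤ t})
    (φ : ℕ → M → ℝ) (hφ : ∀ k, Continuous (φ k)) (hmono : ∀ k x, φ (k + 1) x ≤ φ k x)
    (G : M → ℂ) (hG : Continuous G) (F : ℕ → M → ℂ) (hF : ∀ k, Hol (F k))
    (K : ℝ≥0∞) (hK : K ≠ ⊤)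
    (hb : ∀ k : ℕ, ∫⁻ x in {x | ρ x ≤ k},
      ENNReal.ofReal (‖F k x - G x‖ ^ 2 * Real.exp (-φ k x)) ∂μ ≤ K) :
    ∃ F0 : M → ℂ, Hol F0 ∧
      (∀ x, Tendsto (fun j => F j x) (hyperfilter ℕ : Filter ℕ) (𝓝 (F0 x))) ∧
      ∫⁻ x, ENNReal.ofReal (‖F0 x - G x‖ ^ 2) * (⨆ k, ENNReal.ofReal (Real.exp (-φ k x))) ∂μ
        ≤ K := by
  have hloc := fun {e : OpenPartialHomeomorph M (Fin n → ℂ)} (he : IsCh e) {z : Fin n → ℂ}
    (hz : z ∈ e.target) => local_montel hμ hρ hφ hmono hG hF hK hb he hz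
  set l : Filter ℕ := (hyperfilter ℕ : Filter ℕ) with hl
  -- pointwise limits
  set F0 : M → ℂ := fun x => limUnder l (fun j => F j x) with hF0
  have hlim : ∀ x, Tendsto (fun j => F j x) l (𝓝 (F0 x)) := by
    intro x
    obtain ⟨r, hr, -, f0, -, hf0⟩ := hloc (isCh_ch x) ((isCh_ch x).cp_mem (mem_ch x))
    have h1 := hf0.tendsto_at (mem_ball_self hr)
    have h2 : Tendsto (fun j => F j x) l (𝓝 (f0 (cp x))) := by
      simpa [symm_cp] using h1
    exact tendsto_nhds_limUnder ⟨_, h2⟩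
  have hagree : ∀ {e : OpenPartialHomeomorph M (Fin n → ℂ)} {z : Fin n → ℂ} {r : ℝ}
      {f0 : (Fin n → ℂ) → ℂ}, TendstoLocallyUniformlyOn (fun j => F j ∘ e.symm) f0 l (ball z r) →
      ∀ y ∈ ball z r, f0 y = F0 (e.symm y) := by
    intro e z r f0 hf0 y hy
    exact tendsto_nhds_unique (hf0.tendsto_at hy) (hlim (e.symm y))
  have hHol : Hol F0 := by
    intro e he z hz
    obtain ⟨r, hr, hsub, f0, hd, hf0⟩ := hloc he hz
    have h1 : DifferentiableAt ℂ f0 z := hd.differentiableAt (isOpen_ball.mem_nhds (mem_ball_self hr))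
    refine (h1.congr_of_eventuallyEq ?_).differentiableWithinAt
    filter_upwards [isOpen_ball.mem_nhds (mem_ball_self hr)] with y hy
    exact (hagree hf0 y hy).symm
  have hF0c : Continuous F0 := Hol.continuous hHol
  have hLU : TendstoLocallyUniformly F F0 l := by
    intro u hu x
    obtain ⟨r, hr, hsub, f0, hd, hf0⟩ := hloc (isCh_ch x) ((isCh_ch x).cp_mem (mem_ch x))
    obtain ⟨t, ht, hev⟩ := hf0 u hu (cp x) (mem_ball_self hr)
    rw [isOpen_ball.nhdsWithin_eq (mem_ball_self hr)] at ht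
    refine ⟨(ch x).source ∩ cp ⁻¹' (t ∩ ball (cp x) r), inter_mem
      ((ch x).open_source.mem_nhds (mem_ch x)) (cp_cont.continuousAt.preimage_mem_nhds
        (inter_mem ht (isOpen_ball.mem_nhds (mem_ball_self hr)))), ?_⟩
    filter_upwards [hev] with j hj y hy
    have h1 := hj (cp y) hy.2.1
    rw [hagree hf0 _ hy.2.2] at h1
    simpa [(isCh_ch x).symm_cp hy.1] using h1
  have hle : l ≤ atTop := by
    rw [← Nat.cofinite_eq_atTop]
    exact hyperfilter_le_cofinite
  -- a subsequence converging uniformly on the sublevel sets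
  have hsub : ∀ m : ℕ, ∃ j : ℕ, m ≤ j ∧ ∀ x, ρ x ≤ m → dist (F0 x) (F j x) < 1 / ((m : ℝ) + 1) := by
    intro m
    have h1 : TendstoUniformlyOn F F0 l {x | ρ x ≤ (m : ℝ)} :=
      (tendstoLocallyUniformlyOn_iff_tendstoUniformlyOn_of_compact (hcpt m)).1
        hLU.tendstoLocallyUniformlyOn
    have h2 := (Metric.tendstoUniformlyOn_iff.1 h1) (1 / ((m : ℝ) + 1)) (by positivity)
    have h3 : ∀ᶠ j in l, m ≤ j := hle (eventually_ge_atTop m)
    obtain ⟨j, hj1, hj2⟩ := (h3.and h2).exists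
    exact ⟨j, hj1, fun x hx => hj2 x hx⟩
  choose J hJ1 hJ2 using hsub
  have hJlim : ∀ x, Tendsto (fun m => F (J m) x) atTop (𝓝 (F0 x)) := by
    intro x
    rw [tendsto_iff_dist_tendsto_zero]
    refine squeeze_zero' (Eventually.of_forall fun _ => dist_nonneg) ?_
      tendsto_one_div_add_atTop_nhds_zero_nat
    obtain ⟨m0, hm0⟩ := exists_nat_ge (ρ x)
    filter_upwards [eventually_ge_atTop m0] with m hm
    rw [dist_comm]
    exact (hJ2 m x (hm0.trans (by exact_mod_cast hm))).le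
  have hFc : ∀ j, Continuous (F j) := fun j => Hol.continuous (hF j)
  have hmeasS : ∀ k : ℕ, MeasurableSet {x | ρ x ≤ (k : ℝ)} := fun k =>
    (isClosed_le hρ continuous_const).measurableSet
  -- Fatou
  have hfatou : ∀ k : ℕ, ∫⁻ x in {x | ρ x ≤ (k : ℝ)},
      ENNReal.ofReal (‖F0 x - G x‖ ^ 2) * ENNReal.ofReal (Real.exp (-φ k x)) ∂μ ≤ K := by
    intro k
    have h1 : ∀ x, ENNReal.ofReal (‖F0 x - G x‖ ^ 2) * ENNReal.ofReal (Real.exp (-φ k x)) =
        liminf (fun m => ENNReal.ofReal (‖F (J m) x - G x‖ ^ 2 * Real.exp (-φ k x))) atTop := by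
      intro x
      have h2 : Tendsto (fun m => ENNReal.ofReal (‖F (J m) x - G x‖ ^ 2 * Real.exp (-φ k x)))
          atTop (𝓝 (ENNReal.ofReal (‖F0 x - G x‖ ^ 2 * Real.exp (-φ k x)))) :=
        (ENNReal.continuous_ofReal.tendsto _).comp
          (((((hJlim x).sub_const (G x)).norm).pow 2).mul_const _)
      rw [h2.liminf_eq, ENNReal.ofReal_mul (by positivity)]
    simp only [h1]
    refine (lintegral_liminf_le fun m => ?_).trans ?_
    · exact (((((hFc (J m)).sub hG).norm.pow 2).mul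
        (Real.continuous_exp.comp (hφ k).neg))).measurable.ennreal_ofReal
    · refine liminf_le_of_frequently_le' (Eventually.frequently ?_)
      filter_upwards [eventually_ge_atTop k] with m hm
      have hkJ : k ≤ J m := hm.trans (hJ1 m)
      refine le_trans ?_ (hb (J m))
      refine (setLIntegral_mono' (hmeasS k) (g := fun x =>
        ENNReal.ofReal (‖F (J m) x - G x‖ ^ 2 * Real.exp (-φ (J m) x))) fun x _ => ?_).trans
        (lintegral_mono_set fun x hx => ?_)
      · refine ENNReal.ofReal_le_ofReal (mul_le_mul_of_nonneg_left ?_ (by positivity))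
        exact Real.exp_le_exp.2 (neg_le_neg (anti_aux hmono hkJ x))
      · exact le_trans (show ρ x ≤ (k : ℝ) from hx) (by exact_mod_cast hkJ)
  -- monotone convergence
  refine ⟨F0, hHol, hlim, ?_⟩
  set g : ℕ → M → ℝ≥0∞ := fun k => {x | ρ x ≤ (k : ℝ)}.indicator
    (fun x => ENNReal.ofReal (‖F0 x - G x‖ ^ 2) * ENNReal.ofReal (Real.exp (-φ k x))) with hg
  have hgm : ∀ k, Measurable (g k) := fun k =>
    ((((hF0c.sub hG).norm.pow 2).measurable.ennreal_ofReal).mul
      (Real.continuous_exp.comp (hφ k).neg).measurable.ennreal_ofReal).indicator (hmeasS k)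
  have hexp : ∀ x {k k' : ℕ}, k ≤ k' → ENNReal.ofReal (Real.exp (-φ k x)) ≤
      ENNReal.ofReal (Real.exp (-φ k' x)) := fun x k k' h =>
    ENNReal.ofReal_le_ofReal (Real.exp_le_exp.2 (neg_le_neg (anti_aux hmono h x)))
  have hgmono : Monotone g := by
    intro k k' hkk' x
    by_cases hx : ρ x ≤ (k : ℝ)
    · have hx' : ρ x ≤ (k' : ℝ) := hx.trans (by exact_mod_cast hkk')
      simp only [hg, indicator_of_mem (show x ∈ {x | ρ x ≤ (k : ℝ)} from hx),
        indicator_of_mem (show x ∈ {x | ρ x ≤ (k' : ℝ)} from hx')]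
      exact mul_le_mul_right (hexp x hkk') _
    · simp only [hg, indicator_of_notMem (show x ∉ {x | ρ x ≤ (k : ℝ)} from hx)]
      exact zero_le
  have hsup : ∀ x, ENNReal.ofReal (‖F0 x - G x‖ ^ 2) *
      (⨆ k, ENNReal.ofReal (Real.exp (-φ k x))) = ⨆ k, g k x := by
    intro x
    rw [ENNReal.mul_iSup]
    apply le_antisymm
    · refine iSup_le fun k => ?_
      obtain ⟨m0, hm0⟩ := exists_nat_ge (ρ x)
      have hx : ρ x ≤ ((max k m0 : ℕ) : ℝ) := hm0.trans (by exact_mod_cast le_max_right _ _)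
      refine le_trans ?_ (le_iSup (fun k => g k x) (max k m0))
      simp only [hg, indicator_of_mem (show x ∈ {x | ρ x ≤ ((max k m0 : ℕ) : ℝ)} from hx)]
      exact mul_le_mul_right (hexp x (le_max_left _ _)) _
    · refine iSup_mono fun k => ?_
      exact indicator_le_self _ _ _
  simp only [hsup]
  rw [lintegral_iSup hgm hgmono]
  refine iSup_le fun k => ?_
  simp only [hg]
  rw [lintegral_indicator (hmeasS k)]
  exact hfatou k


end Crest.Agent.R273.TwL_34
end
end

-- ▼ part R273/TwE_34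

/-!
# Row 273: the TWISTED HÖRMANDER ENGINE on Riemann domains (helper34)

`M` a Riemann domain over `ℂⁿ` with a smooth strictly psh exhaustion `ρ`; `Φ, ψ, q` smooth real
functions, `q ≥ 2`, `c > 1`; `Bt c Φ ψ q x w = Levi (Φ+ψ) x w - c q/(q-1) |∑ w_j ∂_jψ|² ≥ 0`;
`G` smooth with `|∑ ∂̄_jG conj w_j|² ≤ κ Bt`.  Then there is `F` holomorphic with
`∫ |F-G|² e^{ψ-Φ}/q ≤ ∫ κ e^{ψ-Φ}` (`twE_step` : on a sublevel set, `twE` : globally).
-/

set_option autoImplicit false
set_option linter.unusedSectionVars false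

noncomputable section

open Set Filter Topology MeasureTheory ComplexConjugate
open scoped ENNReal

namespace Crest.Agent.R273.TwE_34

open Crest.Agent.R271.Ho51 Crest.Agent.R271.H88 Crest.Agent.R271 Crest.Agent.R273.TwA_34
  Crest.Agent.R273.TwB_34

variable {n : ℕ} {M : Type*} [TopologicalSpace M] [T2Space M] [SecondCountableTopology M]
  [RDom n M] [MeasurableSpace M] [BorelSpace M] {μ : Measure M} {c : ℝ}

/-- one weight, one sublevel set, measurable `κ` -/
theorem step_meas (hμ : IsLeb μ) {ρ : M → ℝ} (hρ : Sm ρ)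
    (hcpt : ∀ t : ℝ, IsCompact {x | ρ x ≤ t}) (hL : ∀ x w, nsq w ≤ Levi ρ x w) (a : ℝ)
    (hc1 : 1 < c) {Φ ψ q : M → ℝ} (hΦ : Sm Φ) (hψ : Sm ψ) (hq : Sm q) (hq2 : ∀ x, 2 ≤ q x)
    (hpos : ∀ x w, 0 ≤ Bt c Φ ψ q x w) {G : M → ℂ} (hG : Sm G)
    {κ : M → ℝ} (hκ0 : ∀ x, 0 ≤ κ x) (hκm : Measurable κ)
    (hk : ∀ x (w : Fin n → ℂ), ‖∑ j, db j G x * conj (w j)‖ ^ 2 ≤ κ x * Bt c Φ ψ q x w)
    {K0 : ℝ} (hK0 : 0 ≤ K0)
    (hKint : ∫⁻ x, ENNReal.ofReal (κ x * Real.exp (ψ x - Φ x)) ∂μ ≤ ENNReal.ofReal K0) :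
    ∃ F : M → ℂ, Hol F ∧ ∫⁻ x in {x | ρ x ≤ a},
      ENNReal.ofReal (‖F x - G x‖ ^ 2 * (Real.exp (ψ x - Φ x) / q x)) ∂μ ≤
        ENNReal.ofReal K0 := by
  have hΦc := hΦ.continuous
  have hψc0 := hψ.continuous
  have hqc := hq.continuous
  have hαc : Continuous (fun x => (fun j => db j G x : Fin n → ℂ)) :=
    continuous_pi fun j => (hG.db j).continuous
  have hnα : Continuous (fun x => nsq (fun j => db j G x)) := continuous_nsq.comp hαc
  have hhc : Continuous (fun x => nsq (fun j => db j G x) * Real.exp (-Φ x)) := by fun_prop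
  have hlq : Sm (fun x => Real.log (q x / 2)) := sm_logq hq hq2
  -- the extra growth function
  have hLs : Sm (fun x => (Real.log (q x / 2) - ψ x) * (Real.log (q x / 2) - ψ x) + 1) :=
    ((hlq.sub hψ).mulR (hlq.sub hψ)).add (Sm.const 1)
  obtain ⟨ψc, χ, hψc, hχ, hψ0, hsub, h2, hLχ, hint, η, hη, hη1⟩ :=
    TwW_34.exists_weights hμ ρ hρ hcpt hL a _ hhc _ hLs
      (fun x => add_nonneg (mul_self_nonneg _) zero_le_one) (2 * (c / (c - 1)))
      (mul_nonneg (by norm_num) (div_nonneg (by linarith) (by linarith)))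
  have hψcc := hψc.continuous
  have hχc := hχ.continuous
  have hαi : Integrable (fun x => nsq (fun j => db j G x) *
      Real.exp (-(Wt Φ ψ χ q x + (fun _ => (0 : ℝ)) x - ψo ψ ψc q x))) μ := by
    simp only [Wt_sub]
    refine ⟨(by fun_prop : Continuous _).aestronglyMeasurable, ?_⟩
    rw [hasFiniteIntegral_iff_ofReal (Eventually.of_forall fun x => by
      have := nsq_nonneg (fun j => db j G x); positivity)]
    refine lt_of_le_of_lt (le_of_eq ?_) hint
    refine lintegral_congr fun x => ?_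
    congr 1
    have h0 : 0 ≤ nsq (fun j => db j G x) * Real.exp (-Φ x) := by
      have := nsq_nonneg (fun j => db j G x); positivity
    rw [abs_of_nonneg h0, mul_assoc, ← Real.exp_add]
    congr 2; ring
  have hpair : PairC μ (Wt Φ ψ χ q) (fun _ => 0) (ψo ψ ψc q) (fun x j => db j G x) K0 :=
    pairC_tw hμ hc1 hΦ hψ hψc hχ hq hq2 hpos hLχ h2 hαc hκ0 hκm hk hK0 hKint
  have hη' : ∀ ν, Sm (η ν) ∧ HasCompactSupport (η ν) ∧
      (∀ x, 0 ≤ η ν x ∧ η ν x ≤ 1) ∧
      ∀ x, nsq (fun j => dz j (fun y => (η ν y : ℂ)) x) ≤ Real.exp (ψo ψ ψc q x) := by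
    intro ν
    obtain ⟨e1, e2, e3, e4⟩ := hη ν
    refine ⟨e1, e2, e3, fun x => (e4 x).trans (Real.exp_le_exp.2 ?_)⟩
    unfold ψo
    nlinarith [sq_nonneg (Real.log (q x / 2) - ψ x - 1), sq_nonneg (Real.log (q x / 2) - ψ x)]
  obtain ⟨U, hUm, hUi, hUb, hUw⟩ := solve hμ wpmul (sm_Wt hΦ hψ hχ hq hq2) (Sm.const 0)
    (sm_ψo hψ hψc hq hq2) hG hK0 hpair hαi η hη' hη1
  have hw1 : ∀ x, Wt Φ ψ χ q x + (fun _ => (0 : ℝ)) x - 2 * ψo ψ ψc q x =
      Φ x - ψ x + Real.log (q x / 2) + (χ x - 2 * ψc x) := by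
    intro x; unfold Wt ψo; ring
  simp only [hw1] at hUi hUb
  have hlqc := hlq.continuous
  have hUloc : LocallyIntegrable U μ := by
    refine locallyIntegrable_of_bound hμ hUm hUi
      (C := fun x => Real.exp (Φ x - ψ x + Real.log (q x / 2) + (χ x - 2 * ψc x)))
      (by fun_prop) (fun x => by positivity) fun x => ?_
    have h1 : Real.exp (Φ x - ψ x + Real.log (q x / 2) + (χ x - 2 * ψc x)) *
        Real.exp (-(Φ x - ψ x + Real.log (q x / 2) + (χ x - 2 * ψc x))) = 1 := by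
      rw [← Real.exp_add, add_neg_cancel, Real.exp_zero]
    calc ‖U x‖ ^ 2 = ‖U x‖ ^ 2 *
          (Real.exp (Φ x - ψ x + Real.log (q x / 2) + (χ x - 2 * ψc x)) *
            Real.exp (-(Φ x - ψ x + Real.log (q x / 2) + (χ x - 2 * ψc x)))) := by
          rw [h1, mul_one]
      _ = _ := by ring
      _ ≤ _ := le_rfl
  obtain ⟨F, hF, hFae⟩ := WeylM399.weylM hμ hUloc hG hUw
  refine ⟨F, hF, ?_⟩
  have hmeas : MeasurableSet {x | ρ x ≤ a} :=
    (isClosed_le hρ.continuous continuous_const).measurableSet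
  have h1 : ∫⁻ x in {x | ρ x ≤ a},
      ENNReal.ofReal (‖F x - G x‖ ^ 2 * (Real.exp (ψ x - Φ x) / q x)) ∂μ =
      ∫⁻ x in {x | ρ x ≤ a}, ENNReal.ofReal (1 / 2) *
        ENNReal.ofReal (‖U x‖ ^ 2 *
          Real.exp (-(Φ x - ψ x + Real.log (q x / 2) + (χ x - 2 * ψc x)))) ∂μ := by
    refine lintegral_congr_ae ?_
    filter_upwards [ae_restrict_of_ae hFae, ae_restrict_mem hmeas] with x hx hxa
    obtain ⟨hp, hc⟩ := hsub x hxa
    have hx' : F x - G x = - U x := by
      have : G x - U x = F x := hx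
      rw [← this]; ring
    rw [hx', norm_neg, hp, hc, ← ENNReal.ofReal_mul (by norm_num)]
    congr 1
    have hq0 : 0 < q x := by have := hq2 x; linarith
    have e1 : -(Φ x - ψ x + Real.log (q x / 2) + (0 - 2 * 0)) =
        (ψ x - Φ x) - Real.log (q x / 2) := by ring
    have e2 : Real.exp (ψ x - Φ x - Real.log (q x / 2)) =
        Real.exp (ψ x - Φ x) / (q x / 2) := by
      rw [Real.exp_sub (ψ x - Φ x), Real.exp_log (by positivity)]
    rw [e1, e2]
    field_simp
  rw [h1, lintegral_const_mul' _ _ ENNReal.ofReal_ne_top]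
  calc _ ≤ ENNReal.ofReal (1 / 2) * ∫⁻ x, ENNReal.ofReal (‖U x‖ ^ 2 *
          Real.exp (-(Φ x - ψ x + Real.log (q x / 2) + (χ x - 2 * ψc x)))) ∂μ := by
        gcongr
        exact Measure.restrict_le_self
    _ = ENNReal.ofReal (1 / 2) * ENNReal.ofReal (∫ x, ‖U x‖ ^ 2 *
          Real.exp (-(Φ x - ψ x + Real.log (q x / 2) + (χ x - 2 * ψc x))) ∂μ) := by
        rw [ofReal_integral_eq_lintegral_ofReal hUi
          (Eventually.of_forall fun x => by positivity)]
    _ ≤ ENNReal.ofReal (1 / 2) * ENNReal.ofReal (2 * K0) := by gcongr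
    _ = ENNReal.ofReal K0 := by
        rw [← ENNReal.ofReal_mul (by norm_num)]
        congr 1; ring

/-! ### removing the measurability of `κ` -/

lemma Bt_cont_w (c : ℝ) (Φ ψ q : M → ℝ) (x : M) : Continuous (fun w : Fin n → ℂ => Bt c Φ ψ q x w) := by
  unfold Bt Levi; fun_prop

/-- the best constant -/
def kmin (c : ℝ) (Φ ψ q : M → ℝ) (α : M → (Fin n → ℂ)) (x : M) : ℝ :=
  ⨆ i : ℕ, (if 0 < Bt c Φ ψ q x (TopologicalSpace.denseSeq (Fin n → ℂ) i) then
    ‖∑ j, α x j * conj (TopologicalSpace.denseSeq (Fin n → ℂ) i j)‖ ^ 2 /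
      Bt c Φ ψ q x (TopologicalSpace.denseSeq (Fin n → ℂ) i) else 0)

lemma kmin_spec {Φ ψ q : M → ℝ} (hΦ : Sm Φ) (hψ : Sm ψ) (hq : Sm q) (hq2 : ∀ x, 2 ≤ q x)
    (hpos : ∀ x w, 0 ≤ Bt c Φ ψ q x w)
    {α : M → (Fin n → ℂ)} (hα : Continuous α) {κ : M → ℝ}
    (hk : ∀ x (w : Fin n → ℂ), ‖∑ j, α x j * conj (w j)‖ ^ 2 ≤ κ x * Bt c Φ ψ q x w) :
    Measurable (kmin c Φ ψ q α) ∧ (∀ x, 0 ≤ kmin c Φ ψ q α x) ∧
      (∀ x, kmin c Φ ψ q α x ≤ max (κ x) 0) ∧
      ∀ x (w : Fin n → ℂ), ‖∑ j, α x j * conj (w j)‖ ^ 2 ≤ kmin c Φ ψ q α x * Bt c Φ ψ q x w := by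
  set d := TopologicalSpace.denseSeq (Fin n → ℂ) with hd
  have hterm : ∀ x i, (if 0 < Bt c Φ ψ q x (d i) then
      ‖∑ j, α x j * conj (d i j)‖ ^ 2 / Bt c Φ ψ q x (d i) else 0) ≤ max (κ x) 0 := by
    intro x i
    split_ifs with h
    · rw [div_le_iff₀ h]
      exact (hk x (d i)).trans (mul_le_mul_of_nonneg_right (le_max_left _ _) h.le)
    · exact le_max_right _ _
  have hterm0 : ∀ x i, 0 ≤ (if 0 < Bt c Φ ψ q x (d i) then
      ‖∑ j, α x j * conj (d i j)‖ ^ 2 / Bt c Φ ψ q x (d i) else 0) := by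
    intro x i
    split_ifs with h
    · positivity
    · exact le_rfl
  have hbdd : ∀ x, BddAbove (range fun i => (if 0 < Bt c Φ ψ q x (d i) then
      ‖∑ j, α x j * conj (d i j)‖ ^ 2 / Bt c Φ ψ q x (d i) else 0)) := fun x =>
    ⟨max (κ x) 0, by rintro _ ⟨i, rfl⟩; exact hterm x i⟩
  refine ⟨?_, ?_, ?_, ?_⟩
  · refine Measurable.iSup fun i => ?_
    have h1 : Continuous (fun x => Bt c Φ ψ q x (d i)) :=
      Bt_continuous hΦ hψ hq hq2 continuous_const
    have h2 : Continuous (fun x => ‖∑ j, α x j * conj (d i j)‖ ^ 2) := by fun_prop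
    exact Measurable.ite (measurableSet_lt measurable_const h1.measurable)
      (h2.measurable.div h1.measurable) measurable_const
  · intro x
    exact Real.iSup_nonneg fun i => hterm0 x i
  · intro x
    exact ciSup_le fun i => hterm x i
  · intro x w
    have hcl : IsClosed {w : Fin n → ℂ | ‖∑ j, α x j * conj (w j)‖ ^ 2 ≤
        kmin c Φ ψ q α x * Bt c Φ ψ q x w} :=
      isClosed_le (by fun_prop) (continuous_const.mul (Bt_cont_w c Φ ψ q x))
    have hall : closure (range d) ⊆ {w : Fin n → ℂ | ‖∑ j, α x j * conj (w j)‖ ^ 2 ≤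
        kmin c Φ ψ q α x * Bt c Φ ψ q x w} := by
      refine closure_minimal ?_ hcl
      rintro _ ⟨i, rfl⟩
      show ‖∑ j, α x j * conj (d i j)‖ ^ 2 ≤ kmin c Φ ψ q α x * Bt c Φ ψ q x (d i)
      rcases (hpos x (d i)).lt_or_eq with h | h
      · have h1 := le_ciSup (hbdd x) i
        simp only [if_pos h] at h1
        rw [div_le_iff₀ h] at h1
        exact h1
      · rw [← h, mul_zero]
        have h1 := hk x (d i)
        rw [← h, mul_zero] at h1
        exact h1
    exact hall (by rw [(TopologicalSpace.denseRange_denseSeq _).closure_range]; trivial)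

/-- **Twisted engine on a sublevel set.** -/
theorem twE_step (hμ : IsLeb μ) {ρ : M → ℝ} (hρ : Sm ρ)
    (hcpt : ∀ t : ℝ, IsCompact {x | ρ x ≤ t}) (hL : ∀ x w, nsq w ≤ Levi ρ x w) (a : ℝ)
    (hc1 : 1 < c) {Φ ψ q : M → ℝ} (hΦ : Sm Φ) (hψ : Sm ψ) (hq : Sm q) (hq2 : ∀ x, 2 ≤ q x)
    (hpos : ∀ x w, 0 ≤ Bt c Φ ψ q x w) {G : M → ℂ} (hG : Sm G)
    {κ : M → ℝ}
    (hk : ∀ x (w : Fin n → ℂ), ‖∑ j, db j G x * conj (w j)‖ ^ 2 ≤ κ x * Bt c Φ ψ q x w)
    {K : ℝ≥0∞}
    (hK : ∫⁻ x, ENNReal.ofReal (κ x * Real.exp (ψ x - Φ x)) ∂μ ≤ K) :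
    ∃ F : M → ℂ, Hol F ∧ ∫⁻ x in {x | ρ x ≤ a},
      ENNReal.ofReal (‖F x - G x‖ ^ 2 * (Real.exp (ψ x - Φ x) / q x)) ∂μ ≤ K := by
  by_cases hKt : K = ∞
  · subst hKt
    exact ⟨fun _ => 0, fun e _ => differentiableOn_const _, le_top⟩
  · have hαc : Continuous (fun x => (fun j => db j G x : Fin n → ℂ)) :=
      continuous_pi fun j => (hG.db j).continuous
    obtain ⟨s1, s2, s3, s4⟩ := kmin_spec hΦ hψ hq hq2 hpos hαc hk
    have hKr : ENNReal.ofReal K.toReal = K := ENNReal.ofReal_toReal hKt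
    have := step_meas hμ hρ hcpt hL a hc1 hΦ hψ hq hq2 hpos hG s2 s1 s4
      (K0 := K.toReal) ENNReal.toReal_nonneg (by
        rw [hKr]
        refine le_trans (lintegral_mono fun x => ?_) hK
        rcases le_or_gt 0 (κ x) with h | h
        · refine ENNReal.ofReal_le_ofReal (mul_le_mul_of_nonneg_right ?_ (Real.exp_pos _).le)
          have := s3 x
          rwa [max_eq_left h] at this
        · have h1 := s3 x
          rw [max_eq_right h.le] at h1
          have h2 : kmin c Φ ψ q (fun x => (fun j => db j G x : Fin n → ℂ)) x = 0 :=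
            le_antisymm h1 (s2 x)
          rw [h2, zero_mul, ENNReal.ofReal_zero]
          exact zero_le)
    rwa [hKr] at this

/-- **Twisted engine**, global form. -/
theorem twE (hμ : IsLeb μ) {ρ : M → ℝ} (hρ : Sm ρ)
    (hcpt : ∀ t : ℝ, IsCompact {x | ρ x ≤ t}) (hL : ∀ x w, nsq w ≤ Levi ρ x w)
    (hc1 : 1 < c) {Φ ψ q : M → ℝ} (hΦ : Sm Φ) (hψ : Sm ψ) (hq : Sm q) (hq2 : ∀ x, 2 ≤ q x)
    (hpos : ∀ x w, 0 ≤ Bt c Φ ψ q x w) {G : M → ℂ} (hG : Sm G)
    {κ : M → ℝ}
    (hk : ∀ x (w : Fin n → ℂ), ‖∑ j, db j G x * conj (w j)‖ ^ 2 ≤ κ x * Bt c Φ ψ q x w)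
    {K : ℝ≥0∞}
    (hK : ∫⁻ x, ENNReal.ofReal (κ x * Real.exp (ψ x - Φ x)) ∂μ ≤ K) :
    ∃ F : M → ℂ, Hol F ∧
      ∫⁻ x, ENNReal.ofReal (‖F x - G x‖ ^ 2 * (Real.exp (ψ x - Φ x) / q x)) ∂μ ≤ K := by
  by_cases hKt : K = ∞
  · subst hKt
    exact ⟨fun _ => 0, fun e _ => differentiableOn_const _, le_top⟩
  have hq0 : ∀ x, 0 < q x := fun x => by have := hq2 x; linarith
  have hlq : Continuous (fun x => Real.log (q x)) := hq.continuous.log fun x => (hq0 x).ne'
  have hexp : ∀ x, Real.exp (-(Φ x - ψ x + Real.log (q x))) = Real.exp (ψ x - Φ x) / q x := by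
    intro x
    rw [show -(Φ x - ψ x + Real.log (q x)) = (ψ x - Φ x) - Real.log (q x) by ring,
      Real.exp_sub (ψ x - Φ x), Real.exp_log (hq0 x)]
  choose F hF hFb using fun k : ℕ =>
    twE_step hμ hρ hcpt hL (k : ℝ) hc1 hΦ hψ hq hq2 hpos hG hk hK
  obtain ⟨F0, hF0, -, hb⟩ := TwL_34.limit_hol hμ ρ hρ.continuous hcpt
    (fun _ x => Φ x - ψ x + Real.log (q x))
    (fun _ => (hΦ.continuous.sub hψ.continuous).add hlq) (fun _ _ => le_rfl) G hG.continuous F hF
    K hKt (fun k => by simpa only [hexp] using hFb k)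
  refine ⟨F0, hF0, le_trans (le_of_eq ?_) hb⟩
  refine lintegral_congr fun x => ?_
  rw [iSup_const, hexp, ENNReal.ofReal_mul (by positivity)]

end Crest.Agent.R273.TwE_34
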