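import Crest.Agent.R275.Kos_798
import Mathlib.LinearAlgebra.Matrix.Determinant.Basic
import Mathlib.Data.Finset.Sort
import Mathlib.Order.Interval.Finset.Fin

/-!
# R273 (S0416), D0 (helper243): Fock space algebra on `Finset (Fin n)`

* `eW v` : wedge with `v`; `iW w` : contraction with `w`; the anticommutation relations;
* `Gam A` : the matrix of minors (`Λ^* A`); `Gam A * eW v = eW (A v) * Gam A`,
  `iW w * Gam A = Gam A * iW (Aᵀ w)`, `Gam (A B) = Gam A * Gam B`, transposes, ring homs;
* `ext_of_eW` : a matrix is determined by its vacuum column and its commutation with `eW`;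
* `key_id` : `Ki l k • Γ = Γ i_l Γi e_k Γ + e_k Γ i_l` (the Kodaira-Nakano-Hörmander algebra);
* `kahler_e`, `kahler_i` : the two consequences of the Kähler symmetry.
-/

set_option autoImplicit false

open Finset Matrix

namespace Crest.Agent.R273.Fock_243

open Crest.Agent.R275.Kos798

variable {R : Type*} [CommRing R] {n : ℕ}

/-- index set of the Fock basis -/
abbrev FI (n : ℕ) : Type := Finset (Fin n)

theorem K_add (s p s' p' : Fin n → R) : K (s + s') (p + p') = K s p + K s' p' := by
  ext T S
  simp only [K, Matrix.add_apply, ← Finset.sum_add_distrib]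
  refine Finset.sum_congr rfl fun j _ => ?_
  split_ifs with h
  · unfold cf
    split_ifs <;> simp only [Pi.add_apply] <;> ring
  · ring

theorem K_smul (c : R) (s p : Fin n → R) : K (c • s) (c • p) = c • K s p := by
  ext T S
  simp only [K, Matrix.smul_apply, smul_eq_mul, Finset.mul_sum]
  refine Finset.sum_congr rfl fun j _ => ?_
  split_ifs with h
  · unfold cf
    split_ifs <;> simp only [Pi.smul_apply, smul_eq_mul] <;> ring
  · ring

/-- wedge with `v` -/
def eW (v : Fin n → R) : Matrix (FI n) (FI n) R := K v 0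

/-- contraction with `w` -/
def iW (w : Fin n → R) : Matrix (FI n) (FI n) R := K 0 w

theorem eW_add (v v' : Fin n → R) : eW (v + v') = eW v + eW v' := by
  unfold eW; rw [← K_add, add_zero]

theorem iW_add (v v' : Fin n → R) : iW (v + v') = iW v + iW v' := by
  unfold iW; rw [← K_add, add_zero]

theorem eW_smul (c : R) (v : Fin n → R) : eW (c • v) = c • eW v := by
  unfold eW; rw [← K_smul, smul_zero]

theorem iW_smul (c : R) (v : Fin n → R) : iW (c • v) = c • iW v := by
  unfold iW; rw [← K_smul, smul_zero]

@[simp] theorem eW_zero : eW (0 : Fin n → R) = 0 := by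
  have := eW_smul (0 : R) (0 : Fin n → R); simpa using this

@[simp] theorem iW_zero : iW (0 : Fin n → R) = 0 := by
  have := iW_smul (0 : R) (0 : Fin n → R); simpa using this

theorem K_eq (v w : Fin n → R) : K v w = eW v + iW w := by
  unfold eW iW; rw [← K_add, add_zero, zero_add]

theorem eW_sq (v : Fin n → R) : eW v * eW v = 0 := by
  unfold eW; rw [K_mul_K]; simp

theorem iW_sq (v : Fin n → R) : iW v * iW v = 0 := by
  unfold iW; rw [K_mul_K]; simp

theorem eW_anti (v w : Fin n → R) : eW v * eW w + eW w * eW v = 0 := by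
  have h := eW_sq (v + w)
  rw [eW_add, add_mul, mul_add, mul_add, eW_sq, eW_sq, zero_add, add_zero] at h
  exact h

theorem iW_anti (v w : Fin n → R) : iW v * iW w + iW w * iW v = 0 := by
  have h := iW_sq (v + w)
  rw [iW_add, add_mul, mul_add, mul_add, iW_sq, iW_sq, zero_add, add_zero] at h
  exact h

theorem iW_eW (w v : Fin n → R) : iW w * eW v + eW v * iW w = (∑ j, v j * w j) • 1 := by
  have h := K_mul_K v w
  rw [K_eq, add_mul, mul_add, mul_add, eW_sq, iW_sq, zero_add, add_zero] at h
  rw [← h, add_comm]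

theorem K_transpose (s p : Fin n → R) : (K s p)ᵀ = K p s := by
  ext T S
  simp only [Matrix.transpose_apply, K]
  refine Finset.sum_congr rfl fun j _ => ?_
  by_cases h : tog S j = T
  · have h' : tog T j = S := by rw [← h, tog_tog]
    rw [if_pos h, if_pos h', ← h, sgn_tog_self]
    unfold cf
    by_cases hj : j ∈ S
    · have : j ∉ tog S j := by rw [mem_tog_self]; exact not_not.2 hj
      rw [if_pos hj, if_neg this]
    · have : j ∈ tog S j := by rw [mem_tog_self]; exact hj
      rw [if_neg hj, if_pos this]
  · have h' : ¬ tog T j = S := fun h' => h (by rw [← h', tog_tog])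
    rw [if_neg h, if_neg h']

@[simp] theorem eW_transpose (v : Fin n → R) : (eW v)ᵀ = iW v := K_transpose v 0

@[simp] theorem iW_transpose (v : Fin n → R) : (iW v)ᵀ = eW v := K_transpose 0 v

/-- basis covector -/
abbrev ep (j : Fin n) : Fin n → R := Pi.single j 1

theorem eW_eq_sum (v : Fin n → R) : eW v = ∑ j, v j • eW (ep j) := by
  have h1 : v = ∑ j, v j • (ep j : Fin n → R) := by
    ext k
    simp [Finset.sum_apply, Pi.single_apply]
  have h2 : ∀ s : Finset (Fin n), eW (∑ j ∈ s, v j • (ep j : Fin n → R))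
      = ∑ j ∈ s, v j • eW (ep j) := by
    intro s
    induction s using Finset.induction_on with
    | empty => simp
    | insert a s ha ih => rw [Finset.sum_insert ha, Finset.sum_insert ha, eW_add, eW_smul, ih]
  conv_lhs => rw [h1]
  exact h2 _

theorem iW_eq_sum (v : Fin n → R) : iW v = ∑ j, v j • iW (ep j) := by
  have h := congrArg Matrix.transpose (eW_eq_sum v)
  rw [eW_transpose, Matrix.transpose_sum] at h
  rw [h]
  refine Finset.sum_congr rfl fun j _ => ?_
  rw [Matrix.transpose_smul, eW_transpose]

/-- wedge of a basis vector with a larger word -/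
theorem eW_single {t : Fin n} {T : FI n} (h : ∀ k ∈ T, t < k) :
    eW (ep t : Fin n → R) *ᵥ Pi.single T 1 = Pi.single (insert t T) 1 := by
  have ht : t ∉ T := fun h' => lt_irrefl _ (h t h')
  unfold eW
  rw [K_mulVec]
  ext S
  unfold op cf
  rw [Finset.sum_eq_single t]
  · by_cases hS : S = insert t T
    · subst hS
      have h1 : tog (insert t T) t = T := by
        unfold tog
        rw [if_pos (Finset.mem_insert_self t T), Finset.erase_insert ht]
      have h2 : sgn R t (insert t T) = 1 := by
        unfold sgn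
        have : (insert t T).filter (· < t) = ∅ := by
          ext k
          simp only [mem_filter, mem_insert, notMem_empty, iff_false, not_and, not_lt]
          rintro (rfl | hk)
          · exact le_rfl
          · exact (h k hk).le
        rw [this]; simp
      rw [h1, h2]
      simp
    · rw [Pi.single_eq_of_ne hS]
      by_cases h1 : t ∈ S
      · have h2 : tog S t ≠ T := by
          intro h3
          apply hS
          rw [← h3]
          unfold tog
          rw [if_pos h1, Finset.insert_erase h1]
        rw [Pi.single_eq_of_ne h2, mul_zero]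
      · simp [h1]
  · intro j _ hj
    rw [show (ep t : Fin n → R) j = 0 from Pi.single_eq_of_ne hj 1]
    simp
  · simp

/-- a matrix is determined by its vacuum column and its commutation with the creation operators -/
theorem ext_of_eW {M N : Matrix (FI n) (FI n) R} (B : Fin n → Matrix (FI n) (FI n) R)
    (hM : ∀ j, M * eW (ep j) = B j * M) (hN : ∀ j, N * eW (ep j) = B j * N)
    (h0 : ∀ S, M S ∅ = N S ∅) : M = N := by
  apply Matrix.ext_of_mulVec_single
  intro T
  induction T using Finset.induction_on_min with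
  | empty =>
    ext S
    rw [Matrix.mulVec_single_one, Matrix.mulVec_single_one]
    exact h0 S
  | insert a s ha ih =>
    rw [← eW_single ha, Matrix.mulVec_mulVec, Matrix.mulVec_mulVec, hM, hN,
      ← Matrix.mulVec_mulVec, ← Matrix.mulVec_mulVec, ih]

/-! ### The matrix of minors -/

/-- the matrix of minors -/
def Gam (A : Matrix (Fin n) (Fin n) R) : Matrix (FI n) (FI n) R := fun S T =>
  if h : S.card = T.card then
    (A.submatrix (S.orderEmbOfFin rfl) (T.orderEmbOfFin h.symm)).det else 0

theorem Gam_eq (A : Matrix (Fin n) (Fin n) R) {S T : FI n} {k : ℕ} (hS : S.card = k)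
    (hT : T.card = k) :
    Gam A S T = (A.submatrix (S.orderEmbOfFin hS) (T.orderEmbOfFin hT)).det := by
  subst hS
  unfold Gam
  rw [dif_pos hT.symm]

theorem Gam_of_ne (A : Matrix (Fin n) (Fin n) R) {S T : FI n} (h : S.card ≠ T.card) :
    Gam A S T = 0 := by
  unfold Gam
  rw [dif_neg h]

theorem Gam_vac (A : Matrix (Fin n) (Fin n) R) (S : FI n) :
    Gam A S ∅ = if S = ∅ then 1 else 0 := by
  by_cases hS : S = ∅
  · subst hS
    rw [if_pos rfl, Gam_eq A (k := 0) rfl rfl]
    exact Matrix.det_isEmpty
  · rw [if_neg hS]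
    exact Gam_of_ne A (by rw [Finset.card_empty]; exact fun h => hS (Finset.card_eq_zero.1 h))

theorem Gam_transpose (A : Matrix (Fin n) (Fin n) R) : (Gam A)ᵀ = Gam Aᵀ := by
  ext S T
  rw [Matrix.transpose_apply]
  by_cases h : T.card = S.card
  · rw [Gam_eq A h rfl, Gam_eq Aᵀ rfl h, ← Matrix.det_transpose, Matrix.transpose_submatrix]
  · rw [Gam_of_ne _ h, Gam_of_ne _ (Ne.symm h)]

theorem Gam_map {R' : Type*} [CommRing R'] (f : R →+* R') (A : Matrix (Fin n) (Fin n) R) :
    (Gam A).map f = Gam (A.map f) := by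
  ext S T
  rw [Matrix.map_apply]
  by_cases h : S.card = T.card
  · rw [Gam_eq A rfl h.symm, Gam_eq _ rfl h.symm, RingHom.map_det]
    rfl
  · rw [Gam_of_ne _ h, Gam_of_ne _ h, map_zero]

/-- `#{k ∈ S, k < s_i} = i` -/
theorem card_filter_lt {S : FI n} {k : ℕ} (hS : S.card = k) (i : Fin k) :
    (S.filter (· < S.orderEmbOfFin hS i)).card = i := by
  have h1 : S.filter (· < S.orderEmbOfFin hS i)
      = (Finset.Iio i).map (S.orderEmbOfFin hS).toEmbedding := by
    ext j
    simp only [mem_filter, mem_map, mem_Iio, RelEmbedding.coe_toEmbedding]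
    constructor
    · rintro ⟨h1, h2⟩
      rw [← Finset.map_orderEmbOfFin_univ S hS, mem_map] at h1
      obtain ⟨a, -, rfl⟩ := h1
      exact ⟨a, (S.orderEmbOfFin hS).lt_iff_lt.1 h2, rfl⟩
    · rintro ⟨a, h1, rfl⟩
      exact ⟨Finset.orderEmbOfFin_mem S hS a, (S.orderEmbOfFin hS).lt_iff_lt.2 h1⟩
  rw [h1, Finset.card_map, Fin.card_Iio]

/-- Laplace expansion along the first column -/
theorem Gam_insert (A : Matrix (Fin n) (Fin n) R) {t : Fin n} {T : FI n} (h : ∀ k ∈ T, t < k)
    (S : FI n) : Gam A S (insert t T) = (eW (fun j => A j t) * Gam A) S T := by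
  have ht : t ∉ T := fun h' => lt_irrefl _ (h t h')
  have e1 : (eW (fun j => A j t) * Gam A) S T
      = ∑ j ∈ S, sgn R j S * A j t * Gam A (S.erase j) T := by
    have : (eW (fun j => A j t) * Gam A) S T = (K (fun j => A j t) 0 *ᵥ (fun U => Gam A U T)) S :=
      rfl
    rw [this, K_mulVec]
    unfold op cf
    rw [← Finset.sum_subset (Finset.subset_univ S)]
    · refine Finset.sum_congr rfl fun j hj => ?_
      rw [if_pos hj]
      unfold tog
      rw [if_pos hj]
    · intro j _ hj
      rw [if_neg hj]
      simp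
  rw [e1]
  by_cases hc : S.card = T.card + 1
  · have hT : (insert t T).card = T.card + 1 := Finset.card_insert_of_notMem ht
    rw [Gam_eq A hc hT, Matrix.det_succ_column_zero]
    have e2 : ∑ j ∈ S, sgn R j S * A j t * Gam A (S.erase j) T
        = ∑ i : Fin (T.card + 1), sgn R (S.orderEmbOfFin hc i) S * A (S.orderEmbOfFin hc i) t *
          Gam A (S.erase (S.orderEmbOfFin hc i)) T := by
      conv_lhs => rw [← Finset.map_orderEmbOfFin_univ S hc]
      rw [Finset.sum_map]
      simp only [RelEmbedding.coe_toEmbedding, Finset.map_orderEmbOfFin_univ]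
    rw [e2]
    refine Finset.sum_congr rfl fun i _ => ?_
    have h1 : (insert t T).orderEmbOfFin hT 0 = t := by
      rw [← Fin.mk_zero' , Finset.orderEmbOfFin_zero hT (by omega)]
      rw [Finset.min'_eq_iff]
      refine ⟨Finset.mem_insert_self t T, fun k hk => ?_⟩
      rcases Finset.mem_insert.1 hk with rfl | hk
      · exact le_rfl
      · exact (h k hk).le
    have h2 : (fun j : Fin T.card => (insert t T).orderEmbOfFin hT j.succ)
        = T.orderEmbOfFin rfl := by
      apply Finset.orderEmbOfFin_unique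
      · intro j
        have h3 : (insert t T).orderEmbOfFin hT j.succ ∈ insert t T :=
          Finset.orderEmbOfFin_mem _ hT _
        rcases Finset.mem_insert.1 h3 with h4 | h4
        · exfalso
          exact absurd ((insert t T).orderEmbOfFin hT |>.injective (h4.trans h1.symm))
            (Fin.succ_ne_zero j)
        · exact h4
      · intro a b hab
        exact ((insert t T).orderEmbOfFin hT).strictMono (Fin.succ_lt_succ_iff.2 hab)
    have hE : (S.erase (S.orderEmbOfFin hc i)).card = T.card := by
      rw [Finset.card_erase_of_mem (Finset.orderEmbOfFin_mem S hc i), hc, Nat.add_sub_cancel]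
    have h3 : (fun j : Fin T.card => S.orderEmbOfFin hc (i.succAbove j))
        = (S.erase (S.orderEmbOfFin hc i)).orderEmbOfFin hE := by
      apply Finset.orderEmbOfFin_unique
      · intro j
        refine Finset.mem_erase.2 ⟨fun h4 => ?_, Finset.orderEmbOfFin_mem _ hc _⟩
        exact absurd ((S.orderEmbOfFin hc).injective h4) (Fin.succAbove_ne i j)
      · intro a b hab
        exact (S.orderEmbOfFin hc).strictMono (Fin.strictMono_succAbove i hab)
    have h4 : sgn R (S.orderEmbOfFin hc i) S = (-1) ^ (i : ℕ) := by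
      unfold sgn
      rw [card_filter_lt hc i]
    rw [Gam_eq A hE rfl, h4]
    simp only [Matrix.submatrix_apply, h1]
    congr 2
    ext a b
    simp only [Matrix.submatrix_apply]
    rw [← h3, ← h2]
  · rw [Gam_of_ne A (by rw [Finset.card_insert_of_notMem ht]; exact hc)]
    symm
    refine Finset.sum_eq_zero fun j hj => ?_
    rw [Gam_of_ne A (by
      rw [Finset.card_erase_of_mem hj]
      have := Finset.card_pos.2 ⟨j, hj⟩
      omega), mul_zero]

theorem Gam_mulVec_insert (A : Matrix (Fin n) (Fin n) R) {t : Fin n} {T : FI n}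
    (h : ∀ k ∈ T, t < k) : Gam A *ᵥ Pi.single (insert t T) 1
      = eW (fun j => A j t) *ᵥ (Gam A *ᵥ Pi.single T 1) := by
  rw [Matrix.mulVec_mulVec]
  ext S
  rw [Matrix.mulVec_single_one, Matrix.mulVec_single_one]
  exact Gam_insert A h S

theorem Gam_eW_ep (A : Matrix (Fin n) (Fin n) R) (j : Fin n) :
    Gam A * eW (ep j) = eW (fun k => A k j) * Gam A := by
  apply Matrix.ext_of_mulVec_single
  intro T
  induction T using Finset.induction_on_min generalizing j with
  | empty =>
    rw [← Matrix.mulVec_mulVec, eW_single (by simp), Gam_mulVec_insert A (by simp),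
      Matrix.mulVec_mulVec]
  | insert t T ht ih =>
    rcases lt_trichotomy j t with h | h | h
    · have h1 : ∀ k ∈ insert t T, j < k := by
        intro k hk
        rcases Finset.mem_insert.1 hk with rfl | hk
        · exact h
        · exact h.trans (ht k hk)
      rw [← Matrix.mulVec_mulVec, eW_single h1, Gam_mulVec_insert A h1, Matrix.mulVec_mulVec]
    · subst h
      have e1 : (Gam A * eW (ep j)) *ᵥ Pi.single (insert j T) 1 = 0 := by
        rw [← eW_single ht, Matrix.mulVec_mulVec, mul_assoc, eW_sq, mul_zero, Matrix.zero_mulVec]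
      have e2 : (eW (fun k => A k j) * Gam A) *ᵥ Pi.single (insert j T) 1 = 0 := by
        rw [← Matrix.mulVec_mulVec, Gam_mulVec_insert A ht, Matrix.mulVec_mulVec, eW_sq,
          Matrix.zero_mulVec]
      rw [e1, e2]
    · have h1 : (Gam A * eW (ep t)) *ᵥ (eW (ep j) *ᵥ Pi.single T 1)
          = (eW (fun k => A k t) * Gam A) *ᵥ (eW (ep j) *ᵥ Pi.single T 1) := by
        -- `e_j ε_T` is a combination of words with all letters `> t`
        have h2 : eW (ep j) *ᵥ Pi.single T (1 : R)
            = ∑ U, (eW (ep j : Fin n → R) U T) • (Pi.single U 1 : FI n → R) := by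
          ext S
          rw [Matrix.mulVec_single_one]
          simp [Finset.sum_apply, Pi.single_apply, Matrix.col_apply]
        rw [h2]
        simp only [Matrix.mulVec_sum, Matrix.mulVec_smul]
        refine Finset.sum_congr rfl fun U _ => ?_
        by_cases h3 : eW (ep j : Fin n → R) U T = 0
        · rw [h3, zero_smul, zero_smul]
        · congr 1
          have h4 : ∀ k ∈ U, t < k := by
            have h5 : tog U j = T := by
              by_contra h5
              apply h3
              unfold eW
              by_cases h6 : ∃ l, tog U l = T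
              · obtain ⟨l, h6⟩ := h6
                have hl : l ≠ j := fun h7 => h5 (h7 ▸ h6)
                rw [← h6, K_apply_tog]
                unfold cf
                rw [show (ep j : Fin n → R) l = 0 from Pi.single_eq_of_ne hl 1]
                simp
              · push Not at h6
                exact K_apply_eq_zero _ _ h6
            intro k hk
            by_cases hkj : k = j
            · subst hkj; exact h
            · apply ht
              rw [← h5, mem_tog_of_ne _ hkj]
              exact hk
          rw [← Matrix.mulVec_mulVec, eW_single h4, Gam_mulVec_insert A h4, Matrix.mulVec_mulVec]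
      have h2 : eW (ep j : Fin n → R) * eW (ep t) = - (eW (ep t) * eW (ep j)) :=
        eq_neg_of_add_eq_zero_left (eW_anti _ _)
      have h3 : eW (fun k => A k j) * eW (fun k => A k t)
          = - (eW (fun k => A k t) * eW (fun k => A k j)) :=
        eq_neg_of_add_eq_zero_left (eW_anti _ _)
      have ihj := ih j
      calc (Gam A * eW (ep j)) *ᵥ Pi.single (insert t T) 1
          = (Gam A * (eW (ep j) * eW (ep t))) *ᵥ Pi.single T 1 := by
            rw [← eW_single ht, Matrix.mulVec_mulVec, mul_assoc]
        _ = - ((Gam A * eW (ep t)) *ᵥ (eW (ep j) *ᵥ Pi.single T 1)) := by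
            rw [h2, mul_neg, Matrix.neg_mulVec, Matrix.mulVec_mulVec, mul_assoc]
        _ = - (eW (fun k => A k t) *ᵥ ((Gam A * eW (ep j)) *ᵥ Pi.single T 1)) := by
            rw [h1, Matrix.mulVec_mulVec, Matrix.mulVec_mulVec, mul_assoc]
        _ = - (eW (fun k => A k t) *ᵥ ((eW (fun k => A k j) * Gam A) *ᵥ Pi.single T 1)) := by
            rw [ihj]
        _ = (eW (fun k => A k j) * (eW (fun k => A k t) * Gam A)) *ᵥ Pi.single T 1 := by
            rw [← mul_assoc, h3, Matrix.neg_mul, Matrix.neg_mulVec, Matrix.mulVec_mulVec,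
              mul_assoc]
        _ = (eW (fun k => A k j) * Gam A) *ᵥ Pi.single (insert t T) 1 := by
            rw [← Matrix.mulVec_mulVec, ← Matrix.mulVec_mulVec, ← Matrix.mulVec_mulVec,
              Gam_mulVec_insert A ht]

/-- functoriality: `Λ(A) (v ∧ x) = (A v) ∧ Λ(A) x` -/
theorem Gam_eW (A : Matrix (Fin n) (Fin n) R) (v : Fin n → R) :
    Gam A * eW v = eW (A *ᵥ v) * Gam A := by
  have h1 : A *ᵥ v = ∑ j, v j • (fun k => A k j) := by
    ext k
    simp [Matrix.mulVec, dotProduct, Finset.sum_apply, mul_comm]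
  have h2 : ∀ s : Finset (Fin n), eW (∑ j ∈ s, v j • (fun k => A k j))
      = ∑ j ∈ s, v j • eW (fun k => A k j) := by
    intro s
    induction s using Finset.induction_on with
    | empty => simp
    | insert a s ha ih => rw [Finset.sum_insert ha, Finset.sum_insert ha, eW_add, eW_smul, ih]
  rw [h1, h2, eW_eq_sum v, Finset.mul_sum, Finset.sum_mul]
  refine Finset.sum_congr rfl fun j _ => ?_
  rw [mul_smul_comm, Gam_eW_ep, smul_mul_assoc]

theorem iW_Gam (A : Matrix (Fin n) (Fin n) R) (w : Fin n → R) :
    iW w * Gam A = Gam A * iW (Aᵀ *ᵥ w) := by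
  have h := congrArg Matrix.transpose (Gam_eW Aᵀ w)
  rw [Matrix.transpose_mul, Matrix.transpose_mul, Gam_transpose, Matrix.transpose_transpose,
    eW_transpose, eW_transpose] at h
  exact h

theorem Gam_one : Gam (1 : Matrix (Fin n) (Fin n) R) = 1 := by
  refine ext_of_eW (fun j => eW (ep j)) (fun j => ?_) (fun j => ?_) fun S => ?_
  · rw [Gam_eW, Matrix.one_mulVec]
  · rw [one_mul, mul_one]
  · rw [Gam_vac, Matrix.one_apply]

theorem Gam_mul (A B : Matrix (Fin n) (Fin n) R) : Gam (A * B) = Gam A * Gam B := by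
  refine ext_of_eW (fun j => eW ((A * B) *ᵥ ep j)) (fun j => ?_) (fun j => ?_) fun S => ?_
  · rw [Gam_eW]
  · rw [mul_assoc, Gam_eW, ← mul_assoc, Gam_eW, mul_assoc, Matrix.mulVec_mulVec]
  · rw [Gam_vac, Matrix.mul_apply, Finset.sum_eq_single ∅]
    · rw [Gam_vac, Gam_vac]; simp
    · intro U _ hU
      rw [Gam_vac B, if_neg hU, mul_zero]
    · simp


/-- **the algebraic identity behind the Bochner-Kodaira-Nakano formula** -/
theorem key_id {A Ai : Matrix (Fin n) (Fin n) R} (h : Ai * A = 1) (k l : Fin n) :
    Gam A * iW (ep l) * Gam Ai * eW (ep k) * Gam A + eW (ep k) * Gam A * iW (ep l)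
      = Ai l k • Gam A := by
  have hA : A * Ai = 1 := mul_eq_one_comm.1 h
  have hG : Gam A * Gam Ai = 1 := by rw [← Gam_mul, hA, Gam_one]
  -- `Γ(A) i_l = i(Aiᵀ ε_l) Γ(A)`
  have h1 : Gam A * iW (ep l) = iW (Aiᵀ *ᵥ ep l) * Gam A := by
    rw [iW_Gam, Matrix.mulVec_mulVec, ← Matrix.transpose_mul, h, Matrix.transpose_one,
      Matrix.one_mulVec]
  have h2 : iW (Aiᵀ *ᵥ ep l) * eW (ep k) + eW (ep k) * iW (Aiᵀ *ᵥ ep l) = Ai l k • 1 := by
    rw [iW_eW]
    congr 1
    rw [Finset.sum_eq_single k]
    · simp
    · intro j _ hj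
      rw [show (ep k : Fin n → R) j = 0 from Pi.single_eq_of_ne hj 1, zero_mul]
    · simp
  calc Gam A * iW (ep l) * Gam Ai * eW (ep k) * Gam A + eW (ep k) * Gam A * iW (ep l)
      = iW (Aiᵀ *ᵥ ep l) * (Gam A * Gam Ai) * eW (ep k) * Gam A
          + eW (ep k) * (iW (Aiᵀ *ᵥ ep l) * Gam A) := by
        rw [h1, mul_assoc (iW (Aiᵀ *ᵥ ep l)), ← h1, mul_assoc (eW (ep k))]
    _ = (iW (Aiᵀ *ᵥ ep l) * eW (ep k) + eW (ep k) * iW (Aiᵀ *ᵥ ep l)) * Gam A := by
        rw [hG, mul_one, add_mul, mul_assoc (eW (ep k))]
    _ = Ai l k • Gam A := by rw [h2, smul_mul_assoc, one_mul]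

/-- first consequence of the Kähler symmetry: `∑ e_k ∂_{k̄} Γ(K) = 0` -/
theorem kahler_e {A : Matrix (Fin n) (Fin n) R} (A' : Fin n → Matrix (Fin n) (Fin n) R)
    (G' : Fin n → Matrix (FI n) (FI n) R)
    (hG : ∀ k j, G' k * eW (ep j) = eW (fun b => A' k b j) * Gam A + eW (fun b => A b j) * G' k)
    (h0 : ∀ k S, G' k S ∅ = 0) (hs : ∀ k b c, A' k b c = A' b k c) :
    ∑ k, eW (ep k) * G' k = 0 := by
  refine ext_of_eW (fun j => - eW (fun b => A b j)) (fun j => ?_) (fun j => by simp) fun S => ?_
  · have h1 : ∑ k, eW (ep k) * eW (fun b => A' k b j) = (0 : Matrix (FI n) (FI n) R) := by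
      have h2 : ∀ k, eW (ep k) * eW (fun b => A' k b j)
          = ∑ b, A' k b j • (eW (ep k) * eW (ep b) : Matrix (FI n) (FI n) R) := by
        intro k
        rw [eW_eq_sum (fun b => A' k b j), Finset.mul_sum]
        exact Finset.sum_congr rfl fun b _ => by rw [mul_smul_comm]
      -- the off diagonal terms cancel in pairs, the diagonal ones vanish
      simp_rw [h2]
      rw [← Finset.sum_product', ← Finset.sum_filter_add_sum_filter_not (s := univ ×ˢ univ)
        (p := fun x : Fin n × Fin n => x.1 = x.2)]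
      have h5 : ∑ x ∈ (univ ×ˢ univ).filter (fun x : Fin n × Fin n => x.1 = x.2),
          A' x.1 x.2 j • (eW (ep x.1) * eW (ep x.2) : Matrix (FI n) (FI n) R) = 0 := by
        refine Finset.sum_eq_zero fun x hx => ?_
        rw [Finset.mem_filter] at hx
        rw [← hx.2, eW_sq, smul_zero]
      have h6 : ∑ x ∈ (univ ×ˢ univ).filter (fun x : Fin n × Fin n => ¬ x.1 = x.2),
          A' x.1 x.2 j • (eW (ep x.1) * eW (ep x.2) : Matrix (FI n) (FI n) R) = 0 := by
        refine Finset.sum_involution (fun x _ => (x.2, x.1)) ?_ ?_ ?_ ?_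
        · rintro ⟨a, b⟩ _
          simp only
          rw [hs b a j, ← smul_add, eW_anti, smul_zero]
        · rintro ⟨a, b⟩ h _ heq
          simp only [mem_filter] at h
          exact h.2 (congrArg Prod.snd heq)
        · rintro ⟨a, b⟩ h
          simp only [mem_filter, mem_product, mem_univ, and_self, true_and] at h ⊢
          exact fun h' => h h'.symm
        · rintro ⟨a, b⟩ _; rfl
      rw [h5, h6, add_zero]
    rw [Finset.sum_mul, Finset.mul_sum]
    have h2 : ∀ k, eW (ep k) * G' k * eW (ep j)
        = eW (ep k) * eW (fun b => A' k b j) * Gam A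
          + -eW (fun b => A b j) * (eW (ep k) * G' k) := by
      intro k
      rw [mul_assoc, hG, mul_add, ← mul_assoc, ← mul_assoc,
        eq_neg_of_add_eq_zero_left (eW_anti (ep k) (fun b => A b j)), ← mul_assoc]
      simp only [Matrix.neg_mul]
    rw [Finset.sum_congr rfl fun k _ => h2 k, Finset.sum_add_distrib, ← Finset.sum_mul, h1,
      zero_mul, zero_add]
  · rw [Matrix.sum_apply]
    simp only [Matrix.zero_apply]
    refine Finset.sum_eq_zero fun k _ => ?_
    rw [Matrix.mul_apply]
    exact Finset.sum_eq_zero fun U _ => by rw [h0, mul_zero]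

/-- second consequence of the Kähler symmetry: `∑ (∂_l Γ(K)) i_l = 0` -/
theorem kahler_i {A : Matrix (Fin n) (Fin n) R} (A' : Fin n → Matrix (Fin n) (Fin n) R)
    (G' : Fin n → Matrix (FI n) (FI n) R)
    (hG : ∀ k j, iW (ep j) * G' k = Gam A * iW (fun b => A' k j b) + G' k * iW (fun b => A j b))
    (h0 : ∀ k S, G' k ∅ S = 0) (hs : ∀ k b c, A' k c b = A' b c k) :
    ∑ k, G' k * iW (ep k) = 0 := by
  have h := kahler_e (A := Aᵀ) (fun k => (A' k)ᵀ) (fun k => (G' k)ᵀ) (fun k j => by
    have h1 := congrArg Matrix.transpose (hG k j)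
    rw [Matrix.transpose_mul, Matrix.transpose_add, Matrix.transpose_mul, Matrix.transpose_mul,
      iW_transpose, iW_transpose, iW_transpose, Gam_transpose] at h1
    exact h1) (fun k S => h0 k S) (fun k b c => hs k b c)
  have h2 := congrArg Matrix.transpose h
  rw [Matrix.transpose_sum, Matrix.transpose_zero] at h2
  rw [← h2]
  refine Finset.sum_congr rfl fun k _ => ?_
  rw [Matrix.transpose_mul, Matrix.transpose_transpose, eW_transpose]

end Crest.Agent.R273.Fock_243
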