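import Crest.Agent.R273.DVec_733
import Crest.Agent.R273.LamN_127
import Crest.Agent.R273.StokesV_332
import Crest.Agent.R275.IndLink_509
import Crest.Agent.R273.BKNa_37
import Crest.Agent.R273.NV_578

-- ▼ part R273/DMet_733
section

/-!
# R273 (S0416), Part D, leaf D.6 (helper733), part 2: dictionary multivectors / forms

`N : LB A`, `K : Kah A`, `h : HM ((KB A)⁻¹ * N)`.

* `low K N : MV N ≃ₗ[ℂ] Sec (BN N)`       : lowering, `u = Gam ((K.g)ᵀ) v`;
* `cj h : MV N → Sec (BN (KB A * N⁻¹))`  : `S⁻¹ (w conj v)`; conjugate linear, bijective (`cj_surj`);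
* `pr_low_cj`                               : `pr (DN N) P (low v) (cj w) = ∫ w conj(w) · G v`;
* `nab_low`                                 : `∇ (low v) = ∑ e_c ∂̄_c (G v)`;
* `dlt h : MV N → MV N`, `nab_cj`          : `∇ (cj w) = - cj (dlt w)`.
-/

set_option autoImplicit false
set_option linter.unusedSectionVars false

open Set Filter Topology Complex
open scoped ContDiff Matrix ComplexConjugate ComplexOrder Kronecker

namespace Crest.Agent.R273.DMet_733

open Crest.Agent.R275 Crest.Agent.R275.Geo Crest.Agent.R275.Core144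
open Crest.Agent.R273.Defs_333 Crest.Agent.R273.Kah_333
open Crest.Agent.R273.Fock_243 Crest.Agent.R273.Calc_243 Crest.Agent.R273.Bkn_243
open Crest.Agent.R273.DVec_733 Crest.Agent.R273.LamN127 Crest.Agent.R273.Berezin_505

noncomputable section

variable {n : ℕ} {M : Type} [TopologicalSpace M] {A : Atl n M}

/-! ### the unit factor -/

/-- `FI n → ℂ` into the fibre of `BN N` -/
def iB (N : LB A) (v : FI n → ℂ) : (BN N).κ → ℂ := fun p => v (Prod.fst p)

/-- back -/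
def oB {N : LB A} (v : (BN N).κ → ℂ) : FI n → ℂ := fun T => v (T, ())

variable (N : LB A)

@[simp] theorem oB_iB (v : FI n → ℂ) : oB (iB N v) = v := rfl
@[simp] theorem iB_oB (v : (BN N).κ → ℂ) : iB N (oB v) = v := by
  funext p
  rfl

theorem iB_zero : iB N (0 : FI n → ℂ) = 0 := rfl
theorem oB_zero : oB (0 : (BN N).κ → ℂ) = 0 := rfl
theorem oB_add (v w : (BN N).κ → ℂ) : oB (v + w) = oB v + oB w := rfl
theorem iB_smul (c : ℂ) (v : FI n → ℂ) : iB N (c • v) = c • iB N v := rfl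
theorem oB_smul (c : ℂ) (v : (BN N).κ → ℂ) : oB (c • v) = c • oB v := rfl


/-- Kronecker matrices on the fibre -/
def kB (N N' : LB A) (X : Matrix (FI n) (FI n) ℂ) (c : ℂ) : Matrix (BN N).κ (BN N').κ ℂ :=
  X ⊗ₖ (Matrix.of fun _ _ => c : Matrix Unit Unit ℂ)

theorem kB_iB (N N' : LB A) (X : Matrix (FI n) (FI n) ℂ) (c : ℂ) (v : FI n → ℂ) :
    kB N N' X c *ᵥ iB N' v = iB N (c • (X *ᵥ v)) := by
  funext p
  show ∑ p' : FI n × Unit, X (Prod.fst p) p'.1 * c * v p'.1 = c * ∑ S, X (Prod.fst p) S * v S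
  rw [Fintype.sum_prod_type, Finset.mul_sum]
  refine Finset.sum_congr rfl fun S _ => ?_
  rw [Fintype.sum_unique]
  ring

theorem dot_iB (v w : FI n → ℂ) : iB N v ⬝ᵥ iB N w = v ⬝ᵥ w := by
  show ∑ p : FI n × Unit, v p.1 * w p.1 = ∑ S, v S * w S
  rw [Fintype.sum_prod_type]
  refine Finset.sum_congr rfl fun S _ => ?_
  rw [Fintype.sum_unique]

/-- transition of sections of `BN N` -/
theorem BN_τ (i j : A.ι) (x : M) : (BN N).τ i j x = kB N N (Tf A i j x) (N.g i j x) := rfl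

variable {N}

theorem sec_tr {u : A.ι → M → (BN N).κ → ℂ} (hu : u ∈ Sec (BN N)) {i j : A.ι} {x : M}
    (hx : x ∈ (A.e i).source ∩ (A.e j).source) :
    oB (u i x) = N.g i j x • (Tf A i j x *ᵥ oB (u j x)) := by
  rw [hu.2.2 i j x hx, BN_τ]
  conv_lhs => rw [← iB_oB N (u j x)]
  rw [kB_iB, oB_iB]

/-! ### lowering -/

section low

variable (K : Kah A) (N : LB A)

theorem low_mem {v : A.ι → M → FI n → ℂ} (hv : v ∈ MV N) :
    (fun i x => iB N (GK K i x *ᵥ v i x) : A.ι → M → (BN N).κ → ℂ) ∈ Sec (BN N) := by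
  refine ⟨fun i k => ?_, fun i x hx => ?_, fun i j x hx => ?_⟩
  · exact smAt_mulVec (m := GK K i) (fun a b => GK_smooth K i a b) (hv.1 i) k.1
  · show iB N (GK K i x *ᵥ v i x) = 0
    rw [hv.2.1 i x hx, Matrix.mulVec_zero, iB_zero]
  · have h1 : (BN N).τ i j x *ᵥ iB N (GK K j x *ᵥ v j x) = iB N (GK K i x *ᵥ v i x) := by
      rw [BN_τ, kB_iB, hv.2.2 i j x hx]
      unfold Tv
      rw [Matrix.smul_mulVec, Matrix.mulVec_smul, Matrix.mulVec_mulVec, Matrix.mulVec_mulVec,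
        GK_tr K hx]
    exact h1.symm

theorem high_mem {u : A.ι → M → (BN N).κ → ℂ} (hu : u ∈ Sec (BN N)) :
    (fun i x => GI K i x *ᵥ oB (u i x) : A.ι → M → FI n → ℂ) ∈ MV N := by
  refine ⟨fun i T => ?_, fun i x hx => ?_, fun i j x hx => ?_⟩
  · exact smAt_mulVec (m := GI K i) (fun a b => GI_smooth K i a b) (fun b => hu.1 i (b, ())) T
  · show GI K i x *ᵥ oB (u i x) = 0
    rw [hu.2.1 i x hx, oB_zero, Matrix.mulVec_zero]
  · show GI K i x *ᵥ oB (u i x) = Tv N i j x *ᵥ (GI K j x *ᵥ oB (u j x))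
    rw [sec_tr hu hx, Matrix.mulVec_smul, Matrix.mulVec_mulVec, GI_tr K hx]
    unfold Tv
    rw [Matrix.smul_mulVec, Matrix.mulVec_mulVec]

/-- **lowering** of multivectors -/
def low : MV N ≃ₗ[ℂ] Sec (BN N) where
  toFun v := ⟨fun i x => iB N (GK K i x *ᵥ v.1 i x), low_mem K N v.2⟩
  invFun u := ⟨fun i x => GI K i x *ᵥ oB (u.1 i x), high_mem K N u.2⟩
  map_add' v w := by
    apply Subtype.ext
    funext i x
    show iB N (GK K i x *ᵥ (v.1 i x + w.1 i x)) = iB N (GK K i x *ᵥ v.1 i x) + iB N (GK K i x *ᵥ w.1 i x)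
    rw [Matrix.mulVec_add]
    rfl
  map_smul' c v := by
    apply Subtype.ext
    funext i x
    show iB N (GK K i x *ᵥ (c • v.1 i x)) = c • iB N (GK K i x *ᵥ v.1 i x)
    rw [Matrix.mulVec_smul]
    rfl
  left_inv v := by
    refine MV.ext fun i x hx => ?_
    show GI K i x *ᵥ oB (iB N (GK K i x *ᵥ v.1 i x)) = v.1 i x
    rw [oB_iB, Matrix.mulVec_mulVec, GI_GK K hx, Matrix.one_mulVec]
  right_inv u := by
    apply Subtype.ext
    funext i x
    show iB N (GK K i x *ᵥ (GI K i x *ᵥ oB (u.1 i x))) = u.1 i x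
    by_cases hx : x ∈ (A.e i).source
    · rw [Matrix.mulVec_mulVec, GK_GI K hx, Matrix.one_mulVec, iB_oB]
    · rw [u.2.2.1 i x hx, oB_zero, Matrix.mulVec_zero, Matrix.mulVec_zero]
      rfl

theorem low_apply (v : MV N) (i : A.ι) (x : M) :
    (low K N v).1 i x = iB N (GK K i x *ᵥ v.1 i x) := rfl

theorem low_symm_apply (u : Sec (BN N)) (i : A.ι) (x : M) :
    ((low K N).symm u).1 i x = GI K i x *ᵥ oB (u.1 i x) := rfl

/-- lowering preserves the degree -/
theorem low_pq (q : ℕ) (v : MV N) : low K N (pqM N q v) = Geo.pqL (BN N) q (low K N v) := by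
  apply Subtype.ext
  funext i x ⟨T, ⟨⟩⟩
  have h1 : (Geo.pqL (BN N) q (low K N v)).1 i x (T, ()) =
      if T.card = q then (low K N v).1 i x (T, ()) else 0 := IndLink509.pqL_apply (BN N) q (low K N v) i x (T, ())
  rw [h1]
  show ∑ S, GK K i x T S * (if S.card = q then v.1 i x S else (0 : ℂ)) =
    if T.card = q then ∑ S, GK K i x T S * v.1 i x S else 0
  split_ifs with h
  · refine Finset.sum_congr rfl fun S _ => ?_
    by_cases h' : S.card = q
    · rw [if_pos h']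
    · rw [if_neg h']
      have : GK K i x T S = 0 := by
        by_contra h0
        exact h' (by rw [← GK_deg K h0, h])
      rw [this, zero_mul, zero_mul]
  · refine Finset.sum_eq_zero fun S _ => ?_
    by_cases h' : S.card = q
    · have : GK K i x T S = 0 := by
        by_contra h0
        exact h (by rw [GK_deg K h0, h'])
      rw [this, zero_mul]
    · rw [if_neg h', mul_zero]

end low

/-! ### the conjugate map -/

section cj

variable {N : LB A} (h : HM ((KB A)⁻¹ * N))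

theorem w_ne (i : A.ι) {x : M} (hx : x ∈ (A.e i).source) : (h.w i x : ℂ) ≠ 0 :=
  ofReal_ne_zero.2 (h.pos i x hx).ne'

/-- the transition law of the weight -/
theorem w_tr {i j : A.ι} {x : M} (hx : x ∈ (A.e i).source ∩ (A.e j).source) :
    (h.w i x : ℂ) * (N.g i j x * conj (N.g i j x)) =
      (h.w j x : ℂ) * ((KB A).g i j x * conj ((KB A).g i j x)) := by
  have h1 := h.tr i j x hx
  rw [LB.mul_g, LB.inv_g, norm_mul, norm_inv] at h1
  have h2 : ‖(KB A).g i j x‖ ≠ 0 := norm_ne_zero_iff.2 ((KB A).ne_zero i j x)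
  have h3 : h.w j x * ‖(KB A).g i j x‖ ^ 2 = ‖N.g i j x‖ ^ 2 * h.w i x := by
    rw [h1]
    field_simp
  rw [Complex.mul_conj, Complex.mul_conj, Complex.normSq_eq_norm_sq, Complex.normSq_eq_norm_sq]
  rw [← ofReal_mul, ← ofReal_mul, h3]
  ring_nf

theorem star_Gam (m : Matrix (Fin n) (Fin n) ℂ) (v : FI n → ℂ) :
    star (Gam m *ᵥ v) = Gam (m.map (starRingEnd ℂ)) *ᵥ star v := by
  rw [star_mulVec', Gam_map]

theorem star_smul' (c : ℂ) (v : FI n → ℂ) : star (c • v) = conj c • star v := by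
  funext T
  simp

theorem Tf_Sbi {i j : A.ι} {x : M} (hx : x ∈ (A.e i).source ∩ (A.e j).source) (v : FI n → ℂ) :
    Tf A i j x *ᵥ (Sbi ℂ n *ᵥ v) =
      conj ((KB A).g i j x) • (Sbi ℂ n *ᵥ (Gam ((Jm A j i x).map (starRingEnd ℂ)) *ᵥ v)) := by
  have h1 := Gam_Sb (((Jm A i j x).map (starRingEnd ℂ))ᵀ)
  have h2 : Gam ((Jm A j i x).map (starRingEnd ℂ)) *
      (Gam (((Jm A i j x).map (starRingEnd ℂ))ᵀ))ᵀ = 1 := by
    rw [Gam_transpose, Matrix.transpose_transpose, ← Gam_mul, ← Matrix.map_mul,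
      Jm_mul_symm hx.symm, Matrix.map_one _ (map_zero _) (map_one _), Gam_one]
  have h3 := mul_Sbi_of_inv h1 h2
  have h4 : (((Jm A i j x).map (starRingEnd ℂ))ᵀ).det = conj ((KB A).g i j x) := by
    rw [Matrix.det_transpose, KB_g hx]
    exact (RingHom.map_det (starRingEnd ℂ) (Jm A i j x)).symm
  rw [h4] at h3
  rw [Matrix.mulVec_mulVec]
  show (Gam (((Jm A i j x).map (starRingEnd ℂ))ᵀ) * Sbi ℂ n) *ᵥ v = _
  rw [h3, Matrix.smul_mulVec, Matrix.mulVec_mulVec]

theorem cj_mem {v : A.ι → M → FI n → ℂ} (hv : v ∈ MV N) :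
    (fun i x => iB (KB A * N⁻¹) (Sbi ℂ n *ᵥ ((h.w i x : ℂ) • star (v i x))) :
      A.ι → M → (BN (KB A * N⁻¹)).κ → ℂ) ∈ Sec (BN (KB A * N⁻¹)) := by
  refine ⟨fun i k => ?_, fun i x hx => ?_, fun i j x hx => ?_⟩
  · refine smAt_mulVec (m := fun _ => Sbi ℂ n) (fun a b => contDiffOn_const) (fun T => ?_)
      (Prod.fst k)
    have h1 : A.SmAt i (fun x => (h.w i x : ℂ)) := smAt_ofReal (h.sm i)
    have h2 : A.SmAt i (fun x => conj (v i x T)) := smAt_conj (hv.1 i T)
    exact h1.mul h2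
  · show iB (KB A * N⁻¹) (Sbi ℂ n *ᵥ ((h.w i x : ℂ) • star (v i x))) = 0
    rw [hv.2.1 i x hx, star_zero, smul_zero, Matrix.mulVec_zero, iB_zero]
  · show iB (KB A * N⁻¹) (Sbi ℂ n *ᵥ ((h.w i x : ℂ) • star (v i x))) =
      (BN (KB A * N⁻¹)).τ i j x *ᵥ iB (KB A * N⁻¹) (Sbi ℂ n *ᵥ ((h.w j x : ℂ) • star (v j x)))
    rw [BN_τ, kB_iB, Tf_Sbi hx, hv.2.2 i j x hx]
    unfold Tv
    rw [Matrix.smul_mulVec, star_smul', star_Gam, LB.mul_g, LB.inv_g]
    congr 1
    have hN := N.ne_zero i j x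
    have h1 := w_tr h hx
    simp only [Matrix.mulVec_smul, smul_smul]
    congr 1
    field_simp
    linear_combination h1

theorem cjInv_mem {u : A.ι → M → (BN (KB A * N⁻¹)).κ → ℂ} (hu : u ∈ Sec (BN (KB A * N⁻¹))) :
    (fun i x => star (((h.w i x : ℂ))⁻¹ • (Sb ℂ n *ᵥ oB (u i x))) : A.ι → M → FI n → ℂ) ∈ MV N := by
  refine ⟨fun i T => ?_, fun i x hx => ?_, fun i j x hx => ?_⟩
  · have h1 : A.SmAt i (fun x => ((h.w i x : ℂ))⁻¹) :=
      (smAt_ofReal (h.sm i)).inv fun z hz => w_ne h i ((A.e i).map_target hz)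
    have h2 : A.SmAt i (fun x => (Sb ℂ n *ᵥ oB (u i x)) T) :=
      smAt_mulVec (m := fun _ => Sb ℂ n) (fun a b => contDiffOn_const)
        (fun S => hu.1 i (S, ())) T
    exact smAt_conj (h1.mul h2)
  · show star (((h.w i x : ℂ))⁻¹ • (Sb ℂ n *ᵥ oB (u i x))) = 0
    rw [hu.2.1 i x hx, oB_zero, Matrix.mulVec_zero, smul_zero, star_zero]
  · show star (((h.w i x : ℂ))⁻¹ • (Sb ℂ n *ᵥ oB (u i x))) =
      Tv N i j x *ᵥ star (((h.w j x : ℂ))⁻¹ • (Sb ℂ n *ᵥ oB (u j x)))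
    -- both sides have the same image under `v ↦ Sbi (w star v)`
    set a : FI n → ℂ := ((h.w j x : ℂ))⁻¹ • (Sb ℂ n *ᵥ oB (u j x)) with ha
    have hwi := w_ne h i hx.1
    have hwj := w_ne h j hx.2
    have hN := N.ne_zero i j x
    have hK := (KB A).ne_zero i j x
    have e1 : oB (u j x) = Sbi ℂ n *ᵥ ((h.w j x : ℂ) • a) := by
      rw [ha, smul_smul, mul_inv_cancel₀ hwj, one_smul, Matrix.mulVec_mulVec, Sbi_mul_Sb,
        Matrix.one_mulVec]
    rw [sec_tr hu hx, e1, Tf_Sbi hx]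
    unfold Tv
    rw [LB.mul_g, LB.inv_g, Matrix.mulVec_smul, Matrix.mulVec_smul,
      Matrix.mulVec_mulVec _ (Sb ℂ n) (Sbi ℂ n),
      Sb_mul_Sbi, Matrix.one_mulVec, Matrix.mulVec_smul, smul_smul, smul_smul, smul_smul,
      star_smul', star_Gam, Matrix.smul_mulVec]
    have e2 : ((Jm A j i x).map (starRingEnd ℂ)).map (starRingEnd ℂ) = Jm A j i x := by
      ext a b; simp
    rw [e2]
    congr 1
    have h1 := w_tr h hx
    simp only [map_mul, map_inv₀, conj_conj, conj_ofReal]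
    have hKc : conj ((KB A).g i j x) ≠ 0 := (map_ne_zero _).2 hK
    have hNc : conj (N.g i j x) ≠ 0 := (map_ne_zero _).2 hN
    field_simp
    linear_combination -h1

/-- `v ↦ S⁻¹ (w conj v)` -/
def cj : MV N ≃ₛₗ[starRingEnd ℂ] Sec (BN (KB A * N⁻¹)) where
  toFun v := ⟨fun i x => iB (KB A * N⁻¹) (Sbi ℂ n *ᵥ ((h.w i x : ℂ) • star (v.1 i x))),
    cj_mem h v.2⟩
  invFun u := ⟨fun i x => star (((h.w i x : ℂ))⁻¹ • (Sb ℂ n *ᵥ oB (u.1 i x))), cjInv_mem h u.2⟩
  map_add' v w := by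
    apply Subtype.ext
    funext i x
    show iB (KB A * N⁻¹) (Sbi ℂ n *ᵥ ((h.w i x : ℂ) • star (v.1 i x + w.1 i x))) =
      iB (KB A * N⁻¹) (Sbi ℂ n *ᵥ ((h.w i x : ℂ) • star (v.1 i x))) +
      iB (KB A * N⁻¹) (Sbi ℂ n *ᵥ ((h.w i x : ℂ) • star (w.1 i x)))
    rw [star_add, smul_add, Matrix.mulVec_add]
    rfl
  map_smul' c v := by
    apply Subtype.ext
    funext i x
    show iB (KB A * N⁻¹) (Sbi ℂ n *ᵥ ((h.w i x : ℂ) • star (c • v.1 i x))) =
      conj c • iB (KB A * N⁻¹) (Sbi ℂ n *ᵥ ((h.w i x : ℂ) • star (v.1 i x)))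
    rw [star_smul', smul_comm, Matrix.mulVec_smul, iB_smul]
  left_inv v := by
    refine MV.ext fun i x hx => ?_
    show star (((h.w i x : ℂ))⁻¹ • (Sb ℂ n *ᵥ oB (iB (KB A * N⁻¹)
      (Sbi ℂ n *ᵥ ((h.w i x : ℂ) • star (v.1 i x)))))) = v.1 i x
    rw [oB_iB, Matrix.mulVec_mulVec, Sb_mul_Sbi, Matrix.one_mulVec, smul_smul,
      inv_mul_cancel₀ (w_ne h i hx), one_smul, star_star]
  right_inv u := by
    apply Subtype.ext
    funext i x
    show iB (KB A * N⁻¹) (Sbi ℂ n *ᵥ ((h.w i x : ℂ) • star (star (((h.w i x : ℂ))⁻¹ •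
      (Sb ℂ n *ᵥ oB (u.1 i x)))))) = u.1 i x
    by_cases hx : x ∈ (A.e i).source
    · rw [star_star, smul_smul, mul_inv_cancel₀ (w_ne h i hx), one_smul, Matrix.mulVec_mulVec,
        Sbi_mul_Sb, Matrix.one_mulVec, iB_oB]
    · rw [u.2.2.1 i x hx, oB_zero, Matrix.mulVec_zero, smul_zero, star_zero, star_zero, smul_zero,
        Matrix.mulVec_zero]
      rfl

theorem cj_apply (v : MV N) (i : A.ι) (x : M) :
    (cj h v).1 i x = iB (KB A * N⁻¹) (Sbi ℂ n *ᵥ ((h.w i x : ℂ) • star (v.1 i x))) := rfl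

/-- the pointwise hermitian product (a density) -/
def ip (K : Kah A) (v w : A.ι → M → FI n → ℂ) (i : A.ι) (x : M) : ℂ :=
  (h.w i x : ℂ) * (star (w i x) ⬝ᵥ (GK K i x *ᵥ v i x))

theorem DN_S : (DN N).S = kB N (KB A * N⁻¹) (Sb ℂ n) 1 := by
  show Sb ℂ n ⊗ₖ (1 : Matrix Unit Unit ℂ) = Sb ℂ n ⊗ₖ (Matrix.of fun _ _ => 1)
  congr 1

theorem dn_low_cj (K : Kah A) (v w : MV N) (i : A.ι) (x : M) :
    Pai323.dn (DN N) (low K N v).1 (cj h w).1 i x = ip h K v.1 w.1 i x := by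
  unfold Pai323.dn ip
  rw [DN_S, low_apply, cj_apply, kB_iB, dot_iB, one_smul, Matrix.mulVec_mulVec, Sb_mul_Sbi,
    Matrix.one_mulVec, dotProduct_smul, smul_eq_mul, dotProduct_comm]

end cj

end

end Crest.Agent.R273.DMet_733
end

-- ▼ part R273/DMetB_733

/-!
# R273 (S0416), Part D, leaf D.6 (helper733), part 3: the operators

* `pr_low_cj`  : `pr (DN N) P (low v) (cj w) = intD P (ip h K v w)`;
* `oB_nab`, `nab_low` : `∇ (low v) = du v`;
* `dlt h : MV N →ₗ[ℂ] MV N`, `dlt_apply` : `= del (log w) v`, `nab_cj : ∇ (cj w) = - cj (dlt w)`;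
* `adj` : `⟨∇ low v, w⟩ = - ⟨low v, dlt w⟩`.
-/

set_option autoImplicit false
set_option linter.unusedSectionVars false

open Set Filter Topology Complex
open scoped ContDiff Matrix ComplexConjugate ComplexOrder Kronecker

namespace Crest.Agent.R273.DMetB_733

open Crest.Agent.R275 Crest.Agent.R275.Geo Crest.Agent.R275.Core144
open Crest.Agent.R273.Defs_333 Crest.Agent.R273.Kah_333
open Crest.Agent.R273.Fock_243 Crest.Agent.R273.Calc_243 Crest.Agent.R273.Bkn_243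
open Crest.Agent.R273.DVec_733 Crest.Agent.R273.LamN127 Crest.Agent.R273.Berezin_505
open Crest.Agent.R273.DMet_733

noncomputable section

variable {n : ℕ} {M : Type} [TopologicalSpace M] {A : Atl n M}

/-! ### the operator of `BN N` in a chart -/

theorem BN_e (N : LB A) (a : Fin n) : (BN N).e a = kB N N (eW (ep a)) 1 := by
  show eW (ep a) ⊗ₖ (1 : Matrix Unit Unit ℂ) = eW (ep a) ⊗ₖ (Matrix.of fun _ _ => 1)
  congr 1

theorem oB_sum {N : LB A} {σ : Type*} (s : Finset σ) (f : σ → (BN N).κ → ℂ) :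
    oB (∑ a ∈ s, f a) = ∑ a ∈ s, oB (f a) := by
  classical
  induction s using Finset.induction_on with
  | empty => rfl
  | insert a s ha ih => rw [Finset.sum_insert ha, Finset.sum_insert ha, oB_add, ih]

theorem oB_nab {N : LB A} {u : A.ι → M → (BN N).κ → ℂ} (hu : ∀ i k, A.SmAt i (fun x => u i x k))
    {i : A.ι} {x : M} (hx : x ∈ (A.e i).source) :
    oB (nab (BN N) u i x) =
      ∑ k, eW (ep k) *ᵥ dV I k (fun z => oB (u i ((A.e i).symm z))) (A.e i x) := by
  have hz : A.e i x ∈ (A.e i).target := (A.e i).map_source hx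
  have hd : DifferentiableAt ℝ (fun z => u i ((A.e i).symm z)) (A.e i x) :=
    differentiableAt_pi.2 fun k => ((smAt_iff.1 (hu i k)) _ hz).diff
  rw [nab_apply (BN N) hx, BN_α N i x hx, Matrix.zero_mulVec, add_zero]
  have h1 : ∀ a, (BN N).e a *ᵥ A.db i a (u i) x =
      iB N (eW (ep a) *ᵥ dV I a (fun z => oB (u i ((A.e i).symm z))) (A.e i x)) := by
    intro a
    have h2 : A.db i a (u i) x = iB N (dV I a (fun z => oB (u i ((A.e i).symm z))) (A.e i x)) := by
      funext ⟨T, ⟨⟩⟩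
      exact dbj_pi hd a (T, ())
    rw [h2, BN_e, kB_iB, one_smul]
  simp only [h1]
  rw [oB_sum]
  rfl

/-- `∇` of a lowered multivector -/
theorem nab_low (K : Kah A) {N : LB A} (v : MV N) {i : A.ι} {x : M} (hx : x ∈ (A.e i).source) :
    oB ((nabL (BN N) (low K N v)).1 i x) =
      du (fun z => (K.g i ((A.e i).symm z))ᵀ) (fun z => v.1 i ((A.e i).symm z)) (A.e i x) :=
  oB_nab (low K N v).2.1 hx

/-! ### the divergence -/

section dlt

variable {N : LB A} (h : HM ((KB A)⁻¹ * N))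

/-- the weighted divergence -/
def dlt : MV N →ₗ[ℂ] MV N where
  toFun v := (cj h).symm (-(nabL (BN (KB A * N⁻¹)) (cj h v)))
  map_add' v w := by simp only [map_add, neg_add]
  map_smul' c v := by
    simp only [map_smulₛₗ, map_neg, smul_neg, conj_conj, RingHom.id_apply]

theorem nab_cj (v : MV N) :
    nabL (BN (KB A * N⁻¹)) (cj h v) = -(cj h (dlt h v)) := by
  show _ = -(cj h ((cj h).symm (-(nabL (BN (KB A * N⁻¹)) (cj h v)))))
  rw [LinearEquiv.apply_symm_apply, neg_neg]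

/-- the logarithm of the weight -/
def lamw (i : A.ι) : Cn n → ℂ := fun z => ((-(h.wt i z) : ℝ) : ℂ)

theorem lamw_sm {i : A.ι} {z : Cn n} (hz : z ∈ (A.e i).target) : Sm z (lamw h i) := by
  have h1 : ContDiffAt ℝ ∞ (fun z => h.w i ((A.e i).symm z)) z :=
    (h.sm i).contDiffAt ((A.e i).open_target.mem_nhds hz)
  have h2 : h.w i ((A.e i).symm z) ≠ 0 := (h.pos i _ ((A.e i).map_target hz)).ne'
  have h3 : ContDiffAt ℝ ∞ (fun z => -(h.wt i z)) z := by
    unfold HM.wt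
    simp only [neg_neg]
    exact h1.log h2
  exact ofRealCLM.contDiff.contDiffAt.comp z h3

theorem exp_lamw {i : A.ι} {z : Cn n} (hz : z ∈ (A.e i).target) :
    Complex.exp (lamw h i z) = (h.w i ((A.e i).symm z) : ℂ) := by
  unfold lamw HM.wt
  rw [neg_neg, ← Complex.ofReal_exp, Real.exp_log (h.pos i _ ((A.e i).map_target hz))]

theorem dlt_apply (v : MV N) {i : A.ι} {x : M} (hx : x ∈ (A.e i).source) :
    (dlt h v).1 i x = del (lamw h i) (fun z => v.1 i ((A.e i).symm z)) (A.e i x) := by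
  have hz : A.e i x ∈ (A.e i).target := (A.e i).map_source hx
  have hw := w_ne h i hx
  have hv : SmV (A.e i x) (fun z => v.1 i ((A.e i).symm z)) := fun T => smAt_iff.1 (v.2.1 i T) _ hz
  show star (((h.w i x : ℂ))⁻¹ • (Sb ℂ n *ᵥ
    oB ((-(nabL (BN (KB A * N⁻¹)) (cj h v))).1 i x))) = _
  have h0 : oB ((-(nabL (BN (KB A * N⁻¹)) (cj h v))).1 i x) =
      -(∑ k, eW (ep k) *ᵥ dV I k (fun z => Sbi ℂ n *ᵥ
        ((h.w i ((A.e i).symm z) : ℂ) • star (v.1 i ((A.e i).symm z)))) (A.e i x)) := by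
    have h1 := oB_nab (cj h v).2.1 hx
    have h2 : oB ((-(nabL (BN (KB A * N⁻¹)) (cj h v))).1 i x) =
      -(oB (nab (BN (KB A * N⁻¹)) (cj h v).1 i x)) := rfl
    rw [h2, h1]
    rfl
  have hwS : Sm (A.e i x) (fun z => (h.w i ((A.e i).symm z) : ℂ)) :=
    smAt_iff.1 (smAt_ofReal (h.sm i)) _ hz
  have hvs : SmV (A.e i x) (fun z => star (v.1 i ((A.e i).symm z))) := SmV.star hv
  have e1 : ∀ k, dV I k (fun z => Sbi ℂ n *ᵥ
        ((h.w i ((A.e i).symm z) : ℂ) • star (v.1 i ((A.e i).symm z)))) (A.e i x) =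
      Sbi ℂ n *ᵥ ((h.w i x : ℂ) • star (dV (-I) k (fun z => v.1 i ((A.e i).symm z)) (A.e i x) +
        dS (-I) k (lamw h i) (A.e i x) • v.1 i x)) := by
    intro k
    have e2 : SmV (A.e i x) (fun z => (h.w i ((A.e i).symm z) : ℂ) •
        star (v.1 i ((A.e i).symm z))) := fun T => hwS.mul (hvs T)
    rw [dV_const_mulVec (Sbi ℂ n) (v := fun z => (h.w i ((A.e i).symm z) : ℂ) •
      star (v.1 i ((A.e i).symm z))) (fun T => (e2 T).diff),
      dV_smul hwS.diff (fun T => (hvs T).diff), dV_conj (fun T => (hv T).diff)]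
    have e3 : conj I = -I := Complex.conj_I
    have e4 : dS I k (fun z => (h.w i ((A.e i).symm z) : ℂ)) (A.e i x) =
        (h.w i x : ℂ) * conj (dS (-I) k (lamw h i) (A.e i x)) := by
      have e5 : (fun z => (h.w i ((A.e i).symm z) : ℂ)) =ᶠ[𝓝 (A.e i x)]
          fun z => Complex.exp (lamw h i z) := by
        filter_upwards [(A.e i).open_target.mem_nhds hz] with z hz'
        exact (exp_lamw h hz').symm
      rw [dS_congr e5, dS_exp (lamw_sm h hz).diff, exp_lamw h hz, (A.e i).left_inv hx]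
      congr 1
      have e6 := dS_conj (s := I) (a := k) (lamw_sm h hz).diff
      rw [Complex.conj_I] at e6
      rw [← e6]
      congr 1
      funext z
      exact (Complex.conj_ofReal _).symm
    rw [e3, e4, (A.e i).left_inv hx]
    congr 1
    rw [star_add, star_smul', smul_add, smul_smul, add_comm]
  rw [h0]
  simp only [e1]
  have e7 : ∀ k (a : FI n → ℂ), eW (ep k) *ᵥ (Sbi ℂ n *ᵥ a) = -(Sbi ℂ n *ᵥ (iW (ep k) *ᵥ a)) := by
    intro k a
    have h1 := Sbi_skew (R := ℂ) (ep k : Fin n → ℂ) 0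
    have h2 : (Crest.Agent.R275.Kos798.K (ep k : Fin n → ℂ) (0 : Fin n → ℂ))ᵀ = iW (ep k) :=
      eW_transpose (ep k)
    have h3 : eW (ep k) * Sbi ℂ n = -(Sbi ℂ n * iW (ep k)) := by
      rw [h2] at h1
      exact eq_neg_of_add_eq_zero_right h1
    rw [Matrix.mulVec_mulVec, h3, Matrix.neg_mulVec, Matrix.mulVec_mulVec]
  simp only [e7, Finset.sum_neg_distrib, neg_neg]
  rw [← Matrix.mulVec_sum, Matrix.mulVec_mulVec, Sb_mul_Sbi, Matrix.one_mulVec]
  have e8 : ∀ (k : Fin n) (a : FI n → ℂ), iW (ep k) *ᵥ ((h.w i x : ℂ) • star a) =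
      (h.w i x : ℂ) • star (iW (ep k) *ᵥ a) := by
    intro k a
    rw [Matrix.mulVec_smul, star_iW]
  simp only [e8]
  rw [← Finset.smul_sum, smul_smul, inv_mul_cancel₀ hw, one_smul, star_sum]
  simp only [star_star]
  unfold del
  simp only [(A.e i).left_inv hx]

/-! ### pairing and adjointness -/

variable [T2Space M] [CompactSpace M]

theorem pr_low_cj (K : Kah A) (P : Part A) (v w : MV N) :
    Pai323.pr (DN N) P (low K N v) (cj h w) = StokesV_332.intD P (ip h K v.1 w.1) := by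
  rw [StokesV_332.pr_eq_intD]
  congr 1
  funext i x
  exact dn_low_cj h K v w i x

theorem adj (K : Kah A) (P : Part A) (v w : MV N) :
    Pai323.pr (DN N) P (nabL (BN N) (low K N v)) (cj h w) =
      -(Pai323.pr (DN N) P (low K N v) (cj h (dlt h w))) := by
  rw [Pai323.pr_nab, nab_cj, map_neg]

end dlt

/-! ### degrees -/

section degree

variable {N : LB A} (h : HM ((KB A)⁻¹ * N))

theorem Sbi_degree {S T : FI n} (hne : Sbi ℂ n S T ≠ 0) : S.card + T.card = n := by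
  by_contra hc
  apply hne
  unfold Sbi
  rw [Matrix.smul_apply]
  have : Sb ℂ n S T = 0 := by
    by_contra h0
    exact hc (Sb_degree h0)
  rw [this, smul_zero]

theorem cj_pq {q : ℕ} (hq : q ≤ n) (v : MV N) :
    cj h (pqM N q v) = Geo.pqL (BN (KB A * N⁻¹)) (n - q) (cj h v) := by
  apply Subtype.ext
  funext i x ⟨T, ⟨⟩⟩
  have h1 : (Geo.pqL (BN (KB A * N⁻¹)) (n - q) (cj h v)).1 i x (T, ()) =
      if T.card = n - q then (cj h v).1 i x (T, ()) else 0 :=
    IndLink509.pqL_apply (BN (KB A * N⁻¹)) (n - q) (cj h v) i x (T, ())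
  rw [h1]
  show ∑ S, Sbi ℂ n T S * ((h.w i x : ℂ) * conj (if S.card = q then v.1 i x S else (0 : ℂ))) =
    if T.card = n - q then ∑ S, Sbi ℂ n T S * ((h.w i x : ℂ) * conj (v.1 i x S)) else 0
  split_ifs with hT
  · refine Finset.sum_congr rfl fun S _ => ?_
    by_cases h' : S.card = q
    · rw [if_pos h']
    · rw [if_neg h']
      have : Sbi ℂ n T S = 0 := by
        by_contra h0
        have := Sbi_degree h0
        omega
      rw [this, zero_mul, zero_mul]
  · refine Finset.sum_eq_zero fun S _ => ?_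
    by_cases h' : S.card = q
    · have : Sbi ℂ n T S = 0 := by
        by_contra h0
        have := Sbi_degree h0
        omega
      rw [this, zero_mul]
    · rw [if_neg h', map_zero, mul_zero, mul_zero]

end degree

/-! ### bridges -/

/-- elements of `MV N` are helper37's `IsV` -/
theorem isV {N : LB A} (v : MV N) : BKNa_37.IsV N v.1 where
  sm := v.2.1
  tr i j x hx := by
    rw [v.2.2.2 i j x hx]
    unfold Tv
    rw [Matrix.smul_mulVec]

/-- helper37's `IsV` vanishing off the sources is `MV` -/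
theorem mem_MV {N : LB A} {v : A.ι → M → FI n → ℂ} (hv : BKNa_37.IsV N v)
    (h0 : ∀ i, ∀ x ∉ (A.e i).source, v i x = 0) : v ∈ MV N := by
  refine ⟨hv.sm, h0, fun i j x hx => ?_⟩
  rw [hv.tr i j x hx]
  unfold Tv
  rw [Matrix.smul_mulVec]

theorem dlt_eq_delV {N : LB A} (h : HM ((KB A)⁻¹ * N)) (v : MV N) {i : A.ι} {x : M}
    (hx : x ∈ (A.e i).source) : (dlt h v).1 i x = BKNa_37.delV h v.1 i x := by
  rw [dlt_apply h v hx, BKNa_37.delV_eq h v.2.1 i hx]
  rfl

theorem nab_low_eq_duV (K : Kah A) {N : LB A} (v : MV N) {i : A.ι} {x : M}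
    (hx : x ∈ (A.e i).source) : oB ((nabL (BN N) (low K N v)).1 i x) = BKNa_37.duV K v.1 i x := by
  rw [nab_low K v hx, BKNa_37.duV_eq]
  rfl

/-- holomorphic polyvectors (helper578's `PV`) are smooth ones -/
theorem PV_le {N : LB A} {q : ℕ} {v : A.ι → M → FI n → ℂ} (hv : v ∈ NV_578.PV N q) :
    v ∈ MV N := by
  refine ⟨fun i T => ?_, hv.2.1, fun i j x hx => ?_⟩
  · have h1 := hv.1 i T
    refine (Crest.Agent.R275.Core144.HolAt.contDiffOn h1 isOpen_univ).mono fun z hz => ?_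
    exact ⟨hz, mem_univ _⟩
  · rw [hv.2.2.2 i j x hx]
    unfold Tv
    rw [Matrix.smul_mulVec]

end

end Crest.Agent.R273.DMetB_733
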