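import Crest.Agent.R275.Core_144
import Crest.Agent.R271.W_792
import Crest.Agent.R271.H3_51
import Crest.Agent.R273.HM_333
import Crest.Agent.R273.HessB_333
import Crest.Agent.R273.FS_333

-- ▼ part R273/SteinA_794
section

/-!
# R273, STEIN complements, part A (helper794)

`SD A`   : an open set `U` of `M` with `n` holomorphic functions `z k` which are local coordinates
           everywhere on `U`;
`Mo S`   : the Riemann domain `U → ℂⁿ` (`RDom n (Mo S)` of R271);
dictionary between the charts of `A` and the calculus of R271 on `Mo S`.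
-/

set_option autoImplicit false
set_option linter.unusedSectionVars false

open Set Filter Topology
open scoped ContDiff

namespace Crest.Agent.R273.SteinA_794

open Crest.Agent.R275.Geo Crest.Agent.R275.Core144
open Crest.Agent.R271 (Ho51.RDom Ho51.cp Ho51.ch Ho51.IsCh Ho51.Sm)

noncomputable section

variable {n : ℕ} {M : Type} [TopologicalSpace M] {A : Atl n M}

/-- functions `z k` read in the chart `i` -/
def rd {m : ℕ} (A : Atl n M) (i : A.ι) (z : Fin m → M → ℂ) (w : Cn n) : Fin m → ℂ :=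
  fun k => z k ((A.e i).symm w)

/-- an open set with `n` holomorphic functions which are local coordinates everywhere -/
structure SD (A : Atl n M) where
  U : Set M
  isOpen : IsOpen U
  z : Fin n → M → ℂ
  hol : ∀ i k, HolAt A i U (z k)
  inj : ∀ i, ∀ x ∈ (A.e i).source, x ∈ U → ∀ v : Cn n,
    fderiv ℂ (rd A i z) (A.e i x) v = 0 → v = 0

variable (S : SD A)

/-- the open set in the chart `i` -/
def SD.dom (i : A.ι) : Set (Cn n) := (A.e i).target ∩ (A.e i).symm ⁻¹' S.U

theorem SD.isOpen_dom (i : A.ι) : IsOpen (S.dom i) := isOpen_ti S.isOpen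

theorem SD.mem_dom {i : A.ι} {x : M} (hx : x ∈ (A.e i).source) (hxU : x ∈ S.U) :
    A.e i x ∈ S.dom i :=
  ⟨(A.e i).map_source hx, by rw [mem_preimage, (A.e i).left_inv hx]; exact hxU⟩

theorem SD.rd_diff (i : A.ι) : DifferentiableOn ℂ (rd A i S.z) (S.dom i) :=
  differentiableOn_pi.2 fun k => S.hol i k

theorem SD.rd_anal (i : A.ι) : AnalyticOnNhd ℂ (rd A i S.z) (S.dom i) :=
  Crest.Agent.R266.SCV.analyticOnNhd_of_differentiableOn (S.isOpen_dom i) (S.rd_diff i)

/-- the derivative of the coordinates, as an equivalence -/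
def SD.LL (i : A.ι) {x : M} (hx : x ∈ (A.e i).source) (hxU : x ∈ S.U) :
    Cn n ≃L[ℂ] (Fin n → ℂ) :=
  (LinearMap.linearEquivOfInjective
    ((fderiv ℂ (rd A i S.z) (A.e i x) : Cn n →L[ℂ] (Fin n → ℂ)) : Cn n →ₗ[ℂ] (Fin n → ℂ))
    ((injective_iff_map_eq_zero _).2 fun v hv => S.inj i x hx hxU v hv)
    (by simp)).toContinuousLinearEquiv

theorem SD.LL_apply (i : A.ι) {x : M} (hx : x ∈ (A.e i).source) (hxU : x ∈ S.U) (v : Cn n) :
    S.LL i hx hxU v = fderiv ℂ (rd A i S.z) (A.e i x) v := rfl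

theorem SD.LL_coe (i : A.ι) {x : M} (hx : x ∈ (A.e i).source) (hxU : x ∈ S.U) :
    ((S.LL i hx hxU : Cn n ≃L[ℂ] (Fin n → ℂ)) : Cn n →L[ℂ] (Fin n → ℂ)) =
      fderiv ℂ (rd A i S.z) (A.e i x) := by
  ext v; rfl

theorem SD.LL_congr (i : A.ι) {x y : M} (hxy : x = y) (hx : x ∈ (A.e i).source) (hxU : x ∈ S.U)
    (hy : y ∈ (A.e i).source) (hyU : y ∈ S.U) : S.LL i hx hxU = S.LL i hy hyU := by
  subst hxy; rfl

theorem SD.strict (i : A.ι) {x : M} (hx : x ∈ (A.e i).source) (hxU : x ∈ S.U) :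
    HasStrictFDerivAt (rd A i S.z)
      ((S.LL i hx hxU : Cn n ≃L[ℂ] (Fin n → ℂ)) : Cn n →L[ℂ] (Fin n → ℂ)) (A.e i x) := by
  rw [S.LL_coe]
  exact (S.rd_anal i _ (S.mem_dom hx hxU)).hasStrictFDerivAt

/-- the Riemann domain -/
def Mo : Type := {x : M // x ∈ S.U}

instance : TopologicalSpace (Mo S) := instTopologicalSpaceSubtype

instance [T2Space M] : T2Space (Mo S) := inferInstanceAs (T2Space {x : M // x ∈ S.U})

instance [SecondCountableTopology M] : SecondCountableTopology (Mo S) :=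
  inferInstanceAs (SecondCountableTopology {x : M // x ∈ S.U})

instance : MeasurableSpace (Mo S) := borel _

instance : BorelSpace (Mo S) := ⟨rfl⟩

variable {S}

/-- inclusion -/
def Mo.val (x : Mo S) : M := Subtype.val x

theorem Mo.prop (x : Mo S) : x.val ∈ S.U := Subtype.property x

theorem isOpenEmbedding_val : IsOpenEmbedding (Mo.val : Mo S → M) :=
  S.isOpen.isOpenEmbedding_subtypeVal

theorem continuous_val : Continuous (Mo.val : Mo S → M) := continuous_subtype_val

/-- the coordinates of the Riemann domain -/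
def Mo.co (x : Mo S) : Fin n → ℂ := fun k => S.z k x.val

theorem rd_e (i : A.ι) {m : ℕ} (z : Fin m → M → ℂ) {x : M} (hx : x ∈ (A.e i).source) :
    rd A i z (A.e i x) = fun k => z k x := by
  funext k
  simp [rd, (A.e i).left_inv hx]

theorem isLocalHomeomorph_co : IsLocalHomeomorph (Mo.co : Mo S → (Fin n → ℂ)) := by
  have h1 : IsLocalHomeomorphOn (fun x : M => (fun k => S.z k x : Fin n → ℂ)) S.U := by
    refine IsLocalHomeomorphOn.mk _ _ fun x hxU => ?_
    obtain ⟨i, hx⟩ := A.cover x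
    refine ⟨(A.e i).trans ((S.strict i hx hxU).toOpenPartialHomeomorph _), ?_, ?_⟩
    · rw [OpenPartialHomeomorph.trans_source]
      exact ⟨hx, (S.strict i hx hxU).mem_toOpenPartialHomeomorph_source⟩
    · intro y hy
      rw [OpenPartialHomeomorph.trans_source] at hy
      show _ = rd A i S.z (A.e i y)
      rw [rd_e i S.z hy.1]
  have h2 : IsLocalHomeomorph (Mo.val : Mo S → M) := isOpenEmbedding_val.isLocalHomeomorph
  rw [isLocalHomeomorph_iff_isLocalHomeomorphOn_univ] at h2 ⊢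
  exact h1.comp h2 fun x _ => x.prop

instance : Crest.Agent.R271.Ho51.RDom n (Mo S) where
  p := Mo.co
  hp := isLocalHomeomorph_co

open Crest.Agent.R271.Ho51


/-! ### the inverse of the coordinates -/

/-- the domain of the inverse of the coordinates -/
def domT (e : OpenPartialHomeomorph (Mo S) (Fin n → ℂ)) (i : A.ι) : Set (Fin n → ℂ) :=
  e.target ∩ e.symm ⁻¹' (Mo.val ⁻¹' (A.e i).source)

theorem isOpen_domT (e : OpenPartialHomeomorph (Mo S) (Fin n → ℂ)) (i : A.ι) :
    IsOpen (domT e i) :=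
  e.isOpen_inter_preimage_symm ((A.e i).open_source.preimage continuous_val)

/-- the chart `i` as a function of the coordinates -/
def TT (A : Atl n M) {S : SD A} (e : OpenPartialHomeomorph (Mo S) (Fin n → ℂ)) (i : A.ι)
    (ζ : Fin n → ℂ) : Cn n := A.e i (e.symm ζ).val

theorem hasFDerivAt_TT {e : OpenPartialHomeomorph (Mo S) (Fin n → ℂ)} (he : IsCh e)
    {ζ : Fin n → ℂ} {i : A.ι} (hζ : ζ ∈ domT e i) :
    HasFDerivAt (TT A e i)
      ((S.LL i (x := (e.symm ζ).val) hζ.2 (e.symm ζ).prop).symm : (Fin n → ℂ) →L[ℂ] Cn n) ζ := by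
  refine HasFDerivAt.of_local_left_inverse (f := rd A i S.z) ?_ ?_ ?_
  · have hc1 : ContinuousAt (fun ξ => (e.symm ξ).val) ζ :=
      ContinuousAt.comp (g := (Mo.val : Mo S → M)) continuous_val.continuousAt
        (e.symm.continuousAt hζ.1)
    exact ContinuousAt.comp (g := A.e i) ((A.e i).continuousAt hζ.2) hc1
  · exact (S.strict i hζ.2 (e.symm ζ).prop).hasFDerivAt
  · filter_upwards [(isOpen_domT e i).mem_nhds hζ] with ξ hξ
    rw [TT, rd_e i S.z hξ.2]
    exact he.cp_symm hξ.1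

theorem TT_diff {e : OpenPartialHomeomorph (Mo S) (Fin n → ℂ)} (he : IsCh e) (i : A.ι) :
    DifferentiableOn ℂ (TT A e i) (domT e i) := fun _ hζ =>
  (hasFDerivAt_TT he hζ).differentiableAt.differentiableWithinAt

theorem TT_anal {e : OpenPartialHomeomorph (Mo S) (Fin n → ℂ)} (he : IsCh e) (i : A.ι) :
    AnalyticOnNhd ℂ (TT A e i) (domT e i) :=
  Crest.Agent.R266.SCV.analyticOnNhd_of_differentiableOn (isOpen_domT e i) (TT_diff he i)

theorem TT_smooth {e : OpenPartialHomeomorph (Mo S) (Fin n → ℂ)} (he : IsCh e) (i : A.ι) :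
    ContDiffOn ℝ ∞ (TT A e i) (domT e i) :=
  ((Crest.Agent.R266.SCV.contDiffOn_omega_of_differentiableOn (isOpen_domT e i)
    (TT_diff he i)).restrict_scalars ℝ).of_le le_top

theorem symm_TT {e : OpenPartialHomeomorph (Mo S) (Fin n → ℂ)} {i : A.ι} {ζ : Fin n → ℂ}
    (hζ : ζ ∈ domT e i) : (A.e i).symm (TT A e i ζ) = (e.symm ζ).val :=
  (A.e i).left_inv hζ.2

theorem TT_mem {e : OpenPartialHomeomorph (Mo S) (Fin n → ℂ)} {i : A.ι} {ζ : Fin n → ℂ}
    (hζ : ζ ∈ domT e i) : TT A e i ζ ∈ S.dom i := S.mem_dom hζ.2 (e.symm ζ).prop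

/-- a function on `M` in the coordinates -/
theorem comp_TT {G : Type*} (e : OpenPartialHomeomorph (Mo S) (Fin n → ℂ)) {i : A.ι}
    {ζ : Fin n → ℂ} (hζ : ζ ∈ domT e i) (f : M → G) :
    ((fun x : Mo S => f x.val) ∘ e.symm) =ᶠ[𝓝 ζ] (fun w => f ((A.e i).symm w)) ∘ TT A e i := by
  filter_upwards [(isOpen_domT e i).mem_nhds hζ] with ξ hξ
  simp only [Function.comp_apply, symm_TT hξ]

theorem mem_domT_ch {i : A.ι} (x : Mo S) (hx : x.val ∈ (A.e i).source) : cp x ∈ domT (ch x) i := by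
  refine ⟨(isCh_ch x).cp_mem (mem_ch x), ?_⟩
  rw [mem_preimage, (isCh_ch x).symm_cp (mem_ch x)]
  exact hx

theorem TT_ch {i : A.ι} (x : Mo S) : TT A (ch x) i (cp x) = A.e i x.val := by
  rw [TT, (isCh_ch x).symm_cp (mem_ch x)]

/-- **holomorphic functions** -/
theorem hol_of {f : M → ℂ} (hf : ∀ i, HolAt A i S.U f) : Hol (fun x : Mo S => f x.val) := by
  intro e he ζ hζ
  obtain ⟨i, hi⟩ := A.cover (e.symm ζ).val
  have hζ' : ζ ∈ domT e i := ⟨hζ, hi⟩
  have h1 : DifferentiableAt ℂ (fun w => f ((A.e i).symm w)) (TT A e i ζ) :=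
    (DifferentiableOn.differentiableAt (hf i) ((S.isOpen_dom i).mem_nhds (TT_mem hζ')))
  have h2 := h1.comp ζ (hasFDerivAt_TT he hζ').differentiableAt
  exact (h2.congr_of_eventuallyEq (comp_TT e hζ' f)).differentiableWithinAt

/-- near a point of the chart `i` the inverse of the chart is the inverse of the coordinates -/
theorem symm_rd {i : A.ι} (x : Mo S) (hx : x.val ∈ (A.e i).source) :
    ∀ᶠ w in 𝓝 (A.e i x.val), w ∈ S.dom i ∧ rd A i S.z w ∈ (ch x).target ∧
      ((ch x).symm (rd A i S.z w)).val = (A.e i).symm w := by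
  have h0 : A.e i x.val ∈ S.dom i := S.mem_dom hx x.prop
  have hc : ContinuousAt (A.e i).symm (A.e i x.val) :=
    (A.e i).symm.continuousAt (by simpa using h0.1)
  obtain ⟨V, hV, hVe⟩ := isOpenEmbedding_val.isInducing.isOpen_iff.1 (ch x).open_source
  have hxV : x.val ∈ V := by
    have : x ∈ Mo.val ⁻¹' V := by rw [hVe]; exact mem_ch x
    exact this
  have h1 : ∀ᶠ w in 𝓝 (A.e i x.val), (A.e i).symm w ∈ V := by
    apply hc.eventually_mem
    rw [(A.e i).left_inv hx]
    exact hV.mem_nhds hxV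
  filter_upwards [(S.isOpen_dom i).mem_nhds h0, h1] with w hw hwV
  set y : Mo S := ⟨(A.e i).symm w, hw.2⟩ with hy
  have hyv : y.val = (A.e i).symm w := rfl
  have hys : y ∈ (ch x).source := by
    rw [← hVe]; exact hwV
  have hcp : cp y = rd A i S.z w := rfl
  refine ⟨hw, ?_, ?_⟩
  · rw [← hcp]; exact (isCh_ch x).cp_mem hys
  · rw [← hcp, (isCh_ch x).symm_cp hys, hyv]

theorem hol_at_of_hol {F : Mo S → ℂ} (hF : Hol F) {f : M → ℂ} (hf : ∀ x : Mo S, f x.val = F x)
    (i : A.ι) : HolAt A i S.U f := by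
  intro w hw
  set x : Mo S := ⟨(A.e i).symm w, hw.2⟩ with hx
  have hxs : x.val ∈ (A.e i).source := (A.e i).map_target hw.1
  have hxw : A.e i x.val = w := (A.e i).right_inv hw.1
  have h1 := symm_rd x hxs
  rw [hxw] at h1
  have h2 : DifferentiableAt ℂ (F ∘ (ch x).symm) (rd A i S.z w) :=
    (hF (ch x) (isCh_ch x)).differentiableAt
      ((ch x).open_target.mem_nhds h1.self_of_nhds.2.1)
  have h3 : DifferentiableAt ℂ (rd A i S.z) w :=
    (S.rd_diff i).differentiableAt ((S.isOpen_dom i).mem_nhds hw)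
  have h4 := h2.comp w h3
  refine (h4.congr_of_eventuallyEq ?_).differentiableWithinAt
  filter_upwards [h1] with v hv
  simp only [Function.comp_apply]
  rw [← hf, hv.2.2]

/-- extension by zero -/
def ext0 (F : Mo S → ℂ) : M → ℂ := fun x =>
  open Classical in if h : x ∈ S.U then F ⟨x, h⟩ else 0

theorem ext0_val (F : Mo S → ℂ) (x : Mo S) : ext0 F x.val = F x := by
  have h : x.val ∈ S.U := x.prop
  rw [ext0, dif_pos h]
  rfl

theorem holAt_ext0 {F : Mo S → ℂ} (hF : Hol F) (i : A.ι) : HolAt A i S.U (ext0 F) :=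
  hol_at_of_hol hF (ext0_val F) i

/-! ### smooth functions and derivatives -/

section smooth

variable {G : Type*} [NormedAddCommGroup G] [NormedSpace ℝ G]

theorem sm_at {f : M → G} (x : Mo S) {i : A.ι} (hx : x.val ∈ (A.e i).source)
    (hf : ContDiffAt ℝ ∞ (fun w => f ((A.e i).symm w)) (A.e i x.val)) :
    ContDiffAt ℝ (⊤ : ℕ∞) ((fun x : Mo S => f x.val) ∘ (ch x).symm) (cp x) := by
  have hd := mem_domT_ch x hx
  have h2 : ContDiffAt ℝ ∞ (TT A (ch x) i) (cp x) :=
    (TT_smooth (isCh_ch x) i).contDiffAt ((isOpen_domT _ i).mem_nhds hd)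
  have h1 : ContDiffAt ℝ ∞ (fun w => f ((A.e i).symm w)) (TT A (ch x) i (cp x)) := by
    rw [TT_ch]; exact hf
  exact (h1.comp _ h2).congr_of_eventuallyEq (comp_TT _ hd f)

theorem sm_of {f : M → G} (hf : ∀ i, ContDiffOn ℝ ∞ (fun w => f ((A.e i).symm w)) (S.dom i)) :
    Sm (fun x : Mo S => f x.val) := by
  intro x
  obtain ⟨i, hx⟩ := A.cover x.val
  exact sm_at x hx ((hf i).contDiffAt ((S.isOpen_dom i).mem_nhds (S.mem_dom hx x.prop)))

theorem sm_of_Sm {f : M → G} (hf : A.Sm f) : Sm (fun x : Mo S => f x.val) :=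
  sm_of fun i => (hf i).mono inter_subset_left

theorem LL_ch (x : Mo S) {i : A.ι} (hx : x.val ∈ (A.e i).source) :
    HasFDerivAt (TT A (ch x) i)
      ((S.LL i hx x.prop).symm : (Fin n → ℂ) →L[ℂ] Cn n) (cp x) := by
  have h := hasFDerivAt_TT (isCh_ch x) (mem_domT_ch x hx)
  have hs : (ch x).symm (cp x) = x := (isCh_ch x).symm_cp (mem_ch x)
  rw [S.LL_congr i (congrArg Mo.val hs) _ _ hx x.prop] at h
  exact h

/-- derivative in the coordinates -/
theorem D_of {f : M → G} (x : Mo S) {i : A.ι} (hx : x.val ∈ (A.e i).source)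
    (hf : DifferentiableAt ℝ (fun w => f ((A.e i).symm w)) (A.e i x.val)) (v : Fin n → ℂ) :
    D (fun x : Mo S => f x.val) x v =
      fderiv ℝ (fun w => f ((A.e i).symm w)) (A.e i x.val) ((S.LL i hx x.prop).symm v) := by
  have hd := mem_domT_ch x hx
  have h1 : HasFDerivAt (TT A (ch x) i)
      (((S.LL i hx x.prop).symm : (Fin n → ℂ) →L[ℂ] Cn n).restrictScalars ℝ) (cp x) :=
    (LL_ch x hx).restrictScalars ℝ
  have h2 : HasFDerivAt (fun w => f ((A.e i).symm w))
      (fderiv ℝ (fun w => f ((A.e i).symm w)) (A.e i x.val)) (TT A (ch x) i (cp x)) := by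
    rw [TT_ch]; exact hf.hasFDerivAt
  have h3 := h2.comp (cp x) h1
  have h4 := h3.congr_of_eventuallyEq (comp_TT (ch x) hd f)
  rw [D, h4.fderiv]
  rfl

end smooth

end

end Crest.Agent.R273.SteinA_794
end

-- ▼ part R273/SteinB_794
section

/-!
# R273, STEIN complements, part B (helper794): Levi forms, weights of metrics on `Mo S`
-/

set_option autoImplicit false
set_option linter.unusedSectionVars false

open Set Filter Topology
open scoped ContDiff

namespace Crest.Agent.R273.SteinB_794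

open Crest.Agent.R275.Geo Crest.Agent.R275.Core144 Crest.Agent.R273.SteinA_794
open Crest.Agent.R271.Ho51
open Crest.Agent.R273.Defs_333 (HM HM.wt HM.Semipos HM.Pos)

noncomputable section

section calcs

variable {n m : ℕ}

theorem lev_eq_fd {u : Cn n → ℝ} {z : Cn n} (hu : ContDiffAt ℝ 2 u z) (v : Cn n) :
    Defs_333.lev u z v = fderiv ℝ (fun y => fderiv ℝ u y v) z v +
      fderiv ℝ (fun y => fderiv ℝ u y (Complex.I • v)) z (Complex.I • v) := by
  have h1 : DifferentiableAt ℝ (fderiv ℝ u) z :=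
    (hu.fderiv_right (m := 1) (by norm_num)).differentiableAt (by simp)
  have h2 : ∀ w : Cn n, fderiv ℝ (fun y => fderiv ℝ u y w) z w = fderiv ℝ (fderiv ℝ u) z w w := by
    intro w
    rw [fderiv_clm_apply h1 (differentiableAt_const w)]
    simp
  unfold Defs_333.lev
  rw [iteratedFDeriv_two_apply, iteratedFDeriv_two_apply, h2, h2]
  rfl

/-- second derivative of a composition -/
theorem fd2_comp {T : (Fin n → ℂ) → Cn m} {u : Cn m → ℝ} {ζ : Fin n → ℂ}
    (hT : ContDiffAt ℝ 2 T ζ) (hu : ContDiffAt ℝ 2 u (T ζ)) (v w : Fin n → ℂ) :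
    fderiv ℝ (fun y => fderiv ℝ (u ∘ T) y v) ζ w =
      fderiv ℝ (fun z => fderiv ℝ u z (fderiv ℝ T ζ v)) (T ζ) (fderiv ℝ T ζ w) +
        fderiv ℝ u (T ζ) (fderiv ℝ (fun y => fderiv ℝ T y v) ζ w) := by
  have h2 : (2 : ℕ∞ω) ≠ ∞ := by decide
  have hT1 : ∀ᶠ y in 𝓝 ζ, DifferentiableAt ℝ T y :=
    (hT.eventually (by decide)).mono fun y hy => hy.differentiableAt (by decide)
  have hu1 : ∀ᶠ z in 𝓝 (T ζ), DifferentiableAt ℝ u z :=
    (hu.eventually (by decide)).mono fun y hy => hy.differentiableAt (by decide)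
  have hu2 : ∀ᶠ y in 𝓝 ζ, DifferentiableAt ℝ u (T y) := hT.continuousAt.eventually hu1
  have e1 : (fun y => fderiv ℝ (u ∘ T) y v) =ᶠ[𝓝 ζ]
      fun y => (fderiv ℝ u (T y)) (fderiv ℝ T y v) := by
    filter_upwards [hT1, hu2] with y h1 h2
    rw [fderiv_comp y h2 h1]
    rfl
  rw [e1.fderiv_eq]
  have d1 : DifferentiableAt ℝ (fderiv ℝ u) (T ζ) :=
    (hu.fderiv_right (m := 1) (by norm_num)).differentiableAt (by simp)
  have d2 : DifferentiableAt ℝ T ζ := hT.differentiableAt (by decide)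
  have d3 : DifferentiableAt ℝ (fderiv ℝ T) ζ :=
    (hT.fderiv_right (m := 1) (by norm_num)).differentiableAt (by simp)
  have d4 : DifferentiableAt ℝ (fun y => fderiv ℝ u (T y)) ζ := d1.comp ζ d2
  have d5 : DifferentiableAt ℝ (fun y => fderiv ℝ T y v) ζ :=
    d3.clm_apply (differentiableAt_const v)
  rw [fderiv_clm_apply d4 d5]
  simp only [_root_.add_apply, ContinuousLinearMap.coe_comp, Function.comp_apply,
    ContinuousLinearMap.flip_apply]
  have e2 : fderiv ℝ (fun y => fderiv ℝ u (T y)) ζ =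
      (fderiv ℝ (fderiv ℝ u) (T ζ)).comp (fderiv ℝ T ζ) := fderiv_comp ζ d1 d2
  have e3 : fderiv ℝ (fun z => fderiv ℝ u z (fderiv ℝ T ζ v)) (T ζ) (fderiv ℝ T ζ w) =
      fderiv ℝ (fderiv ℝ u) (T ζ) (fderiv ℝ T ζ w) (fderiv ℝ T ζ v) := by
    rw [fderiv_clm_apply d1 (differentiableAt_const _)]
    simp
  rw [e2, e3]
  simp only [ContinuousLinearMap.coe_comp, Function.comp_apply]
  ring

/-- the Levi form and holomorphic maps -/
theorem lv_comp {T : (Fin n → ℂ) → Cn m} {u : Cn m → ℝ} {ζ : Fin n → ℂ}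
    (hT : AnalyticAt ℂ T ζ) (hu : ContDiffAt ℝ 2 u (T ζ)) (v : Fin n → ℂ) :
    fderiv ℝ (fun y => fderiv ℝ (u ∘ T) y v) ζ v +
      fderiv ℝ (fun y => fderiv ℝ (u ∘ T) y (Complex.I • v)) ζ (Complex.I • v) =
    Defs_333.lev u (T ζ) (fderiv ℂ T ζ v) := by
  have hT2 : ContDiffAt ℝ 2 T ζ := (hT.contDiffAt.restrict_scalars ℝ)
  have hTd : ∀ᶠ y in 𝓝 ζ, DifferentiableAt ℂ T y :=
    hT.eventually_analyticAt.mono fun y hy => hy.differentiableAt
  have hR : ∀ᶠ y in 𝓝 ζ, ∀ w, fderiv ℝ T y w = fderiv ℂ T y w := by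
    filter_upwards [hTd] with y hy w
    rw [hy.fderiv_restrictScalars ℝ]
    rfl
  have hv : (fun y => fderiv ℝ T y v) =ᶠ[𝓝 ζ] fun y => fderiv ℂ T y v :=
    hR.mono fun y hy => hy v
  have hIv : (fun y => fderiv ℝ T y (Complex.I • v)) =ᶠ[𝓝 ζ]
      fun y => Complex.I • fderiv ℂ T y v := by
    filter_upwards [hR] with y hy
    rw [hy, map_smul]
  have hd : DifferentiableAt ℂ (fun y => fderiv ℂ T y v) ζ :=
    (hT.fderiv.differentiableAt).clm_apply (differentiableAt_const v)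
  have hT0 : ∀ w, fderiv ℝ T ζ w = fderiv ℂ T ζ w := hR.self_of_nhds
  have e1 : fderiv ℝ (fun y => fderiv ℝ T y v) ζ v =
      fderiv ℂ (fun y => fderiv ℂ T y v) ζ v := by
    rw [hv.fderiv_eq, hd.fderiv_restrictScalars ℝ]
    rfl
  have e2 : fderiv ℝ (fun y => fderiv ℝ T y (Complex.I • v)) ζ (Complex.I • v) =
      - fderiv ℂ (fun y => fderiv ℂ T y v) ζ v := by
    have hd' : DifferentiableAt ℂ (fun y => Complex.I • fderiv ℂ T y v) ζ :=
      hd.const_smul Complex.I
    rw [hIv.fderiv_eq, hd'.fderiv_restrictScalars ℝ]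
    have : fderiv ℂ (fun y => Complex.I • fderiv ℂ T y v) ζ =
        Complex.I • fderiv ℂ (fun y => fderiv ℂ T y v) ζ := fderiv_fun_const_smul hd Complex.I
    rw [this]
    simp only [ContinuousLinearMap.coe_restrictScalars', _root_.smul_apply, map_smul, smul_smul,
      Complex.I_mul_I, neg_smul, one_smul]
  rw [fd2_comp hT2 hu, fd2_comp hT2 hu, e1, e2, lev_eq_fd hu, hT0, hT0, map_smul, map_neg]
  ring

end calcs

variable {n : ℕ} {M : Type} [TopologicalSpace M] {A : Atl n M} {S : SD A}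

/-- **Levi form in the coordinates of `Mo S`** -/
theorem lev_of {f : M → ℝ} (x : Mo S) {i : A.ι} (hx : x.val ∈ (A.e i).source)
    (hf : ContDiffAt ℝ 2 (fun w => f ((A.e i).symm w)) (A.e i x.val)) (w : Fin n → ℂ) :
    Crest.Agent.R271.W792.lev (fun x : Mo S => f x.val) x w =
      (1 / 4) * Defs_333.lev (fun w => f ((A.e i).symm w)) (A.e i x.val)
        ((S.LL i hx x.prop).symm w) := by
  have hd := mem_domT_ch x hx
  set φ : Mo S → ℝ := fun x => f x.val with hφ
  have hφe : φ ∘ (ch x).symm =ᶠ[𝓝 (cp x)] (fun w => f ((A.e i).symm w)) ∘ TT A (ch x) i :=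
    comp_TT (ch x) hd f
  have hD : ∀ v : Fin n → ℂ, D (fun y => D φ y v) x v =
      fderiv ℝ (fun z => fderiv ℝ (((fun w => f ((A.e i).symm w)) ∘ TT A (ch x) i)) z v)
        (cp x) v := by
    intro v
    rw [D]
    have h1 : ((fun y => D φ y v) ∘ (ch x).symm) =ᶠ[𝓝 (cp x)]
        fun z => fderiv ℝ (((fun w => f ((A.e i).symm w)) ∘ TT A (ch x) i)) z v := by
      filter_upwards [(ch x).open_target.mem_nhds ((isCh_ch x).cp_mem (mem_ch x)),
        hφe.eventually_nhds] with z hz hz2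
      simp only [Function.comp_apply]
      rw [D_symm (isCh_ch x) hz φ, Filter.EventuallyEq.fderiv_eq hz2]
    rw [h1.fderiv_eq]
  unfold Crest.Agent.R271.W792.lev
  rw [hD, hD]
  have hT : AnalyticAt ℂ (TT A (ch x) i) (cp x) := TT_anal (isCh_ch x) i _ hd
  have hu : ContDiffAt ℝ 2 (fun w => f ((A.e i).symm w)) (TT A (ch x) i (cp x)) := by
    rw [TT_ch]; exact hf
  rw [lv_comp hT hu, TT_ch, (LL_ch x hx).fderiv]
  rfl

theorem Levi_of {f : M → ℝ} (hf : ∀ i, ContDiffOn ℝ ∞ (fun w => f ((A.e i).symm w)) (S.dom i))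
    (x : Mo S) {i : A.ι} (hx : x.val ∈ (A.e i).source) (w : Fin n → ℂ) :
    Levi (fun x : Mo S => f x.val) x w =
      (1 / 4) * Defs_333.lev (fun w => f ((A.e i).symm w)) (A.e i x.val)
        ((S.LL i hx x.prop).symm w) := by
  rw [Crest.Agent.R271.W792.Levi_eq_lev (sm_of hf), lev_of x hx]
  exact (((hf i).contDiffAt ((S.isOpen_dom i).mem_nhds (S.mem_dom hx x.prop)))).of_le
    two_le_top'

/-! ### the weight of a metric in a trivialisation -/

variable {L : LB A}

/-- the weight `-log |σ|²` of the metric `h` with respect to the frame `σ` -/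
def wtS (h : HM L) (σ : A.ι → M → ℂ) (x : M) : ℝ :=
  - Real.log (HM_333.nsq h σ (A.cover x).choose x)

variable (h : HM L) {σ : A.ι → M → ℂ}

theorem wtS_eq (hσ : IsHS L S.U σ) {i : A.ι} {x : M} (hx : x ∈ (A.e i).source)
    (hxU : x ∈ S.U) : wtS h σ x = - Real.log (HM_333.nsq h σ i x) := by
  rw [wtS, HM_333.nsq_indep h hσ ⟨(A.cover x).choose_spec, hx⟩ hxU]

/-- in the chart `i` -/
theorem wtS_chart (hσ : IsHS L S.U σ) (h0 : ∀ i, ∀ x ∈ (A.e i).source, x ∈ S.U → σ i x ≠ 0)
    {i : A.ι} {z : Cn n} (hz : z ∈ S.dom i) :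
    wtS h σ ((A.e i).symm z) = h.wt i z - Real.log (‖σ i ((A.e i).symm z)‖ ^ 2) := by
  have hx := (A.e i).map_target hz.1
  rw [wtS_eq h hσ hx hz.2, HM_333.nsq, Real.log_mul, HM.wt]
  · ring
  · have := h0 i _ hx hz.2
    positivity
  · exact (h.pos i _ hx).ne'

theorem log_norm_smooth (hσ : IsHS L S.U σ)
    (h0 : ∀ i, ∀ x ∈ (A.e i).source, x ∈ S.U → σ i x ≠ 0) (i : A.ι) :
    ContDiffOn ℝ ∞ (fun z => Real.log (‖σ i ((A.e i).symm z)‖ ^ 2)) (S.dom i) := by
  have h1 : ContDiffOn ℝ ∞ (fun z => σ i ((A.e i).symm z)) (S.dom i) :=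
    (hσ.hol i).contDiffOn S.isOpen
  have h2 : ContDiffOn ℝ ∞ (fun z => ‖σ i ((A.e i).symm z)‖ ^ 2) (S.dom i) := h1.norm_sq ℝ
  exact h2.log fun z hz => by
    have := h0 i _ ((A.e i).map_target hz.1) hz.2
    positivity

theorem wtS_smooth (hσ : IsHS L S.U σ) (h0 : ∀ i, ∀ x ∈ (A.e i).source, x ∈ S.U → σ i x ≠ 0)
    (i : A.ι) : ContDiffOn ℝ ∞ (fun z => wtS h σ ((A.e i).symm z)) (S.dom i) :=
  (((HM_333.wt_smooth h i).mono inter_subset_left).sub (log_norm_smooth hσ h0 i)).congr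
    fun _ hz => wtS_chart h hσ h0 hz

theorem wtS_sm (hσ : IsHS L S.U σ) (h0 : ∀ i, ∀ x ∈ (A.e i).source, x ∈ S.U → σ i x ≠ 0) :
    Sm (fun x : Mo S => wtS h σ x.val) := sm_of (wtS_smooth h hσ h0)

theorem lev_wtS (hσ : IsHS L S.U σ) (h0 : ∀ i, ∀ x ∈ (A.e i).source, x ∈ S.U → σ i x ≠ 0)
    {i : A.ι} {z : Cn n} (hz : z ∈ S.dom i) (v : Cn n) :
    Defs_333.lev (fun z => wtS h σ ((A.e i).symm z)) z v = Defs_333.lev (h.wt i) z v := by
  have hnb := (S.isOpen_dom i).mem_nhds hz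
  have c1 : ContDiffAt ℝ ∞ (h.wt i) z :=
    ((HM_333.wt_smooth h i).mono inter_subset_left).contDiffAt hnb
  have c2 : ContDiffAt ℝ ∞ (fun z => Real.log (‖σ i ((A.e i).symm z)‖ ^ 2)) z :=
    (log_norm_smooth hσ h0 i).contDiffAt hnb
  have c3 : ContDiffAt ℝ ∞ (fun z => wtS h σ ((A.e i).symm z)) z :=
    (wtS_smooth h hσ h0 i).contDiffAt hnb
  have e1 : Hess_333.hess (fun z => wtS h σ ((A.e i).symm z)) z = Hess_333.hess (h.wt i) z := by
    have e2 : (fun z => wtS h σ ((A.e i).symm z)) =ᶠ[𝓝 z]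
        fun z => h.wt i z - Real.log (‖σ i ((A.e i).symm z)‖ ^ 2) := by
      filter_upwards [hnb] with w hw using wtS_chart h hσ h0 hw
    rw [HessB_333.hess_congr e2, HessB_333.hess_sub c1 c2, HessB_333.hess_log_norm, sub_zero]
    · filter_upwards [hnb] with w hw
      exact (DifferentiableOn.differentiableAt (hσ.hol i) ((S.isOpen_dom i).mem_nhds hw))
    · exact h0 i _ ((A.e i).map_target hz.1) hz.2
  have e3 : ((Defs_333.lev (fun z => wtS h σ ((A.e i).symm z)) z v : ℝ) : ℂ) =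
      ((Defs_333.lev (h.wt i) z v : ℝ) : ℂ) := by
    rw [Hess_333.lev_eq c3, Hess_333.lev_eq c1]
    unfold Hess_333.hq
    rw [e1]
  exact_mod_cast e3

/-- the Levi form of the weight on `Mo S` -/
theorem Levi_wtS (hσ : IsHS L S.U σ) (h0 : ∀ i, ∀ x ∈ (A.e i).source, x ∈ S.U → σ i x ≠ 0)
    (x : Mo S) {i : A.ι} (hx : x.val ∈ (A.e i).source) (w : Fin n → ℂ) :
    Levi (fun x : Mo S => wtS h σ x.val) x w =
      (1 / 4) * Defs_333.lev (h.wt i) (A.e i x.val) ((S.LL i hx x.prop).symm w) := by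
  rw [Levi_of (wtS_smooth h hσ h0) x hx, lev_wtS h hσ h0 (S.mem_dom hx x.prop)]

theorem Levi_wtS_nonneg (hh : h.Semipos) (hσ : IsHS L S.U σ)
    (h0 : ∀ i, ∀ x ∈ (A.e i).source, x ∈ S.U → σ i x ≠ 0) (x : Mo S) (w : Fin n → ℂ) :
    0 ≤ Levi (fun x : Mo S => wtS h σ x.val) x w := by
  obtain ⟨i, hx⟩ := A.cover x.val
  rw [Levi_wtS h hσ h0 x hx]
  have := hh i (A.e i x.val) ((A.e i).map_source hx) ((S.LL i hx x.prop).symm w)
  positivity

end

end Crest.Agent.R273.SteinB_794
end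

-- ▼ part R273/SteinC_794

/-!
# R273, STEIN complements, part C (helper794): quotients of sections, exhaustions

`nz t`      : the set where the section `t` does not vanish;
`qt s t`    : the meromorphic function `s / t`;
`Exh A V`   : finitely many holomorphic functions on `V`, `∑ |f|² → ∞` at the boundary of `V`;
`mkSD`      : the points of `V` where `z₁, …, zₙ` are local coordinates;
`Exh.mk'`   : exhaustion of `mkSD`, from an exhaustion of `V` and an immersion;
`exists_rho`: smooth strictly plurisubharmonic exhaustion of `Mo S`.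
-/

set_option autoImplicit false
set_option linter.unusedSectionVars false

open Set Filter Topology
open scoped ContDiff

namespace Crest.Agent.R273.SteinC_794

open Crest.Agent.R275.Geo Crest.Agent.R275.Core144 Crest.Agent.R273.SteinA_794
open Crest.Agent.R271.Ho51
open Crest.Agent.R273.Defs_333 (HM HM.wt HM.Semipos HM.Pos)

noncomputable section

variable {n : ℕ} {M : Type} [TopologicalSpace M] {A : Atl n M}

/-! ### sections and quotients -/

theorem continuousAt_of_holAt {i : A.ι} {U : Set M} (hU : IsOpen U) {f : M → ℂ}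
    (hf : HolAt A i U f) {x : M} (hx : x ∈ (A.e i).source) (hxU : x ∈ U) : ContinuousAt f x := by
  have h1 := (hf.diffAt hU hx hxU).continuousAt
  have h2 : ContinuousAt ((fun z => f ((A.e i).symm z)) ∘ (A.e i)) x :=
    ContinuousAt.comp (f := A.e i) h1 ((A.e i).continuousAt hx)
  refine h2.congr ?_
  filter_upwards [(A.e i).open_source.mem_nhds hx] with y hy
  simp [(A.e i).left_inv hy]

/-- the set where a section does not vanish -/
def nz (t : A.ι → M → ℂ) : Set M := {x | t (A.cover x).choose x ≠ 0}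

/-- the quotient of two sections -/
def qt (s t : A.ι → M → ℂ) (x : M) : ℂ := s (A.cover x).choose x / t (A.cover x).choose x

section sections

variable {L : LB A} {s t : A.ι → M → ℂ}

theorem mem_nz (ht : IsHS L univ t) {i : A.ι} {x : M} (hx : x ∈ (A.e i).source) :
    x ∈ nz t ↔ t i x ≠ 0 :=
  not_congr (ht.zero_iff ⟨(A.cover x).choose_spec, hx⟩ (mem_univ x))

theorem isOpen_nz (ht : IsHS L univ t) : IsOpen (nz t) := by
  rw [isOpen_iff_mem_nhds]
  intro x hx
  obtain ⟨i, hi⟩ := A.cover x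
  have h1 : ContinuousAt (t i) x := continuousAt_of_holAt isOpen_univ (ht.hol i) hi (mem_univ x)
  have h2 := h1.eventually_ne ((mem_nz ht hi).1 hx)
  filter_upwards [h2, (A.e i).open_source.mem_nhds hi] with y hy hyi
  exact (mem_nz ht hyi).2 hy

theorem qt_eq (hs : IsHS L univ s) (ht : IsHS L univ t) {i : A.ι} {x : M}
    (hx : x ∈ (A.e i).source) : qt s t x = s i x / t i x := by
  unfold qt
  set j := (A.cover x).choose
  have hj : x ∈ (A.e j).source := (A.cover x).choose_spec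
  rw [hs.tr j i x ⟨hj, hx⟩ (mem_univ x), ht.tr j i x ⟨hj, hx⟩ (mem_univ x)]
  exact mul_div_mul_left _ _ (L.ne_zero j i x)

theorem qt_hol (hs : IsHS L univ s) (ht : IsHS L univ t) (i : A.ι) :
    HolAt A i (nz t) (qt s t) := by
  have h1 : HolAt A i (nz t) (fun x => s i x * (t i x)⁻¹) :=
    ((hs.hol i).mono (subset_univ _)).mul
      (((ht.hol i).mono (subset_univ _)).inv fun x hx hxn => (mem_nz ht hx).1 hxn)
  exact h1.congr fun x hx _ => by rw [qt_eq hs ht hx, div_eq_mul_inv]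

end sections

/-! ### exhaustions -/

/-- finitely many holomorphic functions on `V` with `∑ |f|² → ∞` at the boundary -/
structure Exh (A : Atl n M) (V : Set M) where
  κ : Type
  [fκ : Fintype κ]
  f : κ → M → ℂ
  hol : ∀ i k, HolAt A i V (f k)
  big : ∀ x ∉ V, ∀ C : ℝ, ∀ᶠ y in 𝓝 x, y ∈ V → C < ∑ k, ‖f k y‖ ^ 2

attribute [instance] Exh.fκ

/-- the exhaustion of the whole space -/
def Exh.univ : Exh A (univ : Set M) where
  κ := Empty
  f k := k.elim
  hol _ k := k.elim
  big x hx := absurd (mem_univ x) hx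

/-- intersections -/
def Exh.inter {V W : Set M} (E : Exh A V) (F : Exh A W) : Exh A (V ∩ W) where
  κ := E.κ ⊕ F.κ
  f := Sum.elim E.f F.f
  hol i k := by
    rcases k with k | k
    · exact (E.hol i k).mono inter_subset_left
    · exact (F.hol i k).mono inter_subset_right
  big x hx C := by
    rw [mem_inter_iff, not_and_or] at hx
    have h0 : ∀ y, 0 ≤ ∑ k, ‖E.f k y‖ ^ 2 := fun y => Finset.sum_nonneg fun _ _ => by positivity
    have h0' : ∀ y, 0 ≤ ∑ k, ‖F.f k y‖ ^ 2 := fun y => Finset.sum_nonneg fun _ _ => by positivity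
    rcases hx with hx | hx
    · filter_upwards [E.big x hx C] with y hy hyV
      rw [Fintype.sum_sum_type]
      simp only [Sum.elim_inl, Sum.elim_inr]
      have := hy hyV.1
      linarith [h0' y]
    · filter_upwards [F.big x hx C] with y hy hyV
      rw [Fintype.sum_sum_type]
      simp only [Sum.elim_inl, Sum.elim_inr]
      have := hy hyV.2
      linarith [h0 y]

/-- the complement of the zero set of a section of a globally generated bundle -/
def Exh.ofGG {L : LB A} {t : A.ι → M → ℂ} (ht : IsHS L Set.univ t) {κ : Type} [Fintype κ]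
    (s : κ → A.ι → M → ℂ) (hs : ∀ k, IsHS L Set.univ (s k))
    (hgg : ∀ i, ∀ x ∈ (A.e i).source, ∃ k, s k i x ≠ 0) : Exh A (nz t) where
  κ := κ
  f k := qt (s k) t
  hol i k := qt_hol (hs k) ht i
  big x hx C := by
    obtain ⟨i, hi⟩ := A.cover x
    obtain ⟨k, hk⟩ := hgg i x hi
    have ht0 : t i x = 0 := by
      by_contra h
      exact hx ((mem_nz ht hi).2 h)
    have c1 : ContinuousAt (t i) x := continuousAt_of_holAt isOpen_univ (ht.hol i) hi (mem_univ x)
    have c2 : ContinuousAt (s k i) x :=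
      continuousAt_of_holAt isOpen_univ ((hs k).hol i) hi (mem_univ x)
    have c3 : ContinuousAt (fun y => ‖s k i y‖ ^ 2 - (|C| + 1) * ‖t i y‖ ^ 2) x :=
      (c2.norm.pow 2).sub ((c1.norm.pow 2).const_mul _)
    have c4 : (0 : ℝ) < ‖s k i x‖ ^ 2 - (|C| + 1) * ‖t i x‖ ^ 2 := by
      rw [ht0, norm_zero]
      have : 0 < ‖s k i x‖ := norm_pos_iff.2 hk
      simp only [ne_eq, OfNat.ofNat_ne_zero, not_false_eq_true, zero_pow, mul_zero, sub_zero]
      positivity
    filter_upwards [c3.eventually (lt_mem_nhds c4), (A.e i).open_source.mem_nhds hi] with y hy hyi hyV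
    have hty : t i y ≠ 0 := (mem_nz ht hyi).1 hyV
    have h5 : (|C| + 1) < ‖qt (s k) t y‖ ^ 2 := by
      rw [qt_eq (hs k) ht hyi, norm_div, div_pow, lt_div_iff₀ (by positivity)]
      linarith
    have h6 : ‖qt (s k) t y‖ ^ 2 ≤ ∑ l, ‖qt (s l) t y‖ ^ 2 :=
      Finset.single_le_sum (f := fun l => ‖qt (s l) t y‖ ^ 2) (fun _ _ => by positivity)
        (Finset.mem_univ k)
    linarith [le_abs_self C]

/-! ### differentials -/

/-- the differential of a holomorphic function, read in the chart `i` -/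
def df (A : Atl n M) (i : A.ι) (f : M → ℂ) (x : M) : Cn n →L[ℂ] ℂ :=
  fderiv ℂ (fun w => f ((A.e i).symm w)) (A.e i x)

/-- differential of the change of charts -/
def dJ (A : Atl n M) (i j : A.ι) (x : M) : Cn n →L[ℂ] Cn n :=
  fderiv ℂ (fun w => A.e j ((A.e i).symm w)) (A.e i x)

theorem dJ_comp {i j : A.ι} {x : M} (hi : x ∈ (A.e i).source) (hj : x ∈ (A.e j).source)
    (v : Cn n) : dJ A j i x (dJ A i j x v) = v := by
  have hij : DifferentiableAt ℂ (fun z => A.e j ((A.e i).symm z)) (A.e i x) :=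
    (A.holo i j).differentiableAt ((isOpen_ov (A := A) i j).mem_nhds (mem_ov ⟨hi, hj⟩))
  have hji : DifferentiableAt ℂ (fun z => A.e i ((A.e j).symm z)) (A.e j x) :=
    (A.holo j i).differentiableAt ((isOpen_ov (A := A) j i).mem_nhds (mem_ov ⟨hj, hi⟩))
  have hval : A.e j ((A.e i).symm (A.e i x)) = A.e j x := by rw [(A.e i).left_inv hi]
  have he : (id : Cn n → Cn n) =ᶠ[𝓝 (A.e i x)]
      (fun z => A.e i ((A.e j).symm z)) ∘ (fun z => A.e j ((A.e i).symm z)) := by
    filter_upwards [(isOpen_ov (A := A) i j).mem_nhds (mem_ov ⟨hi, hj⟩)] with z hz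
    simp [(A.e j).left_inv hz.2, (A.e i).right_inv hz.1]
  have h1 : fderiv ℂ (id : Cn n → Cn n) (A.e i x) =
      (dJ A j i x).comp (dJ A i j x) := by
    rw [he.fderiv_eq, fderiv_comp _ (by rw [hval]; exact hji) hij, hval]
    rfl
  rw [fderiv_id] at h1
  exact (DFunLike.congr_fun h1 v).symm

theorem df_chg {V : Set M} (hV : IsOpen V) {f : M → ℂ} {i j : A.ι} (hf : HolAt A j V f) {x : M}
    (hi : x ∈ (A.e i).source) (hj : x ∈ (A.e j).source) (hxV : x ∈ V) (v : Cn n) :
    df A i f x v = df A j f x (dJ A i j x v) := by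
  have h1 := hf.diffAt hV hj hxV
  have hij : DifferentiableAt ℂ (fun z => A.e j ((A.e i).symm z)) (A.e i x) :=
    (A.holo i j).differentiableAt ((isOpen_ov (A := A) i j).mem_nhds (mem_ov ⟨hi, hj⟩))
  have hval : A.e j ((A.e i).symm (A.e i x)) = A.e j x := by rw [(A.e i).left_inv hi]
  have he : (fun w => f ((A.e i).symm w)) =ᶠ[𝓝 (A.e i x)]
      (fun w => f ((A.e j).symm w)) ∘ (fun z => A.e j ((A.e i).symm z)) := by
    filter_upwards [(isOpen_ov (A := A) i j).mem_nhds (mem_ov ⟨hi, hj⟩)] with z hz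
    simp [(A.e j).left_inv hz.2]
  unfold df
  rw [he.fderiv_eq, fderiv_comp _ (by rw [hval]; exact h1) hij, hval]
  rfl

theorem fderiv_rd {m : ℕ} {V : Set M} (hV : IsOpen V) {z : Fin m → M → ℂ} {i : A.ι}
    (hz : ∀ k, HolAt A i V (z k)) {x : M} (hx : x ∈ (A.e i).source) (hxV : x ∈ V) (v : Cn n) :
    fderiv ℂ (rd A i z) (A.e i x) v = fun k => df A i (z k) x v := by
  funext k
  have h : fderiv ℂ (rd A i z) (A.e i x) = ContinuousLinearMap.pi fun k => df A i (z k) x :=
    fderiv_pi fun k => (hz k).diffAt hV hx hxV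
  rw [h]
  rfl

theorem continuousAt_df {V : Set M} (hV : IsOpen V) {f : M → ℂ} {i : A.ι} (hf : HolAt A i V f)
    {x : M} (hi : x ∈ (A.e i).source) (hxV : x ∈ V) (v : Cn n) :
    ContinuousAt (fun y => df A i f y v) x := by
  have ho : IsOpen ((A.e i).target ∩ (A.e i).symm ⁻¹' V) := isOpen_ti hV
  have hm : A.e i x ∈ (A.e i).target ∩ (A.e i).symm ⁻¹' V :=
    ⟨(A.e i).map_source hi, by rw [mem_preimage, (A.e i).left_inv hi]; exact hxV⟩
  have h1 : ContinuousAt (fderiv ℂ (fun w => f ((A.e i).symm w))) (A.e i x) :=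
    ((Crest.Agent.R266.SCV.analyticOnNhd_of_differentiableOn ho hf _ hm).fderiv).continuousAt
  have h2 : ContinuousAt (fun y => fderiv ℂ (fun w => f ((A.e i).symm w)) (A.e i y)) x :=
    ContinuousAt.comp (f := A.e i) h1 ((A.e i).continuousAt hi)
  exact h2.clm_apply continuousAt_const

/-! ### the points where given functions are coordinates -/

/-- the points of `V` where the functions `z` are local coordinates -/
def regU (A : Atl n M) (V : Set M) (z : Fin n → M → ℂ) : Set M :=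
  {x | x ∈ V ∧ ∀ i, x ∈ (A.e i).source → ∀ v : Cn n, (∀ k, df A i (z k) x v = 0) → v = 0}

theorem mem_regU {V : Set M} (hV : IsOpen V) {z : Fin n → M → ℂ}
    (hz : ∀ i k, HolAt A i V (z k)) {x : M} {i : A.ι} (hi : x ∈ (A.e i).source) (hxV : x ∈ V) :
    x ∈ regU A V z ↔ ∀ v : Cn n, (∀ k, df A i (z k) x v = 0) → v = 0 := by
  refine ⟨fun h => h.2 i hi, fun h => ⟨hxV, fun j hj v hv => ?_⟩⟩
  have h1 : dJ A j i x v = 0 := h _ fun k => by
    rw [← df_chg hV (hz i k) hj hi hxV]; exact hv k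
  rw [← dJ_comp hj hi v, h1, map_zero]

theorem isOpen_regU {V : Set M} (hV : IsOpen V) {z : Fin n → M → ℂ}
    (hz : ∀ i k, HolAt A i V (z k)) : IsOpen (regU A V z) := by
  rw [isOpen_iff_mem_nhds]
  intro x hx
  obtain ⟨i, hi⟩ := A.cover x
  have hinj := hx.2 i hi
  have ho : IsOpen ((A.e i).target ∩ (A.e i).symm ⁻¹' V) := isOpen_ti hV
  have hm : A.e i x ∈ (A.e i).target ∩ (A.e i).symm ⁻¹' V :=
    ⟨(A.e i).map_source hi, by rw [mem_preimage, (A.e i).left_inv hi]; exact hx.1⟩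
  have hd : DifferentiableOn ℂ (rd A i z) ((A.e i).target ∩ (A.e i).symm ⁻¹' V) :=
    differentiableOn_pi.2 fun k => hz i k
  have h1 : ContinuousAt (fderiv ℂ (rd A i z)) (A.e i x) :=
    ((Crest.Agent.R266.SCV.analyticOnNhd_of_differentiableOn ho hd _ hm).fderiv).continuousAt
  have h2 : ContinuousAt (fun y => fderiv ℂ (rd A i z) (A.e i y)) x :=
    ContinuousAt.comp (f := A.e i) h1 ((A.e i).continuousAt hi)
  let LL : Cn n ≃L[ℂ] (Fin n → ℂ) :=
    (LinearMap.linearEquivOfInjective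
      ((fderiv ℂ (rd A i z) (A.e i x) : Cn n →L[ℂ] (Fin n → ℂ)) : Cn n →ₗ[ℂ] (Fin n → ℂ))
      ((injective_iff_map_eq_zero _).2 fun v hv => hinj v fun k => by
        have := fderiv_rd hV (hz i) hi hx.1 v
        have h3 : fderiv ℂ (rd A i z) (A.e i x) v = 0 := hv
        rw [this] at h3
        exact congrFun h3 k)
      (by simp)).toContinuousLinearEquiv
  have hLL : (LL : Cn n →L[ℂ] (Fin n → ℂ)) = fderiv ℂ (rd A i z) (A.e i x) := by
    ext v; rfl
  have h4 : ∀ᶠ y in 𝓝 x, fderiv ℂ (rd A i z) (A.e i y) ∈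
      range ((↑) : (Cn n ≃L[ℂ] (Fin n → ℂ)) → Cn n →L[ℂ] (Fin n → ℂ)) := by
    refine h2.eventually ?_
    have := ContinuousLinearEquiv.nhds LL
    rwa [hLL] at this
  filter_upwards [h4, (A.e i).open_source.mem_nhds hi, hV.mem_nhds hx.1] with y hy hyi hyV
  rw [mem_regU hV hz hyi hyV]
  intro v hv
  obtain ⟨e, he⟩ := hy
  have h5 : e v = 0 := by
    have h6 := fderiv_rd hV (hz i) hyi hyV v
    rw [← he] at h6
    have h7 : e v = fun k => df A i (z k) y v := h6
    rw [h7]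
    funext k
    exact hv k
  exact e.map_eq_zero_iff.1 h5

/-- the Stein domain data given by functions on an open set -/
def mkSD {V : Set M} (hV : IsOpen V) {z : Fin n → M → ℂ} (hz : ∀ i k, HolAt A i V (z k)) :
    SD A where
  U := regU A V z
  isOpen := isOpen_regU hV hz
  z := z
  hol i k := (hz i k).mono fun _ hx => hx.1
  inj i x hx hxU v hv := by
    refine hxU.2 i hx v fun k => ?_
    rw [fderiv_rd hV (hz i) hx hxU.1] at hv
    exact congrFun hv k

/-! ### derivatives in the coordinates -/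

variable {S : SD A}

theorem hol_D {F : Mo S → ℂ} (hF : Hol F) (v : Fin n → ℂ) : Hol (fun x => D F x v) := by
  intro e he
  have h1 : DifferentiableOn ℂ (fun ζ => fderiv ℂ (F ∘ e.symm) ζ v) e.target := fun ζ hζ =>
    ((((Crest.Agent.R266.SCV.analyticOnNhd_of_differentiableOn e.open_target (hF e he))
      ζ hζ).fderiv.differentiableAt).clm_apply (differentiableAt_const v)).differentiableWithinAt
  refine h1.congr fun ζ hζ => ?_
  simp only [Function.comp_apply]
  rw [D_symm he hζ F, ((hF e he).differentiableAt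
    (e.open_target.mem_nhds hζ)).fderiv_restrictScalars ℝ]
  rfl

/-- `∂ g / ∂ z_k` -/
def dco (S : SD A) (g : M → ℂ) (k : Fin n) : M → ℂ :=
  ext0 fun x : Mo S => D (fun x : Mo S => g x.val) x (Pi.single k 1)

theorem dco_hol {g : M → ℂ} (hg : ∀ i, HolAt A i S.U g) (k : Fin n) (i : A.ι) :
    HolAt A i S.U (dco S g k) := holAt_ext0 (hol_D (hol_of hg) _) i

theorem D_eq_df {g : M → ℂ} (hg : ∀ i, HolAt A i S.U g) (x : Mo S) {i : A.ι}
    (hx : x.val ∈ (A.e i).source) (v : Fin n → ℂ) :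
    D (fun x : Mo S => g x.val) x v = df A i g x.val ((S.LL i hx x.prop).symm v) := by
  have h1 := (hg i).diffAt S.isOpen hx x.prop
  rw [D_of x hx (h1.restrictScalars ℝ), h1.fderiv_restrictScalars ℝ]
  rfl

theorem df_eq_sum {g : M → ℂ} (hg : ∀ i, HolAt A i S.U g) {x : M} {i : A.ι}
    (hx : x ∈ (A.e i).source) (hxU : x ∈ S.U) (v : Cn n) :
    df A i g x v = ∑ k, dco S g k x * df A i (S.z k) x v := by
  set y : Mo S := ⟨x, hxU⟩ with hy
  have hyv : y.val = x := rfl
  have h1 : ∀ k, dco S g k x = df A i g x ((S.LL i hx hxU).symm (Pi.single k 1)) := by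
    intro k
    have h := ext0_val (fun x : Mo S => D (fun x : Mo S => g x.val) x (Pi.single k 1)) y
    exact h.trans (D_eq_df hg y hx _)
  have h2 : v = ∑ k, (df A i (S.z k) x v) • (S.LL i hx hxU).symm (Pi.single k 1) := by
    have h3 : (S.LL i hx hxU) v = ∑ k, (df A i (S.z k) x v) • (Pi.single k 1 : Fin n → ℂ) := by
      rw [S.LL_apply, fderiv_rd S.isOpen (S.hol i) hx hxU]
      funext l
      simp [Finset.sum_apply, Pi.single_apply]
    have h4 := congrArg (S.LL i hx hxU).symm h3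
    rw [ContinuousLinearEquiv.symm_apply_apply, map_sum] at h4
    simpa only [map_smul] using h4
  conv_lhs => rw [h2]
  rw [map_sum]
  refine Finset.sum_congr rfl fun k _ => ?_
  rw [map_smul, smul_eq_mul, h1, mul_comm]

/-- exhaustion of the set of points where `z` are coordinates -/
def Exh.mk' {V : Set M} (hV : IsOpen V) {z : Fin n → M → ℂ} (hz : ∀ i k, HolAt A i V (z k))
    (E : Exh A V) {α : Type} [Fintype α] (g : α → M → ℂ) (hg : ∀ i a, HolAt A i V (g a))
    (himm : ∀ i, ∀ x ∈ (A.e i).source, x ∈ V → ∀ v : Cn n, (∀ a, df A i (g a) x v = 0) → v = 0) :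
    Exh A (mkSD hV hz).U where
  κ := E.κ ⊕ (α × Fin n)
  f := Sum.elim E.f fun p => dco (mkSD hV hz) (g p.1) p.2
  hol i k := by
    rcases k with k | k
    · exact (E.hol i k).mono (show (mkSD hV hz).U ⊆ V from fun _ h => h.1)
    · exact dco_hol (fun j => (hg j k.1).mono
        (show (mkSD hV hz).U ⊆ V from fun _ h => h.1)) k.2 i
  big x hx C := by
    by_cases hxV : x ∈ V
    · obtain ⟨i, hi⟩ := A.cover x
      have h1 : ¬ ∀ v : Cn n, (∀ k, df A i (z k) x v = 0) → v = 0 :=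
        fun h => hx ((mem_regU hV hz hi hxV).2 h)
      push Not at h1
      obtain ⟨v, hv, hv0⟩ := h1
      obtain ⟨a, ha⟩ : ∃ a, df A i (g a) x v ≠ 0 := by
        by_contra h
        push Not at h
        exact hv0 (himm i x hi hxV v h)
      have c1 : ContinuousAt (fun y => df A i (g a) y v) x := continuousAt_df hV (hg i a) hi hxV v
      have c2 : ∀ k, ContinuousAt (fun y => df A i (z k) y v) x := fun k =>
        continuousAt_df hV (hz i k) hi hxV v
      have c3 : ContinuousAt (fun y => ‖df A i (g a) y v‖ ^ 2 -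
          (|C| + 1) * ∑ k, ‖df A i (z k) y v‖ ^ 2) x := by
        refine (c1.norm.pow 2).sub (ContinuousAt.const_mul ?_ _)
        exact tendsto_finsetSum _ fun k _ => (c2 k).norm.pow 2
      have c4 : (0 : ℝ) < ‖df A i (g a) x v‖ ^ 2 -
          (|C| + 1) * ∑ k, ‖df A i (z k) x v‖ ^ 2 := by
        have : 0 < ‖df A i (g a) x v‖ := norm_pos_iff.2 ha
        simp only [hv, norm_zero, ne_eq, OfNat.ofNat_ne_zero, not_false_eq_true, zero_pow,
          Finset.sum_const_zero, mul_zero, sub_zero]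
        positivity
      filter_upwards [c3.eventually (lt_mem_nhds c4), (A.e i).open_source.mem_nhds hi]
        with y hy hyi hyU
      have h2 := df_eq_sum (S := mkSD hV hz) (g := g a)
        (fun j => (hg j a).mono fun _ hx => hx.1) hyi hyU v
      have h3 : ‖df A i (g a) y v‖ ^ 2 ≤ (∑ k, ‖dco (mkSD hV hz) (g a) k y‖ ^ 2) *
          ∑ k, ‖df A i (z k) y v‖ ^ 2 := by
        rw [h2]
        calc ‖∑ k, dco (mkSD hV hz) (g a) k y * df A i ((mkSD hV hz).z k) y v‖ ^ 2
            ≤ (∑ k, ‖dco (mkSD hV hz) (g a) k y‖ * ‖df A i (z k) y v‖) ^ 2 := by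
              gcongr
              refine (norm_sum_le _ _).trans (Finset.sum_le_sum fun k _ => ?_)
              rw [norm_mul]
              rfl
          _ ≤ _ := Finset.sum_mul_sq_le_sq_mul_sq _ _ _
      have hT : 0 ≤ ∑ k, ‖df A i (z k) y v‖ ^ 2 := Finset.sum_nonneg fun _ _ => by positivity
      have h4 : |C| + 1 < ∑ k, ‖dco (mkSD hV hz) (g a) k y‖ ^ 2 := by
        by_contra h
        push Not at h
        have := mul_le_mul_of_nonneg_right h hT
        linarith
      have h5 : ∑ k, ‖dco (mkSD hV hz) (g a) k y‖ ^ 2 ≤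
          ∑ p : α × Fin n, ‖dco (mkSD hV hz) (g p.1) p.2 y‖ ^ 2 := by
        rw [Fintype.sum_prod_type]
        exact Finset.single_le_sum
          (f := fun b => ∑ k, ‖dco (mkSD hV hz) (g b) k y‖ ^ 2)
          (fun _ _ => Finset.sum_nonneg fun _ _ => by positivity) (Finset.mem_univ a)
      rw [Fintype.sum_sum_type]
      simp only [Sum.elim_inl, Sum.elim_inr]
      have h6 : 0 ≤ ∑ k, ‖E.f k y‖ ^ 2 := Finset.sum_nonneg fun _ _ => by positivity
      linarith [le_abs_self C]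
    · filter_upwards [E.big x hxV C] with y hy hyU
      rw [Fintype.sum_sum_type]
      simp only [Sum.elim_inl, Sum.elim_inr]
      have h6 : 0 ≤ ∑ p : α × Fin n, ‖dco (mkSD hV hz) (g p.1) p.2 y‖ ^ 2 :=
        Finset.sum_nonneg fun _ _ => by positivity
      have := hy hyU.1
      linarith

/-! ### the plurisubharmonic exhaustion -/

/-- the exhaustion function -/
def rho (E : Exh A S.U) (x : Mo S) : ℝ :=
  Crest.Agent.R271.W792.nS (fun (k : Fin n ⊕ E.κ) (x : Mo S) => Sum.elim S.z E.f k x.val) x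

theorem rho_eq (E : Exh A S.U) (x : Mo S) :
    rho E x = ∑ k, ‖S.z k x.val‖ ^ 2 + ∑ k, ‖E.f k x.val‖ ^ 2 := by
  unfold rho Crest.Agent.R271.W792.nS
  rw [Fintype.sum_sum_type]
  rfl

theorem w_hol {F : Mo S → ℂ} (hF : Hol F) : Crest.Agent.R271.W792.Hol F := by
  refine ⟨fun x => ?_, fun x w => ?_⟩
  · exact (((Crest.Agent.R266.SCV.contDiffOn_omega_of_differentiableOn (ch x).open_target
      (hF (ch x) (isCh_ch x))).restrict_scalars ℝ).of_le le_top).contDiffAt
        ((ch x).open_target.mem_nhds ((isCh_ch x).cp_mem (mem_ch x)))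
  · have h1 : DifferentiableAt ℂ (F ∘ (ch x).symm) (cp x) :=
      (hF (ch x) (isCh_ch x)).differentiableAt
        ((ch x).open_target.mem_nhds ((isCh_ch x).cp_mem (mem_ch x)))
    rw [D, h1.fderiv_restrictScalars ℝ]
    simp

theorem D_z (k : Fin n) (x : Mo S) (w : Fin n → ℂ) :
    D (fun x : Mo S => S.z k x.val) x w = w k := by
  have h1 : ((fun x : Mo S => S.z k x.val) ∘ (ch x).symm) =ᶠ[𝓝 (cp x)] fun ζ => ζ k := by
    filter_upwards [(ch x).open_target.mem_nhds ((isCh_ch x).cp_mem (mem_ch x))] with ζ hζ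
    have := (isCh_ch x).cp_symm hζ
    exact congrFun this k
  rw [D, h1.fderiv_eq]
  have h2 : fderiv ℝ (fun ζ : Fin n → ℂ => ζ k) (cp x) =
      ContinuousLinearMap.proj (R := ℝ) (φ := fun _ : Fin n => ℂ) k :=
    (ContinuousLinearMap.proj (R := ℝ) (φ := fun _ : Fin n => ℂ) k).fderiv
  rw [h2]
  rfl

theorem hol_fam (E : Exh A S.U) (k : Fin n ⊕ E.κ) :
    Hol (fun x : Mo S => Sum.elim S.z E.f k x.val) := by
  rcases k with k | k
  · exact hol_of fun i => S.hol i k
  · exact hol_of fun i => E.hol i k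

theorem rho_sm (E : Exh A S.U) : Sm (rho E) :=
  Crest.Agent.R271.W792.sm_nS fun k => (w_hol (hol_fam E k)).sm

theorem rho_levi (E : Exh A S.U) (x : Mo S) (w : Fin n → ℂ) : nsq w ≤ Levi (rho E) x w := by
  rw [Crest.Agent.R271.W792.Levi_eq_lev (rho_sm E)]
  have h1 : Crest.Agent.R271.W792.lev (rho E) x w = _ :=
    Crest.Agent.R271.W792.lev_nS (fun k => w_hol (hol_fam E k)) x w
  rw [h1]
  unfold Crest.Agent.R271.W792.nT nsq
  rw [Fintype.sum_sum_type]
  have h2 : ∑ j, ‖w j‖ ^ 2 =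
      ∑ j, ‖D (fun x : Mo S => Sum.elim S.z E.f (Sum.inl j) x.val) x w‖ ^ 2 :=
    Finset.sum_congr rfl fun j _ => by rw [← D_z (S := S) j x w]; rfl
  rw [h2]
  have h3 : 0 ≤ ∑ j, ‖D (fun x : Mo S => Sum.elim S.z E.f (Sum.inr j) x.val) x w‖ ^ 2 :=
    Finset.sum_nonneg fun _ _ => by positivity
  linarith

theorem rho_compact [CompactSpace M] (E : Exh A S.U) (c : ℝ) : IsCompact {x | rho E x ≤ c} := by
  have hind : IsInducing (Mo.val : Mo S → M) := isOpenEmbedding_val.isInducing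
  rw [hind.isCompact_iff]
  refine IsClosed.isCompact ?_
  rw [← isOpen_compl_iff, isOpen_iff_mem_nhds]
  intro x hx
  by_cases hxU : x ∈ S.U
  · have hlt : c < rho E ⟨x, hxU⟩ := by
      by_contra h
      push Not at h
      exact hx ⟨⟨x, hxU⟩, h, rfl⟩
    have h1 : ∀ᶠ y in 𝓝 (⟨x, hxU⟩ : Mo S), c < rho E y :=
      (rho_sm E).continuous.continuousAt.eventually (lt_mem_nhds hlt)
    have h2 := isOpenEmbedding_val.isOpenMap.image_mem_nhds h1
    refine mem_of_superset h2 ?_
    rintro _ ⟨y, hy, rfl⟩ ⟨y', hy', hyy'⟩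
    have : y' = y := isOpenEmbedding_val.injective hyy'
    subst this
    exact (not_le.2 hy : ¬ rho E y' ≤ c) hy'
  · filter_upwards [E.big x hxU c] with y hy
    rintro ⟨y', hy', rfl⟩
    have h1 := hy y'.prop
    have h2 : rho E y' ≤ c := hy'
    rw [rho_eq] at h2
    have h3 : 0 ≤ ∑ k, ‖S.z k y'.val‖ ^ 2 := Finset.sum_nonneg fun _ _ => by positivity
    linarith

end

end Crest.Agent.R273.SteinC_794
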