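import Crest.Agent.R273.NVPow_578
import Crest.Agent.R273.ChiPoly_290
import Crest.Agent.R273.LamN_127

/-!
# R273 (S0416), Part D (helper733): T-D3

* `D2 A` : the statement of the semipositive Hodge theorem (dimension form);
* `infinite_NV` : `D2 A`, `χ(O) ≠ 0` ⇒ for some `q` there are infinitely many `k` with
  `NV (((KB A)⁻¹ * T) ^ k) h q ≠ 0` (`T` flat);
* `infinite_NV'` : the same with a general line bundle `N0` of semipositive `K⁻¹ N0`.
-/

set_option autoImplicit false
set_option linter.unusedSectionVars false

open Set Filter Topology Complex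
open scoped ContDiff Matrix ComplexConjugate ComplexOrder Kronecker

namespace Crest.Agent.R273.TD3_733

open Crest.Agent.R275 Crest.Agent.R275.Geo Crest.Agent.R275.Core144
open Crest.Agent.R275.SerG398 (hB)
open Crest.Agent.R273.Defs_333 Crest.Agent.R273.Kah_333 Crest.Agent.R273.HM_333
open Crest.Agent.R273.LamN127 Crest.Agent.R273.ChiPoly_290 Crest.Agent.R273.NV_578

noncomputable section

variable {n : ℕ} {M : Type} [TopologicalSpace M] {A : Atl n M}

/-- **D2** (dimension form): the cohomology of `N` is the space of null holomorphic polyvectors -/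
def D2 (A : Atl n M) : Prop := ∀ (N : LB A) (h : HM ((KB A)⁻¹ * N)), h.Semipos → ∀ q,
  FiniteDimensional ℂ (NV N h q) ∧ Module.finrank ℂ (NV N h q) = hB (BN N) q

theorem topDeg_BN (N : LB A) : topDeg (BN N) ≤ n := by
  unfold topDeg
  refine Finset.sup_le fun k _ => ?_
  rw [BN_deg]
  exact (Finset.card_le_univ _).trans (by rw [Fintype.card_fin])





end

end Crest.Agent.R273.TD3_733
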