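import Crest.Agent.R273.NormC_505
import Crest.Agent.R273.LamN_127
import Crest.Agent.R273.NV_578
import Crest.Agent.R273.Pos_243
import Crest.Agent.R275.GeoHol_912
import Crest.Agent.R273.BKNe_37
import Crest.Agent.R273.DHod_733
import Crest.Agent.R273.MolF_106

-- ▼ part R273/HDN_505
section

/-!
# R273, D.13 (helper505): Hermitian densities of a Kaehler metric and a weight

`K : Kah A`, `N : LB A`, `h : HM ((KB A)⁻¹ * N)`.

* `Kl K i x = (K.g i x)ᵀ`, `Ku K i x` its inverse; smoothness, positivity, transformation laws;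
* `EV N : VBun A` : polyvectors with values in `N`; `B0 N := tw (lamN A) (EV N)`;
* `HB K h : HDen (BN N)` : `w_i • Γ(Ku)`;
* `H0 K h : HDen (B0 N)` : `w_i • Γ(Ku) ⊗ Γ(Kl)`;
* `HT K h hs : HDen (BN N)` : the curvature term, read on the lowered section.
-/

set_option autoImplicit false
set_option linter.unusedSectionVars false

open Set Filter Topology Complex
open scoped ContDiff Matrix ComplexConjugate Kronecker ComplexOrder

namespace Crest.Agent.R273.HDN_505

open Crest.Agent.R275 Crest.Agent.R275.Geo Crest.Agent.R275.Core144 Crest.Agent.R275.SerG398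
open Crest.Agent.R273.Defs_333 Crest.Agent.R273.HM_333 Crest.Agent.R273.Kah_333
open Crest.Agent.R273.Fock_243 Crest.Agent.R273.Bkn_243 Crest.Agent.R273.Pos_243
open Crest.Agent.R273.LamN127 Crest.Agent.R273.NormC_505 Crest.Agent.R273.DnInt_505

noncomputable section

variable {n : ℕ} {M : Type} [TopologicalSpace M] {A : Atl n M}

/-! ### the lowering matrix -/

/-- lowering matrix, `Kl b a = g_{a b̄}` -/
def Kl (K : Kah A) (i : A.ι) (x : M) : Matrix (Fin n) (Fin n) ℂ := (K.g i x)ᵀ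

/-- raising matrix -/
def Ku (K : Kah A) (i : A.ι) (x : M) : Matrix (Fin n) (Fin n) ℂ := (Kl K i x)⁻¹

section metric

variable (K : Kah A) {i j : A.ι} {x : M}

theorem Kl_posDef (hx : x ∈ (A.e i).source) : (Kl K i x).PosDef := (K.pos i x hx).transpose


theorem Kl_unit (hx : x ∈ (A.e i).source) : IsUnit (Kl K i x).det :=
  (Matrix.isUnit_iff_isUnit_det _).1 (Kl_posDef K hx).isUnit

theorem Ku_mul_Kl (hx : x ∈ (A.e i).source) : Ku K i x * Kl K i x = 1 :=
  Matrix.nonsing_inv_mul _ (Kl_unit K hx)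

theorem Kl_mul_Ku (hx : x ∈ (A.e i).source) : Kl K i x * Ku K i x = 1 :=
  Matrix.mul_nonsing_inv _ (Kl_unit K hx)

theorem Ku_posDef (hx : x ∈ (A.e i).source) : (Ku K i x).PosDef := (Kl_posDef K hx).inv


theorem Kl_tr (hx : x ∈ (A.e i).source ∩ (A.e j).source) :
    Kl K i x = (Lam2130.Jm A i j x)ᴴ * Kl K j x * Lam2130.Jm A i j x := by
  unfold Kl
  rw [K.tr i j x hx, Matrix.transpose_mul, Matrix.transpose_mul, Matrix.transpose_transpose,
    ← Matrix.mul_assoc]
  rfl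

theorem Ku_tr (hx : x ∈ (A.e i).source ∩ (A.e j).source) :
    Lam2130.Jm A i j x * Ku K i x * (Lam2130.Jm A i j x)ᴴ = Ku K j x :=
  inv_trans (Kl_tr K hx) (Ku_mul_Kl K hx.1) (Ku_mul_Kl K hx.2)

theorem Kl_tr' (hx : x ∈ (A.e i).source ∩ (A.e j).source) :
    (Lam2130.Jm A j i x)ᴴ * Kl K i x * Lam2130.Jm A j i x = Kl K j x := by
  rw [← Kl_tr K ⟨hx.2, hx.1⟩]

theorem Kl_smAt (i : A.ι) (a b : Fin n) : A.SmAt i (fun x => Kl K i x a b) := K.sm i b a

theorem Ku_smAt (i : A.ι) (a b : Fin n) : A.SmAt i (fun x => Ku K i x a b) := by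
  show ContDiffOn ℝ ∞ (fun z => Ku K i ((A.e i).symm z) a b) (A.e i).target
  have h1 : ∀ z ∈ (A.e i).target, Ku K i ((A.e i).symm z) a b =
      (Kl K i ((A.e i).symm z)).det⁻¹ * (Kl K i ((A.e i).symm z)).adjugate a b := by
    intro z hz
    have h2 := Kl_unit K ((A.e i).map_target hz)
    unfold Ku
    rw [Matrix.inv_def, Matrix.smul_apply, smul_eq_mul, Ring.inverse_eq_inv']
  refine ContDiffOn.congr ?_ h1
  have hdet : ∀ (m : M → Matrix (Fin n) (Fin n) ℂ), (∀ a b, A.SmAt i (fun x => m x a b)) →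
      ContDiffOn ℝ ∞ (fun z => (m ((A.e i).symm z)).det) (A.e i).target := by
    intro m hm
    simp only [Matrix.det_apply]
    refine ContDiffOn.sum fun σ _ => ContDiffOn.const_smul _ ?_
    exact contDiffOn_prod fun b _ => hm (σ b) b
  refine ContDiffOn.mul ?_ ?_
  · exact (hdet _ (Kl_smAt K i)).inv fun z hz => (Kl_unit K ((A.e i).map_target hz)).ne_zero
  · have h3 : (fun z => (Kl K i ((A.e i).symm z)).adjugate a b) = fun z =>
        ((fun x => (Kl K i x).updateRow b (Pi.single a 1)) ((A.e i).symm z)).det := by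
      funext z
      rw [Matrix.adjugate_apply]
    rw [h3]
    refine hdet (fun x => (Kl K i x).updateRow b (Pi.single a 1)) fun c d => ?_
    by_cases hc : c = b
    · subst hc
      simp only [Matrix.updateRow_self]
      exact contDiffOn_const
    · simp only [Matrix.updateRow_ne hc]
      exact Kl_smAt K i c d

theorem Gam_smAt {m : M → Matrix (Fin n) (Fin n) ℂ} {i : A.ι}
    (hm : ∀ a b, A.SmAt i (fun x => m x a b)) (S T : FI n) : A.SmAt i (fun x => Gam (m x) S T) :=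
  contDiffOn_Gam (fun a b => hm a b) S T

end metric

/-! ### the bundles -/

/-- polyvectors with values in the line bundle `N` -/
def EV (N : LB A) : VBun A :=
  Lam2130.ofHolo (FI n) (fun i j x => N.g i j x • Gam (Lam2130.Jm A j i x))
    (fun i j k l => by
      have h1 : DifferentiableOn ℂ (fun z => N.g i j ((A.e i).symm z)) (A.ov i j) := N.hol i j
      exact h1.mul (diffOn_Gam (fun a b => Jr_holo i j a b) k l))
    (fun i x hx => by rw [N.self, one_smul, Lam2130.Jm_self hx, Gam_one])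
    (fun i j k x hx => by
      rw [Matrix.smul_mul, Matrix.mul_smul, smul_smul, N.mul i j k x hx, ← Gam_mul,
        ← Lam2130.Jm_mul ⟨⟨hx.2, hx.1.2⟩, hx.1.1⟩])

@[simp] theorem EV_g (N : LB A) (i j : A.ι) (x : M) :
    (EV N).g i j x = N.g i j x • Gam (Lam2130.Jm A j i x) := rfl
@[simp] theorem EV_a (N : LB A) (i : A.ι) (b : Fin n) (x : M) : (EV N).a i b x = 0 := rfl

/-- forms of type `(0,*)` with values in the polyvectors with values in `N` -/
def B0 (N : LB A) : FBun A := Geo.tw (lamN A) (EV N)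

theorem B0_α (N : LB A) : ∀ i, ∀ x ∈ (A.e i).source, (B0 N).α i x = 0 :=
  Brix509.tw_alpha_zero (fun _ _ _ => rfl) fun _ _ _ _ => rfl

/-! ### the weight -/

section weight

variable {N : LB A} (h : HM ((KB A)⁻¹ * N)) {i j : A.ι} {x : M}

theorem w_tr (hx : x ∈ (A.e i).source ∩ (A.e j).source) :
    dens A i j x * (h.w j x : ℂ) = conj (N.g i j x) * N.g i j x * (h.w i x : ℂ) := by
  have h1 := h.tr i j x hx
  have h2 : (((KB A)⁻¹ * N).g i j x) = ((Core144.Jm A i j x).det)⁻¹ * N.g i j x := by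
    show ((KB A)⁻¹).g i j x * N.g i j x = _
    rw [LB.inv_g, KB_g hx]
  have h3 : (Core144.Jm A i j x).det ≠ 0 := by
    rw [← KB_g hx]; exact (KB A).ne_zero i j x
  have h4 : dens A i j x = ((‖(Core144.Jm A i j x).det‖ ^ 2 : ℝ) : ℂ) := rfl
  rw [h4, h1, h2, Complex.conj_mul', ← Complex.ofReal_mul, ← Complex.ofReal_pow,
    ← Complex.ofReal_mul, norm_mul, norm_inv]
  congr 1
  have h5 : ‖(Core144.Jm A i j x).det‖ ≠ 0 := norm_ne_zero_iff.2 h3
  field_simp

theorem w_smAt (i : A.ι) : A.SmAt i (fun x => (h.w i x : ℂ)) := C1d194.smAt_ofReal (h.sm i)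

end weight


/-! ### the Hermitian densities -/

section densities

variable (K : Kah A) {N : LB A} (h : HM ((KB A)⁻¹ * N))

theorem kron_psd {κ ρ : Type} [Fintype κ] [Fintype ρ] [DecidableEq κ] [DecidableEq ρ]
    {a : Matrix κ κ ℂ} {b : Matrix ρ ρ ℂ} (ha : a.PosSemidef) (hb : b.PosSemidef) :
    (a ⊗ₖ b).PosSemidef := ha.kronecker hb

theorem smul_psd {κ : Type} [Fintype κ] {c : ℝ} (hc : 0 ≤ c) {a : Matrix κ κ ℂ}
    (ha : a.PosSemidef) : ((c : ℂ) • a).PosSemidef :=
  ha.smul (by exact_mod_cast hc)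

theorem smul_pd {κ : Type} [Fintype κ] {c : ℝ} (hc : 0 < c) {a : Matrix κ κ ℂ}
    (ha : a.PosDef) : ((c : ℂ) • a).PosDef :=
  ha.smul (by exact_mod_cast hc)

theorem Jb_conjTranspose (i j : A.ι) (x : M) : (Jb A i j x)ᴴ = Lam2130.Jm A i j x := by
  ext a b
  simp [Matrix.conjTranspose_apply]

theorem Jb_eq (i j : A.ι) (x : M) : Jb A i j x = (Lam2130.Jm A i j x)ᴴ := by
  rw [← Jb_conjTranspose, Matrix.conjTranspose_conjTranspose]

/-- law of `Γ(Ku)` -/
theorem Gam_Ku_tr {i j : A.ι} {x : M} (hx : x ∈ (A.e i).source ∩ (A.e j).source) :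
    (Gam (Jb A i j x))ᴴ * Gam (Ku K i x) * Gam (Jb A i j x) = Gam (Ku K j x) := by
  rw [Gam_conjTranspose, Jb_conjTranspose, ← Gam_mul, ← Gam_mul, Jb_eq, Ku_tr K hx]

/-- law of `Γ(Kl)` -/
theorem Gam_Kl_tr {i j : A.ι} {x : M} (hx : x ∈ (A.e i).source ∩ (A.e j).source) :
    (Gam (Lam2130.Jm A j i x))ᴴ * Gam (Kl K i x) * Gam (Lam2130.Jm A j i x) = Gam (Kl K j x) := by
  rw [Gam_conjTranspose, ← Gam_mul, ← Gam_mul, Kl_tr' K hx]

/-- the metric of `BN N` -/
def HB : HDen (BN N) where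
  H i x := (h.w i x : ℂ) • (Gam (Ku K i x) ⊗ₖ (1 : Matrix Unit Unit ℂ))
  sm i := by
    rintro ⟨S, a⟩ ⟨T, b⟩
    have h1 : A.SmAt i (fun x => (h.w i x : ℂ) * (Gam (Ku K i x) S T * (1 : Matrix Unit Unit ℂ) a b)) :=
      smAt_mul (w_smAt h i) (smAt_mul (Gam_smAt (Ku_smAt K i) S T) (smAt_const i _))
    exact h1
  psd i x hx := smul_psd (h.pos i x hx).le
    (kron_psd (Gam_posSemidef (Ku_posDef K hx).posSemidef) Matrix.PosSemidef.one)
  tr i j x hx := by
    show (Gam (Jb A i j x) ⊗ₖ (Matrix.of fun _ _ => N.g i j x : Matrix Unit Unit ℂ))ᴴ *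
      ((h.w i x : ℂ) • (Gam (Ku K i x) ⊗ₖ (1 : Matrix Unit Unit ℂ))) *
      (Gam (Jb A i j x) ⊗ₖ (Matrix.of fun _ _ => N.g i j x : Matrix Unit Unit ℂ)) =
      dens A i j x • ((h.w j x : ℂ) • (Gam (Ku K j x) ⊗ₖ (1 : Matrix Unit Unit ℂ)))
    rw [Matrix.conjTranspose_kronecker, Matrix.mul_smul, Matrix.smul_mul,
      ← Matrix.mul_kronecker_mul, ← Matrix.mul_kronecker_mul, Gam_Ku_tr K hx, Matrix.mul_one,
      smul_smul, w_tr h hx]
    ext ⟨S, a⟩ ⟨T, b⟩
    simp only [Matrix.smul_apply, Matrix.kroneckerMap_apply, Matrix.mul_apply,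
      Matrix.conjTranspose_apply, Matrix.of_apply, Finset.univ_unique, Finset.sum_singleton,
      smul_eq_mul, Matrix.one_apply, Subsingleton.elim a b, if_true, Complex.star_def]
    ring

theorem HB_pos : (HB K h).Pos := fun i x hx => smul_pd (h.pos i x hx)
  ((Gam_posDef (Ku_posDef K hx)).kronecker Matrix.PosDef.one)

/-- the metric of `B0 N` -/
def H0 : HDen (B0 N) where
  H i x := (h.w i x : ℂ) • (Gam (Ku K i x) ⊗ₖ Gam (Kl K i x))
  sm i := by
    rintro ⟨S, a⟩ ⟨T, b⟩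
    have h1 : A.SmAt i (fun x => (h.w i x : ℂ) * (Gam (Ku K i x) S T * Gam (Kl K i x) a b)) :=
      smAt_mul (w_smAt h i) (smAt_mul (Gam_smAt (Ku_smAt K i) S T) (Gam_smAt (Kl_smAt K i) a b))
    exact h1
  psd i x hx := smul_psd (h.pos i x hx).le
    (kron_psd (Gam_posSemidef (Ku_posDef K hx).posSemidef)
      (Gam_posSemidef (Kl_posDef K hx).posSemidef))
  tr i j x hx := by
    show (Gam (Jb A i j x) ⊗ₖ (N.g i j x • Gam (Lam2130.Jm A j i x)))ᴴ *
      ((h.w i x : ℂ) • (Gam (Ku K i x) ⊗ₖ Gam (Kl K i x))) *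
      (Gam (Jb A i j x) ⊗ₖ (N.g i j x • Gam (Lam2130.Jm A j i x))) =
      dens A i j x • ((h.w j x : ℂ) • (Gam (Ku K j x) ⊗ₖ Gam (Kl K j x)))
    rw [Matrix.conjTranspose_kronecker, Matrix.mul_smul, Matrix.smul_mul,
      ← Matrix.mul_kronecker_mul, ← Matrix.mul_kronecker_mul, Gam_Ku_tr K hx,
      Matrix.conjTranspose_smul, Matrix.smul_mul, Matrix.smul_mul, Matrix.mul_smul,
      Gam_Kl_tr K hx, smul_smul, smul_smul, w_tr h hx, Matrix.kronecker_smul, smul_smul]
    congr 1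
    rw [Complex.star_def]
    ring

theorem H0_pos : (H0 K h).Pos := fun i x hx => smul_pd (h.pos i x hx)
  ((Gam_posDef (Ku_posDef K hx)).kronecker (Gam_posDef (Kl_posDef K hx)))

/-- contractions, as one matrix -/
def Em (n : ℕ) : Matrix (Fin n × FI n) (FI n) ℂ := Matrix.of fun p T => iW (ep p.1) p.2 T


/-- the matrix of the curvature term -/
def HC (G : Matrix (FI n) (FI n) ℂ) (th : Matrix (Fin n) (Fin n) ℂ) : Matrix (FI n) (FI n) ℂ :=
  (Em n)ᴴ * (thᵀ ⊗ₖ G) * Em n

theorem HC_psd {G : Matrix (FI n) (FI n) ℂ} {th : Matrix (Fin n) (Fin n) ℂ}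
    (hG : G.PosSemidef) (hth : th.PosSemidef) : (HC G th).PosSemidef :=
  (kron_psd hth.transpose hG).conjTranspose_mul_mul_same _

theorem HC_form (G : Matrix (FI n) (FI n) ℂ) (th : Matrix (Fin n) (Fin n) ℂ) (v w : FI n → ℂ) :
    star w ⬝ᵥ (HC G th *ᵥ v) = Cv G th v w := by
  rw [Cv_eq_T1, T1_kron]
  unfold HC
  rw [← Matrix.mulVec_mulVec, ← Matrix.mulVec_mulVec, Matrix.dotProduct_mulVec (star w),
    ← Matrix.star_mulVec]
  rfl

/-- the matrix of the curvature term on the lowered vector -/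
def HTm (K : Kah A) {L : LB A} (h : HM L) (i : A.ι) (x : M) : Matrix (FI n) (FI n) ℂ :=
  (Gam (Ku K i x))ᴴ * HC (Gam (Kl K i x)) (cur h i x) * Gam (Ku K i x)

theorem HTm_form {L : LB A} (h : HM L) (i : A.ι) (x : M) (u w : FI n → ℂ) :
    star w ⬝ᵥ (HTm K h i x *ᵥ u) =
      Cv (Gam (Kl K i x)) (cur h i x) (Gam (Ku K i x) *ᵥ u) (Gam (Ku K i x) *ᵥ w) := by
  unfold HTm
  rw [← HC_form, ← Matrix.mulVec_mulVec, ← Matrix.mulVec_mulVec, Matrix.dotProduct_mulVec (star w),
    ← Matrix.star_mulVec]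

theorem HTm_tr {L : LB A} (h : HM L) {i j : A.ι} {x : M}
    (hx : x ∈ (A.e i).source ∩ (A.e j).source) (u w : FI n → ℂ) :
    star (Gam (Jb A i j x) *ᵥ w) ⬝ᵥ (HTm K h i x *ᵥ (Gam (Jb A i j x) *ᵥ u)) =
      star w ⬝ᵥ (HTm K h j x *ᵥ u) := by
  rw [HTm_form, HTm_form]
  have hth : ∀ l k, cur h i x l k = ∑ c, ∑ d, Lam2130.Jm A i j x c l * cur h j x c d *
      conj (Lam2130.Jm A i j x d k) := by
    intro l k
    rw [cur_tr h hx, Matrix.mul_apply]
    simp only [Matrix.mul_apply, Finset.sum_mul, Matrix.transpose_apply, Matrix.map_apply]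
    rw [Finset.sum_comm]
    rfl
  rw [Cv_trans (Kl_tr K hx) hth]
  have h1 : ∀ u : FI n → ℂ, Gam (Lam2130.Jm A i j x) *ᵥ (Gam (Ku K i x) *ᵥ (Gam (Jb A i j x) *ᵥ u)) =
      Gam (Ku K j x) *ᵥ u := by
    intro u
    rw [Matrix.mulVec_mulVec, Matrix.mulVec_mulVec, ← Gam_mul, ← Gam_mul,
      Jb_eq, Ku_tr K hx]
  rw [h1, h1]

theorem HTm_psd {L : LB A} {h : HM L} (hs : h.Semipos) {i : A.ι} {x : M}
    (hx : x ∈ (A.e i).source) : (HTm K h i x).PosSemidef :=
  (HC_psd (Gam_posSemidef (Kl_posDef K hx).posSemidef)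
    (cur_posSemidef hs i hx)).conjTranspose_mul_mul_same _

theorem mat_smAt_mul {κ ρ σ : Type} [Fintype ρ] {i : A.ι} {a : M → Matrix κ ρ ℂ}
    {b : M → Matrix ρ σ ℂ} (ha : ∀ k l, A.SmAt i (fun x => a x k l))
    (hb : ∀ k l, A.SmAt i (fun x => b x k l)) (k : κ) (l : σ) :
    A.SmAt i (fun x => (a x * b x) k l) := by
  have h1 : (fun x => (a x * b x) k l) = fun x => ∑ r, a x k r * b x r l := by
    funext x; rw [Matrix.mul_apply]
  rw [h1]
  exact smAt_sum _ fun r _ => smAt_mul (ha k r) (hb r l)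

theorem mat_smAt_conjT {κ ρ : Type} {i : A.ι} {a : M → Matrix κ ρ ℂ}
    (ha : ∀ k l, A.SmAt i (fun x => a x k l)) (k : ρ) (l : κ) :
    A.SmAt i (fun x => (a x)ᴴ k l) :=
  Complex.conjCLE.contDiff.comp_contDiffOn (ha l k)

theorem HTm_smAt {L : LB A} (h : HM L) (i : A.ι) (S T : FI n) :
    A.SmAt i (fun x => HTm K h i x S T) := by
  have hG : ∀ S T, A.SmAt i (fun x => Gam (Ku K i x) S T) := fun S T => Gam_smAt (Ku_smAt K i) S T
  refine mat_smAt_mul (mat_smAt_mul (mat_smAt_conjT hG) ?_) hG S T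
  refine mat_smAt_mul (mat_smAt_mul (fun _ _ => smAt_const i _) ?_) (fun _ _ => smAt_const i _)
  rintro ⟨a, S'⟩ ⟨b, T'⟩
  have h1 : A.SmAt i (fun x => cur h i x b a * Gam (Kl K i x) S' T') :=
    smAt_mul (cur_smooth h i b a) (Gam_smAt (Kl_smAt K i) S' T')
  exact h1

/-- the curvature term as a density on `BN N` -/
def HT (hs : h.Semipos) : HDen (BN N) where
  H i x := (h.w i x : ℂ) • (HTm K h i x ⊗ₖ (1 : Matrix Unit Unit ℂ))
  sm i := by
    rintro ⟨S, a⟩ ⟨T, b⟩
    have h1 : A.SmAt i (fun x => (h.w i x : ℂ) * (HTm K h i x S T * (1 : Matrix Unit Unit ℂ) a b)) :=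
      smAt_mul (w_smAt h i) (smAt_mul (HTm_smAt K h i S T) (smAt_const i _))
    exact h1
  psd i x hx := smul_psd (h.pos i x hx).le (kron_psd (HTm_psd K hs hx) Matrix.PosSemidef.one)
  tr i j x hx := by
    have h0 : (Gam (Jb A i j x))ᴴ * HTm K h i x * Gam (Jb A i j x) = HTm K h j x := by
      ext S T
      have h1 := HTm_tr K h hx (Pi.single T 1) (Pi.single S 1)
      have h2 : ∀ m : Matrix (FI n) (FI n) ℂ,
          star (Pi.single S (1 : ℂ) : FI n → ℂ) ⬝ᵥ (m *ᵥ Pi.single T 1) = m S T := by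
        intro m
        have h3 : star (Pi.single S (1 : ℂ) : FI n → ℂ) = Pi.single S 1 := by
          ext a
          by_cases ha : a = S
          · subst ha; simp
          · simp [ha]
        rw [h3, Matrix.mulVec_single_one, single_one_dotProduct, Matrix.col_apply]
      rw [h2, Matrix.star_mulVec, Matrix.mulVec_mulVec, ← Matrix.dotProduct_mulVec,
        Matrix.mulVec_mulVec, ← Matrix.mul_assoc, h2] at h1
      exact h1
    show (Gam (Jb A i j x) ⊗ₖ (Matrix.of fun _ _ => N.g i j x : Matrix Unit Unit ℂ))ᴴ *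
      ((h.w i x : ℂ) • (HTm K h i x ⊗ₖ (1 : Matrix Unit Unit ℂ))) *
      (Gam (Jb A i j x) ⊗ₖ (Matrix.of fun _ _ => N.g i j x : Matrix Unit Unit ℂ)) =
      dens A i j x • ((h.w j x : ℂ) • (HTm K h j x ⊗ₖ (1 : Matrix Unit Unit ℂ)))
    rw [Matrix.conjTranspose_kronecker, Matrix.mul_smul, Matrix.smul_mul,
      ← Matrix.mul_kronecker_mul, ← Matrix.mul_kronecker_mul, h0, Matrix.mul_one,
      smul_smul, w_tr h hx]
    ext ⟨S, a⟩ ⟨T, b⟩
    simp only [Matrix.smul_apply, Matrix.kroneckerMap_apply, Matrix.mul_apply,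
      Matrix.conjTranspose_apply, Matrix.of_apply, Finset.univ_unique, Finset.sum_singleton,
      smul_eq_mul, Matrix.one_apply, Subsingleton.elim a b, if_true, Complex.star_def]
    ring

end densities

end

end Crest.Agent.R273.HDN_505
end

-- ▼ part R273/B0_505
section

/-!
# R273, D.13 (helper505): dictionary between polyvectors and `(0,q)`-forms

* `rai K : Sec (BN N) →ₗ Sec (B0 N)`, `lowL K : Sec (B0 N) →ₗ Sec (BN N)`; `low_rai`, `rai_low`;
* `vec v i x T = v i x (∅, T)` : the polyvector of a degree `0` section of `B0 N`;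
* `ip_low` : `HB.ip (low v) (low w) = H0.ip v w`; `nabL` in degree `1`; `ip_nab` : the full gradient;
* `ip_HT` : the curvature term;
* `mem_PV_iff` : degree `0`, closed, of vector degree `q` ↔ `PV N q`.
-/

set_option autoImplicit false
set_option linter.unusedSectionVars false

open Set Filter Topology Complex
open scoped ContDiff Matrix ComplexConjugate Kronecker ComplexOrder

namespace Crest.Agent.R273.B0_505

open Crest.Agent.R275 Crest.Agent.R275.Geo Crest.Agent.R275.Core144 Crest.Agent.R275.SerG398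
open Crest.Agent.R273.Defs_333 Crest.Agent.R273.HM_333 Crest.Agent.R273.Kah_333
open Crest.Agent.R273.Fock_243 Crest.Agent.R273.Bkn_243 Crest.Agent.R273.Pos_243
open Crest.Agent.R273.LamN127 Crest.Agent.R273.NormC_505 Crest.Agent.R273.DnInt_505
open Crest.Agent.R273.HDN_505 Crest.Agent.R273.NV_578

noncomputable section

variable {n : ℕ} {M : Type} [TopologicalSpace M] {A : Atl n M}

/-! ### sections of `BN N` and `B0 N` in components -/

theorem kron_mulVec {κ κ' ρ ρ' : Type} [Fintype κ'] [Fintype ρ'] (a : Matrix κ κ' ℂ)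
    (b : Matrix ρ ρ' ℂ) (f : κ' × ρ' → ℂ) (S : κ) (T : ρ) :
    ((a ⊗ₖ b) *ᵥ f) (S, T) = ∑ S', a S S' * (b *ᵥ fun T' => f (S', T')) T := by
  simp only [Matrix.mulVec, dotProduct]
  rw [Fintype.sum_prod_type]
  refine Finset.sum_congr rfl fun S' _ => ?_
  rw [Finset.mul_sum]
  refine Finset.sum_congr rfl fun T' _ => ?_
  rw [Matrix.kroneckerMap_apply]
  ring

/-- the cocycle of `BN N` -/
def tN (N : LB A) (i j : A.ι) (x : M) : Matrix (FI n × Unit) (FI n × Unit) ℂ :=
  Gam (Jb A i j x) ⊗ₖ (Matrix.of fun _ _ => N.g i j x : Matrix Unit Unit ℂ)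

/-- the cocycle of `B0 N` -/
def t0 (N : LB A) (i j : A.ι) (x : M) : Matrix (FI n × FI n) (FI n × FI n) ℂ :=
  Gam (Jb A i j x) ⊗ₖ (N.g i j x • Gam (Lam2130.Jm A j i x))



/-- a section of `B0 N` with its literal type -/
def un0 {N : LB A} (v : Sec (B0 N)) (i : A.ι) (x : M) : FI n × FI n → ℂ := v.1 i x


theorem B0_law {N : LB A} (v : Sec (B0 N)) {i j : A.ι} {x : M}
    (hx : x ∈ (A.e i).source ∩ (A.e j).source) :
    un0 v i x = t0 N i j x *ᵥ un0 v j x := v.2.2.2 i j x hx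


theorem un0_smAt {N : LB A} (v : Sec (B0 N)) (i : A.ι) (k : FI n × FI n) :
    A.SmAt i (fun x => un0 v i x k) := v.2.1 i k


theorem un0_off {N : LB A} (v : Sec (B0 N)) {i : A.ι} {x : M} (hx : x ∉ (A.e i).source) :
    un0 v i x = 0 := v.2.2.1 i x hx

/-- the components of a section of `BN N` -/
def cmp (u : A.ι → M → (FI n × Unit) → ℂ) (i : A.ι) (x : M) : FI n → ℂ :=
  fun T => u i x (T, ())


/-- the polyvector of a section of `B0 N` -/
def vec (v : A.ι → M → (FI n × FI n) → ℂ) (i : A.ι) (x : M) : FI n → ℂ :=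
  fun T => v i x (∅, T)

theorem Gam_empty_left (m : Matrix (Fin n) (Fin n) ℂ) (S : FI n) :
    Gam m ∅ S = if S = ∅ then 1 else 0 := by
  by_cases h : S = ∅
  · subst h; rw [Gam_vac]
  · rw [if_neg h, Gam_of_ne]
    rw [Finset.card_empty]
    intro h1
    exact h (Finset.card_eq_zero.1 h1.symm)

theorem Gam_empty_right (m : Matrix (Fin n) (Fin n) ℂ) (S : FI n) :
    Gam m S ∅ = if S = ∅ then 1 else 0 := Gam_vac m S

theorem vec_tr {N : LB A} (v : Sec (B0 N)) {i j : A.ι} {x : M}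
    (hx : x ∈ (A.e i).source ∩ (A.e j).source) :
    vec (un0 v) i x = N.g i j x • (Gam (Lam2130.Jm A j i x) *ᵥ vec (un0 v) j x) := by
  funext T
  have h1 := congrFun (B0_law v hx) ((∅ : FI n), T)
  rw [t0, kron_mulVec, Finset.sum_eq_single ∅] at h1
  · rw [Gam_empty_left, if_pos rfl, one_mul, Matrix.smul_mulVec] at h1
    exact h1
  · intro S _ hS
    rw [Gam_empty_left, if_neg hS, zero_mul]
  · simp

/-- a smooth polyvector with values in `N` -/
structure IsPV (N : LB A) (v : A.ι → M → FI n → ℂ) : Prop where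
  sm : ∀ i T, A.SmAt i (fun x => v i x T)
  off : ∀ i, ∀ x ∉ (A.e i).source, v i x = 0
  tr : ∀ i j, ∀ x ∈ (A.e i).source ∩ (A.e j).source,
    v i x = N.g i j x • (Gam (Lam2130.Jm A j i x) *ᵥ v j x)

theorem isPV_vec {N : LB A} (v : Sec (B0 N)) : IsPV N (vec (un0 v)) where
  sm i T := un0_smAt v i (∅, T)
  off i x hx := by
    funext T
    exact congrFun (un0_off v hx) (∅, T)
  tr i j x hx := vec_tr v hx

/-- the degree zero section of a polyvector -/
def ofV (v : A.ι → M → FI n → ℂ) : A.ι → M → (FI n × FI n) → ℂ :=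
  fun i x p => if p.1 = ∅ then v i x p.2 else 0

theorem vec_ofV (v : A.ι → M → FI n → ℂ) : vec (ofV v) = v := by
  funext i x T
  simp [vec, ofV]

theorem ofV_law {N : LB A} {v : A.ι → M → FI n → ℂ} (hv : IsPV N v) {i j : A.ι} {x : M}
    (hx : x ∈ (A.e i).source ∩ (A.e j).source) : ofV v i x = t0 N i j x *ᵥ ofV v j x := by
  funext ⟨S, T⟩
  rw [t0, kron_mulVec, Finset.sum_eq_single ∅]
  · rw [Gam_empty_right]
    have h1 : (fun T' => ofV v j x ((∅ : FI n), T')) = v j x := by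
      funext T'; exact if_pos rfl
    rw [h1, Matrix.smul_mulVec, ← hv.tr i j x hx]
    unfold ofV
    by_cases hS : S = ∅
    · simp [hS]
    · simp [hS]
  · intro S' _ hS'
    have h1 : (fun T' => ofV v j x (S', T')) = 0 := by
      funext T'; exact if_neg hS'
    rw [h1]
    simp
  · simp

theorem ofV_mem {N : LB A} {v : A.ι → M → FI n → ℂ} (hv : IsPV N v) :
    (ofV v : A.ι → M → (B0 N).κ → ℂ) ∈ Sec (B0 N) := by
  have h1 : ∀ i (k : FI n × FI n), A.SmAt i (fun x => ofV v i x k) := by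
    rintro i ⟨S, T⟩
    by_cases hS : S = ∅
    · have h1 : (fun x => ofV v i x (S, T)) = fun x => v i x T := by
        funext x; exact if_pos hS
      rw [h1]; exact hv.sm i T
    · have h1 : (fun x => ofV v i x (S, T)) = fun _ => (0 : ℂ) := by
        funext x; exact if_neg hS
      rw [h1]; exact smAt_const i 0
  have h2 : ∀ i, ∀ x ∉ (A.e i).source, ofV v i x = 0 := by
    intro i x hx
    funext ⟨S, T⟩
    unfold ofV
    rw [hv.off i x hx]
    simp
  exact ⟨h1, h2, fun i j x hx => ofV_law hv hx⟩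

/-- degree zero sections of `B0 N` -/
theorem pqL_zero_iff {N : LB A} (v : Sec (B0 N)) :
    Geo.pqL (B0 N) 0 v = v ↔
      ∀ i x (S T : FI n), S ≠ ∅ → un0 v i x (S, T) = 0 := by
  have key : ∀ (i : A.ι) (x : M) (S T : FI n),
      un0 (Geo.pqL (B0 N) 0 v) i x (S, T) = if S.card = 0 then un0 v i x (S, T) else 0 :=
    fun i x S T => Geo.pq_apply (B := B0 N) 0 v.1 i x (S, T)
  constructor
  · intro h i x S T hS
    have h1 := key i x S T
    rw [h, if_neg (fun h' => hS (Finset.card_eq_zero.1 h'))] at h1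
    exact h1
  · intro h
    apply Subtype.ext
    funext i x
    have h2 : un0 (Geo.pqL (B0 N) 0 v) i x = un0 v i x := by
      funext ⟨S, T⟩
      rw [key]
      split_ifs with h1
      · rfl
      · symm
        apply h
        intro hS
        exact h1 (Finset.card_eq_zero.2 hS)
    exact h2

theorem ofV_vec {N : LB A} {v : Sec (B0 N)} (hv : Geo.pqL (B0 N) 0 v = v) :
    ofV (vec (un0 v)) = v.1 := by
  funext i x
  have h1 : ofV (vec (un0 v)) i x = un0 v i x := by
    funext ⟨S, T⟩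
    unfold ofV vec
    by_cases hS : S = ∅
    · simp [hS]
    · simp only [hS, if_false]
      exact ((pqL_zero_iff v).1 hv i x S T hS).symm
  exact h1

theorem pqL_ofV {N : LB A} {v : A.ι → M → FI n → ℂ} (hv : IsPV N v) :
    Geo.pqL (B0 N) 0 ⟨ofV v, ofV_mem hv⟩ = ⟨ofV v, ofV_mem hv⟩ :=
  (pqL_zero_iff _).2 fun i x S T hS => (if_neg hS : ofV v i x (S, T) = 0)

/-! ### lowering and raising -/

section lower

variable (K : Kah A) {N : LB A}

/-- lowering the indices of a polyvector -/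
def lowF (v : A.ι → M → FI n → ℂ) : A.ι → M → (FI n × Unit) → ℂ :=
  fun i x p => (Gam (Kl K i x) *ᵥ v i x) p.1















end lower

end

end Crest.Agent.R273.B0_505
end

-- ▼ part R273/LimA_505
section

/-!
# R273, D.13 (helper505): dictionary, part 2

`up : MV N →ₗ Sec (B0 N)` (degree zero sections of `B0 N`), `dwn`; the densities of 37 and 733 as
`HDen` densities of `low v`, `up v`, `∇ (low v)`, `∇ (up v)`.
-/

set_option autoImplicit false
set_option linter.unusedSectionVars false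

open Set Filter Topology Complex
open scoped ContDiff Matrix ComplexConjugate Kronecker ComplexOrder

namespace Crest.Agent.R273.Lim_505

open Crest.Agent.R275 Crest.Agent.R275.Geo Crest.Agent.R275.Core144
open Crest.Agent.R273.Defs_333 Crest.Agent.R273.HM_333 Crest.Agent.R273.Kah_333
open Crest.Agent.R273.Fock_243 Crest.Agent.R273.Calc_243 Crest.Agent.R273.Bkn_243
open Crest.Agent.R273.Pos_243
open Crest.Agent.R273.LamN127 Crest.Agent.R273.NormC_505 Crest.Agent.R273.DnInt_505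
open Crest.Agent.R273.DVec_733 Crest.Agent.R273.DMet_733 Crest.Agent.R273.DMetB_733
open Crest.Agent.R273.StV_37 Crest.Agent.R273.BKNa_37
open Crest.Agent.R273.BKNb_37 Crest.Agent.R273.BKNc_37 Crest.Agent.R273.BKNd_37
open Crest.Agent.R273.BKNe_37
open Crest.Agent.R273.HDN_505 (EV B0 B0_α Kl Ku HB HB_pos H0 H0_pos HC HTm HTm_form HT)
open Crest.Agent.R273.B0_505 (IsPV ofV vec un0 ofV_mem vec_ofV ofV_vec pqL_ofV isPV_vec)

noncomputable section

variable {n : ℕ} {M : Type} [TopologicalSpace M] {A : Atl n M} {N : LB A}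

/-! ### `MV N` and degree zero sections of `B0 N` -/

theorem isPV (v : MV N) : IsPV N v.1 where
  sm := v.2.1
  off := v.2.2.1
  tr i j x hx := by
    rw [v.2.2.2 i j x hx]
    unfold Tv
    rw [Matrix.smul_mulVec]
    rfl

theorem ofV_add (v w : A.ι → M → FI n → ℂ) (i : A.ι) (x : M) :
    ofV (v + w) i x = ofV v i x + ofV w i x := by
  funext p
  show (if p.1 = ∅ then (v + w) i x p.2 else 0) = (if p.1 = ∅ then v i x p.2 else 0) +
    (if p.1 = ∅ then w i x p.2 else 0)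
  split_ifs
  · rfl
  · rw [add_zero]

theorem ofV_smul (c : ℂ) (v : A.ι → M → FI n → ℂ) (i : A.ι) (x : M) :
    ofV (c • v) i x = c • ofV v i x := by
  funext p
  show (if p.1 = ∅ then (c • v) i x p.2 else 0) = c * (if p.1 = ∅ then v i x p.2 else 0)
  split_ifs
  · rfl
  · rw [mul_zero]

/-- polyvectors as degree zero sections of `B0 N` -/
def up (N : LB A) : MV N →ₗ[ℂ] Sec (B0 N) where
  toFun v := ⟨ofV v.1, ofV_mem (isPV v)⟩
  map_add' v w := Subtype.ext (by
    funext i x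
    exact ofV_add v.1 w.1 i x)
  map_smul' c v := Subtype.ext (by
    funext i x
    exact ofV_smul c v.1 i x)


theorem pqL_up (v : MV N) : Geo.pqL (B0 N) 0 (up N v) = up N v := pqL_ofV (isPV v)

theorem vec_mem (w : Sec (B0 N)) : vec (un0 w) ∈ MV N :=
  ⟨(isPV_vec w).sm, (isPV_vec w).off, fun i j x hx => by
    rw [(isPV_vec w).tr i j x hx]
    unfold Tv
    rw [Matrix.smul_mulVec]
    rfl⟩

/-- back -/
def dwn (w : Sec (B0 N)) : MV N := ⟨vec (un0 w), vec_mem w⟩

theorem up_dwn {w : Sec (B0 N)} (hw : Geo.pqL (B0 N) 0 w = w) : up N (dwn w) = w :=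
  Subtype.ext (ofV_vec hw)

/-! ### pure tensors -/

/-- pure tensors -/
def tp (a p : FI n → ℂ) : FI n × FI n → ℂ := fun q => a q.1 * p q.2

theorem kron_tp (X Y : Matrix (FI n) (FI n) ℂ) (a p : FI n → ℂ) :
    (X ⊗ₖ Y) *ᵥ tp a p = tp (X *ᵥ a) (Y *ᵥ p) := by
  funext ⟨S, T⟩
  rw [B0_505.kron_mulVec]
  show ∑ S', X S S' * (Y *ᵥ fun T' => a S' * p T') T = (X *ᵥ a) S * (Y *ᵥ p) T
  have h1 : ∀ S', (Y *ᵥ fun T' => a S' * p T') T = a S' * (Y *ᵥ p) T := by
    intro S'
    have h2 : (fun T' => a S' * p T') = a S' • p := rfl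
    rw [h2, Matrix.mulVec_smul]
    rfl
  simp only [h1]
  show _ = (∑ S', X S S' * a S') * _
  rw [Finset.sum_mul]
  exact Finset.sum_congr rfl fun S' _ => by ring

theorem dot_tp (a p b r : FI n → ℂ) : tp a p ⬝ᵥ tp b r = (a ⬝ᵥ b) * (p ⬝ᵥ r) := by
  show ∑ q : FI n × FI n, (a q.1 * p q.2) * (b q.1 * r q.2) = (∑ S, a S * b S) * ∑ T, p T * r T
  rw [Fintype.sum_prod_type, Finset.sum_mul_sum]
  exact Finset.sum_congr rfl fun S _ => Finset.sum_congr rfl fun T _ => by ring

theorem star_tp (a p : FI n → ℂ) : star (tp a p) = tp (star a) (star p) := by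
  funext q
  show conj (a q.1 * p q.2) = conj (a q.1) * conj (p q.2)
  rw [map_mul]

theorem form_tp (X Y : Matrix (FI n) (FI n) ℂ) (a p b r : FI n → ℂ) :
    star (tp a p) ⬝ᵥ ((X ⊗ₖ Y) *ᵥ tp b r) =
      (star a ⬝ᵥ (X *ᵥ b)) * (star p ⬝ᵥ (Y *ᵥ r)) := by
  rw [kron_tp, star_tp, dot_tp]

theorem ofV_tp (v : A.ι → M → FI n → ℂ) (i : A.ι) (x : M) :
    ofV v i x = tp (Pi.single ∅ 1) (v i x) := by
  funext ⟨S, T⟩
  show (if S = ∅ then v i x T else 0) = (Pi.single (∅ : FI n) (1 : ℂ) : FI n → ℂ) S * v i x T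
  by_cases h : S = ∅
  · subst h; simp
  · simp [h]

theorem eW_vac (a : Fin n) :
    (eW (ep a) : Matrix (FI n) (FI n) ℂ) *ᵥ Pi.single ∅ 1 = Pi.single {a} 1 := by
  rw [eW_single (by simp)]
  rfl

theorem Gam_single (m : Matrix (Fin n) (Fin n) ℂ) (a b : Fin n) :
    Gam m {a} {b} = m a b := by
  rw [Gam_eq m (k := 1) (Finset.card_singleton a) (Finset.card_singleton b),
    Matrix.det_fin_one, Matrix.submatrix_apply, Finset.orderEmbOfFin_singleton,
    Finset.orderEmbOfFin_singleton]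

theorem star_single' (S : FI n) : star (Pi.single S (1 : ℂ) : FI n → ℂ) = Pi.single S 1 := by
  ext a
  by_cases ha : a = S
  · subst ha; simp
  · simp [ha]

theorem form_single (X : Matrix (FI n) (FI n) ℂ) (S T : FI n) :
    star (Pi.single S (1 : ℂ) : FI n → ℂ) ⬝ᵥ (X *ᵥ Pi.single T 1) = X S T := by
  rw [star_single', Matrix.mulVec_single_one, single_one_dotProduct, Matrix.col_apply]

/-! ### the operator `∇` on `up v` -/

theorem db_ofV {v : A.ι → M → FI n → ℂ} (hv : ∀ i T, A.SmAt i (fun x => v i x T)) {i : A.ι}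
    {x : M} (hx : x ∈ (A.e i).source) (a : Fin n) :
    A.db i a (ofV v i) x = tp (Pi.single ∅ 1) (dbV v i a x) := by
  have hs : ∀ q : FI n × FI n, A.SmAt i (fun x => ofV v i x q) := by
    rintro ⟨S, T⟩
    by_cases hS : S = ∅
    · have h1 : (fun x => ofV v i x (S, T)) = fun x => v i x T := by
        funext x; exact if_pos hS
      rw [h1]; exact hv i T
    · have h1 : (fun x => ofV v i x (S, T)) = fun _ => (0 : ℂ) := by
        funext x; exact if_neg hS
      rw [h1]; exact smAt_const i 0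
  have hd : DifferentiableAt ℝ (fun z => ofV v i ((A.e i).symm z)) (A.e i x) :=
    differentiableAt_pi.2 fun q =>
      ((smAt_iff.1 (hs q)) _ ((A.e i).map_source hx)).diff
  funext ⟨S, T⟩
  have h1 : A.db i a (ofV v i) x (S, T) = A.db i a (fun y => ofV v i y (S, T)) x :=
    dbj_pi hd a (S, T)
  rw [h1]
  by_cases hS : S = ∅
  · subst hS
    have h2 : (fun y => ofV v i y ((∅ : FI n), T)) = fun y => v i y T := by
      funext y; exact if_pos rfl
    rw [h2]
    show _ = (Pi.single (∅ : FI n) (1 : ℂ) : FI n → ℂ) ∅ * dbV v i a x T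
    rw [Pi.single_eq_same, one_mul]
    rfl
  · have h2 : (fun y => ofV v i y (S, T)) = fun _ => (0 : ℂ) := by
      funext y; exact if_neg hS
    rw [h2]
    show _ = (Pi.single (∅ : FI n) (1 : ℂ) : FI n → ℂ) S * dbV v i a x T
    rw [Pi.single_eq_of_ne hS, zero_mul]
    simp [Atl.db, dbj]

theorem nab_up (v : MV N) {i : A.ι} {x : M} (hx : x ∈ (A.e i).source) :
    (nabL (B0 N) (up N v)).1 i x = ∑ a, tp (Pi.single {a} 1) (dbV v.1 i a x) := by
  have h0 : (nabL (B0 N) (up N v)).1 i x = nab (B0 N) (up N v).1 i x := rfl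
  rw [h0, nab_apply (B0 N) hx, B0_α N i x hx, Matrix.zero_mulVec, add_zero]
  refine Finset.sum_congr rfl fun a _ => ?_
  show (eW (ep a) ⊗ₖ (1 : Matrix (FI n) (FI n) ℂ)) *ᵥ (A.db i a (ofV v.1 i) x) = _
  rw [db_ofV v.2.1 hx, kron_tp, Matrix.one_mulVec, eW_vac]

/-! ### densities -/

section dens

variable (K : Kah A) (h : HM ((KB A)⁻¹ * N))


theorem Gam_Ku (i : A.ι) (x : M) : Gam (Ku K i x) = GI K i x := rfl

theorem GK_herm {i : A.ι} {x : M} (hx : x ∈ (A.e i).source) : (GK K i x)ᴴ = GK K i x :=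
  (Gam_posDef (HDN_505.Kl_posDef K hx)).1

/-- a form on `BN N`, literal types -/
theorem form_iB (c : ℂ) (X : Matrix (FI n) (FI n) ℂ) (p q : FI n → ℂ) :
    star (fun r : FI n × Unit => p r.1) ⬝ᵥ ((c • (X ⊗ₖ (1 : Matrix Unit Unit ℂ))) *ᵥ
      fun r : FI n × Unit => q r.1) = c * (star p ⬝ᵥ (X *ᵥ q)) := by
  have h1 : (X ⊗ₖ (1 : Matrix Unit Unit ℂ)) *ᵥ (fun r : FI n × Unit => q r.1) =
      fun r : FI n × Unit => (X *ᵥ q) r.1 := by
    funext ⟨S, T⟩
    rw [B0_505.kron_mulVec]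
    simp only [Matrix.one_mulVec]
    rfl
  rw [Matrix.smul_mulVec, h1, dotProduct_smul, smul_eq_mul]
  congr 1
  show ∑ r : FI n × Unit, star (p r.1) * (X *ᵥ q) r.1 = ∑ S, star (p S) * (X *ᵥ q) S
  rw [Fintype.sum_prod_type]
  refine Finset.sum_congr rfl fun S _ => ?_
  rw [Fintype.sum_unique]

theorem HB_hd_iB (p q : A.ι → M → (BN N).κ → ℂ) (i : A.ι) (x : M) :
    (HB K h).hd p q i x = (h.w i x : ℂ) * (star (oB (p i x)) ⬝ᵥ (GI K i x *ᵥ oB (q i x))) := by
  exact form_iB (h.w i x : ℂ) (GI K i x) (oB (p i x)) (oB (q i x))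

/-- pairing of lowered polyvectors -/
theorem HB_hd (v w : MV N) {i : A.ι} {x : M} (hx : x ∈ (A.e i).source) :
    (HB K h).hd (low K N v).1 (low K N w).1 i x = inG K h w.1 v.1 i x := by
  rw [HB_hd_iB]
  show (h.w i x : ℂ) * (star (GK K i x *ᵥ v.1 i x) ⬝ᵥ (GI K i x *ᵥ (GK K i x *ᵥ w.1 i x))) =
    (h.w i x : ℂ) * (star (v.1 i x) ⬝ᵥ (GK K i x *ᵥ w.1 i x))
  rw [Matrix.mulVec_mulVec, GI_GK K hx, Matrix.one_mulVec, Matrix.star_mulVec, GK_herm K hx,
    ← Matrix.dotProduct_mulVec]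

/-- pairing in degree zero -/
theorem H0_hd (v w : MV N) (i : A.ι) (x : M) :
    (H0 K h).hd (up N v).1 (up N w).1 i x = inG K h w.1 v.1 i x := by
  show star (ofV v.1 i x) ⬝ᵥ (((h.w i x : ℂ) • (Gam (Ku K i x) ⊗ₖ Gam (Kl K i x))) *ᵥ
    ofV w.1 i x) = _
  rw [ofV_tp, ofV_tp, Matrix.smul_mulVec, dotProduct_smul, form_tp, form_single, Gam_vac,
    if_pos rfl, one_mul, smul_eq_mul]
  rfl

/-- the full gradient -/
theorem H0_hd_nab (v w : MV N) {i : A.ι} {x : M} (hx : x ∈ (A.e i).source) :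
    (H0 K h).hd (nabL (B0 N) (up N v)).1 (nabL (B0 N) (up N w)).1 i x =
      inD K h w.1 v.1 i x := by
  have e0 : (H0 K h).hd (nabL (B0 N) (up N v)).1 (nabL (B0 N) (up N w)).1 i x =
      star (∑ a, tp (Pi.single {a} 1) (dbV v.1 i a x)) ⬝ᵥ
        (((h.w i x : ℂ) • (Gam (Ku K i x) ⊗ₖ Gam (Kl K i x))) *ᵥ
        ∑ a, tp (Pi.single {a} 1) (dbV w.1 i a x)) := by
    rw [← nab_up v hx, ← nab_up w hx]
    rfl
  rw [e0, Matrix.smul_mulVec, dotProduct_smul, smul_eq_mul]
  show _ = (h.w i x : ℂ) * T1 (Gam (Kl K i x)) (Ku K i x) (fun k => dbV w.1 i k x)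
    (fun l => dbV v.1 i l x)
  congr 1
  unfold T1
  rw [Matrix.mulVec_sum, star_sum, dotProduct_sum]
  refine Finset.sum_congr rfl fun k _ => ?_
  rw [sum_dotProduct]
  refine Finset.sum_congr rfl fun l _ => ?_
  rw [form_tp, form_single, Gam_single]

/-- the curvature term -/
theorem HT_hd (hs : h.Semipos) (v w : MV N) {i : A.ι} {x : M} (hx : x ∈ (A.e i).source) :
    (HT K h hs).hd (low K N v).1 (low K N w).1 i x = inT K h w.1 v.1 i x := by
  have e0 : (HT K h hs).hd (low K N v).1 (low K N w).1 i x =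
      (h.w i x : ℂ) * (star (GK K i x *ᵥ v.1 i x) ⬝ᵥ (HTm K h i x *ᵥ (GK K i x *ᵥ w.1 i x))) :=
    form_iB (h.w i x : ℂ) (HTm K h i x) _ _
  rw [e0, HTm_form, Gam_Ku, Matrix.mulVec_mulVec, Matrix.mulVec_mulVec, GI_GK K hx,
    Matrix.one_mulVec, Matrix.one_mulVec]
  rfl

/-- `∇` of the lowered field -/
theorem HB_hd_nab (v w : MV N) {i : A.ι} {x : M} (hx : x ∈ (A.e i).source) :
    (HB K h).hd (nabL (BN N) (low K N v)).1 (nabL (BN N) (low K N w)).1 i x =
      inU K h w.1 v.1 i x := by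
  rw [HB_hd_iB, nab_low_eq_duV K v hx, nab_low_eq_duV K w hx]
  rfl

end dens

end

end Crest.Agent.R273.Lim_505
end

-- ▼ part R273/LimB_505

/-!
# R273, D.13 (helper505): the formal adjoint as a first order operator, `hadj`, `LIM`, `EX`

* `dsF K h : FOp (BN N) (BN N)`, `dsF_T : (dsF K h).T (low v) = -(low (dlt h v))`;
* `hadj`, `lim`, `ex`; `hodge` : every closed `z : Sec (BN N)` is `low v + ∇ y` with `v`
  holomorphic and null.
-/

set_option autoImplicit false
set_option linter.unusedSectionVars false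

open Set Filter Topology Complex
open scoped ContDiff Matrix ComplexConjugate Kronecker ComplexOrder

namespace Crest.Agent.R273.Lim_505

open Crest.Agent.R275 Crest.Agent.R275.Geo Crest.Agent.R275.Core144
open Crest.Agent.R273.Defs_333 Crest.Agent.R273.HM_333 Crest.Agent.R273.Kah_333
open Crest.Agent.R273.Fock_243 Crest.Agent.R273.Calc_243 Crest.Agent.R273.Bkn_243
open Crest.Agent.R273.Pos_243 Crest.Agent.R273.Berezin_505 Crest.Agent.R273.L2K_774
open Crest.Agent.R273.LamN127 Crest.Agent.R273.NormC_505 Crest.Agent.R273.DnInt_505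
open Crest.Agent.R273.DVec_733 Crest.Agent.R273.DMet_733 Crest.Agent.R273.DMetB_733
open Crest.Agent.R273.StV_37 Crest.Agent.R273.BKNa_37
open Crest.Agent.R273.BKNb_37 Crest.Agent.R273.BKNc_37 Crest.Agent.R273.BKNd_37
open Crest.Agent.R273.BKNe_37 Crest.Agent.R273.Mol_106
open Crest.Agent.R273.HDN_505 (EV B0 B0_α Kl Ku HB HB_pos H0 H0_pos HC HTm HTm_form HT)
open Crest.Agent.R273.B0_505 (IsPV ofV vec un0 ofV_mem vec_ofV ofV_vec pqL_ofV isPV_vec)

noncomputable section

variable {n : ℕ} {M : Type} [TopologicalSpace M] {A : Atl n M} {N : LB A}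

/-! ### the adjoint -/

section adj

variable (K : Kah A) (h : HM ((KB A)⁻¹ * N))

/-- the formal adjoint of `∇`, as a linear map -/
def dsL : Sec (BN N) →ₗ[ℂ] Sec (BN N) :=
  -((low K N).toLinearMap ∘ₗ dlt h ∘ₗ (low K N).symm.toLinearMap)

theorem dsL_low (v : MV N) : dsL K h (low K N v) = -(low K N (dlt h v)) := by
  show -(low K N (dlt h ((low K N).symm (low K N v)))) = _
  rw [LinearEquiv.symm_apply_apply]

theorem dsL_eq (u : Sec (BN N)) : dsL K h u =
    low K N ((cj h).symm (nabL (BN (KB A * N⁻¹)) (cj h ((low K N).symm u)))) := by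
  show -(low K N ((cj h).symm (-(nabL (BN (KB A * N⁻¹)) (cj h ((low K N).symm u)))))) = _
  rw [map_neg, map_neg, neg_neg]

theorem kB_smAt {N N' : LB A} {i : A.ι} {X : M → Matrix (FI n) (FI n) ℂ} {c : M → ℂ}
    (hX : ∀ S T, A.SmAt i (fun x => X x S T)) (hc : A.SmAt i c) (k : (BN N).κ) (l : (BN N').κ) :
    A.SmAt i (fun x => kB N N' (X x) (c x) k l) := by
  have h1 : A.SmAt i (fun x => X x (Prod.fst k) (Prod.fst l) * c x) :=
    smAt_mul (hX (Prod.fst k) (Prod.fst l)) hc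
  exact h1

theorem mat_sm {i : A.ι} {a b : M → Matrix (FI n) (FI n) ℂ}
    (ha : ∀ S T, A.SmAt i (fun x => a x S T)) (hb : ∀ S T, A.SmAt i (fun x => b x S T)) (S T : FI n) :
    A.SmAt i (fun x => (a x * b x) S T) := FOp.smAt_matmul ha hb S T


theorem star_oB (u : (BN N).κ → ℂ) : oB (star u) = star (oB u) := rfl

theorem winv_smAt (i : A.ι) : A.SmAt i (fun x => ((h.w i x : ℂ))⁻¹) :=
  (DVec_733.smAt_ofReal (h.sm i)).inv fun _ hz => DMet_733.w_ne h i ((A.e i).map_target hz)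

/-- the formal adjoint as a first order operator -/
def dsF : FOp (BN N) (BN N) :=
  FOp.ofConj (FOp.nab (BN (KB A * N⁻¹)))
    (fun i x => kB (KB A * N⁻¹) N (Sbi ℂ n * (GI K i x).map conj) (h.w i x : ℂ))
    (fun i k l => kB_smAt (mat_sm (a := fun _ => Sbi ℂ n)
      (b := fun x => (GI K i x).map conj) (fun _ _ => smAt_const i _)
      fun S T => DVec_733.smAt_conj (GI_smooth K i S T)) (DVec_733.smAt_ofReal (h.sm i)) k l)
    (fun u => cj h ((low K N).symm u))
    (fun u i x _ => by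
      show iB (KB A * N⁻¹) (Sbi ℂ n *ᵥ ((h.w i x : ℂ) • star (GI K i x *ᵥ oB (u.1 i x)))) = _
      rw [← iB_oB N (star (u.1 i x)), kB_iB, star_oB, FOp.star_mulVec', Matrix.mulVec_smul,
        Matrix.mulVec_mulVec])
    (fun i x => kB N (KB A * N⁻¹) (GK K i x * (Sb ℂ n).map conj) ((h.w i x : ℂ))⁻¹)
    (fun i k l => kB_smAt (mat_sm (a := GK K i) (b := fun _ => (Sb ℂ n).map conj)
      (fun S T => GK_smooth K i S T) fun _ _ => smAt_const i _)
      (winv_smAt h i) k l)
    (fun u => low K N ((cj h).symm u))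
    (fun u i x _ => by
      show iB N (GK K i x *ᵥ star (((h.w i x : ℂ))⁻¹ • (Sb ℂ n *ᵥ oB (u.1 i x)))) = _
      rw [← iB_oB (KB A * N⁻¹) (star (u.1 i x)), kB_iB, star_oB, star_smul', FOp.star_mulVec',
        Matrix.mulVec_smul, Matrix.mulVec_mulVec, map_inv₀, Complex.conj_ofReal])
    (dsL K h) (fun u => dsL_eq K h u)

@[simp] theorem dsF_T : (dsF K h).T = dsL K h := rfl

end adj

/-! ### the inner products -/

section compact

variable [T2Space M] [CompactSpace M] [Finite A.ι] (P : Part A) (K : Kah A)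
  (h : HM ((KB A)⁻¹ * N))

theorem IntP_eq_totc (f : A.ι → M → ℂ) : IntP P f = totc P f := intD_eq_totc P f

/-- the inner product is the pairing with `cj` -/
theorem HB_ip (v : MV N) (w : MV N) :
    (HB K h).ip P (low K N v).1 (low K N w).1 = Pai323.pr (DN N) P (low K N w) (cj h v) := by
  rw [pr_low_cj', ← IntP_eq_totc]
  exact IntP_congr P fun i x hx => HB_hd K h v w hx

theorem HB_ip' (v : MV N) (u : Sec (BN N)) :
    (HB K h).ip P (low K N v).1 u.1 = Pai323.pr (DN N) P u (cj h v) := by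
  have h1 := HB_ip P K h v ((low K N).symm u)
  rwa [LinearEquiv.apply_symm_apply] at h1

theorem H0_ip (v w : MV N) :
    (H0 K h).ip P (up N v).1 (up N w).1 = (HB K h).ip P (low K N v).1 (low K N w).1 :=
  IntP_congr P fun i x hx => by rw [H0_hd, HB_hd K h v w hx]

theorem sn_up (v : MV N) : (H0 K h).sn P (up N v) = (HB K h).sn P (low K N v) := by
  unfold HDen.sn
  rw [H0_ip]

/-- `hadj` -/
theorem hadj (u w : Sec (BN N)) :
    (HB K h).ip P (nabL (BN N) u).1 w.1 = (HB K h).ip P u.1 (dsL K h w).1 := by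
  obtain ⟨v, rfl⟩ := (low K N).surjective u
  obtain ⟨w, rfl⟩ := (low K N).surjective w
  rw [dsL_low, ← HDen.ip_conj, HB_ip', adj h K P v w]
  have h1 : (-(low K N (dlt h w))).1 = ((-1 : ℂ)) • (low K N (dlt h w)).1 := by
    rw [Submodule.coe_neg, neg_one_smul]
  rw [h1, HDen.ip_smul_right, map_neg, neg_one_mul, ← HB_ip', HDen.ip_conj]

/-- `EX` -/
theorem ex (z : Sec (BN N))
    (hz : ∀ w, (dsF K h).T w = 0 → (HB K h).ip P w.1 z.1 = 0) : ∃ y, nabL (BN N) y = z := by
  refine DHod_733.exact_of_perp P h fun w hw => ?_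
  rw [← HB_ip' P K h]
  refine hz _ ?_
  rw [dsF_T, dsL_low, hw, map_zero, neg_zero]

/-- the gradient is bounded by `∇` and `∇*` -/
theorem sn_nab_up (hs : h.Semipos) (v : MV N) :
    (H0 K h).sn P (nabL (B0 N) (up N v)) ≤
      (HB K h).sn P (nabL (BN N) (low K N v)) + (HB K h).sn P (dsL K h (low K N v)) ∧
    (HT K h hs).sn P (low K N v) ≤
      (HB K h).sn P (nabL (BN N) (low K N v)) + (HB K h).sn P (dsL K h (low K N v)) := by
  have a0 := (HB K h).sn_nonneg P (nabL (BN N) (low K N v))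
  have b0 := (HB K h).sn_nonneg P (dsL K h (low K N v))
  have hD : (H0 K h).sn P (nabL (B0 N) (up N v)) ^ 2 = (totc P (inD K h v.1 v.1)).re := by
    rw [HDen.sn_sq, ← IntP_eq_totc]
    congr 1
    exact IntP_congr P fun i x hx => H0_hd_nab K h v v hx
  have hT : (HT K h hs).sn P (low K N v) ^ 2 = (totc P (inT K h v.1 v.1)).re := by
    rw [HDen.sn_sq, ← IntP_eq_totc]
    congr 1
    exact IntP_congr P fun i x hx => HT_hd K h hs v v hx
  have hU : (HB K h).sn P (nabL (BN N) (low K N v)) ^ 2 = (totc P (inU K h v.1 v.1)).re := by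
    rw [HDen.sn_sq, ← IntP_eq_totc]
    congr 1
    exact IntP_congr P fun i x hx => HB_hd_nab K h v v hx
  have hG : (HB K h).sn P (dsL K h (low K N v)) ^ 2 =
      (Pai323.pr (DN N) P (low K N (dlt h v)) (cj h (dlt h v))).re := by
    have h1 : (dsL K h (low K N v)).1 = (-1 : ℂ) • (low K N (dlt h v)).1 := by
      rw [dsL_low, Submodule.coe_neg, neg_one_smul]
    rw [HDen.sn_sq, h1, HDen.ip_smul_left, HDen.ip_smul_right, HB_ip]
    simp
  have key := bkn_le_MV P K hs v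
  have k1 := (Complex.le_def.1 key.1).1
  have k2 := (Complex.le_def.1 key.2).1
  rw [Complex.add_re, ← hU, ← hG] at k1 k2
  rw [← hD] at k1
  rw [← hT] at k2
  constructor
  · refine abs_le_of_sq_le_sq' (a := (H0 K h).sn P (nabL (B0 N) (up N v))) ?_ (add_nonneg a0 b0) |>.2
    nlinarith
  · refine abs_le_of_sq_le_sq' (a := (HT K h hs).sn P (low K N v)) ?_ (add_nonneg a0 b0) |>.2
    nlinarith

/-! ### `LIM` -/

/-- null holomorphic sections -/
def Q (u : Sec (BN N)) : Prop :=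
  HolV ((low K N).symm u).1 ∧ NullV h ((low K N).symm u).1

theorem hQd (u : Sec (BN N)) (hu : Q K h u) : nabL (BN N) u = 0 := by
  have h1 := nab_low_zero K hu.1
  rwa [LinearEquiv.apply_symm_apply] at h1

include K h in
/-- a closed degree zero section is a holomorphic polyvector -/
theorem hol_of_nab_up {v : MV N} (hv : nabL (B0 N) (up N v) = 0) : HolV v.1 := by
  intro i x hx
  refine inD_eq_zero (K := K) (h := h) hx ?_
  rw [← H0_hd_nab K h v v hx, hv]
  show star (0 : (B0 N).κ → ℂ) ⬝ᵥ _ = 0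
  rw [star_zero, zero_dotProduct]

/-- `LIM` -/
theorem lim (hs : h.Semipos) (u : ℕ → Sec (BN N))
    (hc : ∀ ε > 0, ∃ N0, ∀ m ≥ N0, ∀ k ≥ N0, (HB K h).sn P (u m - u k) < ε)
    (h1 : Tendsto (fun m => (HB K h).sn P (nabL (BN N) (u m))) atTop (𝓝 0))
    (h2 : Tendsto (fun m => (HB K h).sn P (dsL K h (u m))) atTop (𝓝 0)) :
    ∃ w, Q K h w ∧ Tendsto (fun m => (HB K h).sn P (u m - w)) atTop (𝓝 0) := by
  set v : ℕ → MV N := fun m => (low K N).symm (u m) with hv
  have hlv : ∀ m, low K N (v m) = u m := fun m => (low K N).apply_symm_apply (u m)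
  obtain ⟨C, hC0, hC⟩ := (H0 K h).nS_le_sn P (HDN_505.H0_pos K h)
  obtain ⟨C', hC'0, hC'⟩ := (HB K h).nS_le_sn P (HB_pos K h)
  obtain ⟨D, hD0, hD⟩ := (H0 K h).sn_le_nS P
  have h12 := h1.add h2
  rw [add_zero] at h12
  -- the degree zero sections
  have hcau : ∀ ε > 0, ∃ N0, ∀ m ≥ N0, ∀ k ≥ N0,
      nS P (B0 N) 0 (up N (v m) - up N (v k)) < ε := by
    intro ε hε
    obtain ⟨N0, hN0⟩ := hc (ε / (C + 1)) (by positivity)
    refine ⟨N0, fun m hm k hk => ?_⟩
    have e1 : up N (v m) - up N (v k) = up N (v m - v k) := (map_sub _ _ _).symm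
    have e2 : low K N (v m - v k) = u m - u k := by rw [map_sub, hlv, hlv]
    rw [e1]
    refine (hC _).trans_lt ?_
    rw [sn_up, e2]
    have h3 := hN0 m hm k hk
    rw [lt_div_iff₀ (by positivity)] at h3
    nlinarith [(HB K h).sn_nonneg P (u m - u k)]
  have hnab : Tendsto (fun m => nS P (B0 N) 0 (nabL (B0 N) (up N (v m)))) atTop (𝓝 0) := by
    have h3 := h12.const_mul C
    rw [mul_zero] at h3
    refine squeeze_zero (fun _ => nS_nonneg _ _ _ _) (fun m => (hC _).trans ?_) h3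
    refine mul_le_mul_of_nonneg_left ?_ hC0
    have h4 := (sn_nab_up P K h hs (v m)).1
    rwa [hlv] at h4
  obtain ⟨w0, hw0, hw1, hw2⟩ := exists_limit_deg0 P (B0 N) (fun m => pqL_up (v m)) hcau hnab
  set v0 : MV N := dwn w0 with hv0
  have hup : up N v0 = w0 := up_dwn hw2
  have hlim : Tendsto (fun m => (HB K h).sn P (u m - low K N v0)) atTop (𝓝 0) := by
    have h3 := hw0.const_mul D
    rw [mul_zero] at h3
    refine squeeze_zero (fun _ => (HB K h).sn_nonneg P _) (fun m => ?_) h3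
    have e2 : u m - low K N v0 = low K N (v m - v0) := by rw [map_sub, hlv]
    have e3 : up N (v m - v0) = up N (v m) - w0 := by rw [map_sub, hup]
    rw [e2, ← sn_up, e3]
    exact hD _
  refine ⟨low K N v0, ⟨?_, ?_⟩, hlim⟩
  · rw [LinearEquiv.symm_apply_apply]
    exact hol_of_nab_up K h (by rw [hup, hw1])
  · rw [LinearEquiv.symm_apply_apply]
    have h3 : Tendsto (fun m => nS P (BN N) 0 (u m - low K N v0)) atTop (𝓝 0) := by
      have h4 := hlim.const_mul C'
      rw [mul_zero] at h4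
      exact squeeze_zero (fun _ => nS_nonneg _ _ _ _) (fun m => hC' _) h4
    have h5 : Tendsto (fun m => (HT K h hs).sn P (u m)) atTop (𝓝 0) := by
      refine squeeze_zero (fun _ => (HT K h hs).sn_nonneg P _) (fun m => ?_) h12
      have h4 := (sn_nab_up P K h hs (v m)).2
      rwa [hlv] at h4
    have h6 := (HT K h hs).sn_limit P h3 h5
    have h7 : ((HT K h hs).ip P (low K N v0).1 (low K N v0).1).re = 0 := by
      rw [← HDen.sn_sq, h6, zero_pow two_ne_zero]
    intro i x hx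
    refine (inT_eq_zero (K := K) hs hx).1 ?_
    rw [← HT_hd K h hs v0 v0 hx]
    exact (HT K h hs).hd_eq_zero P _ h7 hx

include P in
/-- **Hodge existence**: a closed section is the sum of a lowered null holomorphic polyvector and
an exact section -/
theorem hodge (hs : h.Semipos) (z : Sec (BN N)) (hz : nabL (BN N) z = 0) :
    ∃ v : MV N, HolV v.1 ∧ NullV h v.1 ∧ ∃ y, nabL (BN N) y = z - low K N v := by
  obtain ⟨u, hu, y, hy⟩ := hodge_geo P (HB K h) (HB_pos K h) (dsF K h) (hadj P K h)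
    (nab_nab_BN N) (Q K h) (hQd K h) (lim P K h hs) (fun z _ hz => ex P K h z hz) z hz
  refine ⟨(low K N).symm u, hu.1, hu.2, y, ?_⟩
  rw [LinearEquiv.apply_symm_apply, hy]

end compact

end

end Crest.Agent.R273.Lim_505
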