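import Crest.Agent.R273.SplA_836
import Crest.Agent.R266.KahlerToKMet
import Crest.Agent.R266.Cover
import Crest.Agent.R266.GFinal
import Crest.Prelude.Def_TangentSplitting
import Crest.Agent.R266.GlueAtlas
import Crest.Agent.R266.GAsm_Mg
import Crest.Agent.R275.ProdAtl_363
import Crest.Agent.R273.Prd_835

-- ▼ part R273/SplB_836
section

/-!
# R273 (S0416), Part B/E, SPLITPROD (helper836), part B: the Kaehler metric on the product charts

`rb G` : the real bilinear form `Re ∑ G_{ab} u_a conj v_b`; `gA K i` : coefficients of the Kaehler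
metric in the chart `i`; `kmet K c` : the `KMet` of the product-foliated atlas `pfol c`.
-/

set_option autoImplicit false
set_option linter.unusedSectionVars false

open Set Filter Topology Complex Metric
open scoped ContDiff Matrix ComplexConjugate Manifold ComplexOrder

namespace Crest.Agent.R273.SplA_836

open Crest.Agent.R275.Geo Crest.Agent.R275.Core144 Crest.Agent.R275.EDR890
open Crest.Agent.R273.Defs_333 Crest.Agent.R273.Map_835 Crest.Agent.R273.Fam_835
open Crest.Agent.R273.Kah_333 Crest.Agent.R273.Hess_333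
open Crest.Agent.R266 (EV PFol KMet closed_pull contDiffAt_pull_clm herm_alt)
open Crest.Agent.R266.G6 (pb pb_apply)

noncomputable section

variable {n : ℕ} {M : Type} [TopologicalSpace M] {A : Atl n M}

/-! ### real bilinear forms of Hermitian matrices -/

/-- `(u, v) ↦ u a * conj (v b)` -/
def cB (a b : Fin n) : Cn n →L[ℝ] Cn n →L[ℝ] ℂ :=
  (ContinuousLinearMap.mul ℝ ℂ).bilinearComp (ze (false, a)) (ze (true, b))

theorem cB_apply (a b : Fin n) (u v : Cn n) : cB a b u v = u a * conj (v b) := rfl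

/-- the sesquilinear form of a matrix -/
def hb (G : Matrix (Fin n) (Fin n) ℂ) : Cn n →L[ℝ] Cn n →L[ℝ] ℂ := ∑ a, ∑ b, G a b • cB a b

theorem hb_apply (G : Matrix (Fin n) (Fin n) ℂ) (u v : Cn n) :
    hb G u v = ∑ a, ∑ b, G a b * (u a * conj (v b)) := by
  simp only [hb, sum_apply, smul_apply, cB_apply, smul_eq_mul]

/-- real part of a bilinear form -/
def reL : (Cn n →L[ℝ] Cn n →L[ℝ] ℂ) →L[ℝ] (Cn n →L[ℝ] Cn n →L[ℝ] ℝ) :=
  ContinuousLinearMap.compL ℝ (Cn n) (Cn n →L[ℝ] ℂ) (Cn n →L[ℝ] ℝ)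
    (ContinuousLinearMap.compL ℝ (Cn n) ℂ ℝ reCLM)


/-- the real bilinear form of a matrix -/
def rb (G : Matrix (Fin n) (Fin n) ℂ) : Cn n →L[ℝ] Cn n →L[ℝ] ℝ := reL (hb G)

theorem rb_apply (G : Matrix (Fin n) (Fin n) ℂ) (u v : Cn n) : rb G u v = (hb G u v).re := rfl

theorem hb_conj {G : Matrix (Fin n) (Fin n) ℂ} (hG : G.IsHermitian) (u v : Cn n) :
    conj (hb G u v) = hb G v u := by
  have h : ∀ a b, conj (G a b) = G b a := fun a b => hG.apply b a
  simp only [hb_apply, map_sum, map_mul, h, conj_conj]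
  rw [Finset.sum_comm]
  refine Finset.sum_congr rfl fun a _ => Finset.sum_congr rfl fun b _ => ?_
  ring

theorem hb_smul_left (G : Matrix (Fin n) (Fin n) ℂ) (c : ℂ) (u v : Cn n) :
    hb G (c • u) v = c * hb G u v := by
  simp only [hb_apply, Finset.mul_sum]
  refine Finset.sum_congr rfl fun a _ => Finset.sum_congr rfl fun b _ => ?_
  show G a b * ((c * u a) * conj (v b)) = _
  ring

theorem hb_smul_right (G : Matrix (Fin n) (Fin n) ℂ) (c : ℂ) (u v : Cn n) :
    hb G u (c • v) = conj c * hb G u v := by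
  simp only [hb_apply, Finset.mul_sum]
  refine Finset.sum_congr rfl fun a _ => Finset.sum_congr rfl fun b _ => ?_
  show G a b * (u a * conj (c * v b)) = _
  rw [map_mul]
  ring

theorem rb_symm {G : Matrix (Fin n) (Fin n) ℂ} (hG : G.IsHermitian) (u v : Cn n) :
    rb G u v = rb G v u := by
  rw [rb_apply, rb_apply, ← hb_conj hG u v, conj_re]

theorem rb_herm (G : Matrix (Fin n) (Fin n) ℂ) (u v : Cn n) :
    rb G (Complex.I • u) (Complex.I • v) = rb G u v := by
  rw [rb_apply, rb_apply, hb_smul_left, hb_smul_right, ← mul_assoc, conj_I]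
  simp

theorem hb_eq_dot (G : Matrix (Fin n) (Fin n) ℂ) (u v : Cn n) :
    hb G u v = star (fun b => v b) ⬝ᵥ (Gᵀ *ᵥ fun a => u a) := by
  rw [hb_apply, Finset.sum_comm]
  simp only [dotProduct, Matrix.mulVec, Finset.mul_sum, Pi.star_apply, Matrix.transpose_apply]
  refine Finset.sum_congr rfl fun b _ => Finset.sum_congr rfl fun a _ => ?_
  rw [starRingEnd_apply]
  ring

theorem rb_pos {G : Matrix (Fin n) (Fin n) ℂ} (hG : G.PosDef) {u : Cn n} (hu : u ≠ 0) :
    0 < rb G u u := by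
  have h1 : Gᵀ.PosDef := hG.transpose
  have h2 : (fun a => u a) ≠ 0 := by
    intro h
    apply hu
    ext a
    exact congrFun h a
  have h3 := h1.dotProduct_mulVec_pos h2
  rw [rb_apply, hb_eq_dot]
  exact (Complex.pos_iff.1 h3).1

/-- transformation of the forms -/
theorem hb_tr (G J : Matrix (Fin n) (Fin n) ℂ) (u v : Cn n) :
    hb (Jᵀ * G * J.map conj) u v = hb G (toC J u) (toC J v) := by
  rw [hb_eq_dot, hb_eq_dot]
  have h1 : (fun a => toC J u a) = J *ᵥ fun a => u a := by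
    funext a
    rw [toC_apply]
    rfl
  have h2 : (fun a => toC J v a) = J *ᵥ fun a => v a := by
    funext a
    rw [toC_apply]
    rfl
  rw [h1, h2]
  have h3 : (Jᵀ * G * J.map conj)ᵀ = Jᴴ * Gᵀ * J := by
    rw [Matrix.transpose_mul, Matrix.transpose_mul, Matrix.transpose_transpose, mul_assoc]
    rfl
  rw [h3, Matrix.star_mulVec, ← Matrix.dotProduct_mulVec]
  simp only [Matrix.mulVec_mulVec, Matrix.mul_assoc]

/-! ### smoothness and closedness in a chart -/

variable (K : Kah A)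

/-- the coefficients of the metric in the chart `i` -/
def gA (i : A.ι) (z : Cn n) : Cn n →L[ℝ] Cn n →L[ℝ] ℝ := rb (K.g i ((A.e i).symm z))

theorem gA_smooth (i : A.ι) : ContDiffOn ℝ ∞ (gA K i) (A.e i).target := by
  rw [contDiffOn_clm_apply]
  intro u
  rw [contDiffOn_clm_apply]
  intro v
  have h1 : ContDiffOn ℝ ∞ (fun z => ∑ a, ∑ b, K.g i ((A.e i).symm z) a b * (u a * conj (v b)))
      (A.e i).target := by
    refine ContDiffOn.sum fun a _ => ContDiffOn.sum fun b _ => ?_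
    exact ContDiffOn.mul (K.sm i a b) contDiffOn_const
  have h2 := reCLM.contDiff.comp_contDiffOn h1
  refine h2.congr fun z _ => ?_
  show (hb (K.g i ((A.e i).symm z)) u v).re = _
  rw [hb_apply]
  rfl

/-- Hermitian symmetry in the chart -/
theorem K_herm {i : A.ι} {z : Cn n} (hz : z ∈ (A.e i).target) :
    (K.g i ((A.e i).symm z)).IsHermitian := (K.pos i _ ((A.e i).map_target hz)).isHermitian

/-- the (1,0)-part of the derivative -/
def XX (i : A.ι) (z u v w : Cn n) : ℂ :=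
  ∑ a, ∑ b, ∑ c, wd (false, c) (fun w => K.g i ((A.e i).symm w) a b) z *
    (u c * (v a * conj (w b)))

/-- the (0,1)-part of the derivative -/
def YY (i : A.ι) (z u v w : Cn n) : ℂ :=
  ∑ a, ∑ b, ∑ c, wd (true, c) (fun w => K.g i ((A.e i).symm w) a b) z *
    (conj (u c) * (v a * conj (w b)))

theorem XX_symm {i : A.ι} {z : Cn n} (hz : z ∈ (A.e i).target) (u v w : Cn n) :
    XX K i z u v w = XX K i z v u w := by
  unfold XX
  rw [Finset.sum_comm]
  conv_rhs => rw [Finset.sum_comm]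
  refine Finset.sum_congr rfl fun b _ => ?_
  rw [Finset.sum_comm]
  refine Finset.sum_congr rfl fun a _ => Finset.sum_congr rfl fun c _ => ?_
  rw [K.closed i z hz c b a]
  ring

theorem YY_symm {i : A.ι} {z : Cn n} (hz : z ∈ (A.e i).target) (u v w : Cn n) :
    YY K i z u v w = YY K i z w v u := by
  unfold YY
  refine Finset.sum_congr rfl fun a _ => ?_
  rw [Finset.sum_comm]
  refine Finset.sum_congr rfl fun b _ => Finset.sum_congr rfl fun c _ => ?_
  rw [K.closed' i z hz a c b]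
  ring

theorem YY_conj {i : A.ι} {z : Cn n} (hz : z ∈ (A.e i).target) (u v w : Cn n) :
    conj (YY K i z u v w) = XX K i z u w v := by
  unfold XX YY
  simp only [map_sum, map_mul, conj_conj]
  rw [Finset.sum_comm]
  refine Finset.sum_congr rfl fun b _ => Finset.sum_congr rfl fun a _ =>
    Finset.sum_congr rfl fun c _ => ?_
  have hd : DifferentiableAt ℝ (fun w => K.g i ((A.e i).symm w) a b) z :=
    ((K.sm i a b).contDiffAt ((A.e i).open_target.mem_nhds hz)).differentiableAt (by simp)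
  have h1 := conj_wd (true, c) hd
  have h2 : (fun w => conj (K.g i ((A.e i).symm w) a b)) =ᶠ[𝓝 z]
      fun w => K.g i ((A.e i).symm w) b a := by
    filter_upwards [(A.e i).open_target.mem_nhds hz] with w hw
    exact (K_herm K hw).apply b a
  rw [h1, wd_congr h2]
  show wd (false, c) _ z * _ = _
  ring

theorem gA_deriv {i : A.ι} {z : Cn n} (hz : z ∈ (A.e i).target) (u v w : Cn n) :
    fderiv ℝ (fun q => gA K i q v w) z u = (XX K i z u v w + YY K i z u v w).re := by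
  have hd : ∀ a b, DifferentiableAt ℝ (fun w => K.g i ((A.e i).symm w) a b) z := fun a b =>
    ((K.sm i a b).contDiffAt ((A.e i).open_target.mem_nhds hz)).differentiableAt (by simp)
  have h1 : HasFDerivAt (fun q => ∑ a, ∑ b, K.g i ((A.e i).symm q) a b * (v a * conj (w b)))
      (∑ a, ∑ b, (v a * conj (w b)) • fderiv ℝ (fun q => K.g i ((A.e i).symm q) a b) z) z := by
    refine HasFDerivAt.fun_sum fun a _ => HasFDerivAt.fun_sum fun b _ => ?_
    exact (hd a b).hasFDerivAt.mul_const _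
  have h2 : (fun q => gA K i q v w) = fun q => reCLM
      (∑ a, ∑ b, K.g i ((A.e i).symm q) a b * (v a * conj (w b))) := by
    funext q
    show (hb (K.g i ((A.e i).symm q)) v w).re = _
    rw [hb_apply]
    rfl
  have h3 : HasFDerivAt (fun q => gA K i q v w) (reCLM.comp
      (∑ a, ∑ b, (v a * conj (w b)) • fderiv ℝ (fun q => K.g i ((A.e i).symm q) a b) z)) z := by
    rw [h2]
    exact reCLM.hasFDerivAt.comp z h1
  rw [h3.fderiv]
  show (((∑ a, ∑ b, (v a * conj (w b)) • fderiv ℝ (fun q => K.g i ((A.e i).symm q) a b) z) :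
    Cn n →L[ℝ] ℂ) u).re = _
  congr 1
  rw [XX, YY, ← Finset.sum_add_distrib]
  simp only [sum_apply, smul_apply]
  refine Finset.sum_congr rfl fun a _ => ?_
  rw [← Finset.sum_add_distrib]
  refine Finset.sum_congr rfl fun b _ => ?_
  rw [← Finset.sum_add_distrib, apply_eq_sum, Fintype.sum_prod_type, Fintype.sum_bool,
    ← Finset.sum_add_distrib, Finset.smul_sum]
  refine Finset.sum_congr rfl fun c _ => ?_
  simp only [ze_apply, cj_true, cj_false, smul_eq_mul, wd]
  ring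

theorem XX_I (i : A.ι) (z u v w : Cn n) :
    XX K i z u (Complex.I • v) w = Complex.I * XX K i z u v w := by
  unfold XX
  simp only [Finset.mul_sum]
  refine Finset.sum_congr rfl fun a _ => Finset.sum_congr rfl fun b _ =>
    Finset.sum_congr rfl fun c _ => ?_
  show _ * (u c * ((Complex.I * v a) * conj (w b))) = _
  ring

theorem YY_I (i : A.ι) (z u v w : Cn n) :
    YY K i z u (Complex.I • v) w = Complex.I * YY K i z u v w := by
  unfold YY
  simp only [Finset.mul_sum]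
  refine Finset.sum_congr rfl fun a _ => Finset.sum_congr rfl fun b _ =>
    Finset.sum_congr rfl fun c _ => ?_
  show _ * (conj (u c) * ((Complex.I * v a) * conj (w b))) = _
  ring

/-- the Kaehler form is closed -/
theorem gA_closed {i : A.ι} {z : Cn n} (hz : z ∈ (A.e i).target) (u v w : Cn n) :
    fderiv ℝ (fun q => gA K i q (Complex.I • v) w) z u
      - fderiv ℝ (fun q => gA K i q (Complex.I • u) w) z v
      + fderiv ℝ (fun q => gA K i q (Complex.I • u) v) z w = 0 := by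
  rw [gA_deriv K hz, gA_deriv K hz, gA_deriv K hz, XX_I, YY_I, XX_I, YY_I, XX_I, YY_I]
  have e1 := XX_symm K hz u v w
  have e2 := YY_symm K hz v u w
  have e3 := YY_conj K hz u v w
  have e4 := XX_symm K hz u w v
  rw [e4] at e3
  have h : (Complex.I * XX K i z u v w + Complex.I * YY K i z u v w)
      - (Complex.I * XX K i z v u w + Complex.I * YY K i z v u w)
      + (Complex.I * XX K i z w u v + Complex.I * YY K i z w u v)
      = Complex.I * (YY K i z u v w + conj (YY K i z u v w)) := by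
    rw [e1, e2, e3]
    ring
  have h2 := congrArg Complex.re h
  rw [Complex.add_re, Complex.sub_re] at h2
  rw [h2, Complex.add_conj]
  simp

theorem gA_symm {i : A.ι} {z : Cn n} (hz : z ∈ (A.e i).target) (u v : Cn n) :
    gA K i z u v = gA K i z v u := rb_symm (K_herm K hz) u v

theorem gA_herm (i : A.ι) (z : Cn n) (u v : Cn n) :
    gA K i z (Complex.I • u) (Complex.I • v) = gA K i z u v := rb_herm _ u v

theorem gA_pos {i : A.ι} {z : Cn n} (hz : z ∈ (A.e i).target) {u : Cn n} (hu : u ≠ 0) :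
    0 < gA K i z u u := rb_pos (K.pos i _ ((A.e i).map_target hz)) hu

/-- change of charts -/
theorem gA_tr {i j : A.ι} {z : Cn n} (hz : z ∈ A.ov i j) (u v : Cn n) :
    gA K j (A.e j ((A.e i).symm z)) (fderiv ℂ (fun w => A.e j ((A.e i).symm w)) z u)
      (fderiv ℂ (fun w => A.e j ((A.e i).symm w)) z v) = gA K i z u v := by
  have hx : (A.e i).symm z ∈ (A.e i).source ∩ (A.e j).source := ⟨(A.e i).map_target hz.1, hz.2⟩
  have h1 := K.tr i j _ hx
  have h2 : Jm A i j ((A.e i).symm z) = mt (fderiv ℂ (fun w => A.e j ((A.e i).symm w)) z) := by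
    rw [Jm_eq, (A.e i).right_inv hz.1]
  show (hb (K.g j ((A.e j).symm (A.e j ((A.e i).symm z)))) _ _).re =
    (hb (K.g i ((A.e i).symm z)) u v).re
  rw [h1, hb_tr, (A.e j).left_inv hz.2, h2, toC_mt, toC_mt]

/-! ### the metric of the product-foliated atlas -/

variable {S : Spl A} {r s : ℕ}

/-- the coefficients in a product chart -/
def gP (c : PC S r s) (p : EV r × EV s) : (EV r × EV s) →L[ℝ] (EV r × EV s) →L[ℝ] ℝ :=
  pb (gA K c.i (c.χ.symm p)) (fderiv ℂ c.χ.symm p)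

theorem gP_apply (c : PC S r s) (p u v : EV r × EV s) :
    gP K c p u v = gA K c.i (c.χ.symm p) (fderiv ℂ c.χ.symm p u) (fderiv ℂ c.χ.symm p v) := rfl

theorem gP_smooth (c : PC S r s) {p : EV r × EV s} (hp : p ∈ c.χ.target) :
    ContDiffAt ℝ ∞ (gP K c) p := by
  have hz : c.χ.symm p ∈ (A.e c.i).target := c.sub (c.χ.map_target hp)
  have h1 : ContDiffAt ℝ ∞ (gA K c.i) (c.χ.symm p) :=
    (gA_smooth K c.i).contDiffAt ((A.e c.i).open_target.mem_nhds hz)
  exact contDiffAt_pull_clm (gA K c.i) c.χ.symm p (c.an' p hp) h1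

/-- **the Kaehler metric of the product-foliated atlas** -/
def kmet {J : Type} (c : J → PC S r s) (hcov : ∀ x, ∃ j, x ∈ (c j).ch.source ∧
      (c j).ch x ∈ ball (0 : EV r) (1 / 2) ×ˢ ball (0 : EV s) (1 / 2)) : KMet (pfol c hcov) where
  g j p := gP K (c j) p
  smooth j := by
    intro p hp
    exact (gP_smooth K (c j) (by rw [(c j).tgt]; exact hp)).contDiffWithinAt
  symm j p hp u v := by
    have hp' : p ∈ (c j).χ.target := by rw [(c j).tgt]; exact hp
    exact gA_symm K ((c j).sub ((c j).χ.map_target hp')) _ _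
  pos j p hp u hu := by
    have hp' : p ∈ (c j).χ.target := by rw [(c j).tgt]; exact hp
    refine gA_pos K ((c j).sub ((c j).χ.map_target hp')) fun h0 => hu ?_
    have h1 : fderiv ℂ (c j).χ.symm p u = 0 := h0
    have h2 := (c j).inv2 hp' u
    rw [h1, map_zero] at h2
    exact h2.symm
  herm j p _ u v := by
    have h1 : ∀ w, fderiv ℂ (c j).χ.symm p (Complex.I • w) =
        Complex.I • fderiv ℂ (c j).χ.symm p w := fun w => map_smul _ _ _
    show gA K (c j).i ((c j).χ.symm p) (fderiv ℂ (c j).χ.symm p (Complex.I • u))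
      (fderiv ℂ (c j).χ.symm p (Complex.I • v)) = _
    rw [h1, h1]
    exact gA_herm K _ _ _ _
  closed j p hp u v w := by
    have hp' : p ∈ (c j).χ.target := by rw [(c j).tgt]; exact hp
    have hz : (c j).χ.symm p ∈ (A.e (c j).i).target := (c j).sub ((c j).χ.map_target hp')
    have h1 : ContDiffAt ℝ ∞ (gA K (c j).i) ((c j).χ.symm p) :=
      (gA_smooth K (c j).i).contDiffAt ((A.e (c j).i).open_target.mem_nhds hz)
    exact closed_pull (gA K (c j).i) (c j).χ.symm p ((c j).an' p hp')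
      (h1.differentiableAt (by simp)) (herm_alt (gA_symm K hz) (gA_herm K _ _))
      (gA_closed K hz) u v w
  compat i j x hx u v := by
    have hm : (c i).ch x ∈ (c i).ch.target := (c i).ch.map_source hx.1
    have hm' : (c i).ch.symm ((c i).ch x) ∈ (c j).ch.source := by
      rw [(c i).ch.left_inv hx.1]; exact hx.2
    have hov := (c i).ov (c j) hm hm'
    have e1 : ∀ w, fderiv ℂ (c j).χ.symm ((c j).ch x)
        (fderiv ℂ (fun p => (c j).ch ((c i).ch.symm p)) ((c i).ch x) w) =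
        fderiv ℂ (fun w => A.e (c j).i ((A.e (c i).i).symm w)) ((c i).χ.symm ((c i).ch x))
          (fderiv ℂ (c i).χ.symm ((c i).ch x) w) := by
      intro w
      rw [((c i).trans_aux (c j) hm hm').2, (c i).ch.left_inv hx.1]
      exact (c j).inv1 hx.2.2 _
    show gP K (c j) ((c j).ch x) (fderiv ℂ (fun p => (c j).ch ((c i).ch.symm p)) ((c i).ch x) u)
      (fderiv ℂ (fun p => (c j).ch ((c i).ch.symm p)) ((c i).ch x) v) = gP K (c i) ((c i).ch x) u v
    rw [gP_apply, gP_apply, e1, e1]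
    have e2 : (c j).χ.symm ((c j).ch x) = A.e (c j).i ((A.e (c i).i).symm
        ((c i).χ.symm ((c i).ch x))) := by
      have e3 : (A.e (c i).i).symm ((c i).χ.symm ((c i).ch x)) = x := (c i).ch.left_inv hx.1
      rw [e3]
      exact (c j).χ.left_inv hx.2.2
    rw [e2]
    exact gA_tr K hov _ _

end

end Crest.Agent.R273.SplA_836
end

-- ▼ part R266/CovAdapt
section

/-!
R266 / CovAdapt (helper926): charts of the covering atlas are holomorphic and adapted.
-/

set_option autoImplicit false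

open scoped Manifold ContDiff Topology
open Set Metric Filter
open Crest.AlgGeometry.HolSplit

namespace Crest.Agent.R266

/-- all charts of the product-foliated atlas are biholomorphic -/
structure HolAtl (n : ℕ) {n₁ n₂ : ℕ} {X : Type} [TopologicalSpace X] [ChartedSpace (Model n) X]
    (A : PFol n₁ n₂ X) : Prop where
  hol : ∀ i, ContMDiffOn (mI n) 𝓘(ℂ, EV n₁ × EV n₂) ω (A.ch i) (A.ch i).source
  hol_symm : ∀ i, ContMDiffOn 𝓘(ℂ, EV n₁ × EV n₂) (mI n) ω (A.ch i).symm (A.ch i).target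

namespace CovA


end CovA

section

variable {n n₁ n₂ : ℕ} {X X' : Type} [TopologicalSpace X] [ChartedSpace (Model n) X]
  [IsManifold (mI n) ω X] [TopologicalSpace X'] [ChartedSpace (Model n) X']
  [IsManifold (mI n) ω X']





end

end Crest.Agent.R266
end

-- ▼ part R273/SplC_836
section

/-!
# R273 (S0416), Part B/E, SPLITPROD (helper836), part C: the product decomposition
-/

set_option autoImplicit false
set_option linter.unusedSectionVars false

open Set Filter Topology Complex Metric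
open scoped ContDiff Matrix ComplexConjugate Manifold

namespace Crest.Agent.R273.SplA_836

open Crest.Agent.R275.Geo Crest.Agent.R275.Core144 Crest.Agent.R275.GC293
open Crest.Agent.R273.Defs_333 Crest.Agent.R273.Map_835 Crest.Agent.R273.Fam_835
open Crest.Agent.R273.Kah_333
open Crest.Agent.R266 (EV PFol KMet ProdStr)
open Crest.Agent.R275.Prod363

noncomputable section

variable {n : ℕ} {M : Type} [TopologicalSpace M] {A : Atl n M}

/-! ### the family of charts of a complex manifold -/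

/-- the family of the preferred charts -/
def famOf (k : ℕ) (Y : Type) [TopologicalSpace Y] [ChartedSpace (EV k) Y]
    [IsManifold 𝓘(ℂ, EV k) ω Y] : Fam k Y where
  ι := Y
  e y := chartAt (EV k) y
  cover y := ⟨y, mem_chart_source _ y⟩
  holo y y' := by
    have h0 : ContMDiffOn 𝓘(ℂ, EV k) 𝓘(ℂ, EV k) ω (chartAt (EV k) y).symm
        {z | z ∈ (chartAt (EV k) y).target ∧
          (chartAt (EV k) y).symm z ∈ (chartAt (EV k) y').source} := by
      refine ContMDiffOn.mono (contMDiffOn_chart_symm (I := 𝓘(ℂ, EV k)) (n := ω) (x := y)) ?_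
      intro z hz
      exact hz.1
    have h1 : ContMDiffOn 𝓘(ℂ, EV k) 𝓘(ℂ, EV k) ω
        (fun z => chartAt (EV k) y' ((chartAt (EV k) y).symm z))
        {z | z ∈ (chartAt (EV k) y).target ∧
          (chartAt (EV k) y).symm z ∈ (chartAt (EV k) y').source} := by
      refine ContMDiffOn.comp (contMDiffOn_chart (I := 𝓘(ℂ, EV k)) (n := ω) (x := y')) h0 ?_
      intro z hz
      exact hz.2
    rw [contMDiffOn_iff_contDiffOn] at h1
    exact h1.differentiableOn (by simp)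

section mfd

variable {k : ℕ} {Y : Type} [TopologicalSpace Y] [ChartedSpace (EV k) Y]
    [IsManifold 𝓘(ℂ, EV k) ω Y] {E : Type*} [NormedAddCommGroup E] [NormedSpace ℂ E]

/-- analytic maps into the manifold, read in the charts of a compatible family -/
theorem diffAt_of_mfd {B : Fam k Y} (hB : HolC (famOf k Y) B id) {f : E → Y} {z : E}
    (hf : ContMDiffAt 𝓘(ℂ, E) 𝓘(ℂ, EV k) ω f z) {j : B.ι} (hj : f z ∈ (B.e j).source) :
    DifferentiableAt ℂ (fun w => B.e j (f w)) z := by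
  have h1 : DifferentiableAt ℂ (fun w => chartAt (EV k) (f z) (f w)) z := by
    have h2 : ContMDiffAt 𝓘(ℂ, EV k) 𝓘(ℂ, EV k) ω (chartAt (EV k) (f z)) (f z) :=
      (contMDiffOn_chart (I := 𝓘(ℂ, EV k)) (n := ω) (x := f z) _
        (mem_chart_source _ _)).contMDiffAt
        ((chartAt (EV k) (f z)).open_source.mem_nhds (mem_chart_source _ _))
    have h3 : ContMDiffAt 𝓘(ℂ, E) 𝓘(ℂ, EV k) ω (fun w => chartAt (EV k) (f z) (f w)) z :=
      h2.comp z hf
    exact h3.contDiffAt.differentiableAt (by simp)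
  have h4 : DifferentiableAt ℂ (fun w => B.e j ((chartAt (EV k) (f z)).symm w))
      (chartAt (EV k) (f z) (f z)) := by
    refine hB.diffAt (i := f z) (j := j) (mem_chart_target (EV k) (f z)) ?_
    show id ((chartAt (EV k) (f z)).symm (chartAt (EV k) (f z) (f z))) ∈ _
    rw [(chartAt (EV k) (f z)).left_inv (mem_chart_source _ _)]
    exact hj
  have h5 : DifferentiableAt ℂ (fun w => B.e j ((chartAt (EV k) (f z)).symm
      (chartAt (EV k) (f z) (f w)))) z := DifferentiableAt.comp z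
    (g := fun w => B.e j ((chartAt (EV k) (f z)).symm w)) h4 h1
  refine h5.congr_of_eventuallyEq ?_
  filter_upwards [hf.continuousAt ((chartAt (EV k) (f z)).open_source.mem_nhds
    (mem_chart_source _ _))] with w hw
  have hw' : f w ∈ (chartAt (EV k) (f z)).source := hw
  rw [(chartAt (EV k) (f z)).left_inv hw']

/-- analytic maps from the manifold -/
theorem diffAt_of_mfd' {B : Fam k Y} (hB : HolC B (famOf k Y) id) {f : Y → E} {y : Y}
    (hf : ContMDiffAt 𝓘(ℂ, EV k) 𝓘(ℂ, E) ω f y) {j : B.ι} (hj : y ∈ (B.e j).source) :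
    DifferentiableAt ℂ (fun w => f ((B.e j).symm w)) (B.e j y) := by
  have h2 : ContMDiffAt 𝓘(ℂ, EV k) 𝓘(ℂ, EV k) ω (chartAt (EV k) y).symm (chartAt (EV k) y y) :=
    (contMDiffOn_chart_symm (I := 𝓘(ℂ, EV k)) (n := ω) (x := y) _
      (mem_chart_target _ _)).contMDiffAt
      ((chartAt (EV k) y).open_target.mem_nhds (mem_chart_target _ _))
  have h1 : DifferentiableAt ℂ (fun w => f ((chartAt (EV k) y).symm w)) (chartAt (EV k) y y) := by
    have hf' : ContMDiffAt 𝓘(ℂ, EV k) 𝓘(ℂ, E) ω f ((chartAt (EV k) y).symm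
        (chartAt (EV k) y y)) := by
      rwa [(chartAt (EV k) y).left_inv (mem_chart_source _ _)]
    have h3 : ContMDiffAt 𝓘(ℂ, EV k) 𝓘(ℂ, E) ω (fun w => f ((chartAt (EV k) y).symm w))
      (chartAt (EV k) y y) := hf'.comp _ h2
    exact h3.contDiffAt.differentiableAt (by simp)
  have h4 : DifferentiableAt ℂ (fun w => chartAt (EV k) y ((B.e j).symm w)) (B.e j y) := by
    refine hB.diffAt (i := j) (j := y) ((B.e j).map_source hj) ?_
    show id ((B.e j).symm (B.e j y)) ∈ _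
    rw [(B.e j).left_inv hj]
    exact mem_chart_source _ _
  have h5 : DifferentiableAt ℂ (fun w => f ((chartAt (EV k) y).symm
      (chartAt (EV k) y ((B.e j).symm w)))) (B.e j y) := by
    refine DifferentiableAt.comp (B.e j y) (g := fun w => f ((chartAt (EV k) y).symm w)) ?_ h4
    rw [(B.e j).left_inv hj]
    exact h1
  refine h5.congr_of_eventuallyEq ?_
  have hc : ContinuousAt (B.e j).symm (B.e j y) :=
    (B.e j).continuousAt_symm ((B.e j).map_source hj)
  have hn : (chartAt (EV k) y).source ∈ 𝓝 ((B.e j).symm (B.e j y)) := by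
    rw [(B.e j).left_inv hj]
    exact (chartAt (EV k) y).open_source.mem_nhds (mem_chart_source _ _)
  filter_upwards [hc hn] with w hw
  have hw' : (B.e j).symm w ∈ (chartAt (EV k) y).source := hw
  rw [(chartAt (EV k) y).left_inv hw']

end mfd

/-! ### the decomposition -/

section main

variable {S : Spl A} {r s : ℕ}


variable {J : Type} {c : J → PC S r s} {hcov : ∀ x, ∃ j, x ∈ (c j).ch.source ∧
      (c j).ch x ∈ ball (0 : EV r) (1 / 2) ×ˢ ball (0 : EV s) (1 / 2)}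
  {Y₁ Y₂ : Type} [TopologicalSpace Y₁] [ChartedSpace (EV r) Y₁] [IsManifold 𝓘(ℂ, EV r) ω Y₁]
  [TopologicalSpace Y₂] [ChartedSpace (EV s) Y₂] [IsManifold 𝓘(ℂ, EV s) ω Y₂]
  {Φ : M → Y₁ × Y₂} {Ψ : Y₁ × Y₂ → M}

theorem prodStr_cont (P : ProdStr (pfol c hcov) Y₁ Y₂ Φ Ψ) : Continuous Φ := by
  rw [continuous_iff_continuousAt]
  intro x
  obtain ⟨j, hj, -⟩ := hcov x
  obtain ⟨φ, ψ, hφ, hψ, hev⟩ := P.loc x j hj
  have h1 : ContinuousAt (c j).ch x := (c j).ch.continuousAt hj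
  have h2 : ContinuousAt (fun p => φ ((c j).ch p).1) x :=
    ContinuousAt.comp (g := φ) (f := fun p => ((c j).ch p).1) hφ.continuousAt
      (continuousAt_fst.comp h1)
  have h3 : ContinuousAt (fun p => ψ ((c j).ch p).2) x :=
    ContinuousAt.comp (g := ψ) (f := fun p => ((c j).ch p).2) hψ.continuousAt
      (continuousAt_snd.comp h1)
  have h4 : ContinuousAt (fun p => (φ ((c j).ch p).1, ψ ((c j).ch p).2)) x := h2.prodMk h3
  exact h4.congr (hev.mono fun p hp => hp.symm)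

theorem prodStr_cont' (P : ProdStr (pfol c hcov) Y₁ Y₂ Φ Ψ) : Continuous Ψ := by
  rw [continuous_iff_continuousAt]
  intro q
  obtain ⟨j, hj, -⟩ := hcov (Ψ q)
  obtain ⟨φ, ψ, hφ, hψ, hev⟩ := P.loc' q j hj
  have h2 : ContinuousAt (fun q : Y₁ × Y₂ => φ q.1) q :=
    ContinuousAt.comp (g := φ) (f := fun q : Y₁ × Y₂ => q.1) hφ.continuousAt continuousAt_fst
  have h3 : ContinuousAt (fun q : Y₁ × Y₂ => ψ q.2) q :=
    ContinuousAt.comp (g := ψ) (f := fun q : Y₁ × Y₂ => q.2) hψ.continuousAt continuousAt_snd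
  have h4 : ContinuousAt (fun q : Y₁ × Y₂ => (φ q.1, ψ q.2)) q := h2.prodMk h3
  have h5 : (φ q.1, ψ q.2) = (c j).ch (Ψ q) := hev.self_of_nhds.2.symm
  have h6 : ContinuousAt (c j).ch.symm (φ q.1, ψ q.2) := by
    rw [h5]
    exact (c j).ch.continuousAt_symm ((c j).ch.map_source hj)
  have h7 : ContinuousAt (fun q : Y₁ × Y₂ => (c j).ch.symm (φ q.1, ψ q.2)) q :=
    ContinuousAt.comp (g := (c j).ch.symm) (f := fun q : Y₁ × Y₂ => (φ q.1, ψ q.2)) h6 h4
  refine h7.congr (hev.mono fun p hp => ?_)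
  have h8 : (c j).ch (Ψ p) = (φ p.1, ψ p.2) := hp.2
  show (c j).ch.symm (φ p.1, ψ p.2) = Ψ p
  rw [← h8, (c j).ch.left_inv hp.1]

theorem prodStr_hol (P : ProdStr (pfol c hcov) Y₁ Y₂ Φ Ψ) {B₁ : Atl r Y₁} {B₂ : Atl s Y₂}
    (h₁ : HolC (famOf r Y₁) (fam B₁) id) (h₂ : HolC (famOf s Y₂) (fam B₂) id) :
    HolMap A (B₁.prod B₂) Φ := by
  refine holC_iff.1 (holC_of_local (prodStr_cont P) fun x => ?_)
  obtain ⟨j, hj, -⟩ := hcov x
  obtain ⟨j₁, hj₁⟩ := B₁.cover (Φ x).1
  obtain ⟨j₂, hj₂⟩ := B₂.cover (Φ x).2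
  refine ⟨(c j).i, (j₁, j₂), hj.1, ⟨hj₁, hj₂⟩, ?_⟩
  obtain ⟨φ, ψ, hφ, hψ, hev⟩ := P.loc x j hj
  have hx : Φ x = (φ ((c j).ch x).1, ψ ((c j).ch x).2) := hev.self_of_nhds
  have hz : A.e (c j).i x ∈ (c j).χ.source := hj.2
  have hχ : DifferentiableAt ℂ (c j).χ (A.e (c j).i x) := ((c j).an _ hz).differentiableAt
  have e1 : DifferentiableAt ℂ (fun w => B₁.e j₁ (φ w)) ((c j).χ (A.e (c j).i x)).1 :=
    diffAt_of_mfd (B := fam B₁) h₁ hφ (j := j₁) (by
      have : φ ((c j).ch x).1 = (Φ x).1 := by rw [hx]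
      show φ ((c j).ch x).1 ∈ _
      rw [this]
      exact hj₁)
  have e2 : DifferentiableAt ℂ (fun w => B₂.e j₂ (ψ w)) ((c j).χ (A.e (c j).i x)).2 :=
    diffAt_of_mfd (B := fam B₂) h₂ hψ (j := j₂) (by
      have : ψ ((c j).ch x).2 = (Φ x).2 := by rw [hx]
      show ψ ((c j).ch x).2 ∈ _
      rw [this]
      exact hj₂)
  have e3 : DifferentiableAt ℂ (fun z => B₁.e j₁ (φ ((c j).χ z).1)) (A.e (c j).i x) :=
    DifferentiableAt.comp (A.e (c j).i x) (g := fun w => B₁.e j₁ (φ w))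
      (f := fun z => ((c j).χ z).1) e1 hχ.fst
  have e4 : DifferentiableAt ℂ (fun z => B₂.e j₂ (ψ ((c j).χ z).2)) (A.e (c j).i x) :=
    DifferentiableAt.comp (A.e (c j).i x) (g := fun w => B₂.e j₂ (ψ w))
      (f := fun z => ((c j).χ z).2) e2 hχ.snd
  have e5 : DifferentiableAt ℂ (fun z => appL r s (B₁.e j₁ (φ ((c j).χ z).1),
      B₂.e j₂ (ψ ((c j).χ z).2))) (A.e (c j).i x) :=
    (appL r s).differentiableAt.comp _ (e3.prodMk e4)
  refine e5.congr_of_eventuallyEq ?_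
  have hc : ContinuousAt (A.e (c j).i).symm (A.e (c j).i x) :=
    (A.e (c j).i).continuousAt_symm ((A.e (c j).i).map_source hj.1)
  have hc' : Tendsto (A.e (c j).i).symm (𝓝 (A.e (c j).i x)) (𝓝 x) := by
    have := hc.tendsto
    rwa [(A.e (c j).i).left_inv hj.1] at this
  filter_upwards [hc'.eventually hev, (A.e (c j).i).open_target.mem_nhds
    ((A.e (c j).i).map_source hj.1)] with z hz1 hz2
  have hz3 : (c j).ch ((A.e (c j).i).symm z) = (c j).χ z := by
    rw [PC.ch_apply, (A.e (c j).i).right_inv hz2]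
  have hz4 : Φ ((A.e (c j).i).symm z) = (φ ((c j).χ z).1, ψ ((c j).χ z).2) := by
    rw [← hz3]; exact hz1
  show (B₁.prod B₂).e (j₁, j₂) (Φ ((A.e (c j).i).symm z)) = _
  rw [hz4]
  rfl

theorem prodStr_hol' (P : ProdStr (pfol c hcov) Y₁ Y₂ Φ Ψ) {B₁ : Atl r Y₁} {B₂ : Atl s Y₂}
    (h₁ : HolC (fam B₁) (famOf r Y₁) id) (h₂ : HolC (fam B₂) (famOf s Y₂) id) :
    HolMap (B₁.prod B₂) A Ψ := by
  refine holC_iff.1 (holC_of_local (prodStr_cont' P) fun q => ?_)
  obtain ⟨j, hj, -⟩ := hcov (Ψ q)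
  obtain ⟨j₁, hj₁⟩ := B₁.cover q.1
  obtain ⟨j₂, hj₂⟩ := B₂.cover q.2
  refine ⟨(j₁, j₂), (c j).i, ⟨hj₁, hj₂⟩, hj.1, ?_⟩
  obtain ⟨φ, ψ, hφ, hψ, hev⟩ := P.loc' q j hj
  have hq : (c j).ch (Ψ q) = (φ q.1, ψ q.2) := hev.self_of_nhds.2
  have hz : A.e (c j).i (Ψ q) ∈ (c j).χ.source := hj.2
  have e1 : DifferentiableAt ℂ (fun w => φ ((B₁.e j₁).symm w)) (B₁.e j₁ q.1) :=
    diffAt_of_mfd' (B := fam B₁) h₁ hφ (j := j₁) hj₁
  have e2 : DifferentiableAt ℂ (fun w => ψ ((B₂.e j₂).symm w)) (B₂.e j₂ q.2) :=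
    diffAt_of_mfd' (B := fam B₂) h₂ hψ (j := j₂) hj₂
  have hfst : fstL r s ((B₁.prod B₂).e (j₁, j₂) q) = B₁.e j₁ q.1 := fstL_app _ _
  have hsnd : sndL r s ((B₁.prod B₂).e (j₁, j₂) q) = B₂.e j₂ q.2 := sndL_app _ _
  have e3 : DifferentiableAt ℂ (fun z => φ ((B₁.e j₁).symm (fstL r s z)))
      ((B₁.prod B₂).e (j₁, j₂) q) := by
    refine DifferentiableAt.comp _ (g := fun w => φ ((B₁.e j₁).symm w)) ?_
      (fstL r s).differentiableAt
    rw [hfst]
    exact e1
  have e4 : DifferentiableAt ℂ (fun z => ψ ((B₂.e j₂).symm (sndL r s z)))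
      ((B₁.prod B₂).e (j₁, j₂) q) := by
    refine DifferentiableAt.comp _ (g := fun w => ψ ((B₂.e j₂).symm w)) ?_
      (sndL r s).differentiableAt
    rw [hsnd]
    exact e2
  have hval : (φ ((B₁.e j₁).symm (fstL r s ((B₁.prod B₂).e (j₁, j₂) q))),
      ψ ((B₂.e j₂).symm (sndL r s ((B₁.prod B₂).e (j₁, j₂) q)))) = (c j).χ (A.e (c j).i (Ψ q)) := by
    rw [hfst, hsnd, (B₁.e j₁).left_inv hj₁, (B₂.e j₂).left_inv hj₂, ← hq]
    rfl
  have e5 : DifferentiableAt ℂ (fun z => (c j).χ.symm (φ ((B₁.e j₁).symm (fstL r s z)),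
      ψ ((B₂.e j₂).symm (sndL r s z)))) ((B₁.prod B₂).e (j₁, j₂) q) := by
    refine DifferentiableAt.comp _ (g := (c j).χ.symm)
      (f := fun z => (φ ((B₁.e j₁).symm (fstL r s z)), ψ ((B₂.e j₂).symm (sndL r s z)))) ?_
      (e3.prodMk e4)
    rw [hval]
    exact ((c j).an' _ ((c j).χ.map_source hz)).differentiableAt
  refine e5.congr_of_eventuallyEq ?_
  have hs : q ∈ ((B₁.prod B₂).e (j₁, j₂)).source := ⟨hj₁, hj₂⟩
  have hc' : Tendsto ((B₁.prod B₂).e (j₁, j₂)).symm (𝓝 ((B₁.prod B₂).e (j₁, j₂) q)) (𝓝 q) := by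
    have := (((B₁.prod B₂).e (j₁, j₂)).continuousAt_symm
      (((B₁.prod B₂).e (j₁, j₂)).map_source hs)).tendsto
    rwa [((B₁.prod B₂).e (j₁, j₂)).left_inv hs] at this
  filter_upwards [hc'.eventually hev] with z hz1
  have hz2 : (c j).ch (Ψ (((B₁.prod B₂).e (j₁, j₂)).symm z)) =
    (φ ((B₁.e j₁).symm (fstL r s z)), ψ ((B₂.e j₂).symm (sndL r s z))) := hz1.2
  have hz3 : Ψ (((B₁.prod B₂).e (j₁, j₂)).symm z) ∈ (c j).ch.source := hz1.1
  show A.e (c j).i (Ψ (((B₁.prod B₂).e (j₁, j₂)).symm z)) = _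
  rw [← hz2]
  exact ((c j).χ.left_inv hz3.2).symm

end main


end

end Crest.Agent.R273.SplA_836
end

-- ▼ part R273/SplD_836
section

/-!
# R273 (S0416), Part B, SPLITPROD (helper836), part D: the decomposition with its tangent spaces

`Dec S r s` : a decomposition `Φ : M ≃ₜ Y₁ × Y₂` (biholomorphic) of a compact manifold adapted to the
splitting `S`: the kernel of `d(pr₁ ∘ Φ)` is the kernel of the projection, the kernel of
`d(pr₂ ∘ Φ)` is its image.
`exists_dec` : existence on compact simply connected Kaehler manifolds.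
`main_split` : the induction step for `MainN`.
-/

set_option autoImplicit false
set_option linter.unusedSectionVars false

open Set Filter Topology Complex Metric
open scoped ContDiff Matrix ComplexConjugate Manifold

namespace Crest.Agent.R273.SplA_836

open Crest.Agent.R275.Geo Crest.Agent.R275.Core144 Crest.Agent.R275.GC293
open Crest.Agent.R273.Defs_333 Crest.Agent.R273.Map_835 Crest.Agent.R273.Fam_835
open Crest.Agent.R273.Prd_835 Crest.Agent.R273.PB_835
open Crest.Agent.R273.Kah_333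
open Crest.Agent.R266 (EV PFol KMet ProdStr)
open Crest.Agent.R275.Prod363

noncomputable section

variable {n : ℕ} {M : Type} [TopologicalSpace M] {A : Atl n M}

/-- the derivative of a holomorphic map, read in charts -/
def dr {m : ℕ} {N : Type} [TopologicalSpace N] (A : Atl n M) (B : Atl m N) (p : M → N) (i : A.ι)
    (j : B.ι) (x : M) : Cn n →L[ℂ] Cn m := fderiv ℂ (rd A B p i j) (A.e i x)

theorem Jp_eq_dr {m : ℕ} {N : Type} [TopologicalSpace N] (A : Atl n M) (B : Atl m N) (p : M → N)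
    (i : A.ι) (j : B.ι) (x : M) : Jp A B p i j x = mt (dr A B p i j x) := rfl

/-- change of the source chart -/
theorem dr_left {m : ℕ} {N : Type} [TopologicalSpace N] {B : Atl m N} {p : M → N}
    (h : HolMap A B p) {i i' : A.ι} {j : B.ι} {x : M} (hx : x ∈ (A.e i).source)
    (hx' : x ∈ (A.e i').source) (hj : p x ∈ (B.e j).source) (v : Cn n) :
    dr A B p i j x v = dr A B p i' j x (toC (Jm A i i' x) v) := by
  have h1 := Jp_comp h (holMap_id A) (x := x) (i := i) (j := i') (l := j) hx hx' hj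
  have h2 : (fun x => p (id x)) = p := rfl
  rw [h2] at h1
  have h3 : Jp A A id i i' x = Jm A i i' x := rfl
  rw [h3] at h1
  have h4 : Jp A B p i j x = mt ((dr A B p i' j x).comp (toC (Jm A i i' x))) := by
    rw [mt_comp]
    have h5 : mt (toC (Jm A i i' x)) = Jm A i i' x := by
      ext b a
      have h6 := toC_apply (Jm A i i' x) (EuclideanSpace.single a 1) b
      show (toC (Jm A i i' x) (EuclideanSpace.single a 1)) b = _
      rw [h6]
      simp
    rw [h5]
    exact h1.symm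
  have h7 := mt_injective (T := dr A B p i j x) h4
  rw [h7]
  rfl


section tangent

variable {S : Spl A} {r s : ℕ} {J : Type} {c : J → PC S r s}
  {hcov : ∀ x, ∃ j, x ∈ (c j).ch.source ∧
      (c j).ch x ∈ ball (0 : EV r) (1 / 2) ×ˢ ball (0 : EV s) (1 / 2)}
  {Y₁ Y₂ : Type} [TopologicalSpace Y₁] [ChartedSpace (EV r) Y₁] [IsManifold 𝓘(ℂ, EV r) ω Y₁]
  [TopologicalSpace Y₂] [ChartedSpace (EV s) Y₂] [IsManifold 𝓘(ℂ, EV s) ω Y₂]
  {Φ : M → Y₁ × Y₂} {Ψ : Y₁ × Y₂ → M}

/-- compatibility of the projection with a change of charts, at a point -/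
theorem P_tr (S : Spl A) {i i' : A.ι} {x : M} (hx : x ∈ (A.e i).source)
    (hx' : x ∈ (A.e i').source) (v : Cn n) :
    toC (S.P i' x) (toC (Jm A i i' x) v) = toC (Jm A i i' x) (toC (S.P i x) v) := by
  rw [← toC_mul, ← toC_mul, S.tr i i' x ⟨hx, hx'⟩]

theorem tan_aux₂ (P : ProdStr (pfol c hcov) Y₁ Y₂ Φ Ψ) {B₁ : Atl r Y₁} {B₂ : Atl s Y₂}
    (h₁ : HolC (famOf r Y₁) (fam B₁) id) (h₂ : HolC (famOf s Y₂) (fam B₂) id)
    {i : A.ι} {j₂ : B₂.ι} {x : M} (hx : x ∈ (A.e i).source) (hj₂ : (Φ x).2 ∈ (B₂.e j₂).source)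
    {v : Cn n} (hv : toC (S.P i x) v = v) :
    dr A B₂ (fun x => (Φ x).2) i j₂ x v = 0 := by
  have hΦ := prodStr_hol P h₁ h₂
  have hp : HolMap A B₂ (fun x => (Φ x).2) := holMap_snd.comp hΦ
  obtain ⟨j, hj, -⟩ := hcov x
  rw [dr_left hp hx hj.1 hj₂]
  set w := toC (Jm A i (c j).i x) v with hw
  have hPw : toC (S.P (c j).i x) w = w := by rw [hw, P_tr S hx hj.1, hv]
  obtain ⟨φ, ψ, hφ, hψ, hev⟩ := P.loc x j hj
  have hx2 : Φ x = (φ ((c j).ch x).1, ψ ((c j).ch x).2) := hev.self_of_nhds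
  have hz : A.e (c j).i x ∈ (c j).χ.source := hj.2
  have hχ : DifferentiableAt ℂ (c j).χ (A.e (c j).i x) := ((c j).an _ hz).differentiableAt
  have e2 : DifferentiableAt ℂ (fun w => B₂.e j₂ (ψ w)) ((c j).χ (A.e (c j).i x)).2 :=
    diffAt_of_mfd (B := fam B₂) h₂ hψ (j := j₂) (by
      have : ψ ((c j).ch x).2 = (Φ x).2 := by rw [hx2]
      show ψ ((c j).ch x).2 ∈ _
      rw [this]
      exact hj₂)
  have e4 : HasFDerivAt (fun z => B₂.e j₂ (ψ ((c j).χ z).2))
      ((fderiv ℂ (fun w => B₂.e j₂ (ψ w)) ((c j).χ (A.e (c j).i x)).2).comp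
        ((ContinuousLinearMap.snd ℂ (EV r) (EV s)).comp (fderiv ℂ (c j).χ (A.e (c j).i x))))
      (A.e (c j).i x) :=
    HasFDerivAt.comp (A.e (c j).i x) (g := fun w => B₂.e j₂ (ψ w))
      (f := fun z => ((c j).χ z).2) e2.hasFDerivAt hχ.hasFDerivAt.snd
  have hc' : Tendsto (A.e (c j).i).symm (𝓝 (A.e (c j).i x)) (𝓝 x) := by
    have := ((A.e (c j).i).continuousAt_symm ((A.e (c j).i).map_source hj.1)).tendsto
    rwa [(A.e (c j).i).left_inv hj.1] at this
  have heq : rd A B₂ (fun x => (Φ x).2) (c j).i j₂ =ᶠ[𝓝 (A.e (c j).i x)]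
      fun z => B₂.e j₂ (ψ ((c j).χ z).2) := by
    filter_upwards [hc'.eventually hev, (A.e (c j).i).open_target.mem_nhds
      ((A.e (c j).i).map_source hj.1)] with z hz1 hz2
    have hz3 : (c j).ch ((A.e (c j).i).symm z) = (c j).χ z := by
      rw [PC.ch_apply, (A.e (c j).i).right_inv hz2]
    have hz4 : Φ ((A.e (c j).i).symm z) = (φ ((c j).χ z).1, ψ ((c j).χ z).2) := by
      rw [← hz3]; exact hz1
    show B₂.e j₂ (Φ ((A.e (c j).i).symm z)).2 = _
    rw [hz4]
  have e5 : dr A B₂ (fun x => (Φ x).2) (c j).i j₂ x =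
      (fderiv ℂ (fun w => B₂.e j₂ (ψ w)) ((c j).χ (A.e (c j).i x)).2).comp
        ((ContinuousLinearMap.snd ℂ (EV r) (EV s)).comp (fderiv ℂ (c j).χ (A.e (c j).i x))) := by
    show fderiv ℂ _ _ = _
    rw [heq.fderiv_eq, e4.fderiv]
  rw [e5]
  have e6 : (fderiv ℂ (c j).χ (A.e (c j).i x) w).2 = 0 := by
    refine ((c j).tan _ hz w).1.2 ?_
    show toC (S.P (c j).i ((A.e (c j).i).symm (A.e (c j).i x))) w = w
    rw [(A.e (c j).i).left_inv hj.1]
    exact hPw
  show fderiv ℂ (fun w => B₂.e j₂ (ψ w)) ((c j).χ (A.e (c j).i x)).2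
    ((fderiv ℂ (c j).χ (A.e (c j).i x) w).2) = 0
  rw [e6, map_zero]

theorem tan_aux₁ (P : ProdStr (pfol c hcov) Y₁ Y₂ Φ Ψ) {B₁ : Atl r Y₁} {B₂ : Atl s Y₂}
    (h₁ : HolC (famOf r Y₁) (fam B₁) id) (h₂ : HolC (famOf s Y₂) (fam B₂) id)
    {i : A.ι} {j₁ : B₁.ι} {x : M} (hx : x ∈ (A.e i).source) (hj₁ : (Φ x).1 ∈ (B₁.e j₁).source)
    {v : Cn n} (hv : toC (S.P i x) v = 0) :
    dr A B₁ (fun x => (Φ x).1) i j₁ x v = 0 := by
  have hΦ := prodStr_hol P h₁ h₂
  have hp : HolMap A B₁ (fun x => (Φ x).1) := holMap_fst.comp hΦ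
  obtain ⟨j, hj, -⟩ := hcov x
  rw [dr_left hp hx hj.1 hj₁]
  set w := toC (Jm A i (c j).i x) v with hw
  have hPw : toC (S.P (c j).i x) w = 0 := by rw [hw, P_tr S hx hj.1, hv, map_zero]
  obtain ⟨φ, ψ, hφ, hψ, hev⟩ := P.loc x j hj
  have hx2 : Φ x = (φ ((c j).ch x).1, ψ ((c j).ch x).2) := hev.self_of_nhds
  have hz : A.e (c j).i x ∈ (c j).χ.source := hj.2
  have hχ : DifferentiableAt ℂ (c j).χ (A.e (c j).i x) := ((c j).an _ hz).differentiableAt
  have e2 : DifferentiableAt ℂ (fun w => B₁.e j₁ (φ w)) ((c j).χ (A.e (c j).i x)).1 :=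
    diffAt_of_mfd (B := fam B₁) h₁ hφ (j := j₁) (by
      have : φ ((c j).ch x).1 = (Φ x).1 := by rw [hx2]
      show φ ((c j).ch x).1 ∈ _
      rw [this]
      exact hj₁)
  have e4 : HasFDerivAt (fun z => B₁.e j₁ (φ ((c j).χ z).1))
      ((fderiv ℂ (fun w => B₁.e j₁ (φ w)) ((c j).χ (A.e (c j).i x)).1).comp
        ((ContinuousLinearMap.fst ℂ (EV r) (EV s)).comp (fderiv ℂ (c j).χ (A.e (c j).i x))))
      (A.e (c j).i x) :=
    HasFDerivAt.comp (A.e (c j).i x) (g := fun w => B₁.e j₁ (φ w))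
      (f := fun z => ((c j).χ z).1) e2.hasFDerivAt hχ.hasFDerivAt.fst
  have hc' : Tendsto (A.e (c j).i).symm (𝓝 (A.e (c j).i x)) (𝓝 x) := by
    have := ((A.e (c j).i).continuousAt_symm ((A.e (c j).i).map_source hj.1)).tendsto
    rwa [(A.e (c j).i).left_inv hj.1] at this
  have heq : rd A B₁ (fun x => (Φ x).1) (c j).i j₁ =ᶠ[𝓝 (A.e (c j).i x)]
      fun z => B₁.e j₁ (φ ((c j).χ z).1) := by
    filter_upwards [hc'.eventually hev, (A.e (c j).i).open_target.mem_nhds
      ((A.e (c j).i).map_source hj.1)] with z hz1 hz2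
    have hz3 : (c j).ch ((A.e (c j).i).symm z) = (c j).χ z := by
      rw [PC.ch_apply, (A.e (c j).i).right_inv hz2]
    have hz4 : Φ ((A.e (c j).i).symm z) = (φ ((c j).χ z).1, ψ ((c j).χ z).2) := by
      rw [← hz3]; exact hz1
    show B₁.e j₁ (Φ ((A.e (c j).i).symm z)).1 = _
    rw [hz4]
  have e5 : dr A B₁ (fun x => (Φ x).1) (c j).i j₁ x =
      (fderiv ℂ (fun w => B₁.e j₁ (φ w)) ((c j).χ (A.e (c j).i x)).1).comp
        ((ContinuousLinearMap.fst ℂ (EV r) (EV s)).comp (fderiv ℂ (c j).χ (A.e (c j).i x))) := by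
    show fderiv ℂ _ _ = _
    rw [heq.fderiv_eq, e4.fderiv]
  rw [e5]
  have e6 : (fderiv ℂ (c j).χ (A.e (c j).i x) w).1 = 0 := by
    refine ((c j).tan _ hz w).2.2 ?_
    show toC (S.P (c j).i ((A.e (c j).i).symm (A.e (c j).i x))) w = 0
    rw [(A.e (c j).i).left_inv hj.1]
    exact hPw
  show fderiv ℂ (fun w => B₁.e j₁ (φ w)) ((c j).χ (A.e (c j).i x)).1
    ((fderiv ℂ (c j).χ (A.e (c j).i x) w).1) = 0
  rw [e6, map_zero]

end tangent

/-- a product decomposition adapted to the splitting -/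
structure Dec {A : Atl n M} (S : Spl A) (r s : ℕ) where
  Y₁ : Type
  Y₂ : Type
  [t₁ : TopologicalSpace Y₁]
  [t₂ : TopologicalSpace Y₂]
  [T2₁ : T2Space Y₁]
  [T2₂ : T2Space Y₂]
  [K₁ : CompactSpace Y₁]
  [K₂ : CompactSpace Y₂]
  [S₁ : SimplyConnectedSpace Y₁]
  [S₂ : SimplyConnectedSpace Y₂]
  B₁ : Atl r Y₁
  B₂ : Atl s Y₂
  [f₁ : Finite B₁.ι]
  [f₂ : Finite B₂.ι]
  g₁ : GoodA B₁
  g₂ : GoodA B₂
  p₁ : Nonempty (Part B₁)
  p₂ : Nonempty (Part B₂)
  Φ : M ≃ₜ Y₁ × Y₂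
  hol : HolMap A (B₁.prod B₂) Φ
  hol' : HolMap (B₁.prod B₂) A Φ.symm
  tan₁ : ∀ {i : A.ι} {j : B₁.ι} {x : M}, x ∈ (A.e i).source → (Φ x).1 ∈ (B₁.e j).source →
    ∀ v, toC (S.P i x) v = 0 → dr A B₁ (fun x => (Φ x).1) i j x v = 0
  tan₂ : ∀ {i : A.ι} {j : B₂.ι} {x : M}, x ∈ (A.e i).source → (Φ x).2 ∈ (B₂.e j).source →
    ∀ v, toC (S.P i x) v = v → dr A B₂ (fun x => (Φ x).2) i j x v = 0

attribute [instance] Dec.t₁ Dec.t₂ Dec.T2₁ Dec.T2₂ Dec.K₁ Dec.K₂ Dec.S₁ Dec.S₂ Dec.f₁ Dec.f₂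

/-- **SPLITPROD** with the tangent spaces -/
theorem exists_dec [T2Space M] [CompactSpace M] [SimplyConnectedSpace M] (K : Kah A) (S : Spl A)
    {r : ℕ} (hr : S.IsRk r) : Nonempty (Dec S r (n - r)) := by
  obtain ⟨J, hJ, c, hcov⟩ := exists_family hr
  have _ : Finite (pfol c hcov).ι := hJ
  have hC : Crest.Agent.R266.Completeness (pfol c hcov) :=
    Crest.Agent.R266.completeness_core (kmet K c hcov)
  have _ : LocallyPathConnectedSpace M := by
    let _ := (fam A).cs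
    exact ChartedSpace.locallyPathConnectedSpace (Cn n) M
  obtain ⟨Y₁, Y₂, _, _, _, _, _, _, hc₁, hc₂, hs₁, hs₂, Φ, Ψ, P⟩ :=
    Crest.Agent.R266.global_product (pfol c hcov) hC
  let F : M ≃ₜ Y₁ × Y₂ :=
    { toFun := Φ
      invFun := Ψ
      left_inv := P.left
      right_inv := P.right
      continuous_toFun := prodStr_cont P
      continuous_invFun := prodStr_cont' P }
  have hT : T2Space (Y₁ × Y₂) := F.t2Space
  have hK : CompactSpace (Y₁ × Y₂) := F.compactSpace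
  obtain ⟨y₁⟩ : Nonempty Y₁ := inferInstance
  obtain ⟨y₂⟩ : Nonempty Y₂ := inferInstance
  have hT₁ : T2Space Y₁ := T2Space.of_injective_continuous (f := fun y => (y, y₂))
    (fun a b h => congrArg Prod.fst h) (by fun_prop)
  have hT₂ : T2Space Y₂ := T2Space.of_injective_continuous (f := fun y => (y₁, y))
    (fun a b h => congrArg Prod.snd h) (by fun_prop)
  have hK₁ : CompactSpace Y₁ := by
    have h1 := isCompact_range (continuous_fst (X := Y₁) (Y := Y₂))
    rw [Set.range_eq_univ.2 (fun y => ⟨(y, y₂), rfl⟩)] at h1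
    exact ⟨h1⟩
  have hK₂ : CompactSpace Y₂ := by
    have h1 := isCompact_range (continuous_snd (X := Y₁) (Y := Y₂))
    rw [Set.range_eq_univ.2 (fun y => ⟨(y₁, y), rfl⟩)] at h1
    exact ⟨h1⟩
  obtain ⟨B₁, a1, a2, a3, -, a5, a6⟩ := (famOf r Y₁).exists_atl (fun _ : Unit => univ)
    (fun _ => isOpen_univ) (fun x => ⟨(), mem_univ x⟩)
  obtain ⟨B₂, b1, b2, b3, -, b5, b6⟩ := (famOf (n - r) Y₂).exists_atl (fun _ : Unit => univ)
    (fun _ => isOpen_univ) (fun x => ⟨(), mem_univ x⟩)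
  exact ⟨{ Y₁ := Y₁, Y₂ := Y₂, B₁ := B₁, B₂ := B₂, g₁ := a2, g₂ := b2, p₁ := a3, p₂ := b3, Φ := F
           hol := prodStr_hol P a6 b6
           hol' := prodStr_hol' P a5 b5
           tan₁ := fun hx hj v hv => tan_aux₁ P a6 b6 hx hj hv
           tan₂ := fun hx hj v hv => tan_aux₂ P a6 b6 hx hj hv }⟩

namespace Dec

variable {S : Spl A} {r s : ℕ} (D : Dec S r s)

theorem hol₁ : HolMap A D.B₁ (fun x => (D.Φ x).1) := holMap_fst.comp D.hol

theorem hol₂ : HolMap A D.B₂ (fun x => (D.Φ x).2) := holMap_snd.comp D.hol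

/-- the horizontal slice -/
def in₁ (y₂ : D.Y₂) (y : D.Y₁) : M := D.Φ.symm (y, y₂)

/-- the vertical slice -/
def in₂ (y₁ : D.Y₁) (y : D.Y₂) : M := D.Φ.symm (y₁, y)

theorem holIn₁ (y₂ : D.Y₂) : HolMap D.B₁ A (D.in₁ y₂) := D.hol'.comp (holMap_inl y₂)

theorem holIn₂ (y₁ : D.Y₁) : HolMap D.B₂ A (D.in₂ y₁) := D.hol'.comp (holMap_inr y₁)

theorem fst_in₁ (y₂ : D.Y₂) (y : D.Y₁) : D.Φ (D.in₁ y₂ y) = (y, y₂) := D.Φ.apply_symm_apply _

theorem snd_in₂ (y₁ : D.Y₁) (y : D.Y₂) : D.Φ (D.in₂ y₁ y) = (y₁, y) := D.Φ.apply_symm_apply _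

/-- a vector killed by both differentials vanishes -/
theorem eq_zero {i : A.ι} {j₁ : D.B₁.ι} {j₂ : D.B₂.ι} {x : M} (hx : x ∈ (A.e i).source)
    (h₁ : (D.Φ x).1 ∈ (D.B₁.e j₁).source) (h₂ : (D.Φ x).2 ∈ (D.B₂.e j₂).source) {v : Cn n}
    (e₁ : dr A D.B₁ (fun x => (D.Φ x).1) i j₁ x v = 0)
    (e₂ : dr A D.B₂ (fun x => (D.Φ x).2) i j₂ x v = 0) : v = 0 := by
  have hinj := imm_of_leftInv D.hol D.hol' (fun x => D.Φ.symm_apply_apply x) i (j₁, j₂)
    (A.e i x) (mem_dm hx ⟨h₁, h₂⟩)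
  refine hinj ?_
  rw [map_zero]
  have d₁ := (D.hol₁.diffAt (i := i) (j := j₁) (z := A.e i x) (mem_dm hx h₁)).hasFDerivAt
  have d₂ := (D.hol₂.diffAt (i := i) (j := j₂) (z := A.e i x) (mem_dm hx h₂)).hasFDerivAt
  have d₃ : HasFDerivAt (rd A (D.B₁.prod D.B₂) D.Φ i (j₁, j₂))
      ((appL r s).comp ((dr A D.B₁ (fun x => (D.Φ x).1) i j₁ x).prod
        (dr A D.B₂ (fun x => (D.Φ x).2) i j₂ x))) (A.e i x) :=
    (appL r s).hasFDerivAt.comp (A.e i x) (d₁.prodMk d₂)
  rw [d₃.fderiv]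
  show appL r s (dr A D.B₁ (fun x => (D.Φ x).1) i j₁ x v,
    dr A D.B₂ (fun x => (D.Φ x).2) i j₂ x v) = 0
  rw [e₁, e₂]
  exact map_zero _

theorem P_idem (S : Spl A) {i : A.ι} {x : M} (hx : x ∈ (A.e i).source) (v : Cn n) :
    toC (S.P i x) (toC (S.P i x) v) = toC (S.P i x) v := by
  rw [← toC_mul, S.idem i x hx]

/-- the kernel of `d(pr₂ ∘ Φ)` is the image of the projection -/
theorem tan₂_iff {i : A.ι} {j : D.B₂.ι} {x : M} (hx : x ∈ (A.e i).source)
    (hj : (D.Φ x).2 ∈ (D.B₂.e j).source) (v : Cn n) :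
    dr A D.B₂ (fun x => (D.Φ x).2) i j x v = 0 ↔ toC (S.P i x) v = v := by
  refine ⟨fun h => ?_, D.tan₂ hx hj v⟩
  obtain ⟨j₁, hj₁⟩ := D.B₁.cover (D.Φ x).1
  have h0 : toC (S.P i x) (v - toC (S.P i x) v) = 0 := by rw [map_sub, P_idem S hx, sub_self]
  have h1 := D.tan₁ hx hj₁ _ h0
  have h2 : dr A D.B₂ (fun x => (D.Φ x).2) i j x (v - toC (S.P i x) v) = 0 := by
    rw [map_sub, h, D.tan₂ hx hj _ (P_idem S hx v), sub_zero]
  exact (sub_eq_zero.1 (D.eq_zero hx hj₁ hj h1 h2)).symm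

/-- the kernel of `d(pr₁ ∘ Φ)` is the kernel of the projection -/
theorem tan₁_iff {i : A.ι} {j : D.B₁.ι} {x : M} (hx : x ∈ (A.e i).source)
    (hj : (D.Φ x).1 ∈ (D.B₁.e j).source) (v : Cn n) :
    dr A D.B₁ (fun x => (D.Φ x).1) i j x v = 0 ↔ toC (S.P i x) v = 0 := by
  refine ⟨fun h => ?_, D.tan₁ hx hj v⟩
  obtain ⟨j₂, hj₂⟩ := D.B₂.cover (D.Φ x).2
  have h0 : toC (S.P i x) (v - toC (S.P i x) v) = 0 := by rw [map_sub, P_idem S hx, sub_self]
  have h1 := D.tan₁ hx hj _ h0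
  rw [map_sub, h, zero_sub, neg_eq_zero] at h1
  exact D.eq_zero hx hj hj₂ h1 (D.tan₂ hx hj₂ _ (P_idem S hx v))

end Dec

/-- chain rule for the derivatives in charts -/
theorem dr_comp {m k : ℕ} {N P : Type} [TopologicalSpace N] [TopologicalSpace P] {B : Atl m N}
    {C : Atl k P} {p : M → N} {q : N → P} (hq : HolMap B C q) (hp : HolMap A B p) {i : A.ι}
    {j : B.ι} {l : C.ι} {x : M} (hx : x ∈ (A.e i).source) (hj : p x ∈ (B.e j).source)
    (hl : q (p x) ∈ (C.e l).source) (v : Cn n) :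
    dr A C (fun x => q (p x)) i l x v = dr B C q j l (p x) (dr A B p i j x v) := by
  have h1 := Jp_comp hq hp (x := x) (i := i) (j := j) (l := l) hx hj hl
  have h4 : mt (dr A C (fun x => q (p x)) i l x) = mt ((dr B C q j l (p x)).comp
      (dr A B p i j x)) := by
    rw [mt_comp]
    exact h1.symm
  rw [mt_injective h4]
  rfl

theorem dr_const {m : ℕ} {N : Type} [TopologicalSpace N] {B : Atl m N} (y : N) (i : A.ι)
    (j : B.ι) (x : M) : dr A B (fun _ => y) i j x = 0 := by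
  show fderiv ℂ (fun _ => B.e j y) _ = 0
  exact fderiv_const_apply _

namespace Dec

variable {S : Spl A} {r s : ℕ} (D : Dec S r s)

/-- the tangent space of the horizontal slice is the image of the projection -/
theorem in₁_tan (y₂ : D.Y₂) {j : D.B₁.ι} {i : A.ι} {y : D.Y₁} (hy : y ∈ (D.B₁.e j).source)
    (hi : D.in₁ y₂ y ∈ (A.e i).source) (v : Cn r) :
    toC (S.P i (D.in₁ y₂ y)) (dr D.B₁ A (D.in₁ y₂) j i y v) = dr D.B₁ A (D.in₁ y₂) j i y v := by
  obtain ⟨j₂, hj₂⟩ := D.B₂.cover (D.Φ (D.in₁ y₂ y)).2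
  rw [← D.tan₂_iff hi hj₂]
  have h1 := dr_comp D.hol₂ (D.holIn₁ y₂) (x := y) hy hi hj₂ v
  rw [← h1]
  have h2 : (fun y => (D.Φ (D.in₁ y₂ y)).2) = fun _ => y₂ := by
    funext y
    rw [D.fst_in₁]
  rw [h2, dr_const]
  rfl

/-- the tangent space of the vertical slice is the kernel of the projection -/
theorem in₂_tan (y₁ : D.Y₁) {j : D.B₂.ι} {i : A.ι} {y : D.Y₂} (hy : y ∈ (D.B₂.e j).source)
    (hi : D.in₂ y₁ y ∈ (A.e i).source) (v : Cn s) :
    toC (S.P i (D.in₂ y₁ y)) (dr D.B₂ A (D.in₂ y₁) j i y v) = 0 := by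
  obtain ⟨j₁, hj₁⟩ := D.B₁.cover (D.Φ (D.in₂ y₁ y)).1
  rw [← D.tan₁_iff hi hj₁]
  have h1 := dr_comp D.hol₁ (D.holIn₂ y₁) (x := y) hy hi hj₁ v
  rw [← h1]
  have h2 : (fun y => (D.Φ (D.in₂ y₁ y)).1) = fun _ => y₁ := by
    funext y
    rw [D.snd_in₂]
  rw [h2, dr_const]
  rfl

end Dec

/-- **the induction step for split manifolds** -/
theorem main_split {n : ℕ} {M : Type} [TopologicalSpace M] [T2Space M] [CompactSpace M]
    [SimplyConnectedSpace M] {A : Atl n M} (IH : ∀ m < n, MainN m) (K : Kah A) (S : Spl A) {r : ℕ}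
    (hr : S.IsRk r) (h0 : 0 < r) (h1 : r < n) (P : ProjD A) {h : HM (KB A)⁻¹} (hs : h.Semipos) :
    ∃ m : ℕ, 0 < m ∧ HasSec ((KB A)⁻¹ ^ m) := by
  obtain ⟨D⟩ := exists_dec K S hr
  obtain ⟨s, rfl⟩ : ∃ s, n = r + s := ⟨n - r, by omega⟩
  have hs' : r + s - r = s := by omega
  obtain ⟨Y₁, Y₂, B₁, B₂, g₁, g₂, p₁, p₂, Φ, hol, hol', -, -⟩ := D
  revert B₂
  rw [hs']
  intro B₂ _ g₂ p₂ hol hol'
  exact main_prod (IH r h1) (IH s (by omega)) hol' hol Φ.symm_apply_apply Φ.apply_symm_apply P hs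

end

end Crest.Agent.R273.SplA_836
end

-- ▼ part R273/Act_836

/-!
# R273 (S0416), Part B, ACT (helper836): maps preserving a splitting are product maps

* `const_of_dr` : a holomorphic map with vanishing differential on a connected manifold is constant;
* `Dec.snd_eq`, `Dec.fst_eq` : if `f` maps the image (kernel) of `P` to the image (kernel) of `P'`,
  then the second (first) component of `Φ' ∘ f` depends on the second (first) component only;
* `Pres S S' f` : `f` preserves both; `Dec.f₁`, `Dec.f₂`, `Dec.map_eq` : `Φ' ∘ f = (f₁ × f₂) ∘ Φ`;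
* `Dec.act₁`, `Dec.act₂` : the actions of a group on the factors.
-/

set_option autoImplicit false
set_option linter.unusedSectionVars false

open Set Filter Topology Complex Metric
open scoped ContDiff Matrix ComplexConjugate Manifold

namespace Crest.Agent.R273.SplA_836

open Crest.Agent.R275.Geo Crest.Agent.R275.Core144 Crest.Agent.R275.GC293
open Crest.Agent.R273.Defs_333 Crest.Agent.R273.Map_835 Crest.Agent.R273.Fam_835
open Crest.Agent.R273.Prd_835 Crest.Agent.R273.PB_835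

noncomputable section

section const

variable {n m : ℕ} {M N : Type} [TopologicalSpace M] [TopologicalSpace N] {A : Atl n M}
  {B : Atl m N}

/-- a holomorphic map with vanishing differential is locally constant -/
theorem locConst_of_dr {p : M → N} (hp : HolMap A B p)
    (h : ∀ i j x, x ∈ (A.e i).source → p x ∈ (B.e j).source → dr A B p i j x = 0) :
    IsLocallyConstant p := by
  rw [IsLocallyConstant.iff_eventually_eq]
  intro x
  obtain ⟨i, hi⟩ := A.cover x
  obtain ⟨j, hj⟩ := B.cover (p x)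
  have ho := hp.isOpen_dm i j
  have hm := mem_dm (p := p) (A := A) (B := B) hi hj
  obtain ⟨r, hr, hrU⟩ := Metric.isOpen_iff.1 ho _ hm
  have hconst : ∀ z ∈ ball (A.e i x) r, rd A B p i j z = rd A B p i j (A.e i x) := by
    intro z hz
    have h0 : ∀ w ∈ ball (A.e i x) r, fderiv ℂ (rd A B p i j) w = 0 := by
      intro w hw
      have hw' := hrU hw
      have h1 := h i j ((A.e i).symm w) ((A.e i).map_target hw'.1) hw'.2
      unfold dr at h1
      rwa [(A.e i).right_inv hw'.1] at h1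
    exact (convex_ball (A.e i x) r).is_const_of_fderivWithin_eq_zero (𝕜 := ℂ)
      (fun w hw => (hp.diffAt (hrU hw)).differentiableWithinAt)
      (fun w hw => by rw [fderivWithin_of_isOpen isOpen_ball hw, h0 w hw]) hz (mem_ball_self hr)
  have h1 : ∀ᶠ y in 𝓝 x, A.e i y ∈ ball (A.e i x) r :=
    (A.e i).continuousAt hi (isOpen_ball.mem_nhds (mem_ball_self hr))
  filter_upwards [h1, (A.e i).open_source.mem_nhds hi] with y hy hys
  have h2 := hconst _ hy
  have h3 : p y ∈ (B.e j).source := by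
    have := (hrU hy).2
    rw [mem_preimage, (A.e i).left_inv hys] at this
    exact this
  have h4 : B.e j (p y) = B.e j (p x) := by
    have h5 : rd A B p i j (A.e i y) = B.e j (p y) := by
      show B.e j (p ((A.e i).symm (A.e i y))) = _
      rw [(A.e i).left_inv hys]
    have h6 : rd A B p i j (A.e i x) = B.e j (p x) := by
      show B.e j (p ((A.e i).symm (A.e i x))) = _
      rw [(A.e i).left_inv hi]
    rw [← h5, ← h6, h2]
  exact (B.e j).injOn h3 hj h4

theorem const_of_dr [PreconnectedSpace M] {p : M → N} (hp : HolMap A B p)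
    (h : ∀ i j x, x ∈ (A.e i).source → p x ∈ (B.e j).source → dr A B p i j x = 0) (x y : M) :
    p x = p y :=
  (locConst_of_dr hp h).apply_eq_of_isPreconnected isPreconnected_univ trivial trivial

end const

variable {n n' : ℕ} {M M' : Type} [TopologicalSpace M] [TopologicalSpace M'] {A : Atl n M}
  {A' : Atl n' M'} {S : Spl A} {S' : Spl A'} {r s r' s' : ℕ}

/-- `f` preserves the splittings -/
structure Pres (S : Spl A) (S' : Spl A') (f : M → M') : Prop where
  hol : HolMap A A' f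
  im : ∀ {i : A.ι} {i' : A'.ι} {x : M}, x ∈ (A.e i).source → f x ∈ (A'.e i').source →
    ∀ v, toC (S.P i x) v = v → toC (S'.P i' (f x)) (dr A A' f i i' x v) = dr A A' f i i' x v
  ke : ∀ {i : A.ι} {i' : A'.ι} {x : M}, x ∈ (A.e i).source → f x ∈ (A'.e i').source →
    ∀ v, toC (S.P i x) v = 0 → toC (S'.P i' (f x)) (dr A A' f i i' x v) = 0

/-- matrix criterion -/
theorem Pres.of_matrix {f : M → M'} (hf : HolMap A A' f)
    (h : ∀ i i' x, x ∈ (A.e i).source → f x ∈ (A'.e i').source →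
      S'.P i' (f x) * Jp A A' f i i' x = Jp A A' f i i' x * S.P i x) : Pres S S' f := by
  have key : ∀ {i : A.ι} {i' : A'.ι} {x : M}, x ∈ (A.e i).source → f x ∈ (A'.e i').source →
      ∀ v, toC (S'.P i' (f x)) (dr A A' f i i' x v) = dr A A' f i i' x (toC (S.P i x) v) := by
    intro i i' x hx hx' v
    have h1 := h i i' x hx hx'
    rw [Jp_eq_dr] at h1
    ext b
    rw [toC_apply, mt_apply]
    have h2 : ∀ a, (dr A A' f i i' x v) a = ∑ c, mt (dr A A' f i i' x) a c * v c :=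
      fun a => mt_apply _ _ _
    have h3 : ∀ a, (toC (S.P i x) v) a = ∑ c, S.P i x a c * v c := fun a => toC_apply _ _ _
    simp only [h2, h3, Finset.mul_sum]
    rw [Finset.sum_comm]
    conv_rhs => rw [Finset.sum_comm]
    refine Finset.sum_congr rfl fun c _ => ?_
    have h4 := congrFun (congrFun h1 b) c
    rw [Matrix.mul_apply, Matrix.mul_apply] at h4
    simp only [← mul_assoc, ← Finset.sum_mul]
    rw [h4]
  refine ⟨hf, fun hx hx' v hv => ?_, fun hx hx' v hv => ?_⟩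
  · rw [key hx hx', hv]
  · rw [key hx hx', hv, map_zero]

namespace Dec

variable (D : Dec S r s) (D' : Dec S' r' s') {f : M → M'}

/-- the second component of `Φ' ∘ f` only depends on the second component -/
theorem snd_eq (hf : Pres S S' f) (y y' : D.Y₁) (z : D.Y₂) :
    (D'.Φ (f (D.Φ.symm (y, z)))).2 = (D'.Φ (f (D.Φ.symm (y', z)))).2 := by
  have h1 : HolMap D.B₁ A (D.in₁ z) := D.holIn₁ z
  have h2 : HolMap D.B₁ A' (fun y => f (D.in₁ z y)) := hf.hol.comp h1
  have h3 : HolMap D.B₁ D'.B₂ (fun y => (D'.Φ (f (D.in₁ z y))).2) := D'.hol₂.comp h2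
  refine const_of_dr h3 (fun i j y hy hj => ?_) y y'
  obtain ⟨a, ha⟩ := A.cover (D.in₁ z y)
  obtain ⟨a', ha'⟩ := A'.cover (f (D.in₁ z y))
  ext1 v
  rw [dr_comp (q := fun x => (D'.Φ x).2) (p := fun y => f (D.in₁ z y)) D'.hol₂ h2 hy ha' hj v,
    dr_comp (q := f) (p := D.in₁ z) hf.hol h1 hy ha ha' v]
  exact D'.tan₂ ha' hj _ (hf.im ha ha' _ (D.in₁_tan z hy ha v))

/-- the first component of `Φ' ∘ f` only depends on the first component -/
theorem fst_eq (hf : Pres S S' f) (y : D.Y₁) (z z' : D.Y₂) :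
    (D'.Φ (f (D.Φ.symm (y, z)))).1 = (D'.Φ (f (D.Φ.symm (y, z')))).1 := by
  have h1 : HolMap D.B₂ A (D.in₂ y) := D.holIn₂ y
  have h2 : HolMap D.B₂ A' (fun z => f (D.in₂ y z)) := hf.hol.comp h1
  have h3 : HolMap D.B₂ D'.B₁ (fun z => (D'.Φ (f (D.in₂ y z))).1) := D'.hol₁.comp h2
  refine const_of_dr h3 (fun i j z hz hj => ?_) z z'
  obtain ⟨a, ha⟩ := A.cover (D.in₂ y z)
  obtain ⟨a', ha'⟩ := A'.cover (f (D.in₂ y z))
  ext1 v
  rw [dr_comp (q := fun x => (D'.Φ x).1) (p := fun z => f (D.in₂ y z)) D'.hol₁ h2 hz ha' hj v,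
    dr_comp (q := f) (p := D.in₂ y) hf.hol h1 hz ha ha' v]
  exact D'.tan₁ ha' hj _ (hf.ke ha ha' _ (D.in₂_tan y hz ha v))

/-- base points of the factors -/
def o₁ : D.Y₁ := Classical.arbitrary D.Y₁

def o₂ : D.Y₂ := Classical.arbitrary D.Y₂

/-- the first component of a map preserving the splittings -/
def f₁' (f : M → M') (y : D.Y₁) : D'.Y₁ := (D'.Φ (f (D.Φ.symm (y, D.o₂)))).1

/-- the second component -/
def f₂' (f : M → M') (z : D.Y₂) : D'.Y₂ := (D'.Φ (f (D.Φ.symm (D.o₁, z)))).2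

theorem map_eq (hf : Pres S S' f) (x : M) :
    D'.Φ (f x) = (D.f₁' D' f (D.Φ x).1, D.f₂' D' f (D.Φ x).2) := by
  have h1 := D.fst_eq D' hf (D.Φ x).1 (D.Φ x).2 D.o₂
  have h2 := D.snd_eq D' hf (D.Φ x).1 D.o₁ (D.Φ x).2
  have h3 : D.Φ.symm ((D.Φ x).1, (D.Φ x).2) = x := D.Φ.symm_apply_apply x
  rw [h3] at h1 h2
  exact Prod.ext h1 h2

theorem hol_f₁ (hf : Pres S S' f) : HolMap D.B₁ D'.B₁ (D.f₁' D' f) :=
  D'.hol₁.comp (hf.hol.comp (D.holIn₁ D.o₂))


/-- uniqueness of the components -/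
theorem f₁_unique (hf : Pres S S' f) {g₁ : D.Y₁ → D'.Y₁} {g₂ : D.Y₂ → D'.Y₂}
    (h : ∀ x, D'.Φ (f x) = (g₁ (D.Φ x).1, g₂ (D.Φ x).2)) : D.f₁' D' f = g₁ := by
  funext y
  have h1 := D.map_eq D' hf (D.Φ.symm (y, D.o₂))
  rw [h, D.Φ.apply_symm_apply] at h1
  exact (congrArg Prod.fst h1).symm

theorem f₂_unique (hf : Pres S S' f) {g₁ : D.Y₁ → D'.Y₁} {g₂ : D.Y₂ → D'.Y₂}
    (h : ∀ x, D'.Φ (f x) = (g₁ (D.Φ x).1, g₂ (D.Φ x).2)) : D.f₂' D' f = g₂ := by
  funext y
  have h1 := D.map_eq D' hf (D.Φ.symm (D.o₁, y))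
  rw [h, D.Φ.apply_symm_apply] at h1
  exact (congrArg Prod.snd h1).symm

end Dec

/-! ### group actions -/

section action

variable (D : Dec S r s) {G : Type*} [Group G] [MulAction G M]

/-- the group preserves the splitting -/
def PresG (S : Spl A) (G : Type*) [Group G] [MulAction G M] : Prop :=
  ∀ g : G, Pres S S (fun x : M => g • x)

variable {D}

theorem Dec.one₁ (hG : PresG S G) : D.f₁' D (fun x => (1 : G) • x) = id :=
  D.f₁_unique D (hG 1) (g₁ := id) (g₂ := id) fun x => by simp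

theorem Dec.one₂ (hG : PresG S G) : D.f₂' D (fun x => (1 : G) • x) = id :=
  D.f₂_unique D (hG 1) (g₁ := id) (g₂ := id) fun x => by simp

theorem Dec.mul_eq (hG : PresG S G) (g h : G) (x : M) : D.Φ ((g * h) • x) =
    (D.f₁' D (fun x => g • x) (D.f₁' D (fun x => h • x) (D.Φ x).1),
      D.f₂' D (fun x => g • x) (D.f₂' D (fun x => h • x) (D.Φ x).2)) := by
  rw [mul_smul, D.map_eq D (hG g) (h • x), D.map_eq D (hG h) x]

variable (D)

/-- the action on the first factor -/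
@[reducible] def Dec.act₁ (hG : PresG S G) : MulAction G D.Y₁ where
  smul g y := D.f₁' D (fun x => g • x) y
  one_smul y := congrFun (Dec.one₁ (D := D) hG) y
  mul_smul g h y := congrFun (D.f₁_unique D (hG (g * h))
    (g₁ := fun y => D.f₁' D (fun x => g • x) (D.f₁' D (fun x => h • x) y))
    (g₂ := fun y => D.f₂' D (fun x => g • x) (D.f₂' D (fun x => h • x) y))
    (Dec.mul_eq hG g h)) y

/-- the action on the second factor -/
@[reducible] def Dec.act₂ (hG : PresG S G) : MulAction G D.Y₂ where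
  smul g y := D.f₂' D (fun x => g • x) y
  one_smul y := congrFun (Dec.one₂ (D := D) hG) y
  mul_smul g h y := congrFun (D.f₂_unique D (hG (g * h))
    (g₁ := fun y => D.f₁' D (fun x => g • x) (D.f₁' D (fun x => h • x) y))
    (g₂ := fun y => D.f₂' D (fun x => g • x) (D.f₂' D (fun x => h • x) y))
    (Dec.mul_eq hG g h)) y

theorem Dec.act_eq (hG : PresG S G) (g : G) (x : M) :
    letI := D.act₁ hG
    letI := D.act₂ hG
    D.Φ (g • x) = (g • (D.Φ x).1, g • (D.Φ x).2) :=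
  D.map_eq D (hG g) x

theorem Dec.hol_act₁ (hG : PresG S G) (g : G) :
    letI := D.act₁ hG
    HolMap D.B₁ D.B₁ (fun y => g • y) :=
  D.hol_f₁ D (hG g)


end action

end

end Crest.Agent.R273.SplA_836
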