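import Crest.Agent.R275.Core_144
import Crest.Agent.R275.GeoHol_912
import Crest.Agent.R275.Del_75

/-!
# R273 (S0416), Part C, PI-END (E1) (helper836)

A locally constant real cocycle on the charts of a compact connected `M` which is not a
coboundary of locally constant functions gives a `∂̄`-closed `(0,1)`-form which is not `∂̄`-exact.

* `LC U f`     : `f` is locally constant at the points of `U`;
* `ZCoc A`     : real valued locally constant cocycles; `ZCoc.Cob` : coboundaries;
* `ZCoc.prim`  : smooth primitive `f i = ∑ ψ k * c i k`;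
* `ZCoc.cob_of_exact` : if `∂̄ f i = ∂̄ g` on all charts with a global smooth `g`, then `Cob`.
-/

set_option autoImplicit false
set_option linter.unusedSectionVars false

open Set Filter Topology Complex
open scoped ContDiff Matrix ComplexConjugate

namespace Crest.Agent.R273.PiEnd_836

open Crest.Agent.R275.Geo Crest.Agent.R275.OmT75 Crest.Agent.R275.Core144
open Crest.Agent.R275.GeoHol912

noncomputable section

variable {n : ℕ} {M : Type} [TopologicalSpace M] {A : Atl n M}

/-- locally constant at the points of `U` -/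
def LC (U : Set M) (f : M → ℝ) : Prop := ∀ x ∈ U, ∀ᶠ y in 𝓝 x, f y = f x

theorem LC.sub {U : Set M} {f g : M → ℝ} (hf : LC U f) (hg : LC U g) :
    LC U (fun x => f x - g x) := by
  intro x hx
  filter_upwards [hf x hx, hg x hx] with y h1 h2
  rw [h1, h2]

theorem LC.mono {U V : Set M} {f : M → ℝ} (hf : LC U f) (h : V ⊆ U) : LC V f :=
  fun x hx => hf x (h hx)

/-- real valued locally constant cocycles on the chart domains -/
structure ZCoc (A : Atl n M) where
  c : A.ι → A.ι → M → ℝ
  lc : ∀ i j, LC ((A.e i).source ∩ (A.e j).source) (c i j)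
  mul : ∀ i j k, ∀ x ∈ (A.e i).source ∩ (A.e j).source ∩ (A.e k).source,
    c i j x + c j k x = c i k x


theorem tsupport_ψ_sub (P : Part A) (k : A.ι) : tsupport (P.ψ k) ⊆ (A.e k).source := by
  intro x hx
  have h1 := (P.χ_one k x hx).self_of_nhds
  refine P.χ_sub k (subset_tsupport _ ?_)
  rw [Function.mem_support, h1]
  exact one_ne_zero

theorem ψ_zero (P : Part A) {k : A.ι} {x : M} (hx : x ∉ (A.e k).source) : P.ψ k x = 0 :=
  image_eq_zero_of_notMem_tsupport fun h => hx (tsupport_ψ_sub P k h)

variable [Finite A.ι]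

open Classical in
/-- smooth primitive of a cocycle -/
def ZCoc.prim (C : ZCoc A) (P : Part A) (i : A.ι) (x : M) : ℝ :=
  letI := Fintype.ofFinite A.ι
  ∑ k, P.ψ k x * C.c i k x

theorem sum_ψ (P : Part A) (x : M) :
    letI := Fintype.ofFinite A.ι
    ∑ k, P.ψ k x = 1 := by
  let _ := Fintype.ofFinite A.ι
  have := P.sum_one x
  rw [finsum_eq_sum_of_fintype] at this
  exact this

theorem ZCoc.prim_sub (C : ZCoc A) (P : Part A) (i j : A.ι) {x : M}
    (hx : x ∈ (A.e i).source ∩ (A.e j).source) : C.prim P i x - C.prim P j x = C.c i j x := by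
  letI := Fintype.ofFinite A.ι
  unfold ZCoc.prim
  rw [← Finset.sum_sub_distrib]
  have h1 : ∀ k, P.ψ k x * C.c i k x - P.ψ k x * C.c j k x = P.ψ k x * C.c i j x := by
    intro k
    by_cases hk : x ∈ (A.e k).source
    · have := C.mul i j k x ⟨hx, hk⟩
      rw [← this]; ring
    · simp [ψ_zero P hk]
  rw [Finset.sum_congr rfl fun k _ => h1 k, ← Finset.sum_mul, sum_ψ P x, one_mul]

theorem ZCoc.prim_sm (C : ZCoc A) (P : Part A) (i : A.ι) : A.SmAt i (C.prim P i) := by
  letI := Fintype.ofFinite A.ι
  unfold ZCoc.prim Atl.SmAt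
  refine ContDiffOn.sum fun k _ => ?_
  intro z hz
  have hzs : (A.e i).symm z ∈ (A.e i).source := (A.e i).map_target hz
  have hcont : ContinuousAt (A.e i).symm z := (A.e i).continuousAt_symm hz
  have hψ : ContDiffAt ℝ ∞ (fun w => P.ψ k ((A.e i).symm w)) z :=
    (P.ψ_sm k i).contDiffAt ((A.e i).open_target.mem_nhds hz)
  by_cases hk : (A.e i).symm z ∈ (A.e k).source
  · have h1 := C.lc i k _ ⟨hzs, hk⟩
    have h2 : (fun w => P.ψ k ((A.e i).symm w) * C.c i k ((A.e i).symm w)) =ᶠ[𝓝 z]
        fun w => P.ψ k ((A.e i).symm w) * C.c i k ((A.e i).symm z) := by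
      filter_upwards [hcont.eventually h1] with w hw
      rw [hw]
    exact ((hψ.mul contDiffAt_const).congr_of_eventuallyEq h2).contDiffWithinAt
  · have h3 : (A.e i).symm z ∉ tsupport (P.ψ k) := fun h => hk (tsupport_ψ_sub P k h)
    have h4 : ∀ᶠ y in 𝓝 ((A.e i).symm z), P.ψ k y = 0 :=
      (notMem_tsupport_iff_eventuallyEq.1 h3)
    have h2 : (fun w => P.ψ k ((A.e i).symm w) * C.c i k ((A.e i).symm w)) =ᶠ[𝓝 z]
        fun _ => (0 : ℝ) := by
      filter_upwards [hcont.eventually h4] with w hw
      rw [hw, zero_mul]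
    exact (contDiffAt_const.congr_of_eventuallyEq h2).contDiffWithinAt



end

end Crest.Agent.R273.PiEnd_836
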