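import Crest.Agent.R273.HFlow3_376

-- ▼ part R273/HFlow4_376
section

/-!
# R273 (S0416), HFLOW (helper376), file 4: the global flow of a holomorphic vector field on a compact
manifold, jointly holomorphic; uniqueness; equivariance of maps.
-/

set_option autoImplicit false
set_option linter.unusedSectionVars false

open Set Metric Filter Topology Complex Function
open scoped NNReal ContDiff

namespace Crest.Agent.R273.HFlow4_376

open Crest.Agent.R275.Geo Crest.Agent.R273.HFlow2_376 Crest.Agent.R273.HFlow3_376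

noncomputable section

variable {n m l : ℕ} {M M' M'' : Type} [TopologicalSpace M] [TopologicalSpace M']
  [TopologicalSpace M''] {A : Atl n M} {B : Atl m M'} {C : Atl l M''}

/-- `φ` is a local flow near `x` for `|t| < ε` -/
def LocF (V : HVF A) (ε : ℝ) (x : M) (N : Set M) (φ : ℂ → M → M) : Prop :=
  IsOpen N ∧ x ∈ N ∧ (∀ y ∈ N, φ 0 y = y) ∧
    (∀ y ∈ N, ∀ t ∈ ball (0 : ℂ) ε, IntAt V (fun s => φ s y) t) ∧
      ∀ t ∈ ball (0 : ℂ) ε, ∀ y ∈ N, HolP A A φ t y

theorem LocF.mono {V : HVF A} {ε δ : ℝ} {x : M} {N : Set M} {φ : ℂ → M → M}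
    (h : LocF V ε x N φ) (hδ : δ ≤ ε) : LocF V δ x N φ :=
  ⟨h.1, h.2.1, h.2.2.1, fun y hy t ht => h.2.2.2.1 y hy t (ball_subset_ball hδ ht),
    fun t ht y hy => h.2.2.2.2 t (ball_subset_ball hδ ht) y hy⟩

/-- uniform time of existence on a compact set -/
theorem exists_unif (V : HVF A) {K : Set M} (hK : IsCompact K) :
    ∃ ε > 0, ∀ x ∈ K, ∃ N φ, LocF V ε x N φ := by
  refine IsCompact.induction_on (p := fun U => ∃ ε > 0, ∀ x ∈ U, ∃ N φ, LocF V ε x N φ)
    hK ⟨1, one_pos, fun x hx => absurd hx (notMem_empty x)⟩ ?_ ?_ ?_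
  · rintro s t hst ⟨ε, hε, h⟩
    exact ⟨ε, hε, fun x hx => h x (hst hx)⟩
  · rintro s t ⟨ε, hε, h⟩ ⟨δ, hδ, h'⟩
    refine ⟨min ε δ, lt_min hε hδ, fun x hx => ?_⟩
    rcases hx with hx | hx
    · obtain ⟨N, φ, hh⟩ := h x hx
      exact ⟨N, φ, hh.mono (min_le_left _ _)⟩
    · obtain ⟨N, φ, hh⟩ := h' x hx
      exact ⟨N, φ, hh.mono (min_le_right _ _)⟩
  · intro x _
    obtain ⟨ε, hε, N, φ, hN, hx, h0, h1, h2⟩ := exists_locFlow V x
    exact ⟨N, mem_nhdsWithin_of_mem_nhds (hN.mem_nhds hx), ε, hε,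
      fun y hy => ⟨N, φ, hN, hy, h0, h1, h2⟩⟩

/-- the flow of a holomorphic vector field -/
structure Flow (V : HVF A) where
  Φ : ℂ → M → M
  zero : ∀ x, Φ 0 x = x
  add : ∀ s t x, Φ (s + t) x = Φ s (Φ t x)
  int : ∀ x t, IntAt V (fun s => Φ s x) t
  hol : ∀ t x, HolP A A Φ t x

theorem locAct [T2Space M] {V : HVF A} {ε : ℝ} (hε : 0 < ε)
    (N : M → Set M) (φ : M → ℂ → M → M) (h : ∀ x, LocF V ε x (N x) (φ x)) :
    (∀ x, ∀ y ∈ N x, ∀ t ∈ ball (0 : ℂ) ε, φ y t y = φ x t y) ∧
    LocAct ε (fun t x => φ x t x) := by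
  have h1 : ∀ x, ∀ y ∈ N x, ∀ t ∈ ball (0 : ℂ) ε, φ y t y = φ x t y := by
    intro x y hy t ht
    refine unique_on (V := V) isOpen_ball (convex_ball (0 : ℂ) ε).isPreconnected
      (γ := fun s => φ y s y) (γ' := fun s => φ x s y) ((h y).2.2.2.1 y (h y).2.1)
      ((h x).2.2.2.1 y hy) (mem_ball_self hε) ?_ ht
    simp only [(h y).2.2.1 y (h y).2.1, (h x).2.2.1 y hy]
  refine ⟨h1, hε, fun x => (h x).2.2.1 x (h x).2.1, ?_⟩
  intro s t x hs ht hst
  -- `u ↦ S u (S t x)` and `u ↦ S (u + t) x`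
  set y := φ x t x with hy
  have hD : IsOpen (ball (0 : ℂ) ε ∩ ball (-t) ε) := isOpen_ball.inter isOpen_ball
  have hDc : IsPreconnected (ball (0 : ℂ) ε ∩ ball (-t) ε) :=
    ((convex_ball (0 : ℂ) ε).inter (convex_ball (-t) ε)).isPreconnected
  have ht0 : ‖t‖ < ε := ht
  have hmem0 : (0 : ℂ) ∈ ball (0 : ℂ) ε ∩ ball (-t) ε :=
    ⟨mem_ball_self hε, by rw [mem_ball, dist_eq_norm]; simpa using ht0⟩
  have hmems : s ∈ ball (0 : ℂ) ε ∩ ball (-t) ε :=
    ⟨by simpa using hs, by rw [mem_ball, dist_eq_norm]; simpa using hst⟩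
  refine unique_on (V := V) hD hDc (γ := fun u => φ y u y) (γ' := fun u => φ x (u + t) x)
    (fun u hu => (h y).2.2.2.1 y (h y).2.1 u hu.1) (fun u hu => ?_) hmem0 ?_ hmems
  · refine IntAt.shift (γ := fun u => φ x u x) ((h x).2.2.2.1 x (h x).2.1 (u + t) ?_)
    have := hu.2
    rw [mem_ball, dist_eq_norm] at this
    simpa using this
  · change φ y 0 y = φ x (0 + t) x
    rw [(h y).2.2.1 y (h y).2.1, zero_add]

/-- **global flow** of a holomorphic vector field which has local flows on a uniform disc -/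
theorem exists_flow_of_unif [T2Space M] (V : HVF A) {ε : ℝ} (hε : 0 < ε)
    (h0 : ∀ x, ∃ N φ, LocF V ε x N φ) : Nonempty (Flow V) := by
  choose N φ h using h0
  obtain ⟨h1, hS⟩ := locAct hε N φ h
  set S : ℂ → M → M := fun t x => φ x t x with hSdef
  -- holomorphy of `S`
  have hSh : ∀ t ∈ ball (0 : ℂ) ε, ∀ x, HolP A A S t x := by
    intro t ht x
    refine ((h x).2.2.2.2 t ht x (h x).2.1).congr ?_
    have e1 : ∀ᶠ q : ℂ × M in 𝓝 (t, x), q.1 ∈ ball (0 : ℂ) ε :=
      (continuous_fst.tendsto (t, x)).eventually (isOpen_ball.mem_nhds ht)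
    have e2 : ∀ᶠ q : ℂ × M in 𝓝 (t, x), q.2 ∈ N x :=
      (continuous_snd.tendsto (t, x)).eventually ((h x).1.mem_nhds (h x).2.1)
    filter_upwards [e1, e2] with q hq1 hq2
    exact (h1 x q.2 hq2 q.1 hq1).symm
  have hint : ∀ x, IntAt V (fun s => S s x) 0 := fun x =>
    (h x).2.2.2.1 x (h x).2.1 0 (mem_ball_self hε)
  have hglob : ∀ t (x : M), HolP A A (glob ε S) t x := by
    intro t0 x
    obtain ⟨K, hK⟩ := exists_nat_gt (‖t0‖ / ε)
    have hK0 : K ≠ 0 := by
      rintro rfl
      have : (0 : ℝ) ≤ ‖t0‖ / ε := div_nonneg (norm_nonneg _) hε.le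
      simp only [Nat.cast_zero] at hK
      linarith
    have hev : ∀ᶠ t in 𝓝 t0, ‖t‖ / ε < K :=
      ((continuous_norm.div_const ε).tendsto t0).eventually (gt_mem_nhds hK)
    have h2 : HolP A A (fun (t : ℂ) (x : M) => (S ((1 / (K : ℝ)) • t))^[K] x) t0 x := by
      refine HolP.mul_iterate (F := fun t x => S ((1 / (K : ℝ)) • t) x) (fun y => ?_) K x
      refine HolP.comp_param (F := S) (f := fun t : ℂ => (1 / (K : ℝ)) • t) (hSh _ ?_ y) (by fun_prop)
      simpa using hS.norm_lt_of_le hK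
    refine h2.congr ?_
    have e1 : ∀ᶠ q : ℂ × M in 𝓝 (t0, x), ‖q.1‖ / ε < K :=
      (continuous_fst.tendsto (t0, x)).eventually hev
    filter_upwards [e1] with q hq
    exact (congrFun (hS.glob_eq hK0 (hS.norm_lt_of_le hq)) q.2).symm
  refine ⟨⟨glob ε S, fun x => by rw [hS.glob_zero]; rfl,
    fun s t x => by rw [hS.glob_add]; rfl, ?_, hglob⟩⟩
  intro x t
  have h2 : IntAt V (fun s => S (s + -t) (glob ε S t x)) t := by
    refine IntAt.shift (γ := fun s => S s (glob ε S t x)) ?_
    rw [add_neg_cancel]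
    exact hint _
  refine h2.congr ?_
  have e1 : ∀ᶠ s in 𝓝 t, ‖s + -t‖ < ε := by
    have : ContinuousAt (fun s : ℂ => ‖s + -t‖) t := by fun_prop
    refine this.eventually (gt_mem_nhds ?_)
    simpa using hε
  filter_upwards [e1] with s hs
  rw [← congrFun (hS.glob_of_lt hs) (glob ε S t x)]
  have := congrFun (hS.glob_add (s + -t) t) x
  rw [neg_add_cancel_right] at this
  exact this.symm

/-- **global flow** of a holomorphic vector field on a compact manifold -/
theorem exists_flow [T2Space M] [CompactSpace M] (V : HVF A) : Nonempty (Flow V) := by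
  obtain ⟨ε, hε, h0⟩ := exists_unif V isCompact_univ
  exact exists_flow_of_unif V hε fun x => h0 x (mem_univ x)

namespace Flow

variable {V : HVF A}

/-- the flow -/
def of [T2Space M] [CompactSpace M] (V : HVF A) : Flow V := (exists_flow V).some

variable (F : Flow V)

theorem neg_left (t : ℂ) (x : M) : F.Φ (-t) (F.Φ t x) = x := by
  rw [← F.add, neg_add_cancel, F.zero]

theorem neg_right (t : ℂ) (x : M) : F.Φ t (F.Φ (-t) x) = x := by
  rw [← F.add, add_neg_cancel, F.zero]

theorem holM (t : ℂ) : HolM A A (F.Φ t) := HolP.slice fun x => F.hol t x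

theorem continuous_uncurry : Continuous (uncurry F.Φ) :=
  continuous_iff_continuousAt.2 fun p => (F.hol p.1 p.2).cont

/-- the time `t` map as a homeomorphism -/
def homeo (t : ℂ) : M ≃ₜ M where
  toFun := F.Φ t
  invFun := F.Φ (-t)
  left_inv x := F.neg_left t x
  right_inv x := F.neg_right t x
  continuous_toFun := (F.holM t).continuous
  continuous_invFun := (F.holM (-t)).continuous

theorem unique [T2Space M] {γ : ℂ → M} (hγ : ∀ t, IntAt V γ t) (t : ℂ) :
    γ t = F.Φ t (γ 0) :=
  unique_on (V := V) isOpen_univ isPreconnected_univ (fun s _ => hγ s)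
    (γ' := fun s => F.Φ s (γ 0)) (fun s _ => F.int (γ 0) s) (mem_univ 0)
    (by simp only [F.zero]) (mem_univ t)

end Flow

/-- the fields `V`, `W` are related by the holomorphic map `f` -/
def Related (V : HVF A) (W : HVF B) (f : M → M') : Prop :=
  HolM A B f ∧ ∀ i j, ∀ x ∈ (A.e i).source, f x ∈ (B.e j).source →
    fderiv ℂ (fun z => B.e j (f ((A.e i).symm z))) (A.e i x) (V.X i x) = W.X j (f x)

theorem Related.intAt {V : HVF A} {W : HVF B} {f : M → M'} (h : Related V W f) {γ : ℂ → M}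
    {t : ℂ} (hγ : IntAt V γ t) : IntAt W (fun s => f (γ s)) t := by
  obtain ⟨i, hi⟩ := A.cover (γ t)
  obtain ⟨j, hj⟩ := B.cover (f (γ t))
  refine ⟨(h.1.continuous.continuousAt).comp hγ.cont, j, hj, ?_⟩
  have h1 := (h.1.diff hi hj).hasFDerivAt.comp_hasDerivAt t (hγ.chart hi)
  rw [h.2 i j _ hi hj] at h1
  refine h1.congr_of_eventuallyEq ?_
  filter_upwards [hγ.cont ((A.e i).open_source.mem_nhds hi)] with s hs
  simp [(A.e i).left_inv hs]

/-- transport of local flows by an automorphism preserving the field -/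
theorem LocF.conj {V : HVF A} {ε : ℝ} {x : M} {N : Set M} {φ : ℂ → M → M}
    (h : LocF V ε x N φ) (g : M ≃ₜ M) (hg : Related V V g) (hg' : HolM A A g.symm) :
    LocF V ε (g x) (g.symm ⁻¹' N) (fun t y => g (φ t (g.symm y))) := by
  obtain ⟨hN, hx, h0, h1, h2⟩ := h
  refine ⟨hN.preimage g.symm.continuous, by simpa using hx, fun y hy => ?_, fun y hy t ht => ?_,
    fun t ht y hy => ?_⟩
  · simp [h0 _ hy]
  · exact hg.intAt (h1 _ hy t ht)
  · exact HolP.comp (G := fun _ => g) (F := fun t y => φ t (g.symm y)) (hg.1.toP t _)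
      (HolP.comp (G := φ) (F := fun _ => g.symm) (h2 t ht _ hy) (hg'.toP t y))

/-- global flow on a manifold with a cocompact group of automorphisms preserving the field -/
theorem exists_flow_of_cocompact [T2Space M] (V : HVF A) {K : Set M} (hK : IsCompact K)
    (h : ∀ x, ∃ g : M ≃ₜ M, Related V V g ∧ HolM A A g.symm ∧ g.symm x ∈ K) :
    Nonempty (Flow V) := by
  obtain ⟨ε, hε, h0⟩ := exists_unif V hK
  refine exists_flow_of_unif V hε fun x => ?_
  obtain ⟨g, hg, hg', hgx⟩ := h x
  obtain ⟨N, φ, hh⟩ := h0 _ hgx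
  have := hh.conj g hg hg'
  rw [g.apply_symm_apply] at this
  exact ⟨_, _, this⟩

/-- flows of related fields are intertwined -/
theorem Related.flow [T2Space M'] {V : HVF A} {W : HVF B} {f : M → M'} (h : Related V W f)
    (F : Flow V) (G : Flow W) (t : ℂ) (x : M) : f (F.Φ t x) = G.Φ t (f x) := by
  have := G.unique (γ := fun s => f (F.Φ s x)) (fun s => h.intAt (F.int x s)) t
  simpa [F.zero] using this

end

end Crest.Agent.R273.HFlow4_376
end

-- ▼ part R273/HFlow5_376
section

/-!
# R273 (S0416), HFLOW (helper376), file 5: tangent maps in charts; commuting holomorphic vector fields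
have commuting flows.
-/

set_option autoImplicit false
set_option linter.unusedSectionVars false

open Set Metric Filter Topology Complex Function
open scoped NNReal ContDiff

namespace Crest.Agent.R273.HFlow5_376

open Crest.Agent.R275.Geo Crest.Agent.R273.HFlow3_376 Crest.Agent.R273.HFlow4_376

noncomputable section

/-! ### calculus -/

section Calc

variable {P E G : Type} [NormedAddCommGroup P] [NormedSpace ℂ P]
  [NormedAddCommGroup E] [NormedSpace ℂ E] [NormedAddCommGroup G] [NormedSpace ℂ G]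

theorem fderiv_slice {ψ : P × E → G} {s : P} {z : E} (h : DifferentiableAt ℂ ψ (s, z)) (w : E) :
    fderiv ℂ (fun z => ψ (s, z)) z w = fderiv ℂ ψ (s, z) (0, w) := by
  have h1 : HasFDerivAt (fun z : E => (s, z)) (ContinuousLinearMap.inr ℂ P E) z :=
    hasFDerivAt_prodMk_right s z
  have h2 := h.hasFDerivAt.comp z h1
  rw [show (fun z => ψ (s, z)) = ψ ∘ fun z : E => (s, z) from rfl, h2.fderiv]
  simp

theorem hasDerivAt_slice {ψ : ℂ × E → G} {s : ℂ} {z : E} (h : DifferentiableAt ℂ ψ (s, z)) :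
    HasDerivAt (fun s => ψ (s, z)) (fderiv ℂ ψ (s, z) (1, 0)) s := by
  have h1 : HasFDerivAt (fun s : ℂ => (s, z)) (ContinuousLinearMap.inl ℂ ℂ E) s :=
    hasFDerivAt_prodMk_left s z
  have h2 := (h.hasFDerivAt.comp s h1).hasDerivAt
  simp only [ContinuousLinearMap.coe_comp, comp_apply, ContinuousLinearMap.inl_apply] at h2
  exact h2

/-- uniqueness for linear equations -/
theorem lin_unique [FiniteDimensional ℂ E] {L : ℂ → E →L[ℂ] E} {s0 : ℂ} {u y : ℂ → E}
    (hL : ∀ᶠ s in 𝓝 s0, DifferentiableAt ℂ L s)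
    (hu : ∀ᶠ s in 𝓝 s0, HasDerivAt u (L s (u s)) s)
    (hy : ∀ᶠ s in 𝓝 s0, HasDerivAt y (L s (y s)) s) (h0 : u s0 = y s0) :
    ∀ᶠ s in 𝓝 s0, u s = y s := by
  obtain ⟨S, hS, hSo, hs0⟩ := _root_.eventually_nhds_iff.1 hL
  have hX : DifferentiableOn ℂ (fun p : ℂ × E => ((1 : ℂ), L p.1 p.2)) (S ×ˢ univ) := by
    intro p hp
    have h1 : DifferentiableAt ℂ (fun p : ℂ × E => L p.1) p :=
      (hS p.1 hp.1).comp p differentiableAt_fst
    exact ((differentiableAt_const _).prodMk
      (h1.clm_apply differentiableAt_snd)).differentiableWithinAt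
  have key := HFlow1_376.unique_nhds (hSo.prod isOpen_univ) hX (γ := fun s => (s, u s))
    (γ' := fun s => (s, y s)) (t0 := s0) ⟨hs0, mem_univ _⟩ ?_ ?_ (by simp [h0])
  · filter_upwards [key] with s hs
    exact (Prod.ext_iff.1 hs).2
  · filter_upwards [hu] with s hs
    exact (hasDerivAt_id s).prodMk hs
  · filter_upwards [hy] with s hs
    exact (hasDerivAt_id s).prodMk hs

/-- the derivative of the differential of a flow -/
theorem hasDerivAt_fderiv_flow [FiniteDimensional ℂ E] {ψ : ℂ × E → E} {X : E → E} {s : ℂ} {z : E}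
    (hψ : AnalyticAt ℂ ψ (s, z)) (hX : DifferentiableAt ℂ X (ψ (s, z)))
    (hd : ∀ᶠ q in 𝓝 (s, z), fderiv ℂ ψ q (1, 0) = X (ψ q)) (w : E) :
    HasDerivAt (fun s => fderiv ℂ ψ (s, z) (0, w))
      (fderiv ℂ X (ψ (s, z)) (fderiv ℂ ψ (s, z) (0, w))) s := by
  have h1 : DifferentiableAt ℂ (fderiv ℂ ψ) (s, z) := hψ.fderiv.differentiableAt
  have h2 : HasDerivAt (fun s => fderiv ℂ ψ (s, z)) (fderiv ℂ (fderiv ℂ ψ) (s, z) (1, 0)) s :=
    hasDerivAt_slice h1
  have h3 : HasDerivAt (fun s => fderiv ℂ ψ (s, z) (0, w))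
      (fderiv ℂ (fderiv ℂ ψ) (s, z) (1, 0) (0, w)) s := by
    have := h2.clm_apply (hasDerivAt_const s ((0, w) : ℂ × E))
    simpa using this
  have h4 : fderiv ℂ (fderiv ℂ ψ) (s, z) (1, 0) (0, w) =
      fderiv ℂ (fderiv ℂ ψ) (s, z) (0, w) (1, 0) :=
    (hψ.contDiffAt (n := 2)).isSymmSndFDerivAt (by simp) (1, 0) (0, w)
  have h5 : fderiv ℂ (fderiv ℂ ψ) (s, z) (0, w) (1, 0) =
      fderiv ℂ (fun q => fderiv ℂ ψ q (1, 0)) (s, z) (0, w) := by
    have := (h1.hasFDerivAt.clm_apply (hasFDerivAt_const ((1, 0) : ℂ × E) (s, z)))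
    rw [this.fderiv]
    simp
  have h6 : fderiv ℂ (fun q => fderiv ℂ ψ q (1, 0)) (s, z) =
      (fderiv ℂ X (ψ (s, z))).comp (fderiv ℂ ψ (s, z)) := by
    rw [(show (fun q => fderiv ℂ ψ q (1, 0)) =ᶠ[𝓝 (s, z)] fun q => X (ψ q) from hd).fderiv_eq]
    exact (hX.hasFDerivAt.comp (s, z) hψ.differentiableAt.hasFDerivAt).fderiv
  rw [h4, h5, h6] at h3
  exact h3

end Calc

variable {n m l : ℕ} {M M' M'' : Type} [TopologicalSpace M] [TopologicalSpace M']
  [TopologicalSpace M''] {A : Atl n M} {B : Atl m M'} {C : Atl l M''}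

/-- tangent map in the charts `i`, `j` -/
def tm (A : Atl n M) (B : Atl m M') (f : M → M') (i : A.ι) (j : B.ι) (x : M) :
    Cn n →L[ℂ] Cn m :=
  fderiv ℂ (fun z => B.e j (f ((A.e i).symm z))) (A.e i x)

theorem tm_comp {f : M → M'} {g : M' → M''} (hg : HolM B C g) (hf : HolM A B f) {i : A.ι}
    {j : B.ι} {k : C.ι} {x : M} (hi : x ∈ (A.e i).source) (hj : f x ∈ (B.e j).source)
    (hk : g (f x) ∈ (C.e k).source) :
    tm A C (g ∘ f) i k x = (tm B C g j k (f x)).comp (tm A B f i j x) := by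
  have h1 := (hf.diff hi hj).hasFDerivAt
  have h2 : HasFDerivAt (fun z => C.e k (g ((B.e j).symm z))) (tm B C g j k (f x))
      (B.e j (f ((A.e i).symm (A.e i x)))) := by
    rw [(A.e i).left_inv hi]; exact (hg.diff hj hk).hasFDerivAt
  have h3 := h2.comp (A.e i x) h1
  refine HasFDerivAt.fderiv (h3.congr_of_eventuallyEq ?_)
  have h4 : ContinuousAt (fun z => f ((A.e i).symm z)) (A.e i x) := by
    refine ContinuousAt.comp (g := f) hf.continuous.continuousAt
      ((A.e i).continuousAt_symm ((A.e i).map_source hi))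
  have h5 : ∀ᶠ z in 𝓝 (A.e i x), f ((A.e i).symm z) ∈ (B.e j).source :=
    h4 ((B.e j).open_source.mem_nhds (by simpa [(A.e i).left_inv hi] using hj))
  filter_upwards [h5] with z hz
  simp only [comp_apply]
  rw [(B.e j).left_inv hz]

theorem tm_id_self {i : A.ι} {x : M} (hi : x ∈ (A.e i).source) :
    tm A A id i i x = ContinuousLinearMap.id ℂ (Cn n) := by
  have : (fun z => A.e i (id ((A.e i).symm z))) =ᶠ[𝓝 (A.e i x)] fun z => z := by
    filter_upwards [(A.e i).open_target.mem_nhds ((A.e i).map_source hi)] with z hz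
    exact (A.e i).right_inv hz
  rw [tm, this.fderiv_eq]
  exact fderiv_fun_id

theorem HVF.tr' (V : HVF A) {i j : A.ι} {x : M} (hi : x ∈ (A.e i).source)
    (hj : x ∈ (A.e j).source) : tm A A id i j x (V.X i x) = V.X j x := (V.tr i j x ⟨hi, hj⟩).symm

/-- relation of two fields by a map, checked in one pair of charts -/
theorem rel_of_one {V : HVF A} {W : HVF B} {f : M → M'} (hf : HolM A B f) {i : A.ι} {j : B.ι}
    {x : M} (hi : x ∈ (A.e i).source) (hj : f x ∈ (B.e j).source)
    (h : tm A B f i j x (V.X i x) = W.X j (f x)) {i' : A.ι} {j' : B.ι}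
    (hi' : x ∈ (A.e i').source) (hj' : f x ∈ (B.e j').source) :
    tm A B f i' j' x (V.X i' x) = W.X j' (f x) := by
  have e1 : tm A B f i' j' x = (tm B B id j j' (f x)).comp (tm A B f i' j x) :=
    tm_comp (f := f) (g := id) holM_id hf hi' hj hj'
  have e2 : tm A B f i' j x = (tm A B f i j x).comp (tm A A id i' i x) :=
    tm_comp (f := id) (g := f) hf holM_id hi' hi hj
  rw [e1, e2]
  simp only [ContinuousLinearMap.coe_comp, comp_apply]
  rw [HVF.tr' V hi' hi, h, HVF.tr' W hj hj']

/-- jointly holomorphic near a point: analytic in charts -/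
theorem analyticAt_chart {P : Type} [NormedAddCommGroup P] [NormedSpace ℂ P]
    [FiniteDimensional ℂ P] {F : P → M → M'} {p : P} {x : M}
    (h : ∀ᶠ q : P × M in 𝓝 (p, x), HolP A B F q.1 q.2) {i : A.ι} {j : B.ι}
    (hi : x ∈ (A.e i).source) (hj : F p x ∈ (B.e j).source) :
    AnalyticAt ℂ (fun q : P × Cn n => B.e j (F q.1 ((A.e i).symm q.2))) (p, A.e i x) := by
  refine Crest.Agent.R266.SCV.analyticAt_of_eventually_differentiableAt ?_
  have h1 : ContinuousAt (fun q : P × Cn n => (q.1, (A.e i).symm q.2)) (p, A.e i x) :=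
    symm_ca (A := A) p hi
  have h2 : Tendsto (fun q : P × Cn n => (q.1, (A.e i).symm q.2)) (𝓝 (p, A.e i x)) (𝓝 (p, x)) := by
    simpa [ContinuousAt, (A.e i).left_inv hi] using h1
  have h3 : ∀ᶠ q : P × Cn n in 𝓝 (p, A.e i x), F q.1 ((A.e i).symm q.2) ∈ (B.e j).source :=
    (continuousAt_chart (A := A) h.self_of_nhds.cont hi)
      ((B.e j).open_source.mem_nhds (by simpa [(A.e i).left_inv hi] using hj))
  have h4 : ∀ᶠ q : P × Cn n in 𝓝 (p, A.e i x), q.2 ∈ (A.e i).target :=
    continuousAt_snd ((A.e i).open_target.mem_nhds ((A.e i).map_source hi))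
  filter_upwards [h2.eventually h, h3, h4] with q hq hq3 hq4
  have := hq.diff ((A.e i).map_target hq4) hq3
  simpa [(A.e i).right_inv hq4] using this

/-- commuting holomorphic vector fields (zero bracket in all charts) -/
def Comm (V W : HVF A) : Prop := ∀ i, ∀ z ∈ (A.e i).target,
  fderiv ℂ (W.loc i) z (V.loc i z) = fderiv ℂ (V.loc i) z (W.loc i z)

theorem Comm.symm {V W : HVF A} (h : Comm V W) : Comm W V := fun i z hz => (h i z hz).symm

section Flow

variable {V W : HVF A} (F : Flow V)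

theorem _root_.Crest.Agent.R273.HFlow4_376.Flow.analyticAt {s : ℂ} {x : M} {i j : A.ι} (hi : x ∈ (A.e i).source)
    (hj : F.Φ s x ∈ (A.e j).source) :
    AnalyticAt ℂ (fun q : ℂ × Cn n => A.e j (F.Φ q.1 ((A.e i).symm q.2))) (s, A.e i x) :=
  analyticAt_chart (Eventually.of_forall fun q => F.hol q.1 q.2) hi hj

theorem _root_.Crest.Agent.R273.HFlow4_376.Flow.eventually_mem {s : ℂ} {x : M} {i j : A.ι} (hi : x ∈ (A.e i).source)
    (hj : F.Φ s x ∈ (A.e j).source) : ∀ᶠ q : ℂ × Cn n in 𝓝 (s, A.e i x),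
      q.2 ∈ (A.e i).target ∧ F.Φ q.1 ((A.e i).symm q.2) ∈ (A.e j).source := by
  have h3 : ∀ᶠ q : ℂ × Cn n in 𝓝 (s, A.e i x), F.Φ q.1 ((A.e i).symm q.2) ∈ (A.e j).source :=
    (continuousAt_chart (A := A) (F.hol s x).cont hi)
      ((A.e j).open_source.mem_nhds (by simpa [(A.e i).left_inv hi] using hj))
  have h4 : ∀ᶠ q : ℂ × Cn n in 𝓝 (s, A.e i x), q.2 ∈ (A.e i).target :=
    continuousAt_snd ((A.e i).open_target.mem_nhds ((A.e i).map_source hi))
  exact h4.and h3

theorem _root_.Crest.Agent.R273.HFlow4_376.Flow.fderiv_one {s : ℂ} {x : M} {i j : A.ι} (hi : x ∈ (A.e i).source)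
    (hj : F.Φ s x ∈ (A.e j).source) :
    fderiv ℂ (fun q : ℂ × Cn n => A.e j (F.Φ q.1 ((A.e i).symm q.2))) (s, A.e i x) (1, 0) =
      V.X j (F.Φ s x) := by
  have h1 := hasDerivAt_slice (F.analyticAt hi hj).differentiableAt
  have h2 := (F.int x s).chart hj
  simp only [(A.e i).left_inv hi] at h1
  exact h1.unique h2

theorem _root_.Crest.Agent.R273.HFlow4_376.Flow.eventually_fderiv_one {s : ℂ} {x : M} {i j : A.ι} (hi : x ∈ (A.e i).source)
    (hj : F.Φ s x ∈ (A.e j).source) : ∀ᶠ q : ℂ × Cn n in 𝓝 (s, A.e i x),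
      fderiv ℂ (fun q : ℂ × Cn n => A.e j (F.Φ q.1 ((A.e i).symm q.2))) q (1, 0) =
        V.loc j (A.e j (F.Φ q.1 ((A.e i).symm q.2))) := by
  filter_upwards [F.eventually_mem hi hj] with q hq
  have := F.fderiv_one ((A.e i).map_target hq.1) hq.2
  rw [(A.e i).right_inv hq.1] at this
  rw [V.loc_e hq.2, ← this]

/-- `tm` of the flow -/
theorem _root_.Crest.Agent.R273.HFlow4_376.Flow.tm_eq {s : ℂ} {x : M} {i j : A.ι} (hi : x ∈ (A.e i).source)
    (hj : F.Φ s x ∈ (A.e j).source) (w : Cn n) : tm A A (F.Φ s) i j x w =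
      fderiv ℂ (fun q : ℂ × Cn n => A.e j (F.Φ q.1 ((A.e i).symm q.2))) (s, A.e i x) (0, w) :=
  fderiv_slice (ψ := fun q : ℂ × Cn n => A.e j (F.Φ q.1 ((A.e i).symm q.2)))
    (F.analyticAt hi hj).differentiableAt w

/-- the linearised equation -/
theorem _root_.Crest.Agent.R273.HFlow4_376.Flow.hasDerivAt_tm {s : ℂ} {x : M} {i j : A.ι} (hi : x ∈ (A.e i).source)
    (hj : F.Φ s x ∈ (A.e j).source) (w : Cn n) :
    HasDerivAt (fun s => tm A A (F.Φ s) i j x w)
      (fderiv ℂ (V.loc j) (A.e j (F.Φ s x)) (tm A A (F.Φ s) i j x w)) s := by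
  have h0 : DifferentiableAt ℂ (V.loc j) (A.e j (F.Φ s ((A.e i).symm (A.e i x)))) := by
    rw [(A.e i).left_inv hi]
    exact (V.hol j).differentiableAt ((A.e j).open_target.mem_nhds ((A.e j).map_source hj))
  have h1 := hasDerivAt_fderiv_flow (F.analyticAt hi hj) (X := V.loc j) h0
    (F.eventually_fderiv_one hi hj) w
  rw [F.tm_eq hi hj]
  simp only [(A.e i).left_inv hi] at h1
  refine h1.congr_of_eventuallyEq ?_
  have hc : ContinuousAt (fun s => F.Φ s x) s := (F.int x s).cont
  filter_upwards [hc ((A.e j).open_source.mem_nhds hj)] with s' hs'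
  rw [F.tm_eq hi hs']

theorem _root_.Crest.Agent.R273.HFlow4_376.Flow.related_local (hVW : Comm V W) {s0 : ℂ} {x : M} {i j : A.ι}
    (hi : x ∈ (A.e i).source) (hj : F.Φ s0 x ∈ (A.e j).source)
    (h : tm A A (F.Φ s0) i j x (W.X i x) = W.X j (F.Φ s0 x)) :
    ∀ᶠ s in 𝓝 s0, tm A A (F.Φ s) i j x (W.X i x) = W.X j (F.Φ s x) := by
  have hc : ContinuousAt (fun s => F.Φ s x) s0 := (F.int x s0).cont
  have hs : ∀ᶠ s in 𝓝 s0, F.Φ s x ∈ (A.e j).source := hc ((A.e j).open_source.mem_nhds hj)
  have hV : AnalyticOnNhd ℂ (V.loc j) (A.e j).target :=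
    Crest.Agent.R266.SCV.analyticOnNhd_of_differentiableOn (A.e j).open_target (V.hol j)
  have hW : AnalyticOnNhd ℂ (W.loc j) (A.e j).target :=
    Crest.Agent.R266.SCV.analyticOnNhd_of_differentiableOn (A.e j).open_target (W.hol j)
  refine lin_unique (L := fun s => fderiv ℂ (V.loc j) (A.e j (F.Φ s x))) ?_ ?_ ?_ h
  · filter_upwards [hs] with s hs
    have h1 : DifferentiableAt ℂ (fderiv ℂ (V.loc j)) (A.e j (F.Φ s x)) :=
      (hV _ ((A.e j).map_source hs)).fderiv.differentiableAt
    exact h1.comp s ((F.int x s).chart hs).differentiableAt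
  · filter_upwards [hs] with s hs
    exact F.hasDerivAt_tm hi hs _
  · filter_upwards [hs.eventually_nhds] with s hs
    have hs0 := hs.self_of_nhds
    have h1 : HasFDerivAt (W.loc j) (fderiv ℂ (W.loc j) (A.e j (F.Φ s x))) (A.e j (F.Φ s x)) :=
      (hW _ ((A.e j).map_source hs0)).differentiableAt.hasFDerivAt
    have h2 := h1.comp_hasDerivAt s ((F.int x s).chart hs0)
    rw [← V.loc_e hs0, hVW j _ ((A.e j).map_source hs0), W.loc_e hs0] at h2
    refine h2.congr_of_eventuallyEq ?_
    filter_upwards [hs] with s' hs'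
    simp only [comp_apply]
    rw [W.loc_e hs']

/-- the flow of `V` preserves every `W` commuting with `V` -/
theorem _root_.Crest.Agent.R273.HFlow4_376.Flow.related (hVW : Comm V W) (s : ℂ) : Related W W (F.Φ s) := by
  refine ⟨F.holM s, fun i j x hi hj => ?_⟩
  -- the set of good times
  set S : Set ℂ := {s | ∀ j, F.Φ s x ∈ (A.e j).source →
    tm A A (F.Φ s) i j x (W.X i x) = W.X j (F.Φ s x)} with hS
  have key : ∀ s0 j, F.Φ s0 x ∈ (A.e j).source →
      tm A A (F.Φ s0) i j x (W.X i x) = W.X j (F.Φ s0 x) → s0 ∈ interior S := by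
    intro s0 j hj h
    rw [mem_interior_iff_mem_nhds]
    have hc : ContinuousAt (fun s => F.Φ s x) s0 := (F.int x s0).cont
    filter_upwards [F.related_local hVW hi hj h, hc ((A.e j).open_source.mem_nhds hj)] with s hs hs'
    intro j' hj'
    exact rel_of_one (F.holM s) hi hs' hs hi hj'
  have hSo : IsOpen S := by
    rw [← subset_interior_iff_isOpen]
    intro s0 hs0
    obtain ⟨j, hj⟩ := A.cover (F.Φ s0 x)
    exact key s0 j hj (hs0 j hj)
  have hSc : IsClosed S := by
    rw [← isOpen_compl_iff, isOpen_iff_mem_nhds]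
    intro s0 hs0
    obtain ⟨j, hj⟩ := A.cover (F.Φ s0 x)
    have hne : tm A A (F.Φ s0) i j x (W.X i x) ≠ W.X j (F.Φ s0 x) := fun h =>
      hs0 (interior_subset (key s0 j hj h))
    have hc : ContinuousAt (fun s => F.Φ s x) s0 := (F.int x s0).cont
    have hc1 : ContinuousAt (fun s => tm A A (F.Φ s) i j x (W.X i x)) s0 :=
      (F.hasDerivAt_tm hi hj _).continuousAt
    have hc2 : ContinuousAt (fun s => W.X j (F.Φ s x)) s0 := by
      have h1 : ContinuousAt (W.loc j) (A.e j (F.Φ s0 x)) :=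
        ((W.hol j).differentiableAt ((A.e j).open_target.mem_nhds
          ((A.e j).map_source hj))).continuousAt
      have h2 := ContinuousAt.comp (f := fun s => A.e j (F.Φ s x)) h1
        ((F.int x s0).chart hj).continuousAt
      refine h2.congr ?_
      filter_upwards [hc ((A.e j).open_source.mem_nhds hj)] with s hs
      exact W.loc_e hs
    have h3 : Tendsto (fun s => (tm A A (F.Φ s) i j x (W.X i x), W.X j (F.Φ s x))) (𝓝 s0)
        (𝓝 (tm A A (F.Φ s0) i j x (W.X i x), W.X j (F.Φ s0 x))) := hc1.prodMk hc2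
    filter_upwards [h3.eventually (isClosed_diagonal.isOpen_compl.mem_nhds hne),
      hc ((A.e j).open_source.mem_nhds hj)] with s hs hs' hsS
    exact hs (hsS j hs')
  have h0 : (0 : ℂ) ∈ S := by
    intro j hj
    have e : F.Φ 0 = id := funext F.zero
    rw [e] at hj ⊢
    exact HVF.tr' W hi hj
  have : S = univ := by
    have hcl : IsClopen S := ⟨hSc, hSo⟩
    exact hcl.eq_univ ⟨0, h0⟩
  have hs : s ∈ S := this ▸ mem_univ s
  exact hs j hj

/-- **commuting fields have commuting flows** -/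
theorem _root_.Crest.Agent.R273.HFlow4_376.Flow.commute [T2Space M] (G : Flow W) (hVW : Comm V W) (s t : ℂ) (x : M) :
    F.Φ s (G.Φ t x) = G.Φ t (F.Φ s x) :=
  (F.related hVW s).flow G G t x

end Flow

end

end Crest.Agent.R273.HFlow5_376
end

-- ▼ part R273/HFlow6_376

/-!
# R273 (S0416), HFLOW (helper376), file 6: the action of `ℂ^g` of `g` commuting holomorphic vector
fields.
-/

set_option autoImplicit false
set_option linter.unusedSectionVars false

open Set Metric Filter Topology Complex Function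
open scoped NNReal ContDiff

namespace Crest.Agent.R273.HFlow6_376

open Crest.Agent.R275.Geo Crest.Agent.R273.HFlow3_376 Crest.Agent.R273.HFlow4_376
open Crest.Agent.R273.HFlow5_376

noncomputable section

variable {n m : ℕ} {M M' : Type} [TopologicalSpace M] [TopologicalSpace M'] {A : Atl n M}
  {B : Atl m M'}

/-- the action of `ℂ^g` defined by commuting fields `V k` -/
structure MFlow {g : ℕ} (V : Fin g → HVF A) where
  Φ : (Fin g → ℂ) → M → M
  zero : ∀ x, Φ 0 x = x
  add : ∀ c d x, Φ (c + d) x = Φ c (Φ d x)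
  int : ∀ k x t, IntAt (V k) (fun s => Φ (Pi.single k s) x) t
  hol : ∀ c x, HolP A A Φ c x

section Construct

variable {g : ℕ} {V : Fin g → HVF A} (F : ∀ k, Flow (V k))

/-- composition of the flows of the indices of a list -/
def comps : List (Fin g) → (Fin g → ℂ) → M → M
  | [], _ => id
  | k :: l, c => (F k).Φ (c k) ∘ comps l c

variable (hc : ∀ k l s t x, (F k).Φ s ((F l).Φ t x) = (F l).Φ t ((F k).Φ s x))
include hc

theorem comps_comm (k : Fin g) (s : ℂ) (l : List (Fin g)) (c : Fin g → ℂ) (x : M) :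
    (F k).Φ s (comps F l c x) = comps F l c ((F k).Φ s x) := by
  induction l with
  | nil => rfl
  | cons k' l ih =>
    simp only [comps, comp_apply]
    rw [hc, ih]

theorem comps_add (l : List (Fin g)) (c d : Fin g → ℂ) (x : M) :
    comps F l (c + d) x = comps F l c (comps F l d x) := by
  induction l with
  | nil => rfl
  | cons k l ih =>
    simp only [comps, comp_apply, Pi.add_apply]
    rw [ih, (F k).add, ← comps_comm F hc]

omit hc

theorem comps_zero (l : List (Fin g)) (x : M) : comps F l 0 x = x := by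
  induction l with
  | nil => rfl
  | cons k l ih =>
    simp only [comps, comp_apply, Pi.zero_apply]
    rw [ih, (F k).zero]

theorem comps_single_notMem (l : List (Fin g)) (k : Fin g) (s : ℂ) (x : M) (hk : k ∉ l) :
    comps F l (Pi.single k s) x = x := by
  induction l with
  | nil => rfl
  | cons k' l ih =>
    simp only [List.mem_cons, not_or] at hk
    simp only [comps, comp_apply]
    rw [ih hk.2, Pi.single_eq_of_ne (Ne.symm hk.1), (F k').zero]

theorem comps_single (l : List (Fin g)) (hl : l.Nodup) (k : Fin g) (s : ℂ) (x : M) (hk : k ∈ l) :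
    comps F l (Pi.single k s) x = (F k).Φ s x := by
  induction l with
  | nil => exact absurd hk List.not_mem_nil
  | cons k' l ih =>
    rw [List.nodup_cons] at hl
    simp only [comps, comp_apply]
    by_cases h : k = k'
    · subst h
      rw [comps_single_notMem F l k s x hl.1, Pi.single_eq_same]
    · rw [ih hl.2 ((List.mem_cons.1 hk).resolve_left h), Pi.single_eq_of_ne (Ne.symm h),
        (F k').zero]

theorem comps_hol (l : List (Fin g)) (c : Fin g → ℂ) (x : M) : HolP A A (comps F l) c x := by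
  induction l with
  | nil => exact holP_id c x
  | cons k l ih =>
    refine HolP.comp (G := fun (c : Fin g → ℂ) y => (F k).Φ (c k) y) (F := comps F l) ?_ ih
    exact HolP.comp_param (F := (F k).Φ) (f := fun c : Fin g → ℂ => c k) ((F k).hol _ _)
      (by fun_prop)

end Construct

theorem Comm.self (V : HVF A) : Comm V V := fun _ _ _ => rfl

/-- **action of `ℂ^g`** of commuting holomorphic vector fields with global flows -/
def MFlow.of [T2Space M] {g : ℕ} {V : Fin g → HVF A} (F : ∀ k, Flow (V k))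
    (hV : ∀ k l, Comm (V k) (V l)) : MFlow V where
  Φ := comps F (List.finRange g)
  zero := comps_zero F _
  add := comps_add F (fun k l s t x => (F k).commute (F l) (hV k l) s t x) _
  int k x t := by
    have : (fun s => comps F (List.finRange g) (Pi.single k s) x) = fun s => (F k).Φ s x := by
      funext s
      exact comps_single F _ (List.nodup_finRange g) k s x (List.mem_finRange k)
    rw [this]
    exact (F k).int x t
  hol := comps_hol F _

theorem exists_mflow [T2Space M] [CompactSpace M] {g : ℕ} (V : Fin g → HVF A)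
    (hV : ∀ k l, Comm (V k) (V l)) : Nonempty (MFlow V) :=
  ⟨MFlow.of (fun k => Flow.of (V k)) hV⟩

namespace MFlow

variable {g : ℕ} {V : Fin g → HVF A} (F : MFlow V)

theorem neg_left (c : Fin g → ℂ) (x : M) : F.Φ (-c) (F.Φ c x) = x := by
  rw [← F.add, neg_add_cancel, F.zero]

theorem neg_right (c : Fin g → ℂ) (x : M) : F.Φ c (F.Φ (-c) x) = x := by
  rw [← F.add, add_neg_cancel, F.zero]

theorem comm (c d : Fin g → ℂ) (x : M) : F.Φ c (F.Φ d x) = F.Φ d (F.Φ c x) := by
  rw [← F.add, ← F.add, add_comm]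

theorem holM (c : Fin g → ℂ) : HolM A A (F.Φ c) := HolP.slice fun x => F.hol c x

theorem continuous_uncurry : Continuous (uncurry F.Φ) :=
  continuous_iff_continuousAt.2 fun p => (F.hol p.1 p.2).cont

/-- the map `Φ c` as a homeomorphism -/
def homeo (c : Fin g → ℂ) : M ≃ₜ M where
  toFun := F.Φ c
  invFun := F.Φ (-c)
  left_inv x := F.neg_left c x
  right_inv x := F.neg_right c x
  continuous_toFun := (F.holM c).continuous
  continuous_invFun := (F.holM (-c)).continuous

/-- the one parameter flow of one of the fields -/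
def flow (k : Fin g) : Flow (V k) where
  Φ s x := F.Φ (Pi.single k s) x
  zero x := by simp only [Pi.single_zero, F.zero]
  add s t x := by simp only [Pi.single_add, F.add]
  int x t := F.int k x t
  hol t x := HolP.comp_param (F := F.Φ) (f := fun s : ℂ => (Pi.single k s : Fin g → ℂ))
    (F.hol _ _) (by
      have : (fun s : ℂ => (Pi.single k s : Fin g → ℂ)) = fun s => s • Pi.single k (1 : ℂ) := by
        funext s; rw [← Pi.single_smul]; simp
      rw [this]; fun_prop)


omit [TopologicalSpace M] in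
/-- induction principle on `ℂ^g` -/
theorem induct (Q : (Fin g → ℂ) → Prop) (h0 : Q 0) (hk : ∀ k s c, Q c → Q (Pi.single k s + c))
    (c : Fin g → ℂ) : Q c := by
  classical
  have : ∀ s : Finset (Fin g), Q (∑ l ∈ s, Pi.single l (c l)) := by
    intro s
    induction s using Finset.induction_on with
    | empty => simpa using h0
    | insert k s hks ih => rw [Finset.sum_insert hks]; exact hk k _ _ ih
  have h1 := this Finset.univ
  rwa [Finset.univ_sum_single] at h1

/-- intertwining with another action, e.g. deck transformations (`f : M → M`), coverings -/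
theorem related [T2Space M'] {W : Fin g → HVF B} {f : M → M'} (h : ∀ k, Related (V k) (W k) f)
    (G : MFlow W) (c : Fin g → ℂ) (x : M) : f (F.Φ c x) = G.Φ c (f x) := by
  refine induct (fun c => f (F.Φ c x) = G.Φ c (f x)) (by rw [F.zero, G.zero]) ?_ c
  intro k s c ih
  rw [F.add, G.add, ← ih]
  exact (h k).flow (F.flow k) (G.flow k) s (F.Φ c x)

/-- a map to a vector space with `df(V_k) = e_k` is equivariant: `f (Φ_c x) = f x + ∑ c_k e_k` -/
theorem map_add {E : Type*} [NormedAddCommGroup E] [NormedSpace ℂ E] (f : M → E) (e : Fin g → E)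
    (h : ∀ k x, HasDerivAt (fun s => f (F.Φ (Pi.single k s) x)) (e k) 0) (c : Fin g → ℂ) (x : M) :
    f (F.Φ c x) = f x + ∑ k, c k • e k := by
  have h1 : ∀ k s x, f (F.Φ (Pi.single k s) x) = f x + s • e k := by
    intro k s x
    have h2 : ∀ t, HasDerivAt (fun s => f (F.Φ (Pi.single k s) x) - s • e k) 0 t := by
      intro t
      have h3 : HasDerivAt (fun s => f (F.Φ (Pi.single k s) (F.Φ (Pi.single k t) x))) (e k)
          (t - t) := by rw [sub_self]; exact h k _
      have h4 := h3.comp_sub_const t t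
      have h5 : (fun s => f (F.Φ (Pi.single k (s - t)) (F.Φ (Pi.single k t) x))) =
          fun s => f (F.Φ (Pi.single k s) x) := by
        funext s
        rw [← F.add, ← Pi.single_add, sub_add_cancel]
      have h6 : HasDerivAt (fun s => f (F.Φ (Pi.single k s) x)) (e k) t := h5 ▸ h4
      have h7 := h6.fun_sub ((hasDerivAt_id t).smul_const (e k))
      simpa using h7
    have h7 := is_const_of_deriv_eq_zero (fun t => (h2 t).differentiableAt)
      (fun t => (h2 t).deriv) s 0
    simp only [zero_smul, sub_zero, Pi.single_zero, F.zero] at h7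
    rw [← h7]
    abel
  refine induct (fun c => f (F.Φ c x) = f x + ∑ k, c k • e k) (by simp [F.zero]) ?_ c
  intro k s c ih
  rw [F.add, h1, ih]
  have : ∑ l, ((Pi.single k s : Fin g → ℂ) + c) l • e l = s • e k + ∑ l, c l • e l := by
    simp only [Pi.add_apply, add_smul, Finset.sum_add_distrib]
    congr 1
    rw [Finset.sum_eq_single k (fun l _ hl => by simp [hl])
      (fun h => absurd (Finset.mem_univ k) h), Pi.single_eq_same]
  rw [this]
  abel

end MFlow

end

end Crest.Agent.R273.HFlow6_376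
private theorem rz_e1baa5a763 : type_of% @_root_.Crest.Agent.R273.HFlow6_376.comps.eq_def := @_root_.Crest.Agent.R273.HFlow6_376.comps.eq_def -- L37
private theorem rz_746e6fdbed : type_of% @_root_.Crest.Agent.R273.HFlow6_376.comps.eq_1 := @_root_.Crest.Agent.R273.HFlow6_376.comps.eq_1 -- L37
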