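import Crest.Agent.R273.AlbC_645
import Crest.Agent.R273.HFlow6_376
import Crest.Agent.R273.Map_835
import Crest.Agent.R273.RetD_155

-- ▼ part R273/AlbD_645
section

/-!
# R273 (S0416), Part B, ALB-3 (helper645), file D: commuting fields dual to closed 1-forms on the
universal cover

* `pullV D F V`   : pull-back of a field to a covering; `related_pr`, `related_deck`, `comm_pullV`;
* `mflowN`        : the action of `ℂ^g` on `D.cov G`;
* `avec`          : the vector of primitives; `avec_flow`, `avec_deck`, `flow_deck`;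
* `DualD`         : the data (fields, forms).
-/

set_option autoImplicit false
set_option linter.unusedSectionVars false
set_option linter.style.haveILetI false

open Set Filter Topology Complex Metric Function
open scoped ContDiff ComplexConjugate

namespace Crest.Agent.R273.Alb645

open Crest.Agent.R275.Geo Crest.Agent.R275.Core144 Crest.Agent.R275.GC293
open Crest.Agent.R275.ZC352 Crest.Agent.R273.UCov_914 Crest.Agent.R273.PiEnd_836
open Crest.Agent.R273.HFlow3_376 Crest.Agent.R273.HFlow4_376 Crest.Agent.R273.HFlow5_376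
open Crest.Agent.R273.HFlow6_376 Crest.Agent.R273.Map_835

noncomputable section

variable {n : ℕ} {M : Type} [TopologicalSpace M] {A : Atl n M}

/-! ### comparison of the two notions of holomorphic maps -/

theorem holM_iff {m : ℕ} {M' : Type} [TopologicalSpace M'] {B : Atl m M'} {f : M → M'} :
    HolM A B f ↔ HolMap A B f := by
  constructor
  · intro h
    refine ⟨h.continuous, fun i j z hz => ?_⟩
    have h1 := h.diff (x := (A.e i).symm z) ((A.e i).map_target hz.1) hz.2
    rw [(A.e i).right_inv hz.1] at h1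
    exact h1.differentiableWithinAt
  · intro h x
    obtain ⟨i, hi⟩ := A.cover x
    obtain ⟨j, hj⟩ := B.cover (f x)
    refine ⟨h.cont.continuousAt, i, j, hi, hj, ?_⟩
    refine h.diffAt ⟨(A.e i).map_source hi, ?_⟩
    rw [mem_preimage, mem_preimage, (A.e i).left_inv hi]
    exact hj

/-! ### pull-back of fields -/

variable {G : Type} [Group G] (D : MonD A G)

section pull

variable (F : Type) [MulAction G F]

/-- pull-back of a holomorphic vector field to a covering -/
def pullV (V : HVF A) : HVF (D.atl F) where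
  X p e := V.X p.1 (D.pr e)
  hol p := V.hol p.1
  tr p q e he := V.tr p.1 q.1 (D.pr e) ⟨he.1.1, he.2.1⟩

/-- the projection is holomorphic -/
theorem holM_pr : HolM (D.atl F) A (D.pr (F := F)) := by
  rw [holM_iff]
  exact ⟨D.continuous_pr, fun p j => (A.holo p.1 j).mono fun z hz => ⟨hz.1, hz.2⟩⟩

theorem related_pr (V : HVF A) : Related (pullV D F V) V (D.pr (F := F)) := by
  refine ⟨holM_pr D F, fun p j e he hj => ?_⟩
  exact (V.tr p.1 j (D.pr e) ⟨he.1, hj⟩).symm

theorem comm_pullV {V W : HVF A} (h : Comm V W) : Comm (pullV D F V) (pullV D F W) :=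
  fun p z hz => h p.1 z hz

end pull

/-- deck transformations are holomorphic -/
theorem holM_deck (g : G) : HolM (D.atl G) (D.atl G) (fun e => g • e) := by
  rw [holM_iff]
  refine ⟨continuous_const_smul g, fun p q => ?_⟩
  exact (A.holo p.1 q.1).mono fun z hz => ⟨hz.1, hz.2.1⟩

theorem related_deck (V : HVF A) (g : G) :
    Related (pullV D G V) (pullV D G V) (fun e => g • e) := by
  refine ⟨holM_deck D g, fun p q e he hq => ?_⟩
  exact (V.tr p.1 q.1 (D.pr e) ⟨he.1, hq.1⟩).symm

/-- the deck transformation as a homeomorphism -/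
def dkh (g : G) : D.cov G ≃ₜ D.cov G := Homeomorph.smul g

theorem exists_flowN [CompactSpace M] [T2Space M] [Finite A.ι] (V : HVF A) :
    Nonempty (Flow (pullV D G V)) := by
  obtain ⟨K, hK, hKc⟩ := D.exists_fund (A := A)
  refine exists_flow_of_cocompact _ hK fun x => ?_
  obtain ⟨g, hg⟩ := hKc x
  refine ⟨dkh D g⁻¹, related_deck D V g⁻¹, ?_, ?_⟩
  · have h1 : ((dkh D g⁻¹).symm : D.cov G → D.cov G) = fun e => g • e := by
      funext e
      change (g⁻¹)⁻¹ • e = g • e
      rw [inv_inv]
    rw [h1]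
    exact holM_deck D g
  · change (g⁻¹)⁻¹ • x ∈ K
    rw [inv_inv]
    exact hg

/-- commuting fields dual to closed holomorphic 1-forms -/
structure DualD (A : Atl n M) (g : ℕ) where
  V : Fin g → HVF A
  b : Fin g → H1 A
  comm : ∀ k l, Comm (V k) (V l)
  dual : ∀ k l i, ∀ x ∈ (A.e i).source,
    (b k : A.ι → M → (Cn n →L[ℂ] ℂ)) i x ((V l).X i x) = if k = l then 1 else 0

section flow

variable {g : ℕ} (S : DualD A g) [CompactSpace M] [T2Space M] [Finite A.ι]

/-- the action of `ℂ^g` on the covering -/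
def mflowN : MFlow (fun k => pullV D G (S.V k)) :=
  MFlow.of (fun k => (exists_flowN D (S.V k)).some) fun k l => comm_pullV D G (S.comm k l)



theorem flow_deck (c : Fin g → ℂ) (γ : G) (e : D.cov G) :
    (mflowN D S).Φ c (γ • e) = γ • (mflowN D S).Φ c e :=
  (MFlow.related (mflowN D S) (fun k => related_deck D (S.V k) γ) (mflowN D S) c e).symm

variable [SimplyConnectedSpace (D.cov G)] (hA : GoodA A) (e0 : D.cov G)

/-- the vector of primitives -/
def avec (e : D.cov G) : Fin g → ℂ := fun k => prm D hA e0 (S.b k) e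

omit [CompactSpace M] [T2Space M] [Finite A.ι] in
theorem avec_zero : avec D S hA e0 e0 = 0 := by
  funext k
  exact prm_zero D hA e0 (S.b k)

omit [CompactSpace M] [T2Space M] [Finite A.ι] in
theorem continuous_avec : Continuous (avec D S hA e0) :=
  continuous_pi fun k => (prm_isPrim D hA e0 (S.b k)).continuous

omit [CompactSpace M] [T2Space M] [Finite A.ι] in
theorem avec_deck (γ : G) (e : D.cov G) : avec D S hA e0 (γ • e) =
    avec D S hA e0 e + Multiplicative.toAdd (lamB D hA e0 S.b γ) := by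
  funext k
  exact prm_deck D hA e0 (S.b k) γ e

/-- the primitives along the action -/
theorem avec_flow (c : Fin g → ℂ) (e : D.cov G) :
    avec D S hA e0 ((mflowN D S).Φ c e) = avec D S hA e0 e + c := by
  have h1 : ∀ (k : Fin g) (e : D.cov G),
      HasDerivAt (fun s => avec D S hA e0 ((mflowN D S).Φ (Pi.single k s) e))
        (Pi.single k (1 : ℂ) : Fin g → ℂ) 0 := by
    intro k e
    rw [hasDerivAt_pi]
    intro l
    have h2 := (mflowN D S).int k e 0
    obtain ⟨p, hp⟩ := (D.atl G).cover ((mflowN D S).Φ (Pi.single k (0 : ℂ)) e)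
    have h3 := h2.chart hp
    have h4 := prm_isPrim D hA e0 (S.b l) p _ hp
    have h5 := h4.comp_hasDerivAt_of_eq (0 : ℂ) h3 rfl
    rw [plb_of_mem D G _ hp] at h5
    have h6 : (S.b l : A.ι → M → (Cn n →L[ℂ] ℂ)) p.1
        (D.pr ((mflowN D S).Φ (Pi.single k (0 : ℂ)) e))
        ((pullV D G (S.V k)).X p ((mflowN D S).Φ (Pi.single k (0 : ℂ)) e)) =
        (Pi.single k (1 : ℂ) : Fin g → ℂ) l := by
      have h7 := S.dual l k p.1 _ hp.1
      rw [Pi.single_apply]
      exact h7
    rw [h6] at h5
    refine h5.congr_of_eventuallyEq ?_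
    filter_upwards [h2.cont ((((D.atl G).e p).open_source).mem_nhds hp)] with s hs
    change prm D hA e0 (S.b l) _ = prm D hA e0 (S.b l) (((D.atl G).e p).symm
      (((D.atl G).e p) ((mflowN D S).Φ (Pi.single k s) e)))
    rw [((D.atl G).e p).left_inv hs]
  have h2 := (mflowN D S).map_add (avec D S hA e0) (fun k => Pi.single k (1 : ℂ)) h1 c e
  rw [h2]
  congr 1
  funext l
  rw [Finset.sum_apply, Finset.sum_eq_single l]
  · simp
  · intro k _ hk
    simp [Pi.single_eq_of_ne hk.symm]
  · intro h
    exact absurd (Finset.mem_univ l) h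

end flow

end

end Crest.Agent.R273.Alb645
end

-- ▼ part R273/AlbE_645
section

/-!
# R273 (S0416), Part B, ALB-3 (helper645), file E: the fixed locus of a holomorphic retraction of a
possibly noncompact manifold

* `GAtl R`            : an atlas of the fixed locus made of adapted charts (no finiteness);
* `exists_gAtl`       : existence (connected fixed locus);
* `GAtl.holM_val`, `GAtl.imm`, `GAtl.holM_rho`;
* `simplyConnected_retract` : retracts of simply connected spaces.
-/

set_option autoImplicit false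
set_option linter.unusedSectionVars false
set_option linter.style.haveILetI false

open Set Filter Topology Complex Metric Function
open scoped ContDiff ComplexConjugate

namespace Crest.Agent.R273.Alb645

open Crest.Agent.R275.Geo Crest.Agent.R275.Core144 Crest.Agent.R275.GC293
open Crest.Agent.R273.HFlow3_376 Crest.Agent.R273.Ret_155 Crest.Agent.R273.Map_835

noncomputable section

/-! ### retracts of simply connected spaces -/

theorem simplyConnected_retract {X Y : Type} [TopologicalSpace X] [TopologicalSpace Y]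
    [SimplyConnectedSpace X] {i : Y → X} {r : X → Y} (hi : Continuous i) (hr : Continuous r)
    (h : ∀ y, r (i y) = y) : SimplyConnectedSpace Y := by
  have hpc : PathConnectedSpace Y := by
    have hs : Function.Surjective r := fun y => ⟨i y, h y⟩
    exact hs.pathConnectedSpace hr
  rw [simply_connected_iff_paths_homotopic']
  refine ⟨hpc, fun {x y} p q => ?_⟩
  have h1 : (p.map hi).Homotopic (q.map hi) := SimplyConnectedSpace.paths_homotopic _ _
  have h2 := h1.map ⟨r, hr⟩
  have h3 : (((p.map hi).map (ContinuousMap.mk r hr).continuous).cast (h x).symm (h y).symm).Homotopic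
      (((q.map hi).map (ContinuousMap.mk r hr).continuous).cast (h x).symm (h y).symm) :=
    Path.Homotopic.pathCast h2 _ _
  have h4 : ∀ p : Path x y,
      ((p.map hi).map (ContinuousMap.mk r hr).continuous).cast (h x).symm (h y).symm = p := by
    intro p
    ext t
    exact h _
  rwa [h4, h4] at h3

variable {n : ℕ} {M : Type} [TopologicalSpace M] {A : Atl n M} {d : ℕ}

/-- an atlas of the fixed locus, made of adapted charts -/
structure GAtl (R : HRet A) where
  d : ℕ
  B : Atl d R.F
  a : B.ι → Adp A R.F d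
  cmp : ∀ i, R.Cmp (a i)
  sub : ∀ i, ∀ x ∈ (B.e i).source, (x : M) ∈ (a i).φ.source
  app : ∀ i, ∀ x ∈ (B.e i).source, B.e i x = (a i).L ((a i).φ x)



namespace GAtl

variable {R : HRet A} (S : GAtl R)

theorem mem_target {i : S.B.ι} {w : Cn S.d} (hw : w ∈ (S.B.e i).target) :
    (S.a i).K w ∈ (S.a i).φ.target := by
  have h1 := (S.B.e i).map_target hw
  have h2 := S.app i _ h1
  rw [(S.B.e i).right_inv hw] at h2
  have h3 := S.sub i _ h1
  have h4 := ((S.a i).mem_iff _ h3).1 ((S.B.e i).symm w).2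
  rw [← h2] at h4
  rw [h4]
  exact (S.a i).φ.map_source h3

theorem symm_val {i : S.B.ι} {w : Cn S.d} (hw : w ∈ (S.B.e i).target) :
    (((S.B.e i).symm w : R.F) : M) = (S.a i).φ.symm ((S.a i).K w) := by
  have h1 := (S.B.e i).map_target hw
  have h2 := S.app i _ h1
  rw [(S.B.e i).right_inv hw] at h2
  have h3 := S.sub i _ h1
  have h4 := ((S.a i).mem_iff _ h3).1 ((S.B.e i).symm w).2
  rw [← h2] at h4
  rw [h4, (S.a i).φ.left_inv h3]

/-- the inclusion is holomorphic -/
theorem holMap_val : HolMap S.B A (Subtype.val : R.F → M) where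
  cont := continuous_subtype_val
  hol := by
    intro i j
    have h1 : DifferentiableOn ℂ (fun w => A.e j ((S.a i).φ.symm ((S.a i).K w)))
        ((S.B.e i).target ∩ (S.B.e i).symm ⁻¹' (Subtype.val ⁻¹' (A.e j).source)) := by
      refine DifferentiableOn.comp (g := fun v => A.e j ((S.a i).φ.symm v))
        (f := fun w => (S.a i).K w) ((S.a i).hol' j)
        (S.a i).K.differentiable.differentiableOn ?_
      rintro w ⟨hw, hw'⟩
      refine ⟨S.mem_target hw, ?_⟩
      rw [mem_preimage, mem_preimage, S.symm_val hw] at hw'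
      exact hw'
    refine h1.congr ?_
    rintro w ⟨hw, hw'⟩
    rw [S.symm_val hw]

/-- the retraction is holomorphic -/
theorem hol_rho (p : R.F) (i : A.ι) (j : S.B.ι) :
    DifferentiableOn ℂ (fun z => S.B.e j (FAtl.rho R p ((A.e i).symm z)))
      ((A.e i).target ∩ (A.e i).symm ⁻¹' (R.U ∩ FAtl.rho R p ⁻¹' (S.B.e j).source)) := by
  rintro z ⟨hz, hz'⟩
  set x := (A.e i).symm z with hx
  have hxU : x ∈ R.U := hz'.1
  have hmem : FAtl.rho R p x ∈ (S.B.e j).source := hz'.2
  obtain ⟨k, hk⟩ := A.cover (R.r x)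
  have hV : (A.e i).target ∩ (A.e i).symm ⁻¹' ((R.U ∩ FAtl.rho R p ⁻¹' (S.B.e j).source) ∩
      (R.U ∩ R.r ⁻¹' (A.e k).source)) ∈ 𝓝 z :=
    ((A.e i).isOpen_inter_preimage_symm ((FAtl.isOpen_rho p (S.B.e j).open_source).inter
      (R.isOpen_pre (A.e k).open_source))).mem_nhds ⟨hz, ⟨hxU, hmem⟩, ⟨hxU, hk⟩⟩
  have h1 : DifferentiableAt ℂ (fun z => A.e k (R.r ((A.e i).symm z))) z := by
    refine (R.hol i k).differentiableAt ?_
    filter_upwards [hV] with w hw
    exact ⟨hw.1, hw.2.2⟩
  have hs : R.r x ∈ (S.a j).φ.source := by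
    have := S.sub j _ hmem
    rwa [FAtl.rho_val p hxU] at this
  have h2 : DifferentiableAt ℂ (fun v => (S.a j).φ ((A.e k).symm v)) (A.e k (R.r x)) := by
    refine ((S.a j).hol k).differentiableAt ?_
    refine ((A.e k).isOpen_inter_preimage_symm (S.a j).φ.open_source).mem_nhds ?_
    refine ⟨(A.e k).map_source hk, ?_⟩
    rw [mem_preimage, (A.e k).left_inv hk]
    exact hs
  have h3 : DifferentiableAt ℂ ((fun v => (S.a j).φ ((A.e k).symm v)) ∘
      (fun z => A.e k (R.r ((A.e i).symm z)))) z := DifferentiableAt.comp z h2 h1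
  have h4 : DifferentiableAt ℂ (fun z => (S.a j).L (((fun v => (S.a j).φ ((A.e k).symm v)) ∘
      (fun z => A.e k (R.r ((A.e i).symm z)))) z)) z :=
    (S.a j).L.differentiableAt.comp z h3
  refine (h4.congr_of_eventuallyEq ?_).differentiableWithinAt
  filter_upwards [hV] with w hw
  rw [S.app j _ hw.2.1.2, FAtl.rho_val p hw.2.1.1]
  simp only [Function.comp]
  rw [(A.e k).left_inv hw.2.2.2]

/-- the retraction, globally defined -/
theorem holMap_rho (hU : R.U = univ) (p : R.F) : HolMap A S.B (FAtl.rho R p) where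
  cont := by
    rw [← continuousOn_univ, ← hU]
    exact FAtl.continuousOn_rho p
  hol := by
    intro i j
    refine (S.hol_rho p i j).mono ?_
    rintro z ⟨h1, h2⟩
    refine ⟨h1, ?_, h2⟩
    rw [hU]
    trivial


end GAtl

end

end Crest.Agent.R273.Alb645
end

-- ▼ part R273/AlbF_645
section

/-!
# R273 (S0416), Part B, ALB-3 (helper645), file F: the normal form `D.cov G ≃ ℂ^g × N`

`S : DualD A g` (commuting fields dual to closed 1-forms on the compact `M`), `a = avec`,
`Φ = (mflowN D S).Φ`, `r e = Φ (-a e) e`, `N = {a = 0}` = fixed locus of `r`.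
-/

set_option autoImplicit false
set_option linter.unusedSectionVars false
set_option linter.style.haveILetI false

open Set Filter Topology Complex Metric Function
open scoped ContDiff ComplexConjugate

namespace Crest.Agent.R273.Alb645

open Crest.Agent.R275.Geo Crest.Agent.R275.Core144 Crest.Agent.R275.GC293
open Crest.Agent.R275.ZC352 Crest.Agent.R273.UCov_914 Crest.Agent.R273.PiEnd_836
open Crest.Agent.R273.HFlow3_376 Crest.Agent.R273.HFlow4_376 Crest.Agent.R273.HFlow5_376
open Crest.Agent.R273.HFlow6_376 Crest.Agent.R273.Map_835 Crest.Agent.R273.Ret_155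

noncomputable section

/-- a jointly holomorphic map evaluated along a holomorphic parameter -/
theorem holM_graph {n m : ℕ} {M M' : Type} [TopologicalSpace M] [TopologicalSpace M']
    {A : Atl n M} {B : Atl m M'} {P : Type*} [NormedAddCommGroup P] [NormedSpace ℂ P]
    {F : P → M → M'} {f : M → P}
    (hf : ∀ i, DifferentiableOn ℂ (fun z => f ((A.e i).symm z)) (A.e i).target)
    (hF : ∀ x, HolP A B F (f x) x) : HolM A B (fun x => F (f x) x) := by
  intro x
  obtain ⟨hc, i, j, hi, hj, hd⟩ := hF x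
  have h1 : DifferentiableAt ℂ (fun z => f ((A.e i).symm z)) (A.e i x) :=
    (hf i).differentiableAt ((A.e i).open_target.mem_nhds ((A.e i).map_source hi))
  have hfc : ContinuousAt f x := by
    have h2 : ContinuousAt (fun y => f ((A.e i).symm (A.e i y))) x :=
      ContinuousAt.comp (f := A.e i) (g := fun z => f ((A.e i).symm z)) h1.continuousAt
        ((A.e i).continuousAt hi)
    refine h2.congr ?_
    filter_upwards [(A.e i).open_source.mem_nhds hi] with y hy
    rw [(A.e i).left_inv hy]
  refine ⟨?_, i, j, hi, hj, ?_⟩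
  · exact ContinuousAt.comp (f := fun x => (f x, x)) (g := uncurry F) hc
      (hfc.prodMk continuousAt_id)
  · have h2 : f ((A.e i).symm (A.e i x)) = f x := by rw [(A.e i).left_inv hi]
    have h3 : DifferentiableAt ℂ (fun z => (f ((A.e i).symm z), z)) (A.e i x) :=
      h1.prodMk differentiableAt_id
    have h4 : DifferentiableAt ℂ (fun q : P × Cn n => B.e j (F q.1 ((A.e i).symm q.2)))
        ((fun z => (f ((A.e i).symm z), z)) (A.e i x)) := by
      change DifferentiableAt ℂ _ (f ((A.e i).symm (A.e i x)), A.e i x)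
      rw [h2]
      exact hd
    exact DifferentiableAt.comp (A.e i x)
      (g := fun q : P × Cn n => B.e j (F q.1 ((A.e i).symm q.2)))
      (f := fun z => (f ((A.e i).symm z), z)) h4 h3

variable {n : ℕ} {M : Type} [TopologicalSpace M] {A : Atl n M}
variable {G : Type} [Group G] (D : MonD A G)
variable {g : ℕ} (S : DualD A g) [CompactSpace M] [T2Space M] [Finite A.ι]
variable [SimplyConnectedSpace (D.cov G)] (hA : GoodA A) (e0 : D.cov G)

/-- the retraction onto the zero fibre -/
def rr (e : D.cov G) : D.cov G := (mflowN D S).Φ (-avec D S hA e0 e) e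

theorem avec_rr (e : D.cov G) : avec D S hA e0 (rr D S hA e0 e) = 0 := by
  rw [rr, avec_flow, add_neg_cancel]

theorem rr_of_zero {e : D.cov G} (h : avec D S hA e0 e = 0) : rr D S hA e0 e = e := by
  rw [rr, h, neg_zero, (mflowN D S).zero]

theorem rr_rr (e : D.cov G) : rr D S hA e0 (rr D S hA e0 e) = rr D S hA e0 e :=
  rr_of_zero D S hA e0 (avec_rr D S hA e0 e)

theorem rr_flow (c : Fin g → ℂ) (e : D.cov G) :
    rr D S hA e0 ((mflowN D S).Φ c e) = rr D S hA e0 e := by
  rw [rr, rr, avec_flow, ← (mflowN D S).add]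
  congr 1
  abel

theorem flow_rr (e : D.cov G) :
    (mflowN D S).Φ (avec D S hA e0 e) (rr D S hA e0 e) = e := by
  rw [rr, (mflowN D S).neg_right]

theorem holM_rr : HolM (D.atl G) (D.atl G) (rr D S hA e0) := by
  refine holM_graph (F := (mflowN D S).Φ) (f := fun e => -avec D S hA e0 e) ?_
    fun e => (mflowN D S).hol _ _
  intro p
  refine DifferentiableOn.neg ?_
  rw [differentiableOn_pi]
  intro k
  exact (prm_isPrim D hA e0 (S.b k)).diffOn p

/-- the holomorphic retraction -/
def HR : HRet (D.atl G) where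
  U := univ
  isOpen_U := isOpen_univ
  r := rr D S hA e0
  maps _ _ := trivial
  idem e _ := rr_rr D S hA e0 e
  cont := (holM_rr D S hA e0).continuous.continuousOn
  hol p q := ((holM_iff.1 (holM_rr D S hA e0)).hol p q).mono fun _ hz => ⟨hz.1, hz.2.2⟩

theorem mem_N {e : D.cov G} : e ∈ (HR D S hA e0).F ↔ avec D S hA e0 e = 0 := by
  constructor
  · rintro ⟨-, h⟩
    have h1 := avec_rr D S hA e0 e
    have h2 : rr D S hA e0 e = e := h
    rwa [h2] at h1
  · intro h
    exact ⟨trivial, rr_of_zero D S hA e0 h⟩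

theorem e0_mem : e0 ∈ (HR D S hA e0).F := by
  rw [mem_N]
  exact avec_zero D S hA e0

/-- the zero fibre -/
abbrev NN : Type := ↥(HR D S hA e0).F

/-- the retraction, with values in `N` -/
def rN (e : D.cov G) : NN D S hA e0 :=
  ⟨rr D S hA e0 e, (mem_N D S hA e0).2 (avec_rr D S hA e0 e)⟩

theorem rN_val (e : D.cov G) : (rN D S hA e0 e : D.cov G) = rr D S hA e0 e := rfl

theorem rN_coe (y : NN D S hA e0) : rN D S hA e0 (y : D.cov G) = y :=
  Subtype.ext (rr_of_zero D S hA e0 ((mem_N D S hA e0).1 y.2))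

theorem avec_coe (y : NN D S hA e0) : avec D S hA e0 (y : D.cov G) = 0 :=
  (mem_N D S hA e0).1 y.2

theorem continuous_rN : Continuous (rN D S hA e0) :=
  (holM_rr D S hA e0).continuous.subtype_mk _

theorem isConnected_N : IsConnected (HR D S hA e0).F := by
  rw [(HR D S hA e0).F_eq]
  have h1 : IsConnected (univ : Set (D.cov G)) := isConnected_univ
  exact h1.image _ (holM_rr D S hA e0).continuous.continuousOn

instance simplyConnected_N : SimplyConnectedSpace (NN D S hA e0) :=
  simplyConnected_retract (i := Subtype.val) (r := rN D S hA e0) continuous_subtype_val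
    (continuous_rN D S hA e0) (rN_coe D S hA e0)

instance t2_N : T2Space (NN D S hA e0) := inferInstance


theorem holM_valT (T : GAtl (HR D S hA e0)) :
    HolM T.B (D.atl G) (Subtype.val : NN D S hA e0 → D.cov G) :=
  holM_iff.2 T.holMap_val


theorem rho_eq (p : NN D S hA e0) : FAtl.rho (HR D S hA e0) p = rN D S hA e0 := by
  funext e
  apply Subtype.ext
  exact FAtl.rho_val p trivial

theorem holM_rNT (T : GAtl (HR D S hA e0)) : HolM (D.atl G) T.B (rN D S hA e0) := by
  rw [holM_iff, ← rho_eq D S hA e0 ⟨e0, e0_mem D S hA e0⟩]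
  exact T.holMap_rho rfl _


/-! ### the product structure -/

/-- the product decomposition -/
def psi : (Fin g → ℂ) × NN D S hA e0 ≃ₜ D.cov G where
  toFun q := (mflowN D S).Φ q.1 (q.2 : D.cov G)
  invFun e := (avec D S hA e0 e, rN D S hA e0 e)
  left_inv := by
    rintro ⟨c, y⟩
    refine Prod.ext ?_ ?_
    · change avec D S hA e0 ((mflowN D S).Φ c (y : D.cov G)) = c
      rw [avec_flow, avec_coe, zero_add]
    · apply Subtype.ext
      change rr D S hA e0 ((mflowN D S).Φ c (y : D.cov G)) = (y : D.cov G)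
      rw [rr_flow]
      exact rr_of_zero D S hA e0 (avec_coe D S hA e0 y)
  right_inv e := flow_rr D S hA e0 e
  continuous_toFun := (mflowN D S).continuous_uncurry.comp
    (continuous_fst.prodMk (continuous_subtype_val.comp continuous_snd))
  continuous_invFun := (continuous_avec D S hA e0).prodMk (continuous_rN D S hA e0)

theorem psi_apply (c : Fin g → ℂ) (y : NN D S hA e0) :
    psi D S hA e0 (c, y) = (mflowN D S).Φ c (y : D.cov G) := rfl

theorem psi_symm_apply (e : D.cov G) :
    (psi D S hA e0).symm e = (avec D S hA e0 e, rN D S hA e0 e) := rfl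

/-- `psi` is jointly holomorphic -/
theorem holP_psiT (T : GAtl (HR D S hA e0)) (c : Fin g → ℂ) (y : NN D S hA e0) :
    HolP T.B (D.atl G) (fun c y => psi D S hA e0 (c, y)) c y :=
  HolP.comp (G := (mflowN D S).Φ) (F := fun _ (y : NN D S hA e0) => (y : D.cov G))
    ((mflowN D S).hol _ _) ((holM_valT D S hA e0 T).toP c y)


/-- `avec` is holomorphic -/
theorem diffOn_avec (p : (D.atl G).ι) :
    DifferentiableOn ℂ (fun z => avec D S hA e0 (((D.atl G).e p).symm z))
      ((D.atl G).e p).target := by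
  rw [differentiableOn_pi]
  intro k
  exact (prm_isPrim D hA e0 (S.b k)).diffOn p

/-- the dimension of the zero fibre -/
theorem dim_NT (T : GAtl (HR D S hA e0)) : g + T.d = n := by
  set y0 : NN D S hA e0 := ⟨e0, e0_mem D S hA e0⟩ with hy0
  obtain ⟨p, hp⟩ := (D.atl G).cover e0
  obtain ⟨j, hj⟩ := T.B.cover y0
  have hval : psi D S hA e0 (0, y0) = e0 := by
    rw [psi_apply, (mflowN D S).zero]
  set T1 : (Fin g → ℂ) × Cn T.d → Cn n := fun q =>
    (D.atl G).e p (psi D S hA e0 (q.1, (T.B.e j).symm q.2)) with hT1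
  set T2 : Cn n → (Fin g → ℂ) × Cn T.d := fun z =>
    (avec D S hA e0 (((D.atl G).e p).symm z), T.B.e j (rN D S hA e0 (((D.atl G).e p).symm z)))
    with hT2
  set w0 : (Fin g → ℂ) × Cn T.d := (0, T.B.e j y0) with hw0
  set z0 : Cn n := (D.atl G).e p e0 with hz0
  have h10 : T1 w0 = z0 := by
    change (D.atl G).e p (psi D S hA e0 (0, (T.B.e j).symm (T.B.e j y0))) = _
    rw [(T.B.e j).left_inv hj, hval]
  have h20 : T2 z0 = w0 := by
    change (avec D S hA e0 (((D.atl G).e p).symm ((D.atl G).e p e0)),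
      T.B.e j (rN D S hA e0 (((D.atl G).e p).symm ((D.atl G).e p e0)))) = _
    rw [((D.atl G).e p).left_inv hp, avec_zero]
    have : rN D S hA e0 e0 = y0 := rN_coe D S hA e0 y0
    rw [this]
  have d1 : DifferentiableAt ℂ T1 w0 := by
    have h := (holP_psiT D S hA e0 T 0 y0).diff (i := j) (j := p) hj (by rw [hval]; exact hp)
    exact h
  have d2 : DifferentiableAt ℂ T2 z0 := by
    refine DifferentiableAt.prodMk ?_ ?_
    · exact (diffOn_avec D S hA e0 p).differentiableAt
        (((D.atl G).e p).open_target.mem_nhds (((D.atl G).e p).map_source hp))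
    · have h := (holM_rNT D S hA e0 T).diff (i := p) (j := j) (x := e0) hp
        (by rw [show rN D S hA e0 e0 = y0 from rN_coe D S hA e0 y0]; exact hj)
      exact h
  have e21 : T2 ∘ T1 =ᶠ[𝓝 w0] id := by
    have hc : ContinuousAt (fun q : (Fin g → ℂ) × Cn T.d =>
        psi D S hA e0 (q.1, (T.B.e j).symm q.2)) w0 := by
      have h1 : ContinuousAt (fun q : (Fin g → ℂ) × Cn T.d => (q.1, (T.B.e j).symm q.2)) w0 := by
        refine continuousAt_fst.prodMk ?_
        exact ContinuousAt.comp (f := Prod.snd) (g := (T.B.e j).symm)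
          ((T.B.e j).continuousAt_symm ((T.B.e j).map_source hj)) continuousAt_snd
      exact ContinuousAt.comp (g := psi D S hA e0)
        (f := fun q : (Fin g → ℂ) × Cn T.d => (q.1, (T.B.e j).symm q.2))
        (psi D S hA e0).continuous.continuousAt h1
    have h1 : ∀ᶠ q in 𝓝 w0, psi D S hA e0 (q.1, (T.B.e j).symm q.2) ∈
        ((D.atl G).e p).source := by
      refine hc.eventually_mem (((D.atl G).e p).open_source.mem_nhds ?_)
      change psi D S hA e0 (0, (T.B.e j).symm (T.B.e j y0)) ∈ _
      rw [(T.B.e j).left_inv hj, hval]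
      exact hp
    have h2 : ∀ᶠ q : (Fin g → ℂ) × Cn T.d in 𝓝 w0, q.2 ∈ (T.B.e j).target :=
      continuousAt_snd.eventually_mem ((T.B.e j).open_target.mem_nhds ((T.B.e j).map_source hj))
    filter_upwards [h1, h2] with q hq hq2
    change (avec D S hA e0 (((D.atl G).e p).symm ((D.atl G).e p
      (psi D S hA e0 (q.1, (T.B.e j).symm q.2)))), T.B.e j (rN D S hA e0 (((D.atl G).e p).symm
      ((D.atl G).e p (psi D S hA e0 (q.1, (T.B.e j).symm q.2)))))) = q
    rw [((D.atl G).e p).left_inv hq]
    have h3 := (psi D S hA e0).symm_apply_apply (q.1, (T.B.e j).symm q.2)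
    rw [psi_symm_apply] at h3
    have h4 := congrArg Prod.fst h3
    have h5 := congrArg Prod.snd h3
    simp only at h4 h5
    rw [h4, h5, (T.B.e j).right_inv hq2]
  have e12 : T1 ∘ T2 =ᶠ[𝓝 z0] id := by
    have h2 : ∀ᶠ z in 𝓝 z0, z ∈ ((D.atl G).e p).target :=
      ((D.atl G).e p).open_target.mem_nhds (((D.atl G).e p).map_source hp)
    have h3 : ∀ᶠ z in 𝓝 z0, rN D S hA e0 (((D.atl G).e p).symm z) ∈ (T.B.e j).source := by
      have hc : ContinuousAt (fun z => rN D S hA e0 (((D.atl G).e p).symm z)) z0 :=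
        ContinuousAt.comp (g := rN D S hA e0) (continuous_rN D S hA e0).continuousAt
          (((D.atl G).e p).continuousAt_symm (((D.atl G).e p).map_source hp))
      refine hc.eventually_mem ((T.B.e j).open_source.mem_nhds ?_)
      rw [((D.atl G).e p).left_inv hp]
      rw [show rN D S hA e0 e0 = y0 from rN_coe D S hA e0 y0]
      exact hj
    filter_upwards [h2, h3] with z hz hz3
    change (D.atl G).e p (psi D S hA e0 (avec D S hA e0 (((D.atl G).e p).symm z),
      (T.B.e j).symm (T.B.e j (rN D S hA e0 (((D.atl G).e p).symm z))))) = z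
    rw [(T.B.e j).left_inv hz3, ← psi_symm_apply, Homeomorph.apply_symm_apply,
      ((D.atl G).e p).right_inv hz]
  -- linear algebra
  have f1 : HasFDerivAt T1 (fderiv ℂ T1 w0) (T2 z0) := by rw [h20]; exact d1.hasFDerivAt
  have f2 : HasFDerivAt T2 (fderiv ℂ T2 z0) (T1 w0) := by rw [h10]; exact d2.hasFDerivAt
  have c21 : (fderiv ℂ T2 z0).comp (fderiv ℂ T1 w0) =
      ContinuousLinearMap.id ℂ ((Fin g → ℂ) × Cn T.d) :=
    (f2.comp w0 d1.hasFDerivAt).unique ((hasFDerivAt_id w0).congr_of_eventuallyEq e21)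
  have c12 : (fderiv ℂ T1 w0).comp (fderiv ℂ T2 z0) = ContinuousLinearMap.id ℂ (Cn n) :=
    (f1.comp z0 d2.hasFDerivAt).unique ((hasFDerivAt_id z0).congr_of_eventuallyEq e12)
  let E : ((Fin g → ℂ) × Cn T.d) ≃ₗ[ℂ] Cn n :=
    LinearEquiv.ofLinearMap (fderiv ℂ T1 w0 : ((Fin g → ℂ) × Cn T.d) →ₗ[ℂ] Cn n)
      (fderiv ℂ T2 z0 : Cn n →ₗ[ℂ] ((Fin g → ℂ) × Cn T.d))
      (by
        ext1 v
        exact congrArg (fun R : Cn n →L[ℂ] Cn n => R v) c12)
      (by
        apply LinearMap.ext
        intro v
        exact congrArg (fun R : ((Fin g → ℂ) × Cn T.d) →L[ℂ] ((Fin g → ℂ) × Cn T.d) => R v) c21)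
  have h := E.finrank_eq
  rw [Module.finrank_prod, finrank_euclideanSpace_fin, finrank_euclideanSpace_fin,
    Module.finrank_fin_fun] at h
  exact h


end

end Crest.Agent.R273.Alb645
end

-- ▼ part R273/AlbG_645

/-!
# R273 (S0416), Part B, ALB-3 (helper645), file G: the action of `G` on the zero fibre

`γ • y := rN (γ • y)`; `γ • psi (c, y) = psi (c + lam γ, γ • y)`;
`P = ker lam` acts freely, properly discontinuously and cocompactly on `N`.
-/

set_option autoImplicit false
set_option linter.unusedSectionVars false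
set_option linter.style.haveILetI false

open Set Filter Topology Complex Metric Function
open scoped ContDiff ComplexConjugate

namespace Crest.Agent.R273.Alb645

open Crest.Agent.R275.Geo Crest.Agent.R275.Core144 Crest.Agent.R275.GC293
open Crest.Agent.R275.ZC352 Crest.Agent.R273.UCov_914 Crest.Agent.R273.PiEnd_836
open Crest.Agent.R273.HFlow3_376 Crest.Agent.R273.HFlow4_376 Crest.Agent.R273.HFlow5_376
open Crest.Agent.R273.HFlow6_376 Crest.Agent.R273.Map_835 Crest.Agent.R273.Ret_155

noncomputable section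

variable {n : ℕ} {M : Type} [TopologicalSpace M] {A : Atl n M}
variable {G : Type} [Group G] (D : MonD A G)
variable {g : ℕ} (S : DualD A g) [CompactSpace M] [T2Space M] [Finite A.ι]
variable [SimplyConnectedSpace (D.cov G)] (hA : GoodA A) (e0 : D.cov G)

theorem rr_deck (γ : G) (e : D.cov G) :
    rr D S hA e0 (γ • rr D S hA e0 e) = rr D S hA e0 (γ • e) := by
  conv_rhs => rw [← flow_rr D S hA e0 e, ← flow_deck, rr_flow]

/-- the action on the zero fibre -/
instance actN : MulAction G (NN D S hA e0) where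
  smul γ y := rN D S hA e0 (γ • (y : D.cov G))
  one_smul y := by
    change rN D S hA e0 ((1 : G) • (y : D.cov G)) = y
    rw [one_smul, rN_coe]
  mul_smul γ δ y := by
    change rN D S hA e0 ((γ * δ) • (y : D.cov G)) =
      rN D S hA e0 (γ • (rN D S hA e0 (δ • (y : D.cov G)) : D.cov G))
    apply Subtype.ext
    rw [rN_val, rN_val, rN_val, rr_deck, mul_smul]


theorem smulN_val (γ : G) (y : NN D S hA e0) :
    ((γ • y : NN D S hA e0) : D.cov G) = rr D S hA e0 (γ • (y : D.cov G)) := rfl


instance contN : ContinuousConstSMul G (NN D S hA e0) :=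
  ⟨fun γ => (continuous_rN D S hA e0).comp
    ((continuous_const_smul γ).comp continuous_subtype_val)⟩


/-- the translation part -/
def tr (γ : G) : Fin g → ℂ := Multiplicative.toAdd (lamB D hA e0 S.b γ)

theorem tr_mul (γ δ : G) : tr D S hA e0 (γ * δ) = tr D S hA e0 γ + tr D S hA e0 δ := by
  rw [tr, map_mul]
  rfl

theorem tr_inv (γ : G) : tr D S hA e0 γ⁻¹ = - tr D S hA e0 γ := by
  rw [tr, map_inv]
  rfl


theorem tr_eq_zero_iff {γ : G} : tr D S hA e0 γ = 0 ↔ γ ∈ (lamB D hA e0 S.b).ker := by
  rw [MonoidHom.mem_ker]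
  rfl

/-- **equivariance** of the product decomposition -/
theorem deck_psi (γ : G) (c : Fin g → ℂ) (y : NN D S hA e0) :
    γ • psi D S hA e0 (c, y) = psi D S hA e0 (c + tr D S hA e0 γ, γ • y) := by
  have h1 : avec D S hA e0 (γ • (y : D.cov G)) = tr D S hA e0 γ := by
    rw [avec_deck, avec_coe, zero_add]
    rfl
  rw [psi_apply, psi_apply, smulN_val, ← flow_deck, rr, h1, ← (mflowN D S).add]
  congr 1
  abel

/-- the kernel acts by deck transformations -/
theorem ker_smul_val {γ : G} (hγ : tr D S hA e0 γ = 0) (y : NN D S hA e0) :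
    ((γ • y : NN D S hA e0) : D.cov G) = γ • (y : D.cov G) := by
  rw [smulN_val]
  apply rr_of_zero
  rw [avec_deck, avec_coe, zero_add]
  exact hγ


/-- the kernel acts properly discontinuously -/
theorem ker_finite {K L : Set (NN D S hA e0)} (hK : IsCompact K) (hL : IsCompact L) :
    {γ : G | tr D S hA e0 γ = 0 ∧ ∃ y ∈ K, γ • y ∈ L}.Finite := by
  refine (D.finite_deck (hK.image continuous_subtype_val)
    (hL.image continuous_subtype_val)).subset ?_
  rintro γ ⟨hγ, y, hy, hy'⟩
  refine ⟨_, mem_image_of_mem _ hy, ?_⟩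
  rw [← ker_smul_val D S hA e0 hγ]
  exact mem_image_of_mem _ hy'

theorem isClosed_N : IsClosed (HR D S hA e0).F := by
  have h1 : (HR D S hA e0).F = avec D S hA e0 ⁻¹' {0} := by
    ext e
    rw [mem_N]
    rfl
  rw [h1]
  exact isClosed_singleton.preimage (continuous_avec D S hA e0)

/-- the kernel acts cocompactly -/
theorem ker_fund [DiscreteTopology (Lat.L (lamB D hA e0 S.b))] :
    ∃ K : Set (NN D S hA e0), IsCompact K ∧
      ∀ y : NN D S hA e0, ∃ γ : G, tr D S hA e0 γ = 0 ∧ γ • y ∈ K := by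
  classical
  obtain ⟨K, hK, hKc⟩ := D.exists_fund (A := A)
  set Λ := Lat.L (lamB D hA e0 S.b) with hΛ
  have hdis : DiscreteTopology Λ.toAddSubgroup := ‹DiscreteTopology Λ›
  have hcl : IsClosed (Λ : Set (Fin g → ℂ)) :=
    AddSubgroup.isClosed_of_discrete (H := Λ.toAddSubgroup)
  have hcp : IsCompact (avec D S hA e0 '' K) := hK.image (continuous_avec D S hA e0)
  have hfin : (avec D S hA e0 '' K ∩ (Λ : Set (Fin g → ℂ))).Finite := by
    have h1 : IsCompact (avec D S hA e0 '' K ∩ (Λ : Set (Fin g → ℂ))) := hcp.inter_right hcl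
    have h2 : IsCompact ((Subtype.val : Λ → (Fin g → ℂ)) ⁻¹' (avec D S hA e0 '' K)) :=
      (hcl.isClosedEmbedding_subtypeVal).isCompact_preimage hcp
    have h3 := h2.finite_of_discrete
    have h4 := h3.image (Subtype.val : Λ → (Fin g → ℂ))
    refine h4.subset ?_
    rintro v ⟨hv, hv'⟩
    exact ⟨⟨v, hv'⟩, hv, rfl⟩
  have hch : ∀ v : Fin g → ℂ, ∃ γ : G, v ∈ Λ → tr D S hA e0 γ = v := by
    intro v
    by_cases hv : v ∈ Λ
    · obtain ⟨γ, hγ⟩ := (Lat.mem_L _).1 hv
      exact ⟨γ, fun _ => hγ⟩
    · exact ⟨1, fun h => absurd h hv⟩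
  choose s hs using hch
  set F := avec D S hA e0 '' K ∩ (Λ : Set (Fin g → ℂ)) with hF
  set K' : Set (D.cov G) := ⋃ v ∈ F, (fun e => (s v)⁻¹ • e) '' K with hK'
  have hK'c : IsCompact K' := hfin.isCompact_biUnion fun v _ =>
    hK.image (continuous_const_smul _)
  refine ⟨(Subtype.val : NN D S hA e0 → D.cov G) ⁻¹' K',
    ((isClosed_N D S hA e0).isClosedEmbedding_subtypeVal).isCompact_preimage hK'c, fun y => ?_⟩
  obtain ⟨γ, hγ⟩ := hKc (y : D.cov G)
  have h1 : avec D S hA e0 (γ • (y : D.cov G)) = tr D S hA e0 γ := by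
    rw [avec_deck, avec_coe, zero_add]
    rfl
  have h2 : tr D S hA e0 γ ∈ F := ⟨⟨_, hγ, h1⟩, (Lat.mem_L _).2 ⟨γ, rfl⟩⟩
  have h3 : tr D S hA e0 (s (tr D S hA e0 γ)) = tr D S hA e0 γ := hs _ h2.2
  have h4 : tr D S hA e0 ((s (tr D S hA e0 γ))⁻¹ * γ) = 0 := by
    rw [tr_mul, tr_inv, h3, neg_add_cancel]
  refine ⟨(s (tr D S hA e0 γ))⁻¹ * γ, h4, ?_⟩
  rw [mem_preimage, ker_smul_val D S hA e0 h4, hK', mem_iUnion₂]
  refine ⟨tr D S hA e0 γ, h2, γ • (y : D.cov G), hγ, ?_⟩
  change (s (tr D S hA e0 γ))⁻¹ • γ • (y : D.cov G) = _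
  rw [mul_smul]

/-- the zero fibre is compact if the kernel is finite -/
theorem compactSpace_N [DiscreteTopology (Lat.L (lamB D hA e0 S.b))]
    (hfin : ((lamB D hA e0 S.b).ker : Set G).Finite) : CompactSpace (NN D S hA e0) := by
  obtain ⟨K, hK, hKc⟩ := ker_fund D S hA e0
  refine ⟨?_⟩
  have h1 : (univ : Set (NN D S hA e0)) = ⋃ γ ∈ ((lamB D hA e0 S.b).ker : Set G),
      (fun y => γ⁻¹ • y) '' K := by
    symm
    rw [eq_univ_iff_forall]
    intro y
    obtain ⟨γ, hγ, hy⟩ := hKc y
    refine mem_iUnion₂.2 ⟨γ, (tr_eq_zero_iff D S hA e0).1 hγ, _, hy, ?_⟩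
    change γ⁻¹ • γ • y = y
    rw [inv_smul_smul]
  rw [h1]
  exact hfin.isCompact_biUnion fun γ _ => hK.image (continuous_const_smul _)

/-- the finite good atlas of the zero fibre -/
theorem exists_fN [CompactSpace (NN D S hA e0)] : Nonempty (FAtl (HR D S hA e0)) :=
  (HR D S hA e0).exists_fAtl (isCompact_iff_compactSpace.2 ‹_›) (isConnected_N D S hA e0)

/-- forget the finiteness -/
def FAtl.toG {R : HRet A} (T : FAtl R) : GAtl R where
  d := T.d
  B := T.B
  a := T.a
  cmp := T.cmp
  sub := T.sub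
  app := T.app

end

end Crest.Agent.R273.Alb645
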