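import Crest.Agent.R273.ExpI2_772
import Crest.Agent.R273.C0e_390
import Crest.Agent.R273.Vm_333

/-!
# R273 (S0416), Part A, EXPINT, global version (helper772).

`exp_cls_chart`, `exp_cls_vm`: uniform exponential integrability of a class of nonpositive
quasi-psh functions with maximum `0` on a compact connected manifold; `exp_psh`: the case
`ω_H + i∂∂̄ φ ≥ 0`.
-/

set_option autoImplicit false
set_option linter.unusedSectionVars false

open MeasureTheory Set Metric Filter Topology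
open scoped ContDiff ENNReal

namespace Crest.Agent.R273.ExpI3_772

open Crest.Agent.R275.Geo Crest.Agent.R275.Core144 Crest.Agent.R275.GC293
open Crest.Agent.R275.EDR890 Crest.Agent.R275.Pai323 Crest.Agent.R275.C1d194
open Crest.Agent.R273.Defs_333 Crest.Agent.R273.YauDefs_635 Crest.Agent.R273.Vm_333
open Crest.Agent.R273.C0e_390 Crest.Agent.R273.ExpI2_772
open Crest.Agent.R273.C0d_390 (lv)

noncomputable section

variable {n : ℕ} {M : Type} [TopologicalSpace M] {A : Atl n M}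
variable (μ : Measure (Cn n)) [μ.IsAddHaarMeasure]

/-- the integrand -/
def ex (η : ℝ) (t : ℝ) : ℝ≥0∞ := ENNReal.ofReal (Real.exp (-(η * t)))

theorem ex_anti {η η' t : ℝ} (h : η' ≤ η) (ht : t ≤ 0) : ex η' t ≤ ex η t := by
  refine ENNReal.ofReal_le_ofReal (Real.exp_le_exp.2 (neg_le_neg ?_))
  nlinarith

theorem exp_local {P : (M → ℝ) → Prop} (h : Cls A P) {i : A.ι} {z : Cn n} {R : ℝ} (hR : 0 < R)
    (hz : closedBall z (2 * R) ⊆ (A.e i).target) {C : ℝ}
    (hC : ∀ φ, P φ → ∃ y ∈ ball z (R / 32), -C ≤ inC A i φ y) :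
    ∃ η C' : ℝ, 0 < η ∧ 0 ≤ C' ∧ ∀ φ, P φ →
      ∫⁻ w in ball z (R / 32), ex η (inC A i φ w) ∂μ ≤ ENNReal.ofReal C' := by
  obtain ⟨Λ, hΛ, hlev⟩ := h.lev i _ hz (isCompact_closedBall _ _)
  obtain ⟨η, C', hη, hC', H⟩ := exp_ball_gen μ (n := n) hR hΛ (abs_nonneg C)
  refine ⟨η, C', hη, hC'.le, fun φ hφ => ?_⟩
  obtain ⟨y, hy, hyC⟩ := hC φ hφ
  rw [mem_ball] at hy
  have hsub : closedBall y R ⊆ closedBall z (2 * R) := by
    refine closedBall_subset_closedBall' ?_
    linarith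
  have hsub2 : ball z (R / 32) ⊆ ball y (R / 16) := by
    refine ball_subset_ball' ?_
    rw [dist_comm]
    linarith
  have h1 := H y _ (inC A i φ) (A.e i).open_target (hsub.trans hz) (h.sm φ hφ i)
    (fun x hx w => hlev φ hφ x (hsub hx) w) (fun x _ => h.le φ hφ _)
    (by have := le_abs_self C; linarith)
  have hcont : ContinuousOn (fun w => Real.exp (-(η * inC A i φ w))) (closedBall y R) := by
    have h2 : ContinuousOn (inC A i φ) (closedBall y R) :=
      (h.sm φ hφ i).continuousOn.mono (hsub.trans hz)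
    exact Real.continuous_exp.comp_continuousOn (continuousOn_const.mul h2).neg
  have hint : IntegrableOn (fun w => Real.exp (-(η * inC A i φ w))) (ball y (R / 16)) μ :=
    (hcont.integrableOn_compact (isCompact_closedBall y R)).mono_set
      (ball_subset_closedBall.trans (closedBall_subset_closedBall (by linarith)))
  calc ∫⁻ w in ball z (R / 32), ex η (inC A i φ w) ∂μ
      ≤ ∫⁻ w in ball y (R / 16), ex η (inC A i φ w) ∂μ := lintegral_mono_set hsub2
    _ = ENNReal.ofReal (∫ w in ball y (R / 16), Real.exp (-(η * inC A i φ w)) ∂μ) := by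
        rw [ofReal_integral_eq_lintegral_ofReal hint
          (Eventually.of_forall fun w => (Real.exp_pos _).le)]
        rfl
    _ ≤ _ := ENNReal.ofReal_le_ofReal h1

theorem exp_at [CompactSpace M] [ConnectedSpace M] {P : (M → ℝ) → Prop} (h : Cls A P)
    (h0 : ∀ φ, P φ → ∃ x, φ x = 0) (i : A.ι) {z : Cn n} (hz : z ∈ (A.e i).target) :
    ∃ r : ℝ, 0 < r ∧ closedBall z r ⊆ (A.e i).target ∧ ∃ η C' : ℝ, 0 < η ∧ 0 ≤ C' ∧ ∀ φ, P φ →
      ∫⁻ w in ball z r, ex η (inC A i φ w) ∂μ ≤ ENNReal.ofReal C' := by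
  obtain ⟨ε, hε, hsub⟩ := Metric.isOpen_iff.1 (A.e i).open_target _ hz
  have hR : 0 < ε / 4 := by positivity
  have hz2 : closedBall z (2 * (ε / 4)) ⊆ (A.e i).target := by
    refine Subset.trans ?_ hsub
    intro w hw
    rw [mem_closedBall] at hw
    rw [mem_ball]
    linarith
  have hzs : (A.e i).symm z ∈ cb A i z (ε / 4 / 32) := by
    refine ⟨(A.e i).map_target hz, ?_⟩
    rw [mem_preimage, (A.e i).right_inv hz]
    exact mem_ball_self (by positivity)
  obtain ⟨C, hC⟩ := Q_all h h0 ((A.e i).symm z) (cb A i z (ε / 4 / 32))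
    ((isOpen_cb _ _ _).mem_nhds hzs)
  refine ⟨ε / 4 / 32, by positivity, ?_, exp_local μ h hR hz2 (C := C) fun φ hφ => ?_⟩
  · refine (closedBall_subset_closedBall ?_).trans hz2
    linarith
  · obtain ⟨w, hw, hwC⟩ := hC φ hφ
    refine ⟨A.e i w, hw.2, ?_⟩
    unfold inC
    rwa [(A.e i).left_inv hw.1]


/-! ### global version -/

/-- Lebesgue measure of the real coordinates, transported to `Cn n` -/
def lam (n : ℕ) : Measure (Cn n) := (volume : Measure (RI n → ℝ)).map cc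

instance instLam : (lam n).IsAddHaarMeasure := by
  unfold lam
  rw [cc_eq]
  infer_instance

theorem emb_cc : MeasurableEmbedding (cc : (RI n → ℝ) → Cn n) := by
  rw [cc_eq]
  exact (rcE n).symm.toContinuousLinearEquiv.toHomeomorph.measurableEmbedding

theorem lintegral_lam (s : Set (Cn n)) (f : Cn n → ℝ≥0∞) :
    ∫⁻ w in s, f w ∂(lam n) = ∫⁻ y in cc ⁻¹' s, f (cc y) := by
  unfold lam
  rw [emb_cc.restrict_map, emb_cc.lintegral_map]

section Vm

variable [MeasurableSpace M] [BorelSpace M] [Countable A.ι] (h : HM (KB A)⁻¹)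

/-- chart balls in terms of the Lebesgue measure -/
theorem lintegral_cb {i : A.ι} {z : Cn n} {r : ℝ} (hz : closedBall z r ⊆ (A.e i).target) :
    ∃ C : ℝ, 0 ≤ C ∧ ∀ f : M → ℝ≥0∞, Measurable f → ∫⁻ x in cb A i z r, f x ∂(vm h)
      ≤ ENNReal.ofReal C * ∫⁻ w in ball z r, f ((A.e i).symm w) ∂(lam n) := by
  have hc : ContinuousOn (fun w => h.w i ((A.e i).symm w)) (closedBall z r) :=
    (h.sm i).continuousOn.mono hz
  obtain ⟨C, hC⟩ := (isCompact_closedBall z r).exists_bound_of_continuousOn hc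
  refine ⟨|C|, abs_nonneg C, fun f hf => ?_⟩
  have hmc : MeasurableSet (cb A i z r) := (isOpen_cb i z r).measurableSet
  have hsub : cb A i z r ⊆ (A.e i).source := inter_subset_left
  have h1 : ∫⁻ x in cb A i z r, f x ∂(vm h)
      = ∫⁻ x in (A.e i).source, (cb A i z r).indicator f x ∂(vm h) := by
    rw [← lintegral_indicator hmc,
      ← lintegral_indicator (A.e i).open_source.measurableSet, indicator_indicator,
      inter_eq_right.2 hsub]
  have hmem : ∀ y ∈ Ui A i, sg A i y ∈ cb A i z r ↔ y ∈ (cc ⁻¹' ball z r : Set (RI n → ℝ)) := by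
    intro y hy
    constructor
    · rintro ⟨-, h2⟩
      rw [mem_preimage] at h2 ⊢
      rwa [show A.e i (sg A i y) = cc y from (A.e i).right_inv hy] at h2
    · intro h2
      refine ⟨sg_mem hy, ?_⟩
      rw [mem_preimage, show A.e i (sg A i y) = cc y from (A.e i).right_inv hy]
      exact h2
  have hmb : MeasurableSet (cc ⁻¹' ball z r : Set (RI n → ℝ)) :=
    (isOpen_ball.preimage continuous_cc).measurableSet
  have hsub2 : (cc ⁻¹' ball z r : Set (RI n → ℝ)) ⊆ Ui A i := fun y hy =>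
    hz (ball_subset_closedBall hy)
  rw [h1, setLIntegral_vm h i (hf.indicator hmc), lintegral_lam]
  have h2 : ∫⁻ y in Ui A i, dn h i y * (cb A i z r).indicator f (sg A i y)
      = ∫⁻ y in cc ⁻¹' ball z r, dn h i y * f (sg A i y) := by
    have h3 : ∫⁻ y in Ui A i, dn h i y * (cb A i z r).indicator f (sg A i y)
        = ∫⁻ y in Ui A i, (cc ⁻¹' ball z r : Set (RI n → ℝ)).indicator
          (fun y => dn h i y * f (sg A i y)) y := by
      refine setLIntegral_congr_fun (Vm_333.isOpen_Ui i).measurableSet fun y hy => ?_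
      by_cases hy2 : y ∈ (cc ⁻¹' ball z r : Set (RI n → ℝ))
      · simp only [indicator_of_mem hy2, indicator_of_mem ((hmem y hy).2 hy2)]
      · simp only [indicator_of_notMem hy2, indicator_of_notMem (fun h => hy2 ((hmem y hy).1 h)),
          mul_zero]
    rw [h3, ← lintegral_indicator (Vm_333.isOpen_Ui i).measurableSet, indicator_indicator,
      inter_eq_right.2 hsub2, lintegral_indicator hmb]
  rw [h2]
  calc ∫⁻ y in cc ⁻¹' ball z r, dn h i y * f (sg A i y)
      ≤ ∫⁻ y in cc ⁻¹' ball z r, ENNReal.ofReal |C| * f (sg A i y) := by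
        refine setLIntegral_mono' hmb fun y hy => ?_
        refine mul_le_mul' (ENNReal.ofReal_le_ofReal ?_) le_rfl
        exact ((le_abs_self _).trans (hC (cc y) (ball_subset_closedBall hy))).trans
          (le_abs_self C)
    _ = _ := by
        rw [lintegral_const_mul' _ _ ENNReal.ofReal_ne_top]
        rfl

/-- **uniform exponential integrability on a compact connected manifold** -/
theorem exp_cls_vm [CompactSpace M] [ConnectedSpace M] {P : (M → ℝ) → Prop} (hP : Cls A P)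
    (h0 : ∀ φ, P φ → ∃ x, φ x = 0) : ∃ η C : ℝ, 0 < η ∧ 0 ≤ C ∧ ∀ φ, P φ →
      ∫⁻ x, ex η (φ x) ∂(vm h) ≤ ENNReal.ofReal C := by
  have hm : ∀ (η : ℝ) (φ : M → ℝ), P φ → Measurable fun x => ex η (φ x) := fun η φ hφ =>
    (Real.measurable_exp.comp
      ((sm_continuous (hP.sm φ hφ)).measurable.const_mul η).neg).ennreal_ofReal
  have key : ∃ η C : ℝ, 0 < η ∧ 0 ≤ C ∧ ∀ φ, P φ →
      ∫⁻ x in (univ : Set M), ex η (φ x) ∂(vm h) ≤ ENNReal.ofReal C := by
    refine isCompact_univ.induction_on (p := fun s : Set M => ∃ η C : ℝ, 0 < η ∧ 0 ≤ C ∧ ∀ φ, P φ →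
        ∫⁻ x in s, ex η (φ x) ∂(vm h) ≤ ENNReal.ofReal C) ?_ ?_ ?_ ?_
    · exact ⟨1, 0, one_pos, le_rfl, fun φ _ => by simp⟩
    · rintro s t hst ⟨η, C, hη, hC0, hC⟩
      exact ⟨η, C, hη, hC0, fun φ hφ => (lintegral_mono_set hst).trans (hC φ hφ)⟩
    · rintro s t ⟨η, C, hη, hC0, hC⟩ ⟨η', C', hη', hC0', hC'⟩
      refine ⟨min η η', C + C', lt_min hη hη', add_nonneg hC0 hC0', fun φ hφ => ?_⟩
      rw [ENNReal.ofReal_add hC0 hC0']
      refine (lintegral_union_le _ _ _).trans (add_le_add ?_ ?_)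
      · exact (lintegral_mono fun x => ex_anti (min_le_left _ _) (hP.le φ hφ _)).trans (hC φ hφ)
      · exact (lintegral_mono fun x => ex_anti (min_le_right _ _) (hP.le φ hφ _)).trans (hC' φ hφ)
    · intro x _
      obtain ⟨i, hi⟩ := A.cover x
      obtain ⟨r, hr, hsub, η, C, hη, hC0, H⟩ := exp_at (lam n) hP h0 i ((A.e i).map_source hi)
      obtain ⟨C', hC', H'⟩ := lintegral_cb h hsub
      refine ⟨cb A i (A.e i x) r, mem_nhdsWithin_of_mem_nhds ((isOpen_cb _ _ _).mem_nhds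
        ⟨hi, mem_ball_self hr⟩), η, C' * C, hη, mul_nonneg hC' hC0, fun φ hφ => ?_⟩
      rw [ENNReal.ofReal_mul hC']
      exact (H' _ (hm η φ hφ)).trans (mul_le_mul' le_rfl (H φ hφ))
  simpa using key

/-- the Bochner integral version -/
theorem exp_cls_int [CompactSpace M] [ConnectedSpace M] {P : (M → ℝ) → Prop} (hP : Cls A P)
    (h0 : ∀ φ, P φ → ∃ x, φ x = 0) : ∃ η C : ℝ, 0 < η ∧ 0 ≤ C ∧ ∀ φ, P φ →
      Integrable (fun x => Real.exp (-(η * φ x))) (vm h) ∧
      ∫ x, Real.exp (-(η * φ x)) ∂(vm h) ≤ C := by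
  obtain ⟨η, C, hη, hC, H⟩ := exp_cls_vm h hP h0
  refine ⟨η, C, hη, hC, fun φ hφ => ?_⟩
  have hc : Continuous fun x => Real.exp (-(η * φ x)) :=
    Real.continuous_exp.comp ((sm_continuous (hP.sm φ hφ)).const_mul η).neg
  have hfin : IsFiniteMeasure (vm h) := isFinite_vm h
  have hint : Integrable (fun x => Real.exp (-(η * φ x))) (vm h) := by
    obtain ⟨B, hB⟩ := isCompact_univ.exists_bound_of_continuousOn hc.continuousOn
    exact Integrable.of_bound hc.measurable.aestronglyMeasurable B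
      (Eventually.of_forall fun x => hB x (mem_univ x))
  refine ⟨hint, ?_⟩
  have h1 := ofReal_integral_eq_lintegral_ofReal hint
    (Eventually.of_forall fun x => (Real.exp_pos _).le)
  have h2 := H φ hφ
  unfold ex at h2
  rw [← h1] at h2
  exact (ENNReal.ofReal_le_ofReal_iff hC).1 h2

/-- `ω_H + i∂∂̄ φ ≥ 0`, maximum `0` -/
def PSHle {L : LB A} (H : HM L) (φ : M → ℝ) : Prop :=
  A.Sm φ ∧ (∀ i, ∀ z ∈ (A.e i).target, ∀ v : Cn n, 0 ≤ Defs_333.lev (pot H φ i) z v) ∧
    (∀ x, φ x ≤ 0) ∧ ∃ x, φ x = 0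

omit [MeasurableSpace M] [BorelSpace M] [Countable A.ι] in
theorem cls_pshle {L : LB A} (H : HM L) : Cls A (PSHle H) := by
  refine ⟨fun φ hφ => hφ.1, fun φ hφ => hφ.2.2.1, fun i K hK hc => ?_⟩
  have hcont : ContinuousOn (fun z => fderiv ℝ (fderiv ℝ (H.wt i)) z) K := fun z hz => by
    have h1 : ContDiffAt ℝ 2 (H.wt i) z := contDiffAt_wt H (hK hz) two_le_inf
    exact ((h1.fderiv_right (m := 1) (by norm_num)).fderiv_right (m := 0)
      (by norm_num)).continuousAt.continuousWithinAt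
  obtain ⟨C, hC⟩ := hc.exists_bound_of_continuousOn
    (f := fun z => fderiv ℝ (fderiv ℝ (H.wt i)) z) hcont
  refine ⟨2 * |C|, by positivity, fun φ hφ z hz v => ?_⟩
  rw [lv_eq_lev]
  have h1 : 0 ≤ Defs_333.lev (pot H φ i) z v := hφ.2.1 i z (hK hz) v
  have h2 : Defs_333.lev (pot H φ i) z v
      = Defs_333.lev (H.wt i) z v + Defs_333.lev (inC A i φ) z v :=
    lev_add (contDiffAt_wt H (hK hz) two_le_inf)
      (contDiffAt_inC hφ.1 (hK hz) two_le_inf) v
  have hb : ∀ w : Cn n, |D2 (H.wt i) z w w| ≤ |C| * ‖w‖ ^ 2 := by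
    intro w
    have h3 : ‖fderiv ℝ (fderiv ℝ (H.wt i)) z‖ ≤ |C| := (hC z hz).trans (le_abs_self C)
    calc |D2 (H.wt i) z w w| ≤ ‖fderiv ℝ (fderiv ℝ (H.wt i)) z‖ * ‖w‖ * ‖w‖ :=
          (fderiv ℝ (fderiv ℝ (H.wt i)) z).le_opNorm₂ w w
      _ ≤ |C| * ‖w‖ * ‖w‖ := by gcongr
      _ = _ := by ring
  have h4 : Defs_333.lev (H.wt i) z v ≤ 2 * |C| * ‖v‖ ^ 2 := by
    rw [lev333_eq]
    have h5 := (le_abs_self _).trans (hb v)
    have h6 := (le_abs_self _).trans (hb (Complex.I • v))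
    rw [norm_smul, Complex.norm_I, one_mul] at h6
    linarith
  linarith

/-- **EXPINT**: smooth `φ` with `ω_H + i∂∂̄ φ ≥ 0` and maximum `0` -/
theorem exp_psh [CompactSpace M] [ConnectedSpace M] {L : LB A} (H : HM L) :
    ∃ η C : ℝ, 0 < η ∧ 0 ≤ C ∧ ∀ φ, PSHle H φ →
      Integrable (fun x => Real.exp (-(η * φ x))) (vm h) ∧
      ∫ x, Real.exp (-(η * φ x)) ∂(vm h) ≤ C :=
  exp_cls_int h (cls_pshle H) fun _ hφ => hφ.2.2.2


end Vm

end

end Crest.Agent.R273.ExpI3_772
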