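import Crest.Agent.R273.TLs_201
import Crest.Agent.R273.AppA_834
import Crest.Agent.R273.SteinD_794
import Crest.Agent.R273.FFi_101
import Crest.Agent.R273.TVolA_332
import Crest.Agent.R273.Mass_5
import Crest.Agent.R273.ExpI3_772
import Crest.Agent.R273.AsmA_73

-- ▼ part R273/AppB_834
section

/-!
# R273 (S0416), leaf A-APP, part B (helper834): several data with the same `u`

* `TLu h D K δ η u` : the body of `TLStmt h D K` for given `δ η u`; `tlStmt_iff`
* `TL0 h K η u`     : the same without tests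
* `TLu.half`, `TL0.half` : the mean of two functions `u`
* `tlu_fam` : `∀ r, TLStmt h (D r) K` implies that there are `δ η u` with `TLu h (D r) K δ η u`
  for all `r`
-/

set_option autoImplicit false
set_option linter.unusedSectionVars false

open Set Filter Topology Complex MeasureTheory
open scoped ContDiff Matrix ComplexConjugate ComplexOrder ENNReal

namespace Crest.Agent.R273.AppB_834

open Crest.Agent.R275 Crest.Agent.R275.Geo Crest.Agent.R275.Core144
open Crest.Agent.R273.Defs_333 Crest.Agent.R273.HM_333 Crest.Agent.R273.Kah_333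
open Crest.Agent.R273.Vm_333 Crest.Agent.R273.Green_5 Crest.Agent.R273.FIb0_597
open Crest.Agent.R273.FIc0_597 Crest.Agent.R273.TLd_201 Crest.Agent.R273.TLs_201

noncomputable section

variable {n : ℕ} {M : Type} [TopologicalSpace M] {A : Atl n M} {L L' : LB A}

/-- `θ + K/(m+1) + ∂∂̄v` -/
def Xm (h : HM (KB A)⁻¹) (K : Kah A) (m : ℕ) (v : M → ℝ) (i : A.ι) (x : M) :
    Matrix (Fin n) (Fin n) ℂ := cur h i x + (1 / ((m : ℂ) + 1)) • K.g i x + hsf A v i x

theorem tf_Xm (h : HM (KB A)⁻¹) (K : Kah A) (m : ℕ) {v : M → ℝ} (hv : A.Sm v) :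
    TF A (Xm h K m v) :=
  ((tf_cur h).add ((tf_kah K).smul _)).add (tf_hsf hv)

/-- the mean of two functions -/
def hf (u v : M → ℝ) (x : M) : ℝ := (1 / 2 : ℝ) * u x + (1 / 2 : ℝ) * v x

theorem sm_hf {u v : M → ℝ} (hu : A.Sm u) (hv : A.Sm v) : A.Sm (hf u v) :=
  sm_add (sm_smul _ hu) (sm_smul _ hv)

theorem Xm_hf (h : HM (KB A)⁻¹) (K : Kah A) (m : ℕ) {v w : M → ℝ} (hv : A.Sm v) (hw : A.Sm w)
    (i : A.ι) {x : M} (hx : x ∈ (A.e i).source) :
    Xm h K m (hf v w) i x =
      ((1 / 2 : ℝ) : ℂ) • Xm h K m v i x + ((1 / 2 : ℝ) : ℂ) • Xm h K m w i x := by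
  have h1 : hsf A (hf v w) i x =
      ((1 / 2 : ℝ) : ℂ) • hsf A v i x + ((1 / 2 : ℝ) : ℂ) • hsf A w i x := by
    have h2 := hsf_add (sm_smul (1 / 2 : ℝ) hv) (sm_smul (1 / 2 : ℝ) hw) hx
    rw [hsf_smul _ hv hx, hsf_smul _ hw hx] at h2
    exact h2
  unfold Xm
  rw [h1]
  have h3 : ((1 / 2 : ℝ) : ℂ) = 1 / 2 := by push_cast; ring
  rw [h3]
  ext a b
  simp only [Matrix.add_apply, Matrix.smul_apply, smul_eq_mul]
  ring

theorem psd_half {X Y : Matrix (Fin n) (Fin n) ℂ} (hX : X.PosSemidef) (hY : Y.PosSemidef) :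
    (((1 / 2 : ℝ) : ℂ) • X + ((1 / 2 : ℝ) : ℂ) • Y).PosSemidef := by
  have h1 : (0 : ℂ) ≤ ((1 / 2 : ℝ) : ℂ) := by
    exact_mod_cast (by norm_num : (0 : ℝ) ≤ 1 / 2)
  exact (hX.smul h1).add (hY.smul h1)

section

variable [MeasurableSpace M] [BorelSpace M] [Countable A.ι]

/-- the body of `TLStmt` for given `δ η u` -/
def TLu (h : HM (KB A)⁻¹) (D : TD A) (K : Kah A) (δ η : ℝ) (u : M → ℝ) : Prop :=
  0 < δ ∧ 0 < η ∧ Measurable u ∧ (∀ x, u x ≤ 0) ∧ MemLp u 2 (vm h) ∧
    Integrable (fun x => Real.exp (-(η * u x))) (vm h) ∧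
    ∀ (m : ℕ) (ε : ℝ), 0 < ε → ∀ T : Finset (Tst D),
      ∃ v : M → ℝ, A.Sm v ∧ (∀ x, v x ≤ 0) ∧
        (∀ i, ∀ x ∈ (A.e i).source,
          (cur h i x + (1 / ((m : ℂ) + 1)) • K.g i x + hsf A v i x).PosSemidef) ∧
        ∫ x, (v x - u x) ^ 2 ∂(vm h) ≤ ε ∧
        ∀ t ∈ T, δ * t.B h D.be ≤
          t.B h (fun i x => cur h i x + (1 / ((m : ℂ) + 1)) • K.g i x + hsf A v i x)


/-- the same without tests -/
def TL0 (h : HM (KB A)⁻¹) (K : Kah A) (η : ℝ) (u : M → ℝ) : Prop :=
  0 < η ∧ Measurable u ∧ (∀ x, u x ≤ 0) ∧ MemLp u 2 (vm h) ∧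
    Integrable (fun x => Real.exp (-(η * u x))) (vm h) ∧
    ∀ (m : ℕ) (ε : ℝ), 0 < ε →
      ∃ v : M → ℝ, A.Sm v ∧ (∀ x, v x ≤ 0) ∧
        (∀ i, ∀ x ∈ (A.e i).source, (Xm h K m v i x).PosSemidef) ∧
        ∫ x, (v x - u x) ^ 2 ∂(vm h) ≤ ε

theorem TLu.tl0 {h : HM (KB A)⁻¹} {D : TD A} {K : Kah A} {δ η : ℝ} {u : M → ℝ}
    (H : TLu h D K δ η u) : TL0 h K η u := by
  obtain ⟨_, h2, h3, h4, h5, h6, h7⟩ := H
  refine ⟨h2, h3, h4, h5, h6, fun m ε hε => ?_⟩
  obtain ⟨v, hv1, hv2, hv3, hv4, _⟩ := h7 m ε hε ∅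
  exact ⟨v, hv1, hv2, hv3, hv4⟩

end

section int

variable [T2Space M] [CompactSpace M] [Fintype A.ι] [MeasurableSpace M] [BorelSpace M]
  {h : HM (KB A)⁻¹} {K : Kah A}

/-- the exponential integrability decreases with `η` -/
theorem int_exp_mono {η η' : ℝ} (hη : η' ≤ η) {u : M → ℝ} (hu : Measurable u)
    (h0 : ∀ x, u x ≤ 0) (hi : Integrable (fun x => Real.exp (-(η * u x))) (vm h)) :
    Integrable (fun x => Real.exp (-(η' * u x))) (vm h) := by
  refine hi.mono' ((Real.measurable_exp.comp ((hu.const_mul η').neg)).aestronglyMeasurable)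
    (Eventually.of_forall fun x => ?_)
  rw [Real.norm_of_nonneg (Real.exp_pos _).le]
  refine Real.exp_le_exp.2 ?_
  nlinarith [h0 x]

theorem TL0.mono {η η' : ℝ} (hη0 : 0 < η') (hη : η' ≤ η) {u : M → ℝ} (H : TL0 h K η u) :
    TL0 h K η' u := by
  obtain ⟨_, h3, h4, h5, h6, h7⟩ := H
  exact ⟨hη0, h3, h4, h5, int_exp_mono hη h3 h4 h6, h7⟩

theorem TLu.mono {D : TD A} {δ δ' η η' : ℝ} (hδ0 : 0 < δ') (hδ : δ' ≤ δ) (hη0 : 0 < η')
    (hη : η' ≤ η) {u : M → ℝ} (H : TLu h D K δ η u) : TLu h D K δ' η' u := by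
  obtain ⟨_, _, h3, h4, h5, h6, h7⟩ := H
  refine ⟨hδ0, hη0, h3, h4, h5, int_exp_mono hη h3 h4 h6, fun m ε hε T => ?_⟩
  obtain ⟨v, hv1, hv2, hv3, hv4, hv5⟩ := h7 m ε hε T
  exact ⟨v, hv1, hv2, hv3, hv4, fun t ht =>
    (mul_le_mul_of_nonneg_right hδ (Bbe_nonneg h t)).trans (hv5 t ht)⟩

theorem int_exp_half {η : ℝ} {u u' : M → ℝ} (hu : Measurable u)
    (hu' : Measurable u')
    (hi : Integrable (fun x => Real.exp (-(η * u x))) (vm h))
    (hi' : Integrable (fun x => Real.exp (-(η * u' x))) (vm h)) :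
    Integrable (fun x => Real.exp (-(η * hf u u' x))) (vm h) := by
  have hm : Measurable (hf u u') := (hu.const_mul _).add (hu'.const_mul _)
  refine (hi.add hi').mono' ((Real.measurable_exp.comp ((hm.const_mul η).neg)).aestronglyMeasurable)
    (Eventually.of_forall fun x => ?_)
  rw [Real.norm_of_nonneg (Real.exp_pos _).le, Pi.add_apply]
  have h1 := Real.exp_pos (-(η * u x))
  have h2 := Real.exp_pos (-(η * u' x))
  rcases le_total (-(η * u x)) (-(η * u' x)) with h3 | h3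
  · refine (Real.exp_le_exp.2 (?_ : _ ≤ -(η * u' x))).trans (by linarith)
    unfold hf; linarith
  · refine (Real.exp_le_exp.2 (?_ : _ ≤ -(η * u x))).trans (by linarith)
    unfold hf; linarith

theorem memLp_hf {u u' : M → ℝ} (hu : MemLp u 2 (vm h)) (hu' : MemLp u' 2 (vm h)) :
    MemLp (hf u u') 2 (vm h) := (hu.const_mul _).add (hu'.const_mul _)

theorem int_sq_hf {u u' v v' : M → ℝ} (hu : MemLp u 2 (vm h)) (hu' : MemLp u' 2 (vm h))
    (hv : A.Sm v) (hv' : A.Sm v') {ε : ℝ} (h1 : ∫ x, (v x - u x) ^ 2 ∂(vm h) ≤ ε)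
    (h2 : ∫ x, (v' x - u' x) ^ 2 ∂(vm h) ≤ ε) :
    ∫ x, (hf v v' x - hf u u' x) ^ 2 ∂(vm h) ≤ ε := by
  have := isFinite_vm h
  have lp : ∀ {w : M → ℝ}, A.Sm w → MemLp w 2 (vm h) := by
    intro w hw
    have hc := cont_sm hw
    obtain ⟨C, hC⟩ := isCompact_univ.exists_bound_of_continuousOn hc.continuousOn
    exact MemLp.of_bound hc.measurable.aestronglyMeasurable C
      (Eventually.of_forall fun x => hC x (mem_univ x))
  have i1 : Integrable (fun x => (v x - u x) ^ 2) (vm h) := ((lp hv).sub hu).integrable_sq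
  have i2 : Integrable (fun x => (v' x - u' x) ^ 2) (vm h) := ((lp hv').sub hu').integrable_sq
  have i3 : Integrable (fun x => (hf v v' x - hf u u' x) ^ 2) (vm h) :=
    ((memLp_hf (lp hv) (lp hv')).sub (memLp_hf hu hu')).integrable_sq
  calc ∫ x, (hf v v' x - hf u u' x) ^ 2 ∂(vm h)
      ≤ ∫ x, ((1 / 2 : ℝ) * (v x - u x) ^ 2 + (1 / 2 : ℝ) * (v' x - u' x) ^ 2) ∂(vm h) := by
        refine integral_mono i3 ((i1.const_mul _).add (i2.const_mul _)) fun x => ?_
        unfold hf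
        simp only
        nlinarith [sq_nonneg ((v x - u x) - (v' x - u' x))]
    _ = (1 / 2 : ℝ) * ∫ x, (v x - u x) ^ 2 ∂(vm h) +
        (1 / 2 : ℝ) * ∫ x, (v' x - u' x) ^ 2 ∂(vm h) := by
        rw [integral_add (i1.const_mul _) (i2.const_mul _), integral_const_mul,
          integral_const_mul]
    _ ≤ ε := by linarith

theorem TL0.half {η : ℝ} {u u' : M → ℝ} (H : TL0 h K η u) (H' : TL0 h K η u') :
    TL0 h K η (hf u u') := by
  obtain ⟨h2, h3, h4, h5, h6, h7⟩ := H
  obtain ⟨_, k3, k4, k5, k6, k7⟩ := H'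
  refine ⟨h2, (h3.const_mul _).add (k3.const_mul _), fun x => ?_, memLp_hf h5 k5,
    int_exp_half h3 k3 h6 k6, fun m ε hε => ?_⟩
  · have := h4 x; have := k4 x; unfold hf; linarith
  obtain ⟨v, hv1, hv2, hv3, hv4⟩ := h7 m ε hε
  obtain ⟨w, hw1, hw2, hw3, hw4⟩ := k7 m ε hε
  refine ⟨hf v w, sm_hf hv1 hw1, fun x => ?_, fun i x hx => ?_, int_sq_hf h5 k5 hv1 hw1 hv4 hw4⟩
  · have := hv2 x; have := hw2 x; unfold hf; linarith
  · rw [Xm_hf h K m hv1 hw1 i hx]
    exact psd_half (hv3 i x hx) (hw3 i x hx)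

theorem TLu.half {D : TD A} {δ η : ℝ} {u u' : M → ℝ} (H : TLu h D K δ η u)
    (H' : TL0 h K η u') : TLu h D K (δ / 2) η (hf u u') ∧ TLu h D K (δ / 2) η (hf u' u) := by
  have hsymm : hf u' u = hf u u' := by funext x; unfold hf; ring
  rw [hsymm, and_self_iff]
  obtain ⟨h1, h2, h3, h4, h5, h6, h7⟩ := H
  obtain ⟨_, k3, k4, k5, k6, k7⟩ := H'
  refine ⟨by linarith, h2, (h3.const_mul _).add (k3.const_mul _), fun x => ?_, memLp_hf h5 k5,
    int_exp_half h3 k3 h6 k6, fun m ε hε T => ?_⟩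
  · have := h4 x; have := k4 x; unfold hf; linarith
  obtain ⟨v, hv1, hv2, hv3, hv4, hv5⟩ := h7 m ε hε T
  obtain ⟨w, hw1, hw2, hw3, hw4⟩ := k7 m ε hε
  refine ⟨hf v w, sm_hf hv1 hw1, fun x => ?_, fun i x hx => ?_, int_sq_hf h5 k5 hv1 hw1 hv4 hw4,
    fun t ht => ?_⟩
  · have := hv2 x; have := hw2 x; unfold hf; linarith
  · have e := Xm_hf h K m hv1 hw1 i hx
    unfold Xm at e
    rw [e]
    exact psd_half (hv3 i x hx) (hw3 i x hx)
  · have e1 : t.B h (fun i x => cur h i x + (1 / ((m : ℂ) + 1)) • K.g i x + hsf A (hf v w) i x) =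
        t.B h (fun i x => ((1 / 2 : ℝ) : ℂ) • Xm h K m v i x +
          ((1 / 2 : ℝ) : ℂ) • Xm h K m w i x) :=
      B_congr h t fun x hx => Xm_hf h K m hv1 hw1 t.i hx
    rw [e1, B_add h t (T := fun i x => ((1 / 2 : ℝ) : ℂ) • Xm h K m v i x)
      (T' := fun i x => ((1 / 2 : ℝ) : ℂ) • Xm h K m w i x)
      ((tf_Xm h K m hv1).smul _) ((tf_Xm h K m hw1).smul _),
      B_smul h t (T := Xm h K m v), B_smul h t (T := Xm h K m w)]
    have e2 := hv5 t ht
    have e3 : 0 ≤ t.B h (Xm h K m w) := B_nonneg h t hw3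
    have e4 : t.B h (fun i x => cur h i x + (1 / ((m : ℂ) + 1)) • K.g i x + hsf A v i x) =
        t.B h (Xm h K m v) := rfl
    rw [e4] at e2
    linarith

theorem TL0.zero (hs : h.Semipos) (K : Kah A) : TL0 h K 1 (fun _ => 0) := by
  have := isFinite_vm h
  refine ⟨one_pos, measurable_const, fun _ => le_rfl, MemLp.zero' , ?_, fun m ε hε =>
    ⟨fun _ => 0, sm_const 0, fun _ => le_rfl, fun i x hx => ?_, ?_⟩⟩
  · simp only [mul_zero, neg_zero, Real.exp_zero]
    exact integrable_const 1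
  · unfold Xm
    rw [hsf_const, add_zero]
    refine (cur_posSemidef hs i hx).add ((K.pos i x hx).posSemidef.smul ?_)
    have : (0 : ℝ) ≤ 1 / ((m : ℝ) + 1) := by positivity
    have h2 : (1 / ((m : ℂ) + 1)) = ((1 / ((m : ℝ) + 1) : ℝ) : ℂ) := by push_cast; ring
    rw [h2]
    exact_mod_cast this
  · simp [hε.le]

/-- **the same `u` for finitely many data** -/
theorem tlu_fam (hs : h.Semipos) {R : Type*} [Finite R] (D : R → TD A)
    (H : ∀ r, TLStmt h (D r) K) :
    ∃ (δ η : ℝ) (u : M → ℝ), 0 < δ ∧ TL0 h K η u ∧ ∀ r, TLu h (D r) K δ η u := by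
  classical
  have := Fintype.ofFinite R
  have key : ∀ s : Finset R, ∃ (δ η : ℝ) (u : M → ℝ), 0 < δ ∧ TL0 h K η u ∧
      ∀ r ∈ s, TLu h (D r) K δ η u := by
    intro s
    induction s using Finset.induction_on with
    | empty => exact ⟨1, 1, fun _ => 0, one_pos, TL0.zero hs K, by simp⟩
    | insert a s ha ih =>
      obtain ⟨δ, η, u, hδ, h0, hr⟩ := ih
      obtain ⟨δ', η', u', hu'⟩ := H a
      have hη := h0.1
      have hη' := hu'.2.1
      have hδ' := hu'.1
      have hm1 : 0 < min η η' := lt_min hη hη'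
      have hm2 : 0 < min δ δ' := lt_min hδ hδ'
      have a0 : TL0 h K (min η η') u := h0.mono hm1 (min_le_left _ _)
      have a1 : TLu h (D a) K (min δ δ') (min η η') u' :=
        TLu.mono hm2 (min_le_right _ _) hm1 (min_le_right _ _) hu'
      refine ⟨min δ δ' / 2, min η η', hf u u', by linarith, a0.half a1.tl0, fun r hr' => ?_⟩
      rcases Finset.mem_insert.1 hr' with rfl | hr'
      · exact (a1.half a0).2
      · exact (TLu.half (TLu.mono hm2 (min_le_left _ _) hm1 (min_le_left _ _) (hr r hr'))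
          a1.tl0).1
  obtain ⟨δ, η, u, h1, h2, h3⟩ := key Finset.univ
  exact ⟨δ, η, u, h1, h2, fun r => h3 r (Finset.mem_univ r)⟩

end int

end

end Crest.Agent.R273.AppB_834
end

-- ▼ part R273/AppC_834
section

/-!
# R273 (S0416), leaf A-APP, part C (helper834): homogeneous polynomials in sections

`q : Fin (N + 1) → A.ι → M → ℂ` sections of a line bundle `B`.
* `WrC h ν q` : the Wronskians of the `q o` vanish on `ker (cur h)` where `rank (cur h) = ν`
* `mon q D m`, `homS q D p : IsHS (B ^ D) univ` : homogenised polynomials, `homS_eq`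
* `ev_hom`    : `WrC h ν q → Ev h ν (homS q D (P j))_j`
* `wrC_of_dense` : `WrC` follows from its validity on a dense set
-/

set_option autoImplicit false
set_option linter.unusedSectionVars false

open Set Filter Topology Complex MeasureTheory
open scoped ContDiff Matrix ComplexConjugate ComplexOrder

namespace Crest.Agent.R273.AppC_834

open Crest.Agent.R275 Crest.Agent.R275.Geo Crest.Agent.R275.Core144 Crest.Agent.R275.EDR890
open Crest.Agent.R273.Defs_333 Crest.Agent.R273.HM_333 Crest.Agent.R273.Kah_333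
open Crest.Agent.R273.AppA_834
open Crest.Agent.R273.FIf0_597 (dgr)
open Crest.Agent.R273.SteinC_794 (df)
open Crest.Agent.R273.SteinD_794 (df_mul df_congr)

noncomputable section

variable {n : ℕ} {M : Type} [TopologicalSpace M] {A : Atl n M} {L B : LB A} {N : ℕ}

/-! ### derivatives in the direction `v` -/

theorem dv_eq (v : Fin n → ℂ) (i : A.ι) (x : M) (s : M → ℂ) :
    dv A v i x s = df A i s x (WithLp.toLp 2 v) := by
  unfold dv dgr df
  have hv : (WithLp.toLp 2 v : Cn n) = ∑ c, v c • (EuclideanSpace.single c (1 : ℂ) : Cn n) := by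
    ext d
    simp [Finset.sum_apply, Pi.single_apply]
  conv_rhs => rw [hv, map_sum]
  refine Finset.sum_congr rfl fun a _ => ?_
  rw [map_smul, smul_eq_mul]

section eig

variable {i : A.ι} {x : M} {f g : M → ℂ}

theorem eig_mul (hf : HolAt A i univ f) (hg : HolAt A i univ g) (hx : x ∈ (A.e i).source)
    {v : Fin n → ℂ} {a b : ℂ} (h1 : dv A v i x f = a * f x) (h2 : dv A v i x g = b * g x) :
    dv A v i x (fun y => f y * g y) = (a + b) * (f x * g x) := by
  rw [dv_eq] at h1 h2 ⊢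
  rw [df_mul isOpen_univ hf hg hx (mem_univ x), add_apply,
    smul_apply, smul_apply, h1, h2, smul_eq_mul,
    smul_eq_mul]
  ring

theorem eig_const (c : ℂ) {v : Fin n → ℂ} : dv A v i x (fun _ => c) = 0 := by
  rw [dv_eq]
  unfold df
  simp

theorem eig_pow (hf : HolAt A i univ f) (hx : x ∈ (A.e i).source)
    {v : Fin n → ℂ} {a : ℂ} (h1 : dv A v i x f = a * f x) (k : ℕ) :
    dv A v i x (fun y => f y ^ k) = ((k : ℂ) * a) * f x ^ k := by
  induction k with
  | zero =>
    simp only [pow_zero, Nat.cast_zero, zero_mul]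
    exact eig_const 1
  | succ k ih =>
    have h2 := eig_mul (hf.pow k) hf hx ih h1
    simp only [pow_succ]
    rw [h2]
    push_cast
    ring

theorem eig_prod {κ : Type*} (s : Finset κ) {F : κ → M → ℂ} (hF : ∀ k ∈ s, HolAt A i univ (F k))
    (hx : x ∈ (A.e i).source) {v : Fin n → ℂ} {a : κ → ℂ}
    (h : ∀ k ∈ s, dv A v i x (F k) = a k * F k x) :
    dv A v i x (fun y => ∏ k ∈ s, F k y) = (∑ k ∈ s, a k) * ∏ k ∈ s, F k x := by
  classical
  induction s using Finset.induction_on with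
  | empty =>
    simp only [Finset.prod_empty, Finset.sum_empty, zero_mul]
    exact eig_const 1
  | insert k s hk ih =>
    have h1 := ih (fun l hl => hF l (Finset.mem_insert_of_mem hl))
      (fun l hl => h l (Finset.mem_insert_of_mem hl))
    have h2 := eig_mul (hF k (Finset.mem_insert_self k s))
      (HolAt.prod s fun l hl => hF l (Finset.mem_insert_of_mem hl)) hx
      (h k (Finset.mem_insert_self k s)) h1
    simp only [Finset.prod_insert hk, Finset.sum_insert hk]
    exact h2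

theorem dv_sum {κ : Type*} (s : Finset κ) {F : κ → M → ℂ} (hF : ∀ k ∈ s, HolAt A i univ (F k))
    (hx : x ∈ (A.e i).source) {v : Fin n → ℂ} :
    dv A v i x (fun y => ∑ k ∈ s, F k y) = ∑ k ∈ s, dv A v i x (F k) := by
  simp only [dv_eq]
  unfold df
  have h1 : fderiv ℂ (fun w => ∑ k ∈ s, F k ((A.e i).symm w)) (A.e i x) =
      ∑ k ∈ s, fderiv ℂ (fun w => F k ((A.e i).symm w)) (A.e i x) :=
    fderiv_fun_sum fun k hk => (hF k hk).diffAt isOpen_univ hx (mem_univ x)
  rw [h1, sum_apply]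

theorem dv_const_mul (c : ℂ) (hf : HolAt A i univ f) (hx : x ∈ (A.e i).source)
    {v : Fin n → ℂ} : dv A v i x (fun y => c * f y) = c * dv A v i x f := by
  simp only [dv_eq]
  unfold df
  rw [fderiv_const_mul (hf.diffAt isOpen_univ hx (mem_univ x))]
  rfl

end eig

/-! ### homogenised polynomials -/

/-- the total degree of an exponent -/
def dg (m : Fin N →₀ ℕ) : ℕ := ∑ l, m l

/-- monomials -/
def mon (q : Fin (N + 1) → A.ι → M → ℂ) (D : ℕ) (m : Fin N →₀ ℕ) : A.ι → M → ℂ :=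
  fun i x => (∏ l, q l.succ i x ^ m l) * q 0 i x ^ (D - dg m)

/-- homogenised polynomials -/
def homS (q : Fin (N + 1) → A.ι → M → ℂ) (D : ℕ) (p : MvPolynomial (Fin N) ℂ) : A.ι → M → ℂ :=
  ∑ m ∈ p.support, p.coeff m • mon q D m

theorem homS_apply (q : Fin (N + 1) → A.ι → M → ℂ) (D : ℕ) (p : MvPolynomial (Fin N) ℂ)
    (i : A.ι) (x : M) : homS q D p i x = ∑ m ∈ p.support, p.coeff m * mon q D m i x := by
  unfold homS
  rw [Finset.sum_apply, Finset.sum_apply]
  rfl

theorem dg_le {p : MvPolynomial (Fin N) ℂ} {D : ℕ} (hD : p.totalDegree ≤ D) {m : Fin N →₀ ℕ}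
    (hm : m ∈ p.support) : dg m ≤ D := by
  refine le_trans ?_ hD
  have h1 := MvPolynomial.le_totalDegree hm
  rw [Finsupp.sum_fintype _ _ (fun _ => rfl)] at h1
  exact h1

section

variable {q : Fin (N + 1) → A.ι → M → ℂ}

/-- a monomial vanishes where all `q o` vanish -/
theorem mon_zero {D : ℕ} (hD : 0 < D) {m : Fin N →₀ ℕ} {i : A.ι} {x : M}
    (h : ∀ o, q o i x = 0) : mon q D m i x = 0 := by
  unfold mon
  by_cases hm : dg m = 0
  · have h1 : D - dg m ≠ 0 := by omega
    rw [h 0, zero_pow h1, mul_zero]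
  · have h1 : ∃ l, m l ≠ 0 := by
      by_contra hcon
      push Not at hcon
      exact hm (Finset.sum_eq_zero fun l _ => hcon l)
    obtain ⟨l, hl⟩ := h1
    rw [Finset.prod_eq_zero (Finset.mem_univ l) (by rw [h l.succ, zero_pow hl]), zero_mul]

theorem mon_hs (hq : ∀ o, IsHS B univ (q o)) {D : ℕ} (hD : 0 < D) {m : Fin N →₀ ℕ}
    (hm : dg m ≤ D) : IsHS (B ^ D) univ (mon q D m) := by
  refine ⟨fun i => ?_, fun i x hx => mon_zero hD fun o => (hq o).off i x hx,
    fun i j x hx _ => ?_⟩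
  · exact (HolAt.prod Finset.univ fun l _ => ((hq l.succ).hol i).pow (m l)).mul
      (((hq 0).hol i).pow _)
  · unfold mon
    have h1 : ∀ o, q o i x = B.g i j x * q o j x := fun o => (hq o).tr i j x hx (mem_univ x)
    rw [LB_pow_g, h1 0, mul_pow]
    have h2 : ∏ l : Fin N, q l.succ i x ^ m l =
        (B.g i j x) ^ dg m * ∏ l : Fin N, q l.succ j x ^ m l := by
      unfold dg
      rw [← Finset.prod_pow_eq_pow_sum, ← Finset.prod_mul_distrib]
      exact Finset.prod_congr rfl fun l _ => by rw [h1 l.succ, mul_pow]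
    rw [h2]
    have h3 : (B.g i j x) ^ D = (B.g i j x) ^ dg m * (B.g i j x) ^ (D - dg m) := by
      rw [← pow_add]; congr 1; omega
    rw [h3]
    ring

theorem homS_hs (hq : ∀ o, IsHS B univ (q o)) {D : ℕ} (hD : 0 < D)
    {p : MvPolynomial (Fin N) ℂ} (hp : p.totalDegree ≤ D) :
    IsHS (B ^ D) univ (homS q D p) := by
  have h1 : homS q D p ∈ HS (B ^ D) univ := by
    refine Submodule.sum_mem _ fun m hm => Submodule.smul_mem _ _ ?_
    exact mem_HS.2 (mon_hs hq hD (dg_le hp hm))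
  exact mem_HS.1 h1

/-- in terms of the quotients -/
theorem homS_eq {D : ℕ} {p : MvPolynomial (Fin N) ℂ} (hp : p.totalDegree ≤ D) {i : A.ι} {x : M}
    {y : Fin N → ℂ} (hy : ∀ l, q l.succ i x = y l * q 0 i x) :
    homS q D p i x = q 0 i x ^ D * MvPolynomial.eval y p := by
  rw [homS_apply, MvPolynomial.eval_eq', Finset.mul_sum]
  refine Finset.sum_congr rfl fun m hm => ?_
  have h1 : ∏ l : Fin N, q l.succ i x ^ m l = (∏ l, y l ^ m l) * q 0 i x ^ dg m := by
    unfold dg
    rw [← Finset.prod_pow_eq_pow_sum, ← Finset.prod_mul_distrib]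
    exact Finset.prod_congr rfl fun l _ => by rw [hy l, mul_pow]
  have h3 : q 0 i x ^ D = q 0 i x ^ dg m * q 0 i x ^ (D - dg m) := by
    rw [← pow_add]; congr 1; have := dg_le hp hm; omega
  unfold mon
  rw [h1, h3]
  ring

theorem homS_zero {D : ℕ} (hD : 0 < D) (p : MvPolynomial (Fin N) ℂ) {i : A.ι} {x : M}
    (h : ∀ o, q o i x = 0) : homS q D p i x = 0 := by
  rw [homS_apply]
  exact Finset.sum_eq_zero fun m _ => by rw [mon_zero hD h, mul_zero]

/-- Euler's identity -/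
theorem dv_homS (hq : ∀ o, IsHS B univ (q o)) {D : ℕ} {p : MvPolynomial (Fin N) ℂ}
    (hp : p.totalDegree ≤ D) {i : A.ι} {x : M} (hx : x ∈ (A.e i).source) {v : Fin n → ℂ} {a : ℂ}
    (h : ∀ o, dv A v i x (q o i) = a * q o i x) :
    dv A v i x (homS q D p i) = ((D : ℂ) * a) * homS q D p i x := by
  have hmon : ∀ m ∈ p.support, HolAt A i univ (mon q D m i) ∧
      dv A v i x (mon q D m i) = ((D : ℂ) * a) * mon q D m i x := by
    intro m hm
    have h0 : ∀ l : Fin N, HolAt A i univ (fun y => q l.succ i y ^ m l) := fun l =>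
      ((hq l.succ).hol i).pow (m l)
    refine ⟨(HolAt.prod Finset.univ fun l _ => h0 l).mul (((hq 0).hol i).pow _), ?_⟩
    have h1 := eig_prod Finset.univ (fun l _ => h0 l) hx
      (a := fun l => (m l : ℂ) * a) fun l _ => eig_pow ((hq l.succ).hol i) hx (h l.succ) (m l)
    have h2 := eig_pow ((hq 0).hol i) hx (h 0) (D - dg m)
    have h3 := eig_mul (HolAt.prod Finset.univ fun l _ => h0 l) (((hq 0).hol i).pow _) hx h1 h2
    have h4 : (∑ l, (m l : ℂ) * a) + ((D - dg m : ℕ) : ℂ) * a = (D : ℂ) * a := by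
      rw [← Finset.sum_mul, ← add_mul]
      congr 1
      have h5 : (∑ l, (m l : ℂ)) = ((dg m : ℕ) : ℂ) := by unfold dg; push_cast; rfl
      rw [h5]
      have := dg_le hp hm
      rw [← Nat.cast_add]
      congr 1
      omega
    rw [h4] at h3
    exact h3
  have e1 : homS q D p i = fun y => ∑ m ∈ p.support, p.coeff m * mon q D m i y := by
    funext y
    exact homS_apply q D p i y
  rw [homS_apply, e1, dv_sum _ (fun m hm => ((hmon m hm).1).const_mul _) hx, Finset.mul_sum]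
  refine Finset.sum_congr rfl fun m hm => ?_
  rw [dv_const_mul _ (hmon m hm).1 hx, (hmon m hm).2]
  ring

/-- the Wronskians of the `q o` vanish on `ker (cur h)` at the points where `rank (cur h) = ν` -/
def WrC (h : HM L) (ν : ℕ) (q : Fin (N + 1) → A.ι → M → ℂ) : Prop :=
  ∀ i, ∀ x ∈ (A.e i).source, (cur h i x).rank = ν →
    ∀ v : Fin n → ℂ, (∀ b, ∑ a, v a * cur h i x a b = 0) → ∀ o o',
      q o i x * dv A v i x (q o' i) = q o' i x * dv A v i x (q o i)

theorem ev_hom {h : HM L} {ν : ℕ} (hq : ∀ o, IsHS B univ (q o)) (hw : WrC h ν q) {D : ℕ}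
    (hD : 0 < D) {K : ℕ} {P : Fin K → MvPolynomial (Fin N) ℂ}
    (hP : ∀ j, (P j).totalDegree ≤ D) : Ev h ν (fun j => homS q D (P j)) := by
  intro i x hx hr hne v hv
  obtain ⟨j, hj⟩ := hne
  obtain ⟨o, ho⟩ : ∃ o, q o i x ≠ 0 := by
    by_contra hcon
    push Not at hcon
    exact hj (homS_zero hD _ hcon)
  set a : ℂ := dv A v i x (q o i) / q o i x with ha
  have h1 : ∀ o', dv A v i x (q o' i) = a * q o' i x := by
    intro o'
    have h2 := hw i x hx hr v hv o o'
    rw [ha, div_mul_eq_mul_div, eq_div_iff ho]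
    linear_combination h2
  exact ⟨(D : ℂ) * a, fun k => dv_homS hq (hP k) hx h1⟩

end

/-! ### density -/

theorem ker_iff {h : HM L} {i : A.ι} {x : M} (hx : x ∈ (A.e i).source) (v : Fin n → ℂ) :
    (∀ b, ∑ a, v a * cur h i x a b = 0) ↔ cur h i x *ᵥ (star v) = 0 := by
  have h3 : ∀ a b, cur h i x b a = conj (cur h i x a b) := fun a b => by
    have := congrFun (congrFun (cur_herm h i hx) b) a
    rw [Matrix.conjTranspose_apply] at this
    exact this.symm
  have h4 : ∀ b, (cur h i x *ᵥ (star v)) b = conj (∑ a, v a * cur h i x a b) := by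
    intro b
    rw [Matrix.mulVec, dotProduct, map_sum]
    refine Finset.sum_congr rfl fun a _ => ?_
    rw [map_mul, h3 a b, Pi.star_apply, RCLike.star_def, mul_comm]
  constructor
  · intro h1
    funext b
    rw [h4 b, h1 b, map_zero]
    rfl
  · intro h1 b
    have h5 := h4 b
    rw [h1, Pi.zero_apply] at h5
    exact (map_eq_zero _).1 h5.symm

/-- the gradient of the Wronskian -/
def gW (A : Atl n M) (p q : A.ι → M → ℂ) (i : A.ι) (x : M) : Fin n → ℂ := fun a =>
  q i x * dgr (fun z => p i ((A.e i).symm z)) (A.e i x) a -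
    p i x * dgr (fun z => q i ((A.e i).symm z)) (A.e i x) a

theorem gW_dv (p q : A.ι → M → ℂ) (i : A.ι) (x : M) (v : Fin n → ℂ) :
    ∑ a, v a * gW A p q i x a = q i x * dv A v i x (p i) - p i x * dv A v i x (q i) := by
  unfold gW dv
  simp only [mul_sub, Finset.sum_sub_distrib, Finset.mul_sum]
  congr 1
  · exact Finset.sum_congr rfl fun a _ => by ring
  · exact Finset.sum_congr rfl fun a _ => by ring

theorem rank_le_of_ker {θ : Matrix (Fin n) (Fin n) ℂ} (hθ : θ.IsHermitian) {g : Fin n → ℂ}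
    (hg : ∀ v : Fin n → ℂ, (∀ b, ∑ a, v a * θ a b = 0) → ∑ a, v a * g a = 0) :
    (θ + Matrix.vecMulVec g (star g)).rank ≤ θ.rank := by
  have hle : LinearMap.ker θ.mulVecLin ≤
      LinearMap.ker (θ + Matrix.vecMulVec g (star g)).mulVecLin := by
    intro w hw
    rw [LinearMap.mem_ker, Matrix.mulVecLin_apply] at hw ⊢
    have h1 : ∀ b, ∑ a, (star w) a * θ a b = 0 := by
      intro b
      have h2 := congrArg conj (congrFun hw b)
      rw [Matrix.mulVec, dotProduct, map_sum, Pi.zero_apply, map_zero] at h2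
      rw [← h2]
      refine Finset.sum_congr rfl fun a _ => ?_
      have h3 := congrFun (congrFun hθ a) b
      rw [Matrix.conjTranspose_apply] at h3
      rw [map_mul, ← h3, Pi.star_apply, RCLike.star_def, mul_comm]
    have h2 := hg (star w) h1
    have h3 : star g ⬝ᵥ w = 0 := by
      have h4 := congrArg conj h2
      rw [map_sum, map_zero] at h4
      rw [dotProduct, ← h4]
      refine Finset.sum_congr rfl fun a _ => ?_
      simp only [map_mul, Pi.star_apply, RCLike.star_def, Complex.conj_conj]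
      rw [mul_comm]
    rw [Matrix.add_mulVec, hw, zero_add, Matrix.vecMulVec_mulVec, h3]
    simp
  have h1 := LinearMap.finrank_range_add_finrank_ker θ.mulVecLin
  have h2 := LinearMap.finrank_range_add_finrank_ker
    (θ + Matrix.vecMulVec g (star g)).mulVecLin
  have h3 := Submodule.finrank_mono hle
  unfold Matrix.rank
  omega

theorem mrank_add_le (X Y : Matrix (Fin n) (Fin n) ℂ) : (X + Y).rank ≤ X.rank + Y.rank := by
  unfold Matrix.rank
  rw [Matrix.mulVecLin_add]
  exact (Submodule.finrank_mono (LinearMap.range_add_le _ _)).trans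
    (Submodule.finrank_add_le_finrank_add_finrank _ _)

section dense

variable {h : HM L} (hs : h.Semipos) {ν : ℕ}
  (hν : ∀ i, ∀ x ∈ (A.e i).source, (cur h i x).rank ≤ ν)
  {q : Fin (N + 1) → A.ι → M → ℂ}

theorem cont_at_chart {i : A.ι} {x : M} (hx : x ∈ (A.e i).source) {f : Cn n → ℂ}
    (hf : ContinuousAt f (A.e i x)) : ContinuousAt (fun y => f (A.e i y)) x :=
  ContinuousAt.comp (f := fun y => A.e i y) hf ((A.e i).continuousAt hx)

theorem cont_gW (hq : ∀ o, IsHS B univ (q o)) (o o' : Fin (N + 1)) {i : A.ι} {x : M}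
    (hx : x ∈ (A.e i).source) (a : Fin n) :
    ContinuousAt (fun y => gW A (q o) (q o') i y a) x := by
  have hz := (A.e i).map_source hx
  have han : ∀ o, AnalyticOnNhd ℂ (fun z => q o i ((A.e i).symm z)) (A.e i).target := by
    intro o
    have h1 := (hq o).hol i
    unfold HolAt at h1
    rw [preimage_univ, inter_univ] at h1
    exact Crest.Agent.R266.SCV.analyticOnNhd_of_differentiableOn (A.e i).open_target h1
  have hc0 : ∀ o, ContinuousAt (fun y => q o i y) x := fun o =>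
    SteinC_794.continuousAt_of_holAt isOpen_univ ((hq o).hol i) hx (mem_univ x)
  have hc1 : ∀ o, ContinuousAt (fun y => dgr (fun z => q o i ((A.e i).symm z)) (A.e i y) a) x := by
    intro o
    refine cont_at_chart hx (f := fun z => dgr (fun z => q o i ((A.e i).symm z)) z a) ?_
    unfold dgr
    exact (((han o).fderiv _ hz).continuousAt).clm_apply continuousAt_const
  unfold gW
  exact ((hc0 o').mul (hc1 o)).sub ((hc0 o).mul (hc1 o'))

include hs hν in
/-- **density** -/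
theorem wrC_of_dense (hq : ∀ o, IsHS B univ (q o)) {V : Set M} (hV : Dense V)
    (hw : ∀ i, ∀ x ∈ (A.e i).source, x ∈ V → (cur h i x).rank = ν →
      ∀ v : Fin n → ℂ, (∀ b, ∑ a, v a * cur h i x a b = 0) → ∀ o o',
        q o i x * dv A v i x (q o' i) = q o' i x * dv A v i x (q o i)) :
    WrC h ν q := by
  intro i x hx hr v hv o o'
  -- the rank inequality
  have hrk : ∀ y ∈ (A.e i).source, y ∈ V → (cur h i y +
      Matrix.vecMulVec (gW A (q o) (q o') i y) (star (gW A (q o) (q o') i y))).rank ≤ ν := by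
    intro y hy hyV
    by_cases hry : (cur h i y).rank = ν
    · refine (rank_le_of_ker (cur_herm h i hy) fun w hw' => ?_).trans (hν i y hy)
      rw [gW_dv, hw i y hy hyV hry w hw' o o', sub_self]
    · have h1 := hν i y hy
      have h2 := mrank_add_le (cur h i y)
        (Matrix.vecMulVec (gW A (q o) (q o') i y) (star (gW A (q o) (q o') i y)))
      have h3 := Matrix.rank_vecMulVec_le (gW A (q o) (q o') i y) (star (gW A (q o) (q o') i y))
      omega
  have h4 : (cur h i x +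
      Matrix.vecMulVec (gW A (q o) (q o') i x) (star (gW A (q o) (q o') i x))).rank ≤ ν := by
    refine FFi_101.rank_le_of_freq (S := fun y => cur h i y +
      Matrix.vecMulVec (gW A (q o) (q o') i y) (star (gW A (q o) (q o') i y))) ?_ ?_ ?_
    · intro a b
      have c1 : ContinuousAt (fun y => cur h i y a b) x := by
        have h5 := (cur_smooth h i a b).continuousOn.continuousAt
          ((A.e i).open_target.mem_nhds ((A.e i).map_source hx))
        have h6 := cont_at_chart hx h5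
        refine h6.congr ?_
        filter_upwards [(A.e i).open_source.mem_nhds hx] with y hy
        simp only [(A.e i).left_inv hy]
      have c2 := cont_gW hq o o' hx
      simp only [Matrix.add_apply, Matrix.vecMulVec_apply, Pi.star_apply]
      exact c1.add ((c2 a).mul (Complex.continuous_conj.continuousAt.comp (c2 b)))
    · filter_upwards [(A.e i).open_source.mem_nhds hx] with y hy
      exact (cur_posSemidef hs i hy).add (Matrix.posSemidef_vecMulVec_self_star _)
    · have h5 : ∃ᶠ y in 𝓝 x, y ∈ V := mem_closure_iff_frequently.1 (hV x)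
      exact (h5.and_eventually ((A.e i).open_source.mem_nhds hx)).mono
        fun y hy => hrk y hy.2 hy.1
  rw [← hr] at h4
  have h5 := FIf0_597.ker_of_rank (cur_posSemidef hs i hx) (g := gW A (q o) (q o') i x)
    (c := 1) one_pos (by rw [Complex.ofReal_one, one_smul]; exact h4) hv
  rw [gW_dv] at h5
  linear_combination -h5

end dense

end

end Crest.Agent.R273.AppC_834
end

-- ▼ part R273/TLl_201
section

/-!
# R273 (S0416), T-LEMMA (helper201): the limit in `L²`

`tl_of : MassStmt → VolStmt → VolLow → ExpStmt → YauStmt → TLStmt`.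
-/

set_option autoImplicit false
set_option linter.unusedSectionVars false

open Set Filter Topology Complex MeasureTheory
open scoped ContDiff Matrix ComplexConjugate ComplexOrder ENNReal

namespace Crest.Agent.R273.TLl_201

open Crest.Agent.R275 Crest.Agent.R275.Geo Crest.Agent.R275.Core144 Crest.Agent.R275.EDR890
open Crest.Agent.R275.GC293
open Crest.Agent.R273.Defs_333 Crest.Agent.R273.Hess_333 Crest.Agent.R273.HessB_333
open Crest.Agent.R273.HM_333 Crest.Agent.R273.Kah_333 Crest.Agent.R273.Vol_333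
open Crest.Agent.R273.Vm_333 Crest.Agent.R273.StV_37 Crest.Agent.R273.VolInv_5
open Crest.Agent.R273.YauDefs_635 Crest.Agent.R273.YauKah_635
open Crest.Agent.R273.Green_5 Crest.Agent.R273.FIa0_597 Crest.Agent.R273.FIb0_597
open Crest.Agent.R273.FIc0_597 Crest.Agent.R273.FId0_597
open Crest.Agent.R273.TLd_201 Crest.Agent.R273.TLb_201 Crest.Agent.R273.TLh_201
open Crest.Agent.R273.TLs_201

noncomputable section

/-! ### `L²` -/

section L2

variable {X : Type*} [MeasurableSpace X] {μ : Measure X}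

theorem norm_sq_eq (f : Lp ℝ 2 μ) : ‖f‖ ^ 2 = ∫ x, (f x) ^ 2 ∂μ := by
  rw [← real_inner_self_eq_norm_sq, L2.inner_def]
  refine integral_congr_ae (Eventually.of_forall fun x => ?_)
  simp [sq]

theorem norm_sub_sq_eq (f g : Lp ℝ 2 μ) : ‖f - g‖ ^ 2 = ∫ x, (f x - g x) ^ 2 ∂μ := by
  rw [norm_sq_eq]
  refine integral_congr_ae ?_
  filter_upwards [Lp.coeFn_sub f g] with x hx
  rw [hx, Pi.sub_apply]

/-- limits of nonpositive functions with bounded exponential integrals -/
theorem closure_props {η C : ℝ} {S : Set (Lp ℝ 2 μ)}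
    (h0 : ∀ f ∈ S, ∀ᵐ x ∂μ, f x ≤ 0)
    (h1 : ∀ f ∈ S, ∫⁻ x, ENNReal.ofReal (Real.exp (-(η * f x))) ∂μ ≤ ENNReal.ofReal C)
    {p : Lp ℝ 2 μ} (hp : p ∈ closure S) :
    (∀ᵐ x ∂μ, p x ≤ 0) ∧
      ∫⁻ x, ENNReal.ofReal (Real.exp (-(η * p x))) ∂μ ≤ ENNReal.ofReal C := by
  obtain ⟨f, hf, hlim⟩ := mem_closure_iff_seq_limit.1 hp
  have h2 : TendstoInMeasure μ (fun k => (f k : X → ℝ)) atTop p :=
    tendstoInMeasure_of_tendsto_Lp hlim
  obtain ⟨ns, -, hns⟩ := h2.exists_seq_tendsto_ae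
  have h3 : ∀ᵐ x ∂μ, ∀ k, f k x ≤ 0 := ae_all_iff.2 fun k => h0 _ (hf k)
  constructor
  · filter_upwards [hns, h3] with x hx hx'
    exact le_of_tendsto' hx fun k => hx' _
  · have h4 : ∀ᵐ x ∂μ, ENNReal.ofReal (Real.exp (-(η * p x))) =
        liminf (fun k => ENNReal.ofReal (Real.exp (-(η * f (ns k) x)))) atTop := by
      filter_upwards [hns] with x hx
      have h5 : Tendsto (fun k => ENNReal.ofReal (Real.exp (-(η * f (ns k) x)))) atTop
          (𝓝 (ENNReal.ofReal (Real.exp (-(η * p x))))) := by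
        refine (ENNReal.continuous_ofReal.tendsto _).comp ?_
        exact (Real.continuous_exp.tendsto _).comp ((hx.const_mul η).neg)
      exact h5.liminf_eq.symm
    rw [lintegral_congr_ae h4]
    refine (lintegral_liminf_le' fun k => ?_).trans ?_
    · exact ((Lp.stronglyMeasurable (f (ns k))).measurable.const_mul η).neg.exp.ennreal_ofReal.aemeasurable
    · refine liminf_le_of_frequently_le' (Frequently.of_forall fun k => h1 _ (hf (ns k)))

end L2

variable {n : ℕ} {M : Type} [TopologicalSpace M] {A : Atl n M} {L L' : LB A}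

/-- the properties of the approximants -/
structure Pr [MeasurableSpace M] [BorelSpace M] [Countable A.ι] (h : HM (KB A)⁻¹) (D : TD A)
    (K : Kah A) (δ η C : ℝ) (m : ℕ) (T : Finset (Tst D)) (v : M → ℝ) : Prop where
  sm : A.Sm v
  np : ∀ x, v x ≤ 0
  psd : ∀ i, ∀ x ∈ (A.e i).source,
    (cur h i x + (1 / ((m : ℂ) + 1)) • K.g i x + hsf A v i x).PosSemidef
  ex : ∫⁻ x, ENNReal.ofReal (Real.exp (-(η * v x))) ∂(vm h) ≤ ENNReal.ofReal C
  tst : ∀ t ∈ T, δ * t.B h D.be ≤
    t.B h (fun i x => cur h i x + (1 / ((m : ℂ) + 1)) • K.g i x + hsf A v i x)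

section

variable [T2Space M] [CompactSpace M] [Fintype A.ι] [MeasurableSpace M] [BorelSpace M]
  {h : HM (KB A)⁻¹} {D : TD A} {K : Kah A} {δ η C : ℝ}

theorem tf_m (h : HM (KB A)⁻¹) (K : Kah A) (s : ℂ) {v : M → ℝ} (hv : A.Sm v) :
    TF A (fun i x => cur h i x + s • K.g i x + hsf A v i x) :=
  TF.add (TF.add (tf_cur h) ((tf_kah K).smul s)) (tf_hsf hv)

theorem inv_le {m m' : ℕ} (hm : m ≤ m') : (0 : ℝ) ≤ 1 / ((m : ℝ) + 1) - 1 / ((m' : ℝ) + 1) := by
  have h1 : (m : ℝ) ≤ m' := by exact_mod_cast hm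
  have h2 : 1 / ((m' : ℝ) + 1) ≤ 1 / ((m : ℝ) + 1) :=
    one_div_le_one_div_of_le (by positivity) (by linarith)
  linarith

theorem field_mono (h : HM (KB A)⁻¹) (K : Kah A) (m m' : ℕ) (v : M → ℝ) (i : A.ι) (x : M) :
    cur h i x + (1 / ((m : ℂ) + 1)) • K.g i x + hsf A v i x =
      (cur h i x + (1 / ((m' : ℂ) + 1)) • K.g i x + hsf A v i x) +
        ((1 / ((m : ℝ) + 1) - 1 / ((m' : ℝ) + 1) : ℝ) : ℂ) • K.g i x := by
  push_cast
  module

theorem Pr.mono {m m' : ℕ} (hm : m ≤ m') {T T' : Finset (Tst D)} (hT : T ⊆ T') {v : M → ℝ}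
    (hv : Pr h D K δ η C m' T' v) : Pr h D K δ η C m T v where
  sm := hv.sm
  np := hv.np
  ex := hv.ex
  psd i x hx := by
    rw [field_mono h K m m' v i x]
    exact (hv.psd i x hx).add ((K.pos i x hx).posSemidef.smul (by exact_mod_cast inv_le hm))
  tst t ht := by
    refine (hv.tst t (hT ht)).trans ?_
    have e : t.B h (fun i x => cur h i x + (1 / ((m : ℂ) + 1)) • K.g i x + hsf A v i x) =
        t.B h (fun i x => (cur h i x + (1 / ((m' : ℂ) + 1)) • K.g i x + hsf A v i x) +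
        ((1 / ((m : ℝ) + 1) - 1 / ((m' : ℝ) + 1) : ℝ) : ℂ) • K.g i x) :=
      B_congr h t fun x _ => field_mono h K m m' v _ x
    rw [e, B_add h t (tf_m h K _ hv.sm) ((tf_kah K).smul _), B_smul]
    have h1 := B_nonneg h t (T := K.g) fun i x hx => (K.pos i x hx).posSemidef
    have h2 := mul_nonneg (inv_le hm) h1
    linarith

theorem Pr.convex {m : ℕ} {T : Finset (Tst D)} {v v' : M → ℝ} (hv : Pr h D K δ η C m T v)
    (hv' : Pr h D K δ η C m T v') {a b : ℝ} (ha : 0 ≤ a) (hb : 0 ≤ b) (hab : a + b = 1) :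
    Pr h D K δ η C m T (fun x => a * v x + b * v' x) := by
  have hcomb : ∀ i, ∀ x ∈ (A.e i).source,
      cur h i x + (1 / ((m : ℂ) + 1)) • K.g i x + hsf A (fun x => a * v x + b * v' x) i x =
      (a : ℂ) • (cur h i x + (1 / ((m : ℂ) + 1)) • K.g i x + hsf A v i x) +
      (b : ℂ) • (cur h i x + (1 / ((m : ℂ) + 1)) • K.g i x + hsf A v' i x) := by
    intro i x hx
    rw [hsf_add (sm_smul a hv.sm) (sm_smul b hv'.sm) hx, hsf_smul a hv.sm hx,
      hsf_smul b hv'.sm hx]
    have h1 : (b : ℂ) = 1 - a := by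
      have : b = 1 - a := by linarith
      rw [this]; push_cast; ring
    rw [h1]
    module
  refine ⟨sm_add (sm_smul a hv.sm) (sm_smul b hv'.sm), fun x => ?_, fun i x hx => ?_, ?_,
    fun t ht => ?_⟩
  · have h1 := mul_nonneg ha (neg_nonneg.2 (hv.np x))
    have h2 := mul_nonneg hb (neg_nonneg.2 (hv'.np x))
    linarith
  · rw [hcomb i x hx]
    exact ((hv.psd i x hx).smul (by exact_mod_cast ha)).add
      ((hv'.psd i x hx).smul (by exact_mod_cast hb))
  · have h1 : ∀ x, ENNReal.ofReal (Real.exp (-(η * (a * v x + b * v' x)))) ≤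
        ENNReal.ofReal a * ENNReal.ofReal (Real.exp (-(η * v x))) +
          ENNReal.ofReal b * ENNReal.ofReal (Real.exp (-(η * v' x))) := by
      intro x
      rw [← ENNReal.ofReal_mul ha, ← ENNReal.ofReal_mul hb, ← ENNReal.ofReal_add (by positivity)
        (by positivity)]
      refine ENNReal.ofReal_le_ofReal ?_
      have h2 := convexOn_exp.2 (mem_univ (-(η * v x))) (mem_univ (-(η * v' x))) ha hb hab
      simp only [smul_eq_mul] at h2
      refine le_trans (le_of_eq ?_) h2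
      congr 1
      ring
    refine (lintegral_mono h1).trans ?_
    have hmeas : Measurable fun x => ENNReal.ofReal b * ENNReal.ofReal (Real.exp (-(η * v' x))) :=
      ((((cont_sm hv'.sm).measurable.const_mul η).neg.exp).ennreal_ofReal).const_mul _
    rw [lintegral_add_right _ hmeas, lintegral_const_mul' _ _ ENNReal.ofReal_ne_top,
      lintegral_const_mul' _ _ ENNReal.ofReal_ne_top]
    calc ENNReal.ofReal a * ∫⁻ x, ENNReal.ofReal (Real.exp (-(η * v x))) ∂(vm h) +
          ENNReal.ofReal b * ∫⁻ x, ENNReal.ofReal (Real.exp (-(η * v' x))) ∂(vm h)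
        ≤ ENNReal.ofReal a * ENNReal.ofReal C + ENNReal.ofReal b * ENNReal.ofReal C :=
          add_le_add (mul_le_mul_right hv.ex _) (mul_le_mul_right hv'.ex _)
      _ = (ENNReal.ofReal a + ENNReal.ofReal b) * ENNReal.ofReal C := by ring
      _ = ENNReal.ofReal C := by
          rw [← ENNReal.ofReal_add ha hb, hab, ENNReal.ofReal_one, one_mul]
  · have e : t.B h (fun i x => cur h i x + (1 / ((m : ℂ) + 1)) • K.g i x +
        hsf A (fun x => a * v x + b * v' x) i x) =
        t.B h (fun i x =>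
          (a : ℂ) • (cur h i x + (1 / ((m : ℂ) + 1)) • K.g i x + hsf A v i x) +
          (b : ℂ) • (cur h i x + (1 / ((m : ℂ) + 1)) • K.g i x + hsf A v' i x)) :=
      B_congr h t fun x hx => hcomb _ x hx
    rw [e, B_add h t ((tf_m h K _ hv.sm).smul _) ((tf_m h K _ hv'.sm).smul _), B_smul, B_smul]
    have h1 := mul_le_mul_of_nonneg_left (hv.tst t ht) ha
    have h2 := mul_le_mul_of_nonneg_left (hv'.tst t ht) hb
    have h3 : δ * t.B h D.be = a * (δ * t.B h D.be) + b * (δ * t.B h D.be) := by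
      rw [← add_mul, hab, one_mul]
    linarith

theorem Pr.memLp {m : ℕ} {T : Finset (Tst D)} {v : M → ℝ} (hv : Pr h D K δ η C m T v) :
    MemLp v 2 (vm h) := by
  have := isFinite_vm h
  have hc := cont_sm hv.sm
  obtain ⟨B, hB⟩ := isCompact_univ.exists_bound_of_continuousOn hc.continuousOn
  exact MemLp.of_bound hc.aestronglyMeasurable B (Eventually.of_forall fun x => hB x (mem_univ x))

theorem Pr.sq_le {m : ℕ} {T : Finset (Tst D)} {v : M → ℝ} (hη : 0 < η)
    (hv : Pr h D K δ η C m T v) : ∫ x, (v x) ^ 2 ∂(vm h) ≤ 2 / η ^ 2 * (max C 0) := by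
  have h1 : ∀ x, (v x) ^ 2 ≤ 2 / η ^ 2 * Real.exp (-(η * v x)) := by
    intro x
    have h2 : 0 ≤ -(η * v x) := by
      have := mul_nonneg hη.le (neg_nonneg.2 (hv.np x))
      linarith
    have h3 := Real.quadratic_le_exp_of_nonneg h2
    have h4 : (-(η * v x)) ^ 2 / 2 ≤ Real.exp (-(η * v x)) := by nlinarith
    have h5 : (v x) ^ 2 = 2 / η ^ 2 * ((-(η * v x)) ^ 2 / 2) := by
      field_simp
    rw [h5]
    exact mul_le_mul_of_nonneg_left h4 (by positivity)
  have hc := cont_sm hv.sm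
  have i1 : Integrable (fun x => Real.exp (-(η * v x))) (vm h) :=
    integrable_cont h (Real.continuous_exp.comp ((hc.const_mul η).neg))
  have h2 : ∫ x, Real.exp (-(η * v x)) ∂(vm h) ≤ max C 0 := by
    rw [integral_eq_lintegral_of_nonneg_ae (Eventually.of_forall fun x => (Real.exp_pos _).le)
      i1.aestronglyMeasurable]
    refine ENNReal.toReal_le_of_le_ofReal (le_max_right _ _) (hv.ex.trans ?_)
    exact ENNReal.ofReal_le_ofReal (le_max_left _ _)
  calc ∫ x, (v x) ^ 2 ∂(vm h) ≤ ∫ x, 2 / η ^ 2 * Real.exp (-(η * v x)) ∂(vm h) :=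
        integral_mono (integrable_cont h (hc.pow 2)) (i1.const_mul _) h1
    _ = 2 / η ^ 2 * ∫ x, Real.exp (-(η * v x)) ∂(vm h) := integral_const_mul _ _
    _ ≤ _ := mul_le_mul_of_nonneg_left h2 (by positivity)

/-- the limit -/
theorem limit (hη : 0 < η) (hδ : 0 < δ)
    (hne : ∀ (m : ℕ) (T : Finset (Tst D)), ∃ v, Pr h D K δ η C m T v) : TLStmt h D K := by
  classical
  set S : ℕ × Finset (Tst D) → Set (Lp ℝ 2 (vm h)) := fun q =>
    {f | ∃ v, Pr h D K δ η C q.1 q.2 v ∧ f =ᵐ[vm h] v} with hS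
  have hSc : ∀ q, Convex ℝ (S q) := by
    rintro q f ⟨v, hv, hf⟩ f' ⟨v', hv', hf'⟩ a b ha hb hab
    refine ⟨fun x => a * v x + b * v' x, hv.convex hv' ha hb hab, ?_⟩
    filter_upwards [Lp.coeFn_add (a • f) (b • f'), Lp.coeFn_smul a f, Lp.coeFn_smul b f', hf, hf']
      with x h1 h2 h3 h4 h5
    rw [h1, Pi.add_apply, h2, h3, Pi.smul_apply, Pi.smul_apply, h4, h5, smul_eq_mul, smul_eq_mul]
  have hSn : ∀ q, (S q).Nonempty := by
    intro q
    obtain ⟨v, hv⟩ := hne q.1 q.2
    exact ⟨hv.memLp.toLp v, v, hv, hv.memLp.coeFn_toLp⟩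
  have hSa : Antitone S := by
    rintro q q' hq f ⟨v, hv, hf⟩
    exact ⟨v, hv.mono hq.1 hq.2, hf⟩
  have hSb : ∀ q, ∀ f ∈ S q, ‖f‖ ^ 2 ≤ 2 / η ^ 2 * (max C 0) := by
    rintro q f ⟨v, hv, hf⟩
    rw [norm_sq_eq]
    refine le_trans (le_of_eq ?_) (hv.sq_le hη)
    refine integral_congr_ae ?_
    filter_upwards [hf] with x hx
    rw [hx]
  set R : ℝ := Real.sqrt (2 / η ^ 2 * (max C 0)) with hR
  have hSb' : ∀ q, ∀ f ∈ closure (S q), ‖f‖ ≤ R := by
    intro q f hf
    have h1 : closure (S q) ⊆ Metric.closedBall 0 R :=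
      closure_minimal (fun f hf => by
        rw [mem_closedBall_zero_iff]
        exact Real.le_sqrt_of_sq_le (hSb q f hf)) Metric.isClosed_closedBall
    simpa using h1 hf
  obtain ⟨p, hp⟩ := exists_mem_iInter (C := fun q => closure (S q)) (fun q => (hSc q).closure)
    (fun q => isClosed_closure) (fun q => (hSn q).closure) (fun q q' hq => closure_mono (hSa hq))
    hSb'
  have hprops := closure_props (η := η) (C := C) (S := S (0, ∅)) (by
      rintro f ⟨v, hv, hf⟩
      filter_upwards [hf] with x hx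
      rw [hx]
      exact hv.np x) (by
      rintro f ⟨v, hv, hf⟩
      refine le_trans (le_of_eq ?_) hv.ex
      refine lintegral_congr_ae ?_
      filter_upwards [hf] with x hx
      rw [hx]) (hp (0, ∅))
  set u : M → ℝ := fun x => min (p x) 0 with hu
  have hup : u =ᵐ[vm h] p := by
    filter_upwards [hprops.1] with x hx
    exact min_eq_left hx
  have hum : Measurable u := (Lp.stronglyMeasurable p).measurable.min measurable_const
  refine ⟨δ, η, u, hδ, hη, hum, fun x => min_le_right _ _, (Lp.memLp p).ae_eq hup.symm, ?_, ?_⟩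
  · have hmE : Measurable fun x => Real.exp (-(η * u x)) := (hum.const_mul η).neg.exp
    refine ⟨hmE.aestronglyMeasurable, ?_⟩
    rw [hasFiniteIntegral_iff_ofReal (Eventually.of_forall fun x => (Real.exp_pos _).le)]
    refine lt_of_le_of_lt (le_trans (le_of_eq ?_) hprops.2) ENNReal.ofReal_lt_top
    refine lintegral_congr_ae ?_
    filter_upwards [hup] with x hx
    rw [hx]
  · intro m ε hε T
    obtain ⟨f, ⟨v, hv, hf⟩, hd⟩ := Metric.mem_closure_iff.1 (hp (m, T)) (Real.sqrt ε)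
      (Real.sqrt_pos.2 hε)
    refine ⟨v, hv.sm, hv.np, hv.psd, ?_, hv.tst⟩
    rw [dist_comm, dist_eq_norm] at hd
    have h1 : ‖f - p‖ ^ 2 ≤ ε := by
      have h2 := pow_le_pow_left₀ (norm_nonneg _) hd.le 2
      rwa [Real.sq_sqrt hε.le] at h2
    rw [norm_sub_sq_eq] at h1
    refine le_trans (le_of_eq ?_) h1
    refine integral_congr_ae ?_
    filter_upwards [hf, hup] with x hx hx'
    rw [hx, hx']

/-- **T-LEMMA** from mass, volume, exponential integrability and Yau's theorem -/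
theorem tl_of [ConnectedSpace M] (hY : YauStmt) (hG : GoodA A) (P : Part A) {H : HM L'}
    (hH : H.Pos) (hs : h.Semipos) (hmass : MassStmt h D) {ν : ℕ} (hν : 1 ≤ ν)
    (hup : VolStmt h D ν (kah H hH)) (hlo : VolLow h ν (kah H hH))
    (hE : ExpStmt h (mul h H)) : TLStmt h D (kah H hH) := by
  obtain ⟨C, hC, hup⟩ := hup
  obtain ⟨c, hc, hlo⟩ := hlo
  obtain ⟨η, hη, C1, hE⟩ := hE
  refine limit (δ := 1 / (4 * (C / c + 1))) (η := η) (C := C1) hη (by positivity) fun m T => ?_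
  -- the Kähler metric `K + s θ`
  set s : ℕ := m + 1 with hsd
  have hs1 : 1 ≤ s := by omega
  set Ks := kah (mul H (pow h s)) (pos_t hH hs s) with hKs
  have hcs : ∀ i, ∀ x ∈ (A.e i).source, Ks.g i x = cur H i x + (s : ℂ) • cur h i x :=
    fun i x hx => by
      show cur (mul H (pow h s)) i x = _
      rw [cur_mul H (pow h s) i hx, cur_pow h s i hx]
  have hup' : ∫⁻ x in D.U, ENNReal.ofReal
      (mdens h (fun i x => cur H i x + (s : ℂ) • cur h i x) D.be x) ∂(vm h) ≤
      ENNReal.ofReal (C * (s : ℝ) ^ (ν - 1)) := by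
    refine le_trans (le_of_eq ?_) (hup s hs1 Ks hcs)
    refine lintegral_congr fun x => ?_
    unfold mdens
    rw [hcs _ x (mem_ch A x)]
  have hlo' : c * (s : ℝ) ^ ν ≤
      ∫ x, dtM h (fun i x => cur H i x + (s : ℂ) • cur h i x) x ∂(vm h) := by
    refine le_trans (hlo s hs1 Ks hcs) (le_of_eq ?_)
    refine integral_congr_ae (Eventually.of_forall fun x => ?_)
    show (Ks.g (ch A x) x).det.re / _ = _ / _
    rw [hcs _ x (mem_ch A x)]
  obtain ⟨w, hw, hpd, htst⟩ := sep hY hG P hH hs hmass hν hC hc hs1 hup' hlo' T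
  -- normalise
  have hs0 : (0 : ℝ) < s := by exact_mod_cast hs1
  have hwc : Continuous w := cont_sm hw
  obtain ⟨x0, -, hx0⟩ := isCompact_univ.exists_isMaxOn (univ_nonempty (α := M)) hwc.continuousOn
  set v : M → ℝ := fun x => (1 / (s : ℝ)) * w x - (1 / (s : ℝ)) * w x0 with hv
  have hvs : A.Sm v := fun i => (sm_smul (1 / (s : ℝ)) hw i).sub contDiffOn_const
  have hvn : ∀ x, v x ≤ 0 := fun x => by
    have h1 : w x ≤ w x0 := hx0 (mem_univ x)
    have h2 := mul_le_mul_of_nonneg_left h1 (by positivity : (0 : ℝ) ≤ 1 / (s : ℝ))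
    simp only [hv]
    linarith
  have hfield : ∀ i, ∀ x ∈ (A.e i).source,
      cur h i x + (1 / ((m : ℂ) + 1)) • (kah H hH).g i x + hsf A v i x =
        ((1 / (s : ℝ) : ℝ) : ℂ) • (cur H i x + (s : ℂ) • cur h i x + hsf A w i x) := by
    intro i x hx
    rw [hsf_sub_const (sm_smul (1 / (s : ℝ)) hw) _ hx, hsf_smul _ hw hx]
    have h1 : ((1 / (s : ℝ) : ℝ) : ℂ) = 1 / ((m : ℂ) + 1) := by
      rw [hsd]; push_cast; ring
    have h2 : (1 / ((m : ℂ) + 1)) * (s : ℂ) = 1 := by
      rw [hsd]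
      push_cast
      have : (m : ℂ) + 1 ≠ 0 := by exact_mod_cast Nat.succ_ne_zero m
      field_simp
    rw [h1, smul_add, smul_add, smul_smul, h2, one_smul]
    show _ + (1 / ((m : ℂ) + 1)) • cur H i x + _ = _
    abel
  have hvp : ∀ i, ∀ x ∈ (A.e i).source,
      (cur h i x + (1 / ((m : ℂ) + 1)) • (kah H hH).g i x + hsf A v i x).PosSemidef := by
    intro i x hx
    rw [hfield i x hx]
    exact (hpd i x hx).posSemidef.smul (by
      have : (0 : ℝ) ≤ 1 / (s : ℝ) := by positivity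
      exact_mod_cast this)
  refine ⟨v, hvs, hvn, hvp, ?_, fun t ht => ?_⟩
  · refine hE v hvs (fun i x hx => ?_) hvn ⟨x0, by simp [hv]⟩
    have h1 : cur (mul h H) i x + hsf A v i x =
        (cur h i x + (1 / ((m : ℂ) + 1)) • (kah H hH).g i x + hsf A v i x) +
          ((1 - 1 / ((m : ℝ) + 1) : ℝ) : ℂ) • cur H i x := by
      rw [cur_mul h H i hx]
      show _ = (cur h i x + (1 / ((m : ℂ) + 1)) • cur H i x + hsf A v i x) + _
      push_cast
      module
    rw [h1]
    refine (hvp i x hx).add ((cur_posDef hH i hx).posSemidef.smul ?_)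
    have h2 : (0 : ℝ) ≤ 1 - 1 / ((m : ℝ) + 1) := by
      have h3 : 1 / ((m : ℝ) + 1) ≤ 1 := by
        rw [div_le_one (by positivity)]
        have : (0 : ℝ) ≤ m := Nat.cast_nonneg m
        linarith
      linarith
    exact_mod_cast h2
  · have h1 := htst t ht
    have e : t.B h (fun i x => cur h i x + (1 / ((m : ℂ) + 1)) • (kah H hH).g i x +
        hsf A v i x) = t.B h (fun i x => ((1 / (s : ℝ) : ℝ) : ℂ) •
          (cur H i x + (s : ℂ) • cur h i x + hsf A w i x)) :=
      B_congr h t fun x hx => hfield _ x hx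
    rw [e, B_smul]
    have h2 := mul_le_mul_of_nonneg_left h1 (by positivity : (0 : ℝ) ≤ 1 / (s : ℝ))
    refine le_trans (le_of_eq ?_) h2
    field_simp

end

end

end Crest.Agent.R273.TLl_201
end

-- ▼ part R273/TVolB_332
section

/-!
# R273 (S0416), T-LEMMA (T1'), part B (helper332): volumes

* `volStmt : VolStmt h D ν K`
* `volLow : VolLow h ν K`
-/

set_option autoImplicit false
set_option linter.unusedSectionVars false

open Set Filter Topology Complex MeasureTheory
open scoped ContDiff Matrix ComplexConjugate ComplexOrder ENNReal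

namespace Crest.Agent.R273.TVolB_332

open Crest.Agent.R275 Crest.Agent.R275.Geo Crest.Agent.R275.Core144 Crest.Agent.R275.EDR890
open Crest.Agent.R273.Defs_333 Crest.Agent.R273.Hess_333 Crest.Agent.R273.HessB_333
open Crest.Agent.R273.HM_333 Crest.Agent.R273.Kah_333 Crest.Agent.R273.Vol_333
open Crest.Agent.R273.Vm_333 Crest.Agent.R273.StV_37 Crest.Agent.R273.VolInv_5
open Crest.Agent.R273.Green_5 Crest.Agent.R273.FIa0_597 Crest.Agent.R273.FIb0_597
open Crest.Agent.R273.FIc0_597 Crest.Agent.R273.FId0_597 Crest.Agent.R273.FIe0_597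
open Crest.Agent.R273.FIlin_332 Crest.Agent.R273.TLd_201 Crest.Agent.R273.TVolA_332

noncomputable section

variable {n : ℕ} {M : Type} [TopologicalSpace M] {A : Atl n M} {L L' : LB A}

section int

variable [T2Space M] [CompactSpace M] [MeasurableSpace M] [BorelSpace M]

/-- `tr (adj (g) S) / h = (det g / h) tr (g⁻¹ S)` -/
theorem mdens_kah [Fintype A.ι] (h : HM (KB A)⁻¹) (K : Kah A) (S : A.ι → M → Matrix (Fin n) (Fin n) ℂ) (x : M) :
    mdens h K.g S x = dtM h K.g x * trM K S x := by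
  have hx := mem_ch A x
  have h1 := trC_det K S hx
  have h2 : (K.g (ch A x) x).det = ((K.g (ch A x) x).det.re : ℂ) := by
    apply Complex.ext
    · rw [Complex.ofReal_re]
    · rw [Complex.ofReal_im, ← volK_w K _ hx, Complex.ofReal_im]
  unfold mdens dtM trM
  rw [← h1, h2, Complex.re_ofReal_mul, Complex.ofReal_re]
  ring

theorem cont_mdens [Fintype A.ι] (h : HM (KB A)⁻¹) (K : Kah A)
    {S : A.ι → M → Matrix (Fin n) (Fin n) ℂ} (hS : TF A S) : Continuous (mdens h K.g S) := by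
  have : mdens h K.g S = fun x => dtM h K.g x * trM K S x := funext fun x => mdens_kah h K S x
  rw [this]
  exact (cont_dtM h (tf_kah K)).mul (cont_trM K hS)

theorem mdens_le_dtM (h : HM (KB A)⁻¹) (K : Kah A) {S : A.ι → M → Matrix (Fin n) (Fin n) ℂ}
    {x : M} (hS : (S (ch A x) x).PosSemidef) :
    mdens h K.g S x ≤ dtM h (fun i x => K.g i x + S i x) x := by
  have hx := mem_ch A x
  exact div_le_div_of_nonneg_right (tr_adj_le_det (K.pos _ x hx) hS).2 (h.pos _ x hx).le

theorem dtM_nonneg (h : HM (KB A)⁻¹) {S : A.ι → M → Matrix (Fin n) (Fin n) ℂ} {x : M}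
    (hS : (S (ch A x) x).PosSemidef) : 0 ≤ dtM h S x :=
  div_nonneg (Complex.le_def.1 hS.det_nonneg).1 (h.pos _ x (mem_ch A x)).le

theorem lint_bk_le [Fintype A.ι] (P : Part A) (h : HM (KB A)⁻¹) (D : TD A) (K : Kah A) {κ : ℝ}
    (hκ : 0 < κ) :
    ∫⁻ x, ENNReal.ofReal (mdens h K.g (D.bk' κ) x) ∂(vm h) ≤
      ENNReal.ofReal (∫ x, dtM h (fun i x => K.g i x + D.om i x) x ∂(vm h)) := by
  have := isFinite_vm h
  have hT : TF A (fun i x => K.g i x + D.bk' κ i x) := (tf_kah K).add (tf_of_cf (D.cf_bk hκ))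
  have hpsd : ∀ x, (K.g (ch A x) x + D.bk' κ (ch A x) x).PosSemidef := fun x =>
    (K.pos _ x (mem_ch A x)).posSemidef.add (D.psd_bk hκ _ (mem_ch A x))
  have h1 : ∫ x, dtM h (fun i x => K.g i x + D.bk' κ i x) x ∂(vm h) =
      ∫ x, dtM h (fun i x => K.g i x + D.om i x) x ∂(vm h) := by
    rw [int_dtM P h hT, int_dtM P h ((tf_kah K).add (tf_of_cf D.cf)),
      ← volinv P ((kah_cf K).add D.cf) (D.sm_log hκ)]
    congr 1
    refine totc_congr P fun i x _ => ?_
    simp only [TD.bk', add_assoc]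
  rw [← h1, ofReal_integral_eq_lintegral_ofReal (integrable_cont h (cont_dtM h hT))
    (Eventually.of_forall fun x => dtM_nonneg h (hpsd x))]
  exact lintegral_mono fun x => ENNReal.ofReal_le_ofReal
    (mdens_le_dtM h K (D.psd_bk hκ _ (mem_ch A x)))

theorem lint_be_le [Fintype A.ι] (P : Part A) (h : HM (KB A)⁻¹) (D : TD A) (K : Kah A) :
    ∫⁻ x in D.U, ENNReal.ofReal (mdens h K.g D.be x) ∂(vm h) ≤
      ENNReal.ofReal (∫ x, dtM h (fun i x => K.g i x + D.om i x) x ∂(vm h)) := by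
  have hpos : ∀ k : ℕ, (0 : ℝ) < 1 / ((k : ℝ) + 1) := fun k => by positivity
  set F : ℕ → M → ℝ≥0∞ := fun k x =>
    ENNReal.ofReal (mdens h K.g (D.bk' (1 / ((k : ℝ) + 1))) x) with hF
  have hFm : ∀ k, Measurable (F k) := fun k =>
    (cont_mdens h K (tf_of_cf (D.cf_bk (hpos k)))).measurable.ennreal_ofReal
  have hlim : ∀ x ∈ D.U, Tendsto (fun k => F k x) atTop
      (𝓝 (ENNReal.ofReal (mdens h K.g D.be x))) := by
    intro x hx
    have hk : Tendsto (fun k : ℕ => (1 : ℝ) / ((k : ℝ) + 1)) atTop (𝓝[>] 0) :=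
      tendsto_nhdsWithin_iff.2 ⟨tendsto_one_div_add_atTop_nhds_zero_nat,
        Eventually.of_forall fun k => hpos k⟩
    have h1 := (tendsto_bk D (mem_ch A x) hx).comp hk
    have hc : Continuous fun X : Matrix (Fin n) (Fin n) ℂ =>
        ((K.g (ch A x) x).adjugate * X).trace.re / h.w (ch A x) x := by
      refine (Complex.continuous_re.comp ?_).div_const _
      exact (continuous_const.matrix_mul continuous_id).matrix_trace
    exact (ENNReal.continuous_ofReal.tendsto _).comp ((hc.tendsto _).comp h1)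
  have hUm : MeasurableSet D.U := D.isOpen_U.measurableSet
  calc ∫⁻ x in D.U, ENNReal.ofReal (mdens h K.g D.be x) ∂(vm h)
      = ∫⁻ x in D.U, liminf (fun k => F k x) atTop ∂(vm h) :=
        setLIntegral_congr_fun hUm fun x hx => (hlim x hx).liminf_eq.symm
    _ ≤ liminf (fun k => ∫⁻ x in D.U, F k x ∂(vm h)) atTop := lintegral_liminf_le hFm
    _ ≤ liminf (fun _ : ℕ => ENNReal.ofReal
        (∫ x, dtM h (fun i x => K.g i x + D.om i x) x ∂(vm h))) atTop := by
        refine liminf_le_liminf (Eventually.of_forall fun k => ?_)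
        exact (setLIntegral_le_lintegral _ _).trans (lint_bk_le P h D K (hpos k))
    _ = _ := by rw [liminf_const]

/-- **upper bound of the mass of `β`** -/
theorem volStmt [Finite A.ι] (P : Part A) (h : HM (KB A)⁻¹) (hs : h.Semipos) (D : TD A) {ν : ℕ}
    (hν : 1 ≤ ν) (hrk : ∀ i, ∀ x ∈ (A.e i).source, (cur h i x).rank ≤ ν) (hF : FIc h D ν)
    (K : Kah A) : VolStmt h D ν K := by
  have := Fintype.ofFinite A.ι
  set K1 : Kah A := addKah K hs with hK1
  set V : ℝ := ∫ x, dtM h (fun i x => K1.g i x + D.om i x) x ∂(vm h) with hV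
  have hV0 : 0 ≤ V := integral_nonneg fun x =>
    dtM_nonneg h (S := fun i x => K1.g i x + D.om i x)
      ((K1.pos _ x (mem_ch A x)).posSemidef.add (D.psd _ x (mem_ch A x)))
  have hUm : MeasurableSet D.U := D.isOpen_U.measurableSet
  refine ⟨V, hV0, fun s hs1 Ks hKs => ?_⟩
  have hs1' : (1 : ℝ) ≤ s := by exact_mod_cast hs1
  have hpt : ∀ x ∈ D.U, mdens h Ks.g D.be x ≤ (s : ℝ) ^ (ν - 1) * mdens h K1.g D.be x := by
    intro x hx
    have hxc := mem_ch A x
    have h1 := adj_scale (K.pos _ x hxc) (cur_posSemidef hs _ hxc) (psd_be D hxc hx) hν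
      (hrk _ x hxc) (fun hr v hv => hF x hx _ hxc hr v hv) hs1'
    unfold mdens
    rw [hKs _ x hxc, ← mul_div_assoc]
    refine div_le_div_of_nonneg_right ?_ (h.pos _ x hxc).le
    simpa [hK1, addKah] using h1
  calc ∫⁻ x in D.U, ENNReal.ofReal (mdens h Ks.g D.be x) ∂(vm h)
      ≤ ∫⁻ x in D.U, ENNReal.ofReal ((s : ℝ) ^ (ν - 1)) *
          ENNReal.ofReal (mdens h K1.g D.be x) ∂(vm h) := by
        refine setLIntegral_mono' hUm fun x hx => ?_
        rw [← ENNReal.ofReal_mul (by positivity)]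
        exact ENNReal.ofReal_le_ofReal (hpt x hx)
    _ = ENNReal.ofReal ((s : ℝ) ^ (ν - 1)) *
          ∫⁻ x in D.U, ENNReal.ofReal (mdens h K1.g D.be x) ∂(vm h) :=
        lintegral_const_mul' _ _ ENNReal.ofReal_ne_top
    _ ≤ ENNReal.ofReal ((s : ℝ) ^ (ν - 1)) * ENNReal.ofReal V := by
        gcongr
        exact lint_be_le P h D K1
    _ = ENNReal.ofReal (V * (s : ℝ) ^ (ν - 1)) := by
        rw [← ENNReal.ofReal_mul (by positivity), mul_comm]

/-- **lower bound of the volume** -/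
theorem volLow [Finite A.ι] (h : HM (KB A)⁻¹) (hs : h.Semipos) {ν : ℕ}
    (hrk : ∃ i, ∃ x ∈ (A.e i).source, ν ≤ (cur h i x).rank) (K : Kah A) : VolLow h ν K := by
  have := Fintype.ofFinite A.ι
  have := isFinite_vm h
  have := isOpenPos_vm h
  obtain ⟨i0, x0, hx0, hr⟩ := hrk
  obtain ⟨c0, hc0, hev⟩ := low (G := fun x => K.g i0 x) (S := fun x => cur h i0 x) (p := x0)
    (k := ν)
    (fun a b => cont_smAt (f := fun x => K.g i0 x a b) (K.sm i0 a b) hx0)
    (fun a b => cont_smAt (f := fun x => cur h i0 x a b) (cur_smooth h i0 a b) hx0)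
    (by filter_upwards [(A.e i0).open_source.mem_nhds hx0] with x hx using K.pos i0 x hx)
    (by
      filter_upwards [(A.e i0).open_source.mem_nhds hx0] with x hx
      exact cur_posSemidef hs i0 hx) hr
  obtain ⟨B, hB, hBs, hBc⟩ := local_compact_nhds
    (hev.and ((A.e i0).open_source.mem_nhds hx0))
  have hBV : B ⊆ (A.e i0).source := fun x hx => (hBs hx).2
  have hμB : 0 < (vm h).real B := by
    rw [Measure.real, ENNReal.toReal_pos_iff]
    exact ⟨Measure.measure_pos_of_mem_nhds _ hB, measure_lt_top _ _⟩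
  have hBm : MeasurableSet B := hBc.isClosed.measurableSet
  have hWc : ContinuousOn (fun x => h.w i0 x) B := fun x hx =>
    (cont_smAt (f := fun x => h.w i0 x) (h.sm i0) (hBV hx)).continuousWithinAt
  obtain ⟨W, hW⟩ := hBc.exists_bound_of_continuousOn hWc
  have hW0 : 0 < W := by
    have h1 := hW x0 (mem_of_mem_nhds hB)
    have h2 := h.pos i0 x0 hx0
    rw [Real.norm_of_nonneg h2.le] at h1
    linarith
  refine ⟨c0 / W * (vm h).real B, by positivity, fun s _ Ks hKs => ?_⟩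
  have hc := cont_dtM h (tf_kah Ks)
  have h0 : ∀ x, 0 ≤ dtM h Ks.g x := fun x =>
    dtM_nonneg h (Ks.pos _ x (mem_ch A x)).posSemidef
  have hlow : ∀ x ∈ B, c0 / W * (s : ℝ) ^ ν ≤ dtM h Ks.g x := by
    intro x hx
    have hxs := hBV hx
    have h1 := (hBs hx).1 s (by positivity)
    rw [dtM_eq h (tf_kah Ks) hxs, hKs i0 x hxs]
    have h2 := h.pos i0 x hxs
    have h3 := hW x hx
    rw [Real.norm_of_nonneg h2.le] at h3
    simp only [Complex.ofReal_natCast] at h1
    rw [div_mul_eq_mul_div]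
    have h4 : 0 ≤ c0 * (s : ℝ) ^ ν := by positivity
    calc c0 * (s : ℝ) ^ ν / W ≤ c0 * (s : ℝ) ^ ν / h.w i0 x :=
          div_le_div_of_nonneg_left h4 h2 h3
      _ ≤ _ := div_le_div_of_nonneg_right h1 h2.le
  calc c0 / W * (vm h).real B * (s : ℝ) ^ ν = ∫ _x in B, c0 / W * (s : ℝ) ^ ν ∂(vm h) := by
        rw [setIntegral_const, smul_eq_mul]
        ring
    _ ≤ ∫ x in B, dtM h Ks.g x ∂(vm h) :=
        setIntegral_mono_on (integrableOn_const (measure_ne_top _ _)) (integrable_cont h hc).integrableOn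
          hBm hlow
    _ ≤ ∫ x, dtM h Ks.g x ∂(vm h) :=
        setIntegral_le_integral (integrable_cont h hc) (Eventually.of_forall h0)

end int

end

end Crest.Agent.R273.TVolB_332
end

-- ▼ part R273/TLtop_201
section

/-!
# R273 (S0416), T-LEMMA (helper201): final theorem

`tl : YauStmt → ... → TLStmt h D (kah H hH)`.
-/

set_option autoImplicit false
set_option linter.unusedSectionVars false

open Set Filter Topology Complex MeasureTheory
open scoped ContDiff Matrix ComplexConjugate ComplexOrder ENNReal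

namespace Crest.Agent.R273.TLtop_201

open Crest.Agent.R275 Crest.Agent.R275.Geo Crest.Agent.R275.Core144 Crest.Agent.R275.EDR890
open Crest.Agent.R275.GC293
open Crest.Agent.R273.Defs_333 Crest.Agent.R273.Hess_333 Crest.Agent.R273.HessB_333
open Crest.Agent.R273.HM_333 Crest.Agent.R273.Kah_333 Crest.Agent.R273.Vol_333
open Crest.Agent.R273.Vm_333 Crest.Agent.R273.YauDefs_635 Crest.Agent.R273.YauCh_635
open Crest.Agent.R273.Green_5 Crest.Agent.R273.FIa0_597 Crest.Agent.R273.FIb0_597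
open Crest.Agent.R273.FIc0_597 Crest.Agent.R273.FId0_597
open Crest.Agent.R273.TLd_201 Crest.Agent.R273.TLb_201 Crest.Agent.R273.TLs_201
open Crest.Agent.R273.TLl_201

noncomputable section

variable {n : ℕ} {M : Type} [TopologicalSpace M] {A : Atl n M} {L L' : LB A}

/-- exponential integrability in the form of `TLd_201` -/
theorem exp_holds [T2Space M] [CompactSpace M] [ConnectedSpace M] [Finite A.ι]
    [MeasurableSpace M] [BorelSpace M] (h : HM (KB A)⁻¹) (H : HM L) : ExpStmt h H := by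
  obtain ⟨η, C, hη, hC, hE⟩ := ExpI3_772.exp_psh h H
  refine ⟨η, hη, C, fun v hv hpsd hle h0 => ?_⟩
  have hP : ExpI3_772.PSHle H v := by
    refine ⟨hv, fun i z hz w => ?_, hle, h0⟩
    have hx := (A.e i).map_target hz
    have h1 := hpsd i _ hx
    have e1 : cur H i ((A.e i).symm z) = hess (H.wt i) z := cur_read H i hz
    have e2 : hsf A v i ((A.e i).symm z) = hess (fun z => v ((A.e i).symm z)) z := hsf_read v i hz
    have h3 : (hess (pot H v i) z).PosSemidef := by
      have h4 : hess (pot H v i) z = cur H i ((A.e i).symm z) + hsf A v i ((A.e i).symm z) := by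
        rw [e1, e2]
        exact hess_add (wt_contDiffAt H i hz) (sm_contDiffAt hv i hz)
      rw [h4]
      exact h1
    exact lev_nonneg_of_posSemidef (YauMax_635.pot_contDiffAt H hv i hz) h3 w
  obtain ⟨hi, hb⟩ := hE v hP
  rw [← ofReal_integral_eq_lintegral_ofReal hi (Eventually.of_forall fun x => (Real.exp_pos _).le)]
  exact ENNReal.ofReal_le_ofReal hb

/-- the case `ν = 0` -/
theorem tl_zero [T2Space M] [CompactSpace M] [Finite A.ι] [MeasurableSpace M] [BorelSpace M]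
    {h : HM (KB A)⁻¹} (hs : h.Semipos) (D : TD A) (K : Kah A)
    (hrk : ∀ i, ∀ x ∈ (A.e i).source, (cur h i x).rank ≤ 0) (hF : FIc h D 0) :
    TLStmt h D K := by
  have := Fintype.ofFinite A.ι
  have := isFinite_vm h
  have h0 : ∀ i, ∀ x ∈ (A.e i).source, ∀ v : Fin n → ℂ, cur h i x *ᵥ v = 0 := by
    intro i x hx v
    have h1 : Module.finrank ℂ (LinearMap.range (cur h i x).mulVecLin) = 0 :=
      Nat.le_zero.1 (hrk i x hx)
    have h2 : LinearMap.range (cur h i x).mulVecLin = ⊥ := Submodule.finrank_eq_zero.1 h1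
    have h3 : (cur h i x).mulVecLin v ∈ LinearMap.range (cur h i x).mulVecLin := ⟨v, rfl⟩
    rw [h2] at h3
    simpa using h3
  have hbe : ∀ x ∈ D.U, ∀ i, x ∈ (A.e i).source → D.be i x = 0 := by
    intro x hU i hx
    have h1 : ∀ v, D.be i x *ᵥ v = 0 := fun v => hF x hU i hx (Nat.le_zero.1 (hrk i x hx)) v
      (h0 i x hx v)
    ext a b
    have h2 := congrFun (h1 (Pi.single b 1)) a
    simpa using h2
  have hB : ∀ t : Tst D, t.B h D.be = 0 := by
    intro t
    unfold Tst.B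
    rw [← integral_zero M ℝ (μ := vm h)]
    refine integral_congr_ae (Eventually.of_forall fun x => ?_)
    simp only
    by_cases hx : x ∈ t.K
    · rw [hbe x (t.KU hx).2 t.i (t.KU hx).1, Matrix.zero_mul, Matrix.trace_zero, Complex.zero_re]
    · rw [t.zero x hx, Matrix.mul_zero, Matrix.trace_zero, Complex.zero_re]
  refine ⟨1, 1, fun _ => 0, one_pos, one_pos, measurable_const, fun _ => le_rfl,
    MemLp.zero', ?_, fun m ε hε T => ?_⟩
  · simp only [mul_zero, neg_zero, Real.exp_zero]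
    exact integrable_const _
  · have hpsd : ∀ i, ∀ x ∈ (A.e i).source,
        (cur h i x + (1 / ((m : ℂ) + 1)) • K.g i x + hsf A (fun _ => (0 : ℝ)) i x).PosSemidef := by
      intro i x hx
      rw [hsf_const, add_zero]
      refine (cur_posSemidef hs i hx).add ((K.pos i x hx).posSemidef.smul ?_)
      have h1 : (0 : ℝ) ≤ 1 / ((m : ℝ) + 1) := by positivity
      have h2 : (1 / ((m : ℂ) + 1)) = ((1 / ((m : ℝ) + 1) : ℝ) : ℂ) := by push_cast; rfl
      rw [h2]
      exact Complex.zero_le_real.2 h1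
    refine ⟨fun _ => 0, sm_const 0, fun _ => le_rfl, hpsd, ?_, fun t _ => ?_⟩
    · simpa using hε.le
    · rw [hB t, mul_zero]
      exact B_nonneg h t hpsd

/-- **T-LEMMA** -/
theorem tl [T2Space M] [CompactSpace M] [ConnectedSpace M] [Finite A.ι]
    [MeasurableSpace M] [BorelSpace M] (hY : YauStmt) (hG : GoodA A) (P : Part A)
    {H : HM L'} (hH : H.Pos) {h : HM (KB A)⁻¹} (hs : h.Semipos) (D : TD A) {ν : ℕ}
    (hrk : ∀ i, ∀ x ∈ (A.e i).source, (cur h i x).rank ≤ ν)
    (hex : ∃ i, ∃ x ∈ (A.e i).source, ν ≤ (cur h i x).rank) (hF : FIc h D ν) :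
    TLStmt h D (kah H hH) := by
  have := Fintype.ofFinite A.ι
  rcases Nat.eq_zero_or_pos ν with rfl | hν
  · exact tl_zero hs D _ hrk hF
  · exact tl_of hY hG P hH hs (Mass_5.mass_holds P h D) hν
      (TVolB_332.volStmt P h hs D hν hrk hF _) (TVolB_332.volLow h hs hex _)
      (exp_holds h (mul h H))

end

end Crest.Agent.R273.TLtop_201
end

-- ▼ part R273/AppD_834

/-!
# R273 (S0416), leaf A-APP, part D (helper834): the T-lemma for the partial families of `YD`

* `wrC_yd`  : the sections `t, s l` of `YD` satisfy the first integral condition on `M`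
* `tdY Y p r : TD A` : the data of the sections `t ^ D * p_j(y)`, `j ≤ r`
  `tdY_fic`, `tdY_U`, `tdY_be` (`be = ∂∂̄ P_r` on `S.U`, `P_r = Pf (evp Y.y p) r`)
* `app` : one `u` for all partial families of `p` and `p'`
-/

set_option autoImplicit false
set_option linter.unusedSectionVars false

open Set Filter Topology Complex MeasureTheory
open scoped ContDiff Matrix ComplexConjugate ComplexOrder ENNReal

namespace Crest.Agent.R273.AppD_834

open Crest.Agent.R275 Crest.Agent.R275.Geo Crest.Agent.R275.Core144 Crest.Agent.R275.EDR890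
open Crest.Agent.R275.GC293
open Crest.Agent.R273.Defs_333 Crest.Agent.R273.HM_333 Crest.Agent.R273.Kah_333
open Crest.Agent.R273.Hess_333 Crest.Agent.R273.HessB_333
open Crest.Agent.R273.AppA_834 Crest.Agent.R273.AppB_834 Crest.Agent.R273.AppC_834
open Crest.Agent.R273.SteinA_794 Crest.Agent.R273.SteinC_794
open Crest.Agent.R273.SteinD_794 (df_mul df_congr dense_nz)
open Crest.Agent.R273.TLd_201 Crest.Agent.R273.AsmA_73
open Crest.Agent.R273.Vm_333 (vm)
open Crest.Agent.R273.YauDefs_635 (YauStmt)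
open Crest.Agent.R273.Pen_93 (Bf Pf fam)
open Crest.Agent.R271.Ho51 (Hol)

noncomputable section

variable {n : ℕ} {M : Type} [TopologicalSpace M] {A : Atl n M} {L : LB A}
  {h : HM (KB A)⁻¹} {hL : HM L}

/-- `t, s_0, s_1, ...` -/
def qf (Y : YD h L hL) : Fin (Y.N + 1) → A.ι → M → ℂ := Fin.cons Y.t Y.s

@[simp] theorem qf_zero (Y : YD h L hL) : qf Y 0 = Y.t := rfl
@[simp] theorem qf_succ (Y : YD h L hL) (l : Fin Y.N) : qf Y l.succ = Y.s l := rfl

theorem qf_hs (Y : YD h L hL) (o : Fin (Y.N + 1)) : IsHS Y.By univ (qf Y o) := by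
  refine Fin.cases ?_ (fun l => ?_) o
  · exact Y.ht
  · exact Y.hs l

/-- the sections are first integrals -/
theorem wrC_yd [ConnectedSpace M] (hs : h.Semipos) (Y : YD h L hL) : WrC h Y.ν (qf Y) := by
  have hd : Dense Y.S.U := by
    rw [Y.U_eq]
    exact dense_nz Y.hd Y.d0
  refine wrC_of_dense hs Y.rk_le (qf_hs Y) hd fun i x hx hxU hr v hv o o' => ?_
  have hv' : cur h i x *ᵥ (star v) = 0 := (ker_iff hx v).1 hv
  set a : ℂ := dv A v i x (Y.t i) with ha
  -- `D_v s_l = y_l D_v t`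
  have key : ∀ o : Fin (Y.N + 1), ∃ c : ℂ, qf Y o i x = c * Y.t i x ∧
      dv A v i x (qf Y o i) = c * a := by
    intro o
    refine Fin.cases ⟨1, ?_, ?_⟩ (fun l => ⟨ext0 (Y.y l) x, ?_, ?_⟩) o
    · simp
    · simp [ha]
    · have h1 := Y.rel l i ⟨x, hxU⟩ hx
      have h2 := ext0_val (Y.y l) (⟨x, hxU⟩ : Mo Y.S)
      rw [qf_succ]
      change Y.s l i x = ext0 (Y.y l) x * Y.t i x
      rw [show ext0 (Y.y l) x = Y.y l ⟨x, hxU⟩ from h2]
      exact h1
    · rw [qf_succ, dv_eq]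
      have hf : HolAt A i Y.S.U (ext0 (Y.y l)) := holAt_ext0 (Y.hy l) i
      have hg : HolAt A i Y.S.U (Y.t i) := (Y.ht.hol i).mono (subset_univ _)
      have hev : Y.s l i =ᶠ[𝓝 x] fun y => ext0 (Y.y l) y * Y.t i y := by
        filter_upwards [Y.S.isOpen.mem_nhds hxU, (A.e i).open_source.mem_nhds hx] with y hyU hyi
        have h1 := Y.rel l i ⟨y, hyU⟩ hyi
        have h2 := ext0_val (Y.y l) (⟨y, hyU⟩ : Mo Y.S)
        rw [show ext0 (Y.y l) y = Y.y l ⟨y, hyU⟩ from h2]
        exact h1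
      rw [df_congr hx hev, df_mul Y.S.isOpen hf hg hx hxU, add_apply, smul_apply, smul_apply,
        ha, dv_eq]
      have h3 : df A i (ext0 (Y.y l)) x (WithLp.toLp 2 v) = 0 :=
        Y.fi l i ⟨x, hxU⟩ hx hr v hv'
      rw [h3, smul_zero, add_zero]
      rfl
  obtain ⟨c, h1, h2⟩ := key o
  obtain ⟨c', h3, h4⟩ := key o'
  rw [h1, h2, h3, h4]
  ring

/-- powers of semipositive metrics -/
theorem semipos_pow {B : LB A} {hB : HM B} (hs : hB.Semipos) (D : ℕ) : (pow hB D).Semipos := by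
  refine semipos_of_cur fun i x hx => ?_
  rw [cur_pow hB D i hx]
  exact (cur_posSemidef hs i hx).smul (by exact_mod_cast Nat.zero_le D)

/-- the degree of the partial family -/
def dgr' {N : ℕ} (p : ℕ → MvPolynomial (Fin N) ℂ) (r : ℕ) : ℕ :=
  1 + ∑ j ∈ Finset.range (r + 1), (p j).totalDegree

theorem le_dgr' {N : ℕ} (p : ℕ → MvPolynomial (Fin N) ℂ) (r : ℕ) (j : Fin (r + 1)) :
    (p j.val).totalDegree ≤ dgr' p r := by
  unfold dgr'
  have h1 := Finset.single_le_sum (f := fun j => (p j).totalDegree) (fun _ _ => Nat.zero_le _)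
    (Finset.mem_range.2 j.isLt)
  omega

theorem dgr'_pos {N : ℕ} (p : ℕ → MvPolynomial (Fin N) ℂ) (r : ℕ) : 0 < dgr' p r := by
  unfold dgr'; omega

/-- the sections of the partial family -/
def CY (Y : YD h L hL) (p : ℕ → MvPolynomial (Fin Y.N) ℂ) (r : ℕ) (j : Fin (r + 1)) :
    A.ι → M → ℂ := homS (qf Y) (dgr' p r) (p j.val)

theorem CY_hs (Y : YD h L hL) (p : ℕ → MvPolynomial (Fin Y.N) ℂ) (r : ℕ) (j : Fin (r + 1)) :
    IsHS (Y.By ^ dgr' p r) univ (CY Y p r j) :=
  homS_hs (qf_hs Y) (dgr'_pos p r) (le_dgr' p r j)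

/-- the data of the partial family -/
def tdY (Y : YD h L hL) (p : ℕ → MvPolynomial (Fin Y.N) ℂ) (r : ℕ) : TD A :=
  td (pow Y.hBy (dgr' p r)) (semipos_pow Y.semi _) (CY Y p r) (CY_hs Y p r)

theorem tdY_fic [ConnectedSpace M] (hs : h.Semipos) (Y : YD h L hL)
    (p : ℕ → MvPolynomial (Fin Y.N) ℂ) (r : ℕ) : FIc h (tdY Y p r) Y.ν :=
  fic_of_ev (ev_hom (qf_hs Y) (wrC_yd hs Y) (dgr'_pos p r) (le_dgr' p r))

theorem CY_eq (Y : YD h L hL) (p : ℕ → MvPolynomial (Fin Y.N) ℂ) (r : ℕ) (j : Fin (r + 1))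
    (x : Mo Y.S) {i : A.ι} (hx : x.val ∈ (A.e i).source) :
    CY Y p r j i x.val = Y.t i x.val ^ dgr' p r * evp Y.y p j.val x :=
  homS_eq (le_dgr' p r j) fun l => by
    rw [qf_succ, qf_zero]
    exact Y.rel l i x hx

theorem tdY_U (Y : YD h L hL) (p : ℕ → MvPolynomial (Fin Y.N) ℂ) (r : ℕ) {x : Mo Y.S}
    (h0 : evp Y.y p 0 x ≠ 0) : x.val ∈ (tdY Y p r).U := by
  obtain ⟨i, hi⟩ := A.cover x.val
  refine (mem_U hi).2 ⟨0, ?_⟩
  rw [CY_eq Y p r 0 x hi]
  exact mul_ne_zero (pow_ne_zero _ (Y.t0 i _ hi x.prop)) h0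

theorem Pf_eq (Y : YD h L hL) (p : ℕ → MvPolynomial (Fin Y.N) ℂ) (r : ℕ) (x : Mo Y.S) :
    Pf (evp Y.y p) r x = Real.log (∑ j : Fin (r + 1), ‖ext0 (evp Y.y p j.val) x.val‖ ^ 2) := by
  simp only [ext0_val]
  rfl


/-- **`be = ∂∂̄ P_r`** on the domain -/
theorem tdY_be (Y : YD h L hL) (p : ℕ → MvPolynomial (Fin Y.N) ℂ) (r : ℕ) {f : M → ℝ}
    (hf : ∀ x : Mo Y.S, f x.val = Pf (evp Y.y p) r x) {x : Mo Y.S}
    (h0 : evp Y.y p 0 x ≠ 0) {i : A.ι} (hx : x.val ∈ (A.e i).source) :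
    (tdY Y p r).be i x.val = hsf A f i x.val := by
  have hU := tdY_U Y p r h0
  have hσ : HolAt A i Y.S.U (fun y => Y.t i y ^ dgr' p r) :=
    ((Y.ht.hol i).mono (subset_univ _)).pow _
  have h1 := be_frame (hp := semipos_pow Y.semi (dgr' p r)) (hC := CY_hs Y p r) hx hU
    Y.S.isOpen x.prop hσ (pow_ne_zero _ (Y.t0 i _ hx x.prop))
    (f := fun j => ext0 (evp Y.y p j.val)) fun y hyU hyi j => by
      have h2 := CY_eq Y p r j (⟨y, hyU⟩ : Mo Y.S) hyi
      have h3 := ext0_val (evp Y.y p j.val) (⟨y, hyU⟩ : Mo Y.S)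
      rw [show ext0 (evp Y.y p j.val) y = evp Y.y p j.val ⟨y, hyU⟩ from h3]
      exact h2
  have h2 : (tdY Y p r).be i x.val =
      hsf A (fun y => Real.log (∑ j : Fin (r + 1), ‖ext0 (evp Y.y p j.val) y‖ ^ 2)) i x.val := h1
  rw [h2]
  unfold hsf
  refine hess_congr ?_
  filter_upwards [(Y.S.isOpen_dom i).mem_nhds (Y.S.mem_dom hx x.prop)] with z hz
  have hzU : (A.e i).symm z ∈ Y.S.U := hz.2
  set x' : Mo Y.S := ⟨(A.e i).symm z, hzU⟩ with hx'
  have h3 : f ((A.e i).symm z) =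
      Real.log (∑ j : Fin (r + 1), ‖ext0 (evp Y.y p j.val) ((A.e i).symm z)‖ ^ 2) :=
    (hf x').trans (Pf_eq Y p r x')
  exact h3.symm

section

variable [T2Space M] [CompactSpace M] [ConnectedSpace M] [Finite A.ι]
  [MeasurableSpace M] [BorelSpace M]

/-- **A-APP**: one `u` for all partial families of `p` and `p'` -/
theorem app (hY : YauStmt) (hG : GoodA A) (P : Part A) {L' : LB A} {H : HM L'} (hH : H.Pos)
    (hs : h.Semipos) (Y : YD h L hL) :
    ∃ (δ η : ℝ) (u : M → ℝ), 0 < δ ∧ 0 < η ∧ η ≤ 1 ∧ Measurable u ∧ (∀ x, u x ≤ 0) ∧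
      MemLp u 2 (vm h) ∧ Integrable (fun x => Real.exp (-(η * u x))) (vm h) ∧
      TL0 h (kah H hH) η u ∧
      (∀ r ≤ Y.m, TLu h (tdY Y Y.p r) (kah H hH) δ η u ∧ Y.S.U ⊆ (tdY Y Y.p r).U ∧
        ∀ f : M → ℝ, (∀ x : Mo Y.S, f x.val = Pf (evp Y.y Y.p) r x) →
          ∀ (x : Mo Y.S) (i : A.ι), x.val ∈ (A.e i).source →
            (tdY Y Y.p r).be i x.val = hsf A f i x.val) ∧
      (∀ r ≤ Y.m', TLu h (tdY Y Y.p' r) (kah H hH) δ η u ∧ Y.S.U ⊆ (tdY Y Y.p' r).U ∧
        ∀ f : M → ℝ, (∀ x : Mo Y.S, f x.val = Pf (evp Y.y Y.p') r x) →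
          ∀ (x : Mo Y.S) (i : A.ι), x.val ∈ (A.e i).source →
            (tdY Y Y.p' r).be i x.val = hsf A f i x.val) := by
  have := Fintype.ofFinite A.ι
  have hTL : ∀ D : TD A, FIc h D Y.ν → TLStmt h D (kah H hH) := fun D hF =>
    TLtop_201.tl hY hG P hH hs D Y.rk_le Y.rk_eq hF
  obtain ⟨δ, η, u, hδ, h0, hr⟩ := tlu_fam hs
    (Sum.elim (fun r : Fin (Y.m + 1) => tdY Y Y.p r) (fun r : Fin (Y.m' + 1) => tdY Y Y.p' r))
    (K := kah H hH) (by
      rintro (r | r)
      · exact hTL _ (tdY_fic hs Y Y.p r)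
      · exact hTL _ (tdY_fic hs Y Y.p' r))
  have hη : 0 < min η 1 := lt_min h0.1 one_pos
  have h0' := h0.mono hη (min_le_left η 1)
  obtain ⟨a1, a2, a3, a4, a5, -⟩ := h0'
  refine ⟨δ, min η 1, u, hδ, hη, min_le_right _ _, a2, a3, a4, a5,
    h0.mono hη (min_le_left η 1), fun r hr' => ⟨?_, ?_, ?_⟩, fun r hr' => ⟨?_, ?_, ?_⟩⟩
  · exact (hr (Sum.inl ⟨r, Nat.lt_succ_of_le hr'⟩)).mono hδ le_rfl hη (min_le_left _ _)
  · intro x hx
    exact tdY_U Y Y.p r (x := ⟨x, hx⟩) (Y.c0 _)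
  · intro f hf x i hx
    exact tdY_be Y Y.p r hf (Y.c0 x) hx
  · exact (hr (Sum.inr ⟨r, Nat.lt_succ_of_le hr'⟩)).mono hδ le_rfl hη (min_le_left _ _)
  · intro x hx
    exact tdY_U Y Y.p' r (x := ⟨x, hx⟩) (Y.c0' _)
  · intro f hf x i hx
    exact tdY_be Y Y.p' r hf (Y.c0' x) hx

end

end

end Crest.Agent.R273.AppD_834
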