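import Crest.Agent.R273.PCovA_835
import Crest.Agent.R273.UCovE_914
import Crest.Agent.R273.SerC_945
import Crest.Agent.R273.SerE_945

-- ▼ part R273/CovI_835
section

/-!
# R273 (S0416), Part E (helper835): 914's coverings `D.cov F` as locally biholomorphic maps
-/

set_option autoImplicit false
set_option linter.unusedSectionVars false

open Set Filter Topology Complex
open scoped ContDiff Matrix ComplexConjugate Manifold

namespace Crest.Agent.R273.CovI_835

open Crest.Agent.R275.Geo Crest.Agent.R275.Core144 Crest.Agent.R275.GC293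
open Crest.Agent.R273.Defs_333 Crest.Agent.R273.Map_835 Crest.Agent.R273.PB_835
open Crest.Agent.R273.Fam_835 Crest.Agent.R273.FS_333 Crest.Agent.R273.UCov_914

noncomputable section

variable {n : ℕ} {M : Type} [TopologicalSpace M] {A : Atl n M} {G : Type} [Group G]
  (D : MonD A G) (F : Type) [MulAction G F]

theorem holMap_pr : HolMap (D.atl F) A (D.pr : D.cov F → M) :=
  ⟨D.continuous_pr, fun i j => (A.holo i.1 j).mono fun _ hz => ⟨hz.1, hz.2⟩⟩

theorem lBih_pr : LBih (D.atl F) A (D.pr : D.cov F → M) := by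
  refine ⟨holMap_pr D F, fun i j e he hj => ?_⟩
  have h1 : Jp (D.atl F) A (D.pr : D.cov F → M) i j e = Jm A i.1 j (D.pr e) := rfl
  rw [h1]
  have hx : D.pr e ∈ (A.e i.1).source := he.1
  have h3 := J_mul (A := A) i.1 j i.1 ⟨⟨hx, hj⟩, hx⟩
  rw [J_self i.1 hx] at h3
  intro h0
  have h4 := congrArg Matrix.det h3
  rw [Matrix.det_mul, h0, mul_zero, Matrix.det_one] at h4
  exact zero_ne_one h4

/-- the charts of `D.cov F` are adapted to the projection -/
def refPr : Ref (D.atl F) A (D.pr : D.cov F → M) := ⟨fun i => i.1, fun _ _ he => he.1⟩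

theorem finite_fibre [Finite F] (x : M) : Finite ((D.pr : D.cov F → M) ⁻¹' {x}) := by
  obtain ⟨i, hi⟩ := A.cover x
  refine Finite.of_injective (fun e : (D.pr : D.cov F → M) ⁻¹' {x} => D.co i e.1) ?_
  intro e e' h
  have h1 : D.pr e.1 = x := e.2
  have h2 : D.pr e'.1 = x := e'.2
  exact Subtype.ext (D.ext_co (i := i) (by rw [h1]; exact hi) (h1.trans h2.symm) h)



end

end Crest.Agent.R273.CovI_835
end

-- ▼ part R273/PCov_835
section

/-!
# R273 (S0416), Part E (helper835): PCOV, homogeneous coordinates on finite étale coverings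

`fdOf h R P hf` : 945's data `FD` for the pull-back of the hyperplane bundle along a locally
biholomorphic map with finite fibres;
`pcov_of`       : `ProjD A` from the vanishing `Solv (O ^ m) q` and the finiteness of `H⁰`;
`pcov_cov_of`   : the case of 914's coverings `D.cov F`.
-/

set_option autoImplicit false
set_option linter.unusedSectionVars false

open Set Filter Topology Complex
open scoped ContDiff Matrix ComplexConjugate Manifold

namespace Crest.Agent.R273.PCov_835

open Crest.Agent.R275.Geo Crest.Agent.R275.Core144 Crest.Agent.R275.GC293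
open Crest.Agent.R273.Defs_333 Crest.Agent.R273.Map_835 Crest.Agent.R273.PB_835
open Crest.Agent.R273.Fam_835 Crest.Agent.R273.FS_333 Crest.Agent.R273.UCov_914
open Crest.Agent.R273.PCovA_835 Crest.Agent.R273.CovI_835 Crest.Agent.R273.SerC_945 Crest.Agent.R273.SerB_945

noncomputable section

variable {n : ℕ} {M N : Type} [TopologicalSpace M] [TopologicalSpace N]
  {A : Atl n M} {B : Atl n N} {p : M → N}

/-- the pulled back homogeneous coordinates -/
def fdOf (h : LBih A B p) (R : Ref A B p) (P : ProjD B) (hf : ∀ y, (p ⁻¹' {y}).Finite) :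
    FD (OB h.toHolMap R P) where
  N := P.N
  F := Fk R P
  hs k := Fk_hs h.toHolMap k
  ne _ _ hx := Fk_ne hx
  imm _ _ hz _ := fun ⟨_, hc⟩ => Fk_imm h hz hc
  fin x := (hf (p x)).subset fun y hy => by
    obtain ⟨i, j, hi, hj, c, hc⟩ := hy
    exact Fk_prop hj hi hc


variable {G : Type} [Group G] (D : MonD A G) (F : Type) [MulAction G F]

/-- 914's pull-back agrees with the pull-back along the projection -/
theorem pullLB_eq (L : LB A) : PB_835.pullLB (holMap_pr D F) (refPr D F) L = D.pullLB F L := by
  refine MonD.LB_ext_on ?_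
  intro i j e he
  rw [PB_835.pullLB_g (holMap_pr D F) (refPr D F) L he, D.pullLB_g L he]
  rfl

end

end Crest.Agent.R273.PCov_835
end

-- ▼ part R273/PCovB_835

/-!
# R273 (S0416), Part E (helper835): PCOV, final form

* `pcov`     : homogeneous coordinates on a compact manifold with a locally biholomorphic map with
               finite fibres to a projective manifold (input: `D2`);
* `pcov_cov` : the case of 914's finite coverings `D.cov F`.
-/

set_option autoImplicit false
set_option linter.unusedSectionVars false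

open Set Filter Topology Complex
open scoped ContDiff Matrix ComplexConjugate Manifold

namespace Crest.Agent.R273.PCov_835

open Crest.Agent.R275.Geo Crest.Agent.R275.Core144 Crest.Agent.R275.GC293
open Crest.Agent.R273.Defs_333 Crest.Agent.R273.Map_835 Crest.Agent.R273.PB_835
open Crest.Agent.R273.Kah_333 Crest.Agent.R273.TD3_733
open Crest.Agent.R273.Fam_835 Crest.Agent.R273.FS_333 Crest.Agent.R273.UCov_914
open Crest.Agent.R273.PCovA_835 Crest.Agent.R273.CovI_835 Crest.Agent.R273.SerC_945 Crest.Agent.R273.SerB_945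

noncomputable section

variable {n : ℕ} {M N : Type} [TopologicalSpace M] [TopologicalSpace N]
  {A : Atl n M} {B : Atl n N} {p : M → N}

/-- **PCOV** -/
theorem pcov [T2Space M] [CompactSpace M] [Finite A.ι] (PA : Part A) (hD : D2 A)
    (h : LBih A B p) (R : Ref A B p) (P : ProjD B) (hf : ∀ y, (p ⁻¹' {y}).Finite) :
    ∃ m0 : ℕ, ∀ m, m0 ≤ m → ∃ P' : ProjD A, lb P' = (OB h.toHolMap R P) ^ m := by
  obtain ⟨m0, h0⟩ := SerE_945.proj_large PA hD (Ohm_pos h R P) (fdOf h R P hf) 1
  refine ⟨m0, fun m hm => ?_⟩
  obtain ⟨P', hP'⟩ := h0 m hm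
  exact ⟨P', by rw [hP', one_mul]⟩


variable {G : Type} [Group G] (D : MonD A G) (F : Type) [MulAction G F]

/-- PCOV for 914's coverings -/
theorem pcov_cov [T2Space M] [CompactSpace M] [Finite A.ι] [Finite F] (PA : Part (D.atl F)) (hD : D2 (D.atl F))
    (P : ProjD A) : ∃ m0 : ℕ, ∀ m, m0 ≤ m →
      ∃ P' : ProjD (D.atl F), lb P' = (D.pullLB F (lb P)) ^ m := by
  obtain ⟨m0, h0⟩ := pcov PA hD (lBih_pr D F) (refPr D F) P
    fun y => Set.finite_coe_iff.1 (finite_fibre D F y)
  refine ⟨m0, fun m hm => ?_⟩
  obtain ⟨P', hP'⟩ := h0 m hm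
  refine ⟨P', ?_⟩
  rw [hP']
  exact congrArg (· ^ m) (pullLB_eq D F (lb P))

end

end Crest.Agent.R273.PCov_835
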