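import Crest.Agent.R273.BKNa_37
import Crest.Agent.R273.Pos_243
import Crest.Agent.R273.HolF_578
import Crest.Agent.R273.Green_5
import Crest.Agent.R273.StokesV_332
import Crest.Agent.R273.BKNb_37
import Crest.Agent.R273.Spl1_404
import Crest.Agent.R275.GeoHol_912

-- ▼ part R273/ParA_880
section

/-!
# R273 (S0416), leaf PSPL (helper880), part A: local Bochner formula

* `boch`      : `∂_a ∂̄_b (s* H s)` for a holomorphic `s` and a Hermitian matrix field `H`
* `dG p`      : the derivation `∑ p_{ab} e_a i_b` of the Fock space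
* `dM_Gam`    : `∂ Gam(m) = Gam(m) dG(m⁻¹ ∂m)`
* `curv_Gam`  : `∂_a∂̄_b Gam(m) - ∂̄_b Gam(m) Gam(m)⁻¹ ∂_a Gam(m) = Gam(m) dG(∂̄_b(m⁻¹∂_a m))`
* `sm_inv`    : smoothness of the inverse matrix
* `ricci_tr`  : `∑ γ_{ba} ∂̄_b((∂_a g) γ) = (∂∂̄ log det g) γ` under the Kaehler symmetry
-/

set_option autoImplicit false
set_option linter.unusedSectionVars false

open Set Filter Topology Complex Matrix
open scoped ContDiff Matrix ComplexConjugate ComplexOrder

namespace Crest.Agent.R273.ParA_880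

open Crest.Agent.R275.Geo
open Crest.Agent.R273.Fock_243 Crest.Agent.R273.Calc_243 Crest.Agent.R273.DelLaw_37

noncomputable section

variable {n : ℕ}

/-! ### Bochner formula for a general Hermitian metric -/

section boch

variable {ι : Type} [Fintype ι] [DecidableEq ι]

theorem dM_star {H : Cn n → Matrix ι ι ℂ} {z : Cn n} (hH : SmM z H)
    (herm : ∀ᶠ y in 𝓝 z, (H y).IsHermitian) (s : ℂ) (a : Fin n) :
    (dM s a H z)ᴴ = dM (conj s) a H z := by
  ext i j
  rw [Matrix.conjTranspose_apply]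
  show star (dS s a (fun y => H y j i) z) = dS (conj s) a (fun y => H y i j) z
  have h1 : (fun y => H y i j) =ᶠ[𝓝 z] fun y => conj (H y j i) := by
    filter_upwards [herm] with y hy
    exact (hy.apply i j).symm
  rw [dS_congr h1, dS_conj (hH j i).diff, Complex.conj_conj]
  rfl

/-- Chern derivative -/
def Dc (H : Cn n → Matrix ι ι ℂ) (Hi : Matrix ι ι ℂ) (s : Cn n → ι → ℂ) (z : Cn n) (a : Fin n) :
    ι → ℂ :=
  dV (-I) a s z + Hi *ᵥ (dM (-I) a H z *ᵥ s z)

/-- curvature form of a Hermitian matrix field -/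
def Cf (H : Cn n → Matrix ι ι ℂ) (Hi : Matrix ι ι ℂ) (z : Cn n) (a b : Fin n) : Matrix ι ι ℂ :=
  dM (-I) a (dM I b H) z - dM I b H z * Hi * dM (-I) a H z

theorem boch {H : Cn n → Matrix ι ι ℂ} {Hi : Matrix ι ι ℂ} {s : Cn n → ι → ℂ} {z : Cn n}
    (hH : SmM z H) (hs : SmV z s) (herm : ∀ᶠ y in 𝓝 z, (H y).IsHermitian) (hi : H z * Hi = 1)
    (hol : ∀ᶠ y in 𝓝 z, ∀ b, dV I b s y = 0) (hsm : ∀ᶠ y in 𝓝 z, SmM y H ∧ SmV y s)
    (a b : Fin n) :
    dS (-I) a (dS I b (fun y => star (s y) ⬝ᵥ (H y *ᵥ s y))) z =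
      star (Dc H Hi s z b) ⬝ᵥ (H z *ᵥ Dc H Hi s z a) +
        star (s z) ⬝ᵥ (Cf H Hi z a b *ᵥ s z) := by
  -- first derivative
  have hI : conj (I : ℂ) = -I := Complex.conj_I
  have hI' : conj (-I : ℂ) = I := by rw [map_neg, hI, neg_neg]
  have h1 : dS I b (fun y => star (s y) ⬝ᵥ (H y *ᵥ s y)) =ᶠ[𝓝 z]
      fun y => star (dV (-I) b s y) ⬝ᵥ (H y *ᵥ s y) + star (s y) ⬝ᵥ (dM I b H y *ᵥ s y) := by
    filter_upwards [hol, hsm] with y hy hsy
    have hHs : SmV y (fun y => H y *ᵥ s y) := hsy.1.mulVec hsy.2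
    rw [dS_dot (p := fun y => star (s y)) (q := fun y => H y *ᵥ s y)
      (fun i => (hsy.2.star i).diff) (fun i => (hHs i).diff)]
    rw [dV_conj (fun i => (hsy.2 i).diff), hI, dV_mulVec (fun i j => (hsy.1 i j).diff)
      (fun i => (hsy.2 i).diff), hy b, Matrix.mulVec_zero, add_zero]
  rw [dS_congr h1]
  have hsb : SmV z (dV (-I) b s) := hs.dV (-I) b
  have hHs : SmV z (fun y => H y *ᵥ s y) := hH.mulVec hs
  have hHb : SmM z (dM I b H) := hH.dM I b
  have hHbs : SmV z (fun y => dM I b H y *ᵥ s y) := hHb.mulVec hs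
  have e0 : SmV z (fun y => star (dV (-I) b s y)) := hsb.star
  rw [dS_add (SmV.dot e0 hHs).diff (SmV.dot hs.star hHbs).diff,
    dS_dot (p := fun y => star (dV (-I) b s y)) (q := fun y => H y *ᵥ s y)
      (fun i => (e0 i).diff) (fun i => (hHs i).diff),
    dS_dot (p := fun y => star (s y)) (q := fun y => dM I b H y *ᵥ s y)
      (fun i => (hs.star i).diff) (fun i => (hHbs i).diff),
    dV_conj (v := dV (-I) b s) (fun i => (hsb i).diff), hI',
    dV_conj (fun i => (hs i).diff), hI',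
    dV_mulVec (fun i j => (hH i j).diff) (fun i => (hs i).diff),
    dV_mulVec (m := dM I b H) (fun i j => (hHb i j).diff) (fun i => (hs i).diff)]
  have h2 : dV I a (dV (-I) b s) z = 0 := by
    funext i
    show dS I a (dS (-I) b (fun y => s y i)) z = 0
    rw [dS_comm (hs i)]
    have h3 : dS I a (fun y => s y i) =ᶠ[𝓝 z] fun _ => 0 := by
      filter_upwards [hol] with y hy
      exact congrFun (hy a) i
    rw [dS_congr h3, dS_const]
  have h4 : dV I a s z = 0 := hol.self_of_nhds a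
  rw [h2, h4, star_zero, zero_dotProduct, zero_dotProduct, zero_add, zero_add]
  -- algebra
  have hHz : (H z).IsHermitian := herm.self_of_nhds
  have hHi : Hi.IsHermitian := by
    have h5 : Hiᴴ * H z = 1 := by
      have := congrArg Matrix.conjTranspose hi
      rw [Matrix.conjTranspose_mul, hHz.eq, Matrix.conjTranspose_one] at this
      exact this
    calc Hiᴴ = Hiᴴ * (H z * Hi) := by rw [hi, Matrix.mul_one]
      _ = Hi := by rw [← Matrix.mul_assoc, h5, Matrix.one_mul]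
  have hb : (dM (-I) b H z)ᴴ = dM I b H z := by rw [dM_star hH herm, hI']
  unfold Dc Cf
  set u := s z
  set A := dM (-I) a H z
  set B := dM I b H z
  set p := dV (-I) a s z
  set q := dV (-I) b s z
  have e1 : star (q + Hi *ᵥ (dM (-I) b H z *ᵥ u)) = star q + star u ᵥ* B ᵥ* Hi := by
    rw [star_add, Matrix.star_mulVec, Matrix.star_mulVec, hHi.eq, hb]
  rw [e1]
  have e2 : H z *ᵥ (p + Hi *ᵥ (A *ᵥ u)) = H z *ᵥ p + A *ᵥ u := by
    rw [Matrix.mulVec_add, Matrix.mulVec_mulVec, hi, Matrix.one_mulVec]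
  rw [e2]
  have hi' : Hi * H z = 1 := mul_eq_one_comm.1 hi
  have e3 : (star u ᵥ* B ᵥ* Hi) ⬝ᵥ (H z *ᵥ p) = star u ⬝ᵥ (B *ᵥ p) := by
    rw [← Matrix.dotProduct_mulVec, ← Matrix.dotProduct_mulVec, Matrix.mulVec_mulVec,
      Matrix.mulVec_mulVec, Matrix.mul_assoc, hi', Matrix.mul_one]
  have e4 : (star u ᵥ* B ᵥ* Hi) ⬝ᵥ (A *ᵥ u) = star u ⬝ᵥ ((B * Hi * A) *ᵥ u) := by
    rw [← Matrix.dotProduct_mulVec, ← Matrix.dotProduct_mulVec, Matrix.mulVec_mulVec,
      Matrix.mulVec_mulVec, Matrix.mul_assoc]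
  simp only [add_dotProduct, dotProduct_add, e3, e4, Matrix.sub_mulVec, dotProduct_sub]
  ring

end boch

/-! ### the derivation of the Fock space -/

/-- `∑ p_{ab} e_a i_b` -/
def dG (p : Matrix (Fin n) (Fin n) ℂ) : Matrix (FI n) (FI n) ℂ :=
  ∑ a, ∑ b, p a b • (eW (ep a) * iW (ep b))

theorem dG_eq (p : Matrix (Fin n) (Fin n) ℂ) :
    dG p = ∑ b, eW (fun a => p a b) * iW (ep b) := by
  unfold dG
  rw [Finset.sum_comm]
  refine Finset.sum_congr rfl fun b _ => ?_
  rw [eW_eq_sum (fun a => p a b), Finset.sum_mul]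
  exact Finset.sum_congr rfl fun a _ => (smul_mul_assoc _ _ _).symm

theorem dG_comm (p : Matrix (Fin n) (Fin n) ℂ) (j : Fin n) :
    dG p * eW (ep j) = eW (fun a => p a j) + eW (ep j) * dG p := by
  rw [dG_eq, Finset.sum_mul, Finset.mul_sum]
  have h1 : ∀ b, eW (fun a => p a b) * iW (ep b) * eW (ep j) =
      (if j = b then eW (fun a => p a b) else 0) +
        eW (ep j) * (eW (fun a => p a b) * iW (ep b)) := by
    intro b
    have h2 := iW_eW (ep b : Fin n → ℂ) (ep j)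
    have h3 : (∑ k, (ep j : Fin n → ℂ) k * (ep b : Fin n → ℂ) k) = if j = b then 1 else 0 := by
      rw [Finset.sum_eq_single j]
      · by_cases h : j = b
        · subst h; simp
        · simp [h]
      · intro k _ hk; simp [hk]
      · intro h; exact absurd (Finset.mem_univ _) h
    rw [h3] at h2
    have h4 : iW (ep b : Fin n → ℂ) * eW (ep j) =
        (if j = b then (1 : ℂ) else 0) • 1 - eW (ep j) * iW (ep b) := eq_sub_of_add_eq h2
    have h5 := eW_anti (fun a => p a b) (ep j)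
    have h6 : eW (fun a => p a b) * eW (ep j) = - (eW (ep j) * eW (fun a => p a b)) :=
      eq_neg_of_add_eq_zero_left h5
    rw [mul_assoc, h4, mul_sub, ← mul_assoc, h6, neg_mul, sub_neg_eq_add, mul_assoc]
    congr 1
    split_ifs <;> simp
  rw [Finset.sum_congr rfl fun b _ => h1 b, Finset.sum_add_distrib]
  congr 1
  simp

theorem dG_vac (p : Matrix (Fin n) (Fin n) ℂ) (S : FI n) : dG p S ∅ = 0 := by
  have h1 : ∀ b : Fin n, ∀ T : FI n, (iW (ep b) : Matrix (FI n) (FI n) ℂ) T ∅ = 0 := by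
    intro b T
    by_contra h3
    have := LamN127.iW_deg h3
    simp at this
  rw [dG_eq, Matrix.sum_apply]
  refine Finset.sum_eq_zero fun b _ => ?_
  rw [Matrix.mul_apply]
  exact Finset.sum_eq_zero fun T _ => by rw [h1 b T, mul_zero]

/-- derivative of the functor `Gam` -/
theorem dM_Gam {s : ℂ} {a : Fin n} {m : Cn n → Matrix (Fin n) (Fin n) ℂ} {z : Cn n}
    {mi : Matrix (Fin n) (Fin n) ℂ} (hm : SmM z m) (hi : m z * mi = 1) :
    dM s a (fun y => Gam (m y)) z = Gam (m z) * dG (mi * dM s a m z) := by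
  rw [← sub_eq_zero]
  refine ext_of_eW (fun j => eW (fun b => m z b j)) (fun j => ?_) (fun j => by simp) fun S => ?_
  · rw [sub_mul, dM_Gam_eW hm j, mul_sub, mul_assoc, dG_comm, mul_add, ← mul_assoc (Gam (m z)),
      Gam_eW_ep, Gam_eW]
    have h1 : (m z *ᵥ fun a' => (mi * dM s a m z) a' j) = fun b => dM s a m z b j := by
      have h2 : (fun a' => (mi * dM s a m z) a' j) = mi *ᵥ (fun b => dM s a m z b j) := by
        funext a'
        rfl
      rw [h2, Matrix.mulVec_mulVec, hi, Matrix.one_mulVec]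
    rw [h1, mul_assoc]
    abel
  · rw [Matrix.sub_apply, dM_Gam_vac, Matrix.mul_apply, Matrix.zero_apply, zero_sub, neg_eq_zero]
    exact Finset.sum_eq_zero fun T _ => by rw [dG_vac, mul_zero]

theorem SmM_dG {m : Cn n → Matrix (Fin n) (Fin n) ℂ} {z : Cn n} (hm : SmM z m) :
    SmM z (fun y => dG (m y)) := by
  intro S T
  have h1 : (fun y => dG (m y) S T) = fun y => ∑ a, ∑ b, m y a b *
      (eW (ep a) * iW (ep b) : Matrix (FI n) (FI n) ℂ) S T := by
    funext y
    unfold dG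
    rw [Matrix.sum_apply]
    refine Finset.sum_congr rfl fun a _ => ?_
    rw [Matrix.sum_apply]
    rfl
  rw [h1]
  exact ContDiffAt.sum fun a _ => ContDiffAt.sum fun b _ => (hm a b).mul contDiffAt_const

theorem dM_dG {s : ℂ} {a : Fin n} {m : Cn n → Matrix (Fin n) (Fin n) ℂ} {z : Cn n}
    (hm : SmM z m) : dM s a (fun y => dG (m y)) z = dG (dM s a m z) := by
  ext S T
  show dS s a (fun y => dG (m y) S T) z = _
  have h1 : (fun y => dG (m y) S T) = fun y => ∑ a, ∑ b, m y a b *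
      (eW (ep a) * iW (ep b) : Matrix (FI n) (FI n) ℂ) S T := by
    funext y
    unfold dG
    rw [Matrix.sum_apply]
    refine Finset.sum_congr rfl fun a _ => ?_
    rw [Matrix.sum_apply]
    rfl
  have h2 : ∀ a b : Fin n, DifferentiableAt ℝ (fun y => m y a b *
      (eW (ep a) * iW (ep b) : Matrix (FI n) (FI n) ℂ) S T) z := fun a b =>
    (hm a b).diff.mul_const _
  rw [h1, dS_sum _ fun a _ => DifferentiableAt.fun_sum fun b _ => h2 a b]
  unfold dG
  rw [Matrix.sum_apply]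
  refine Finset.sum_congr rfl fun a' _ => ?_
  rw [dS_sum _ fun b _ => h2 a' b, Matrix.sum_apply]
  refine Finset.sum_congr rfl fun b _ => ?_
  rw [dS_mul (hm a' b).diff (differentiableAt_const _), dS_const, mul_zero, add_zero]
  rfl

/-- curvature of the functor `Gam` -/
theorem curv_Gam {m : Cn n → Matrix (Fin n) (Fin n) ℂ} {mi : Cn n → Matrix (Fin n) (Fin n) ℂ}
    {z : Cn n} (hm : ∀ᶠ y in 𝓝 z, SmM y m) (hmi : SmM z mi) (hi : ∀ᶠ y in 𝓝 z, m y * mi y = 1)
    (a b : Fin n) :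
    Cf (fun y => Gam (m y)) (Gam (mi z)) z a b =
      Gam (m z) * dG (dM I b (fun y => mi y * dM (-I) a m y) z) := by
  have hmz := hm.self_of_nhds
  have hiz := hi.self_of_nhds
  have hG : SmM z (fun y => Gam (m y)) := SmM.Gam hmz
  have h1 : dM (-I) a (dM I b (fun y => Gam (m y))) z =
      dM I b (dM (-I) a (fun y => Gam (m y))) z := by
    ext S T
    exact dS_comm (hG S T)
  have h2 : (fun y => dM (-I) a (fun y => Gam (m y)) y) =ᶠ[𝓝 z]
      fun y => Gam (m y) * dG (mi y * dM (-I) a m y) := by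
    filter_upwards [hm, hi] with y h3 h4
    exact dM_Gam h3 h4
  have h3 : dM I b (dM (-I) a (fun y => Gam (m y))) z =
      dM I b (fun y => Gam (m y) * dG (mi y * dM (-I) a m y)) z := by
    ext S T
    refine dS_congr ?_
    filter_upwards [h2] with y hy
    show dM (-I) a (fun y => Gam (m y)) y S T = _
    rw [hy]
  have h4 : SmM z (fun y => mi y * dM (-I) a m y) := hmi.mul (hmz.dM (-I) a)
  unfold Cf
  rw [h1, h3, dM_mul (fun i j => (hG i j).diff) (fun i j => (SmM_dG h4 i j).diff), dM_dG h4,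
    dM_Gam (s := -I) (a := a) hmz hiz]
  have h5 : Gam (mi z) * Gam (m z) = 1 := by
    rw [← Gam_mul, mul_eq_one_comm.1 hiz, Gam_one]
  rw [mul_assoc (dM I b (fun y => Gam (m y)) z) (Gam (mi z)), ← mul_assoc (Gam (mi z)), h5,
    one_mul]
  abel

/-! ### the inverse matrix -/

theorem sm_inv {m : Cn n → Matrix (Fin n) (Fin n) ℂ} {z : Cn n} (hm : SmM z m)
    (h0 : (m z).det ≠ 0) : SmM z (fun y => (m y)⁻¹) := by
  intro i j
  have h1 : (fun y => (m y)⁻¹ i j) = fun y => ((m y).det)⁻¹ * (m y).adjugate i j := by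
    funext y
    rw [Matrix.inv_def, Matrix.smul_apply, Ring.inverse_eq_inv', smul_eq_mul]
  rw [h1]
  have h2 : Sm z (fun y => (m y).adjugate i j) := by
    have h3 : (fun y => (m y).adjugate i j) =
        fun y => ((m y).updateRow j (Pi.single i 1)).det := by
      funext y
      rw [Matrix.adjugate_apply]
    rw [h3]
    refine SmM.det fun k l => ?_
    by_cases hk : k = j
    · subst hk
      simp only [Matrix.updateRow_self]
      exact contDiffAt_const
    · simp only [Matrix.updateRow_ne hk]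
      exact hm k l
  exact ((SmM.det hm).inv h0).mul h2

theorem dM_inv {s : ℂ} {a : Fin n} {m : Cn n → Matrix (Fin n) (Fin n) ℂ} {z : Cn n}
    (hm : SmM z m) (h0 : (m z).det ≠ 0) :
    dM s a (fun y => (m y)⁻¹) z = - ((m z)⁻¹ * dM s a m z * (m z)⁻¹) := by
  have hi := sm_inv hm h0
  have h1 : ∀ᶠ y in 𝓝 z, (m y).det ≠ 0 :=
    (SmM.det hm).continuousAt.eventually_ne h0
  have h2 : dM s a (fun y => m y * (m y)⁻¹) z = 0 := by
    ext i j
    have h3 : (fun y => (m y * (m y)⁻¹) i j) =ᶠ[𝓝 z] fun _ => (1 : Matrix (Fin n) (Fin n) ℂ) i j := by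
      filter_upwards [h1] with y hy
      rw [Matrix.mul_nonsing_inv _ (isUnit_iff_ne_zero.2 hy)]
    show dS s a (fun y => (m y * (m y)⁻¹) i j) z = 0
    rw [dS_congr h3, dS_const]
  rw [dM_mul (fun i j => (hm i j).diff) (fun i j => (hi i j).diff)] at h2
  have h3 : (m z)⁻¹ * m z = 1 := Matrix.nonsing_inv_mul _ (isUnit_iff_ne_zero.2 h0)
  have h4 : m z * dM s a (fun y => (m y)⁻¹) z = - (dM s a m z * (m z)⁻¹) :=
    eq_neg_of_add_eq_zero_right h2
  calc dM s a (fun y => (m y)⁻¹) z = (m z)⁻¹ * (m z * dM s a (fun y => (m y)⁻¹) z) := by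
        rw [← mul_assoc, h3, one_mul]
    _ = _ := by rw [h4, mul_neg, mul_assoc]

/-! ### the Ricci trace -/

/-- `∂̄_e log det g = tr (g⁻¹ ∂̄_e g)` -/
theorem dS_logdet {s : ℂ} {e : Fin n} {g : Cn n → Matrix (Fin n) (Fin n) ℂ} {u : Cn n → ℂ}
    {z : Cn n} (hg : SmM z g) (h0 : (g z).det ≠ 0) (hu : Sm z u)
    (hdet : ∀ᶠ y in 𝓝 z, Complex.exp (u y) = (g y).det) :
    dS s e u z = ∑ i, ∑ j, (g z)⁻¹ i j * dM s e g z j i := by
  have h1 := dS_exp (s := s) (a := e) hu.diff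
  have h2 : dS s e (fun y => Complex.exp (u y)) z = dS s e (fun y => (g y).det) z :=
    dS_congr hdet
  rw [h2, dS_det hg, hdet.self_of_nhds] at h1
  have h3 : dS s e u z = ((g z).det)⁻¹ * ∑ i, ∑ j, (g z).adjugate i j * dM s e g z j i := by
    rw [h1, ← mul_assoc, inv_mul_cancel₀ h0, one_mul]
  rw [h3, Finset.mul_sum]
  refine Finset.sum_congr rfl fun i _ => ?_
  rw [Finset.mul_sum]
  refine Finset.sum_congr rfl fun j _ => ?_
  rw [Matrix.inv_def, Matrix.smul_apply, Ring.inverse_eq_inv', smul_eq_mul, mul_assoc]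

theorem ricci_tr {g : Cn n → Matrix (Fin n) (Fin n) ℂ} {u : Cn n → ℂ} {z : Cn n}
    (hg : ∀ᶠ y in 𝓝 z, SmM y g) (h0 : (g z).det ≠ 0)
    (hc : ∀ᶠ y in 𝓝 z, ∀ a b c, dM (-I) c g y a b = dM (-I) a g y c b)
    (hc' : ∀ᶠ y in 𝓝 z, ∀ a b c, dM I c g y a b = dM I b g y a c)
    (hu : ∀ᶠ y in 𝓝 z, Sm y u) (hdet : ∀ᶠ y in 𝓝 z, Complex.exp (u y) = (g y).det) :
    ∑ a, ∑ b, (g z)⁻¹ b a • dM I b (fun y => dM (-I) a g y * (g y)⁻¹) z =
      (Matrix.of fun c e => dS (-I) c (dS I e u) z) * (g z)⁻¹ := by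
  have hgz := hg.self_of_nhds
  have hiz := sm_inv hgz h0
  set γ := (g z)⁻¹ with hγ
  have hd0 : ∀ᶠ y in 𝓝 z, (g y).det ≠ 0 := (SmM.det hgz).continuousAt.eventually_ne h0
  -- the left hand side
  have h1 : ∀ a b, dM I b (fun y => dM (-I) a g y * (g y)⁻¹) z =
      (dM I b (dM (-I) a g) z - dM (-I) a g z * γ * dM I b g z) * γ := by
    intro a b
    rw [dM_mul (fun i j => ((hgz.dM (-I) a) i j).diff) (fun i j => (hiz i j).diff),
      dM_inv hgz h0, sub_mul, mul_neg, ← sub_eq_add_neg]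
    congr 1
    simp only [mul_assoc, ← hγ]
  have h2 : ∑ a, ∑ b, γ b a • dM I b (fun y => dM (-I) a g y * (g y)⁻¹) z =
      (∑ a, ∑ b, γ b a • (dM I b (dM (-I) a g) z - dM (-I) a g z * γ * dM I b g z)) * γ := by
    rw [Finset.sum_mul]
    refine Finset.sum_congr rfl fun a _ => ?_
    rw [Finset.sum_mul]
    refine Finset.sum_congr rfl fun b _ => ?_
    rw [h1, smul_mul_assoc]
  rw [h2]
  congr 1
  ext c e
  rw [Matrix.of_apply]
  -- the right hand side
  have h3 : dS I e u =ᶠ[𝓝 z] fun y => ∑ i, ∑ j, (g y)⁻¹ i j * dM I e g y j i := by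
    filter_upwards [hg, hd0, hu, hdet.eventually_nhds] with y k1 k2 k3 k4
    exact dS_logdet k1 k2 k3 k4
  have hsm : ∀ i j, DifferentiableAt ℝ (fun y => (g y)⁻¹ i j * dM I e g y j i) z := fun i j =>
    (hiz i j).diff.mul ((hgz.dM I e) j i).diff
  rw [dS_congr h3, dS_sum _ fun i _ => DifferentiableAt.fun_sum fun j _ => hsm i j]
  have h4 : ∀ i, dS (-I) c (fun y => ∑ j, (g y)⁻¹ i j * dM I e g y j i) z =
      ∑ j, (-(γ * dM (-I) c g z * γ) i j * dM I e g z j i +
        γ i j * dS (-I) c (fun y => dM I e g y j i) z) := by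
    intro i
    rw [dS_sum _ fun j _ => hsm i j]
    refine Finset.sum_congr rfl fun j _ => ?_
    rw [dS_mul (hiz i j).diff ((hgz.dM I e) j i).diff]
    have h5 : dS (-I) c (fun y => (g y)⁻¹ i j) z = -(γ * dM (-I) c g z * γ) i j := by
      have := congrFun (congrFun (dM_inv (s := -I) (a := c) hgz h0) i) j
      exact this
    rw [h5]
  rw [Finset.sum_congr rfl fun i _ => h4 i]
  -- second derivatives
  have h6 : ∀ a b, dM I b (dM (-I) a g) z c e = dS (-I) c (fun y => dM I e g y a b) z := by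
    intro a b
    show dS I b (fun y => dM (-I) a g y c e) z = _
    have k1 : (fun y => dM (-I) a g y c e) =ᶠ[𝓝 z] fun y => dM (-I) c g y a e := by
      filter_upwards [hc] with y hy
      exact hy c e a
    rw [dS_congr k1]
    show dS I b (dS (-I) c (fun y => g y a e)) z = _
    rw [dS_comm (hgz a e)]
    refine dS_congr ?_
    filter_upwards [hc'] with y hy
    exact hy a e b
  have h7 : ∀ a b, (dM (-I) a g z * γ * dM I b g z) c e =
      ∑ h, (∑ f, dM (-I) c g z a f * γ f h) * dM I e g z h b := by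
    intro a b
    rw [Matrix.mul_apply]
    refine Finset.sum_congr rfl fun h _ => ?_
    rw [Matrix.mul_apply, hc'.self_of_nhds h e b]
    congr 1
    refine Finset.sum_congr rfl fun f _ => ?_
    rw [hc.self_of_nhds c f a]
  rw [Matrix.sum_apply]
  have h8 : ∀ a, (∑ b, γ b a • (dM I b (dM (-I) a g) z - dM (-I) a g z * γ * dM I b g z)) c e =
      ∑ b, (γ b a * dS (-I) c (fun y => dM I e g y a b) z -
        γ b a * ∑ h, (∑ f, dM (-I) c g z a f * γ f h) * dM I e g z h b) := by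
    intro a
    rw [Matrix.sum_apply]
    refine Finset.sum_congr rfl fun b _ => ?_
    rw [Matrix.smul_apply, Matrix.sub_apply, smul_eq_mul, mul_sub, h6, h7]
  rw [Finset.sum_congr rfl fun a _ => h8 a, Finset.sum_comm]
  refine Finset.sum_congr rfl fun b _ => ?_
  rw [Finset.sum_sub_distrib, Finset.sum_add_distrib, sub_eq_add_neg, add_comm]
  congr 1
  rw [← Finset.sum_neg_distrib]
  have h9 : ∀ j, -(γ * dM (-I) c g z * γ) b j * dM I e g z j b =
      -∑ a, γ b a * ((∑ f, dM (-I) c g z a f * γ f j) * dM I e g z j b) := by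
    intro j
    rw [mul_assoc γ, Matrix.mul_apply, neg_mul, Finset.sum_mul]
    congr 1
    refine Finset.sum_congr rfl fun a _ => ?_
    rw [Matrix.mul_apply, mul_assoc]
  rw [Finset.sum_congr rfl fun j _ => h9 j, Finset.sum_neg_distrib, Finset.sum_neg_distrib]
  congr 1
  rw [Finset.sum_comm]
  refine Finset.sum_congr rfl fun a _ => ?_
  rw [Finset.mul_sum]

end

end Crest.Agent.R273.ParA_880
end

-- ▼ part R273/ParB_880
section

/-!
# R273 (S0416), leaf PSPL (helper880), part B: the traced Bochner formulas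

* `dG_T1`    : `β* Gam(m) dG(p) β = T1 (Gam m) (m p) (i.β) (i.β)`
* `lap_form` : `∑ γ_{ba} ∂_a∂̄_b |β|² = |Dβ|² + (γ ρ γ)(i.β, i.β)` for holomorphic `β`, `ρ` = Ricci
* `lap_vec`  : `∑ γ_{ba} ∂_a∂̄_b |v|² = |Dv|² - ρ(i.v, i.v)` for holomorphic `v`
-/

set_option autoImplicit false
set_option linter.unusedSectionVars false

open Set Filter Topology Complex Matrix
open scoped ContDiff Matrix ComplexConjugate ComplexOrder

namespace Crest.Agent.R273.ParB_880

open Crest.Agent.R275.Geo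
open Crest.Agent.R273.Fock_243 Crest.Agent.R273.Calc_243 Crest.Agent.R273.Bkn_243
open Crest.Agent.R273.Pos_243 Crest.Agent.R273.ParA_880

noncomputable section

variable {n : ℕ}

theorem dG_T1 {m p r : Matrix (Fin n) (Fin n) ℂ} (h : m * p = r) (β : FI n → ℂ) :
    star β ⬝ᵥ ((Gam m * dG p) *ᵥ β) =
      T1 (Gam m) r (fun k => iW (ep k) *ᵥ β) (fun k => iW (ep k) *ᵥ β) := by
  have h1 : Gam m * dG p = ∑ b, ∑ c, r c b • (eW (ep c) * (Gam m * iW (ep b))) := by
    rw [dG_eq, Finset.mul_sum]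
    refine Finset.sum_congr rfl fun b _ => ?_
    rw [← mul_assoc, Gam_eW]
    have h2 : (m *ᵥ fun a => p a b) = fun c => r c b := by
      funext c
      rw [← h]
      rfl
    rw [h2, eW_eq_sum (fun c => r c b), Finset.sum_mul, Finset.sum_mul]
    refine Finset.sum_congr rfl fun c _ => ?_
    rw [smul_mul_assoc, smul_mul_assoc, mul_assoc]
  rw [h1]
  unfold T1
  rw [Matrix.sum_mulVec, dotProduct_sum]
  refine Finset.sum_congr rfl fun b _ => ?_
  rw [Matrix.sum_mulVec, dotProduct_sum]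
  refine Finset.sum_congr rfl fun c _ => ?_
  rw [Matrix.smul_mulVec, dotProduct_smul, smul_eq_mul, star_iW, dot_iW, ← Matrix.mulVec_mulVec,
    ← Matrix.mulVec_mulVec]

/-- the traced formula for a general Hermitian metric -/
theorem lap_gen {ι : Type} [Fintype ι] [DecidableEq ι] {H : Cn n → Matrix ι ι ℂ}
    {Hi : Matrix ι ι ℂ} {s : Cn n → ι → ℂ} {z : Cn n} {γ : Matrix (Fin n) (Fin n) ℂ}
    (hH : ∀ᶠ y in 𝓝 z, SmM y H) (herm : ∀ᶠ y in 𝓝 z, (H y).IsHermitian) (hi : H z * Hi = 1)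
    (hs : ∀ᶠ y in 𝓝 z, SmV y s) (hol : ∀ᶠ y in 𝓝 z, ∀ b, dV I b s y = 0) :
    ∑ a, ∑ b, γ b a * dS (-I) a (dS I b (fun y => star (s y) ⬝ᵥ (H y *ᵥ s y))) z =
      ∑ a, ∑ b, γ b a * (star (Dc H Hi s z b) ⬝ᵥ (H z *ᵥ Dc H Hi s z a)) +
        star (s z) ⬝ᵥ ((∑ a, ∑ b, γ b a • Cf H Hi z a b) *ᵥ s z) := by
  have h1 : ∀ a b, dS (-I) a (dS I b (fun y => star (s y) ⬝ᵥ (H y *ᵥ s y))) z =
      star (Dc H Hi s z b) ⬝ᵥ (H z *ᵥ Dc H Hi s z a) +
        star (s z) ⬝ᵥ (Cf H Hi z a b *ᵥ s z) := fun a b =>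
    boch hH.self_of_nhds hs.self_of_nhds herm hi hol (hH.and hs) a b
  simp only [h1, mul_add, Finset.sum_add_distrib]
  congr 1
  rw [Matrix.sum_mulVec, dotProduct_sum]
  refine Finset.sum_congr rfl fun a _ => ?_
  rw [Matrix.sum_mulVec, dotProduct_sum]
  refine Finset.sum_congr rfl fun b _ => ?_
  rw [Matrix.smul_mulVec, dotProduct_smul, smul_eq_mul]

/-- the trace of the curvature of the functor `Gam` -/
theorem tr_curv {m mi : Cn n → Matrix (Fin n) (Fin n) ℂ} {z : Cn n}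
    {γ : Matrix (Fin n) (Fin n) ℂ}
    (hm : ∀ᶠ y in 𝓝 z, SmM y m) (hmi : SmM z mi) (hi : ∀ᶠ y in 𝓝 z, m y * mi y = 1)
    {p : Matrix (Fin n) (Fin n) ℂ}
    (hp : ∑ a, ∑ b, γ b a • dM I b (fun y => mi y * dM (-I) a m y) z = p) :
    ∑ a, ∑ b, γ b a • Cf (fun y => Gam (m y)) (Gam (mi z)) z a b = Gam (m z) * dG p := by
  have h1 : ∀ a b, Cf (fun y => Gam (m y)) (Gam (mi z)) z a b =
      Gam (m z) * dG (dM I b (fun y => mi y * dM (-I) a m y) z) := fun a b =>
    curv_Gam hm hmi hi a b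
  have h2 : ∀ (c : ℂ) (p q : Matrix (Fin n) (Fin n) ℂ), dG (c • p + q) = c • dG p + dG q := by
    intro c p q
    unfold dG
    rw [Finset.smul_sum, ← Finset.sum_add_distrib]
    refine Finset.sum_congr rfl fun a _ => ?_
    rw [Finset.smul_sum, ← Finset.sum_add_distrib]
    refine Finset.sum_congr rfl fun b _ => ?_
    rw [Matrix.add_apply, Matrix.smul_apply, smul_eq_mul, add_smul, mul_smul]
  have h0 : dG (0 : Matrix (Fin n) (Fin n) ℂ) = 0 := by
    unfold dG
    simp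
  have h3 : ∀ (c : ℂ) (p : Matrix (Fin n) (Fin n) ℂ), dG (c • p) = c • dG p := by
    intro c p
    have := h2 c p 0
    rwa [add_zero, h0, add_zero] at this
  have h4 : ∀ (s : Finset (Fin n)) (f : Fin n → Matrix (Fin n) (Fin n) ℂ),
      dG (∑ a ∈ s, f a) = ∑ a ∈ s, dG (f a) := by
    intro s f
    classical
    induction s using Finset.induction_on with
    | empty => simp [h0]
    | insert k s hk ih =>
      rw [Finset.sum_insert hk, Finset.sum_insert hk, ← ih]
      have := h2 1 (f k) (∑ a ∈ s, f a)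
      rwa [one_smul, one_smul] at this
  rw [← hp, h4, Finset.mul_sum]
  refine Finset.sum_congr rfl fun a _ => ?_
  rw [h4, Finset.mul_sum]
  refine Finset.sum_congr rfl fun b _ => ?_
  rw [h3, h1, mul_smul_comm]

section formulas

variable {g : Cn n → Matrix (Fin n) (Fin n) ℂ} {u : Cn n → ℂ} {z : Cn n}

theorem sm_inv_ev (hg : ∀ᶠ y in 𝓝 z, SmM y g) (h0 : (g z).det ≠ 0) :
    ∀ᶠ y in 𝓝 z, SmM y (fun y => (g y)⁻¹) := by
  have hd0 : ∀ᶠ y in 𝓝 z, (g y).det ≠ 0 := (SmM.det hg.self_of_nhds).continuousAt.eventually_ne h0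
  filter_upwards [hg, hd0] with y h1 h2
  exact sm_inv h1 h2

/-- traced Bochner formula for holomorphic forms -/
theorem lap_form (hg : ∀ᶠ y in 𝓝 z, SmM y g) (hpos : ∀ᶠ y in 𝓝 z, (g y).PosDef)
    (hc : ∀ᶠ y in 𝓝 z, ∀ a b c, dM (-I) c g y a b = dM (-I) a g y c b)
    (hc' : ∀ᶠ y in 𝓝 z, ∀ a b c, dM I c g y a b = dM I b g y a c)
    (hu : ∀ᶠ y in 𝓝 z, Sm y u) (hdet : ∀ᶠ y in 𝓝 z, Complex.exp (u y) = (g y).det)
    {s : Cn n → FI n → ℂ} (hs : ∀ᶠ y in 𝓝 z, SmV y s)
    (hol : ∀ᶠ y in 𝓝 z, ∀ b, dV I b s y = 0) :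
    ∑ a, ∑ b, (g z)⁻¹ b a *
        dS (-I) a (dS I b (fun y => star (s y) ⬝ᵥ (Gam (g y)⁻¹ *ᵥ s y))) z =
      T1 (Gam (g z)⁻¹) (g z)⁻¹
        (fun a => Dc (fun y => Gam (g y)⁻¹) (Gam (g z)) s z a)
        (fun a => Dc (fun y => Gam (g y)⁻¹) (Gam (g z)) s z a) +
      T1 (Gam (g z)⁻¹) ((g z)⁻¹ * (-(Matrix.of fun c e => dS (-I) c (dS I e u) z)) * (g z)⁻¹)
        (fun k => iW (ep k) *ᵥ s z) (fun k => iW (ep k) *ᵥ s z) := by
  have hdz : (g z).det ≠ 0 := hpos.self_of_nhds.det_pos.ne'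
  have hi := sm_inv_ev hg hdz
  have h1 : ∀ᶠ y in 𝓝 z, (g y)⁻¹ * g y = 1 := by
    filter_upwards [hpos] with y hy
    exact Matrix.nonsing_inv_mul _ hy.det_pos.ne'.isUnit
  have hH : ∀ᶠ y in 𝓝 z, SmM y (fun y => Gam (g y)⁻¹) := by
    filter_upwards [hi] with y hy
    exact SmM.Gam hy
  have herm : ∀ᶠ y in 𝓝 z, ((fun y => Gam (g y)⁻¹) y).IsHermitian := by
    filter_upwards [hpos] with y hy
    exact (Gam_posDef hy.inv).isHermitian
  have e1 := lap_gen (H := fun y => Gam (g y)⁻¹) (Hi := Gam (g z)) (s := s) (z := z)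
    (γ := (g z)⁻¹) hH herm (Gam_mul_inv h1.self_of_nhds) hs hol
  rw [e1]
  congr 1
  -- the curvature term
  have e2 : ∑ a, ∑ b, (g z)⁻¹ b a • dM I b (fun y => g y * dM (-I) a (fun y => (g y)⁻¹) y) z =
      (-(Matrix.of fun c e => dS (-I) c (dS I e u) z)) * (g z)⁻¹ := by
    rw [neg_mul, ← ricci_tr hg hdz hc hc' hu hdet, ← Finset.sum_neg_distrib]
    refine Finset.sum_congr rfl fun a _ => ?_
    rw [← Finset.sum_neg_distrib]
    refine Finset.sum_congr rfl fun b _ => ?_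
    rw [← smul_neg]
    congr 1
    ext i j
    show dS I b (fun y => (g y * dM (-I) a (fun y => (g y)⁻¹) y) i j) z = _
    have e3 : (fun y => (g y * dM (-I) a (fun y => (g y)⁻¹) y) i j) =ᶠ[𝓝 z]
        fun y => -((dM (-I) a g y * (g y)⁻¹) i j) := by
      filter_upwards [hg, hpos] with y k1 k2
      have k3 : (g y).det ≠ 0 := k2.det_pos.ne'
      rw [dM_inv k1 k3, mul_neg, ← mul_assoc, ← mul_assoc,
        Matrix.mul_nonsing_inv _ k3.isUnit, one_mul, Matrix.neg_apply]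
    rw [dS_congr e3, dS_neg]
    rfl
  have e3 := tr_curv (m := fun y => (g y)⁻¹) (mi := g) (z := z) (γ := (g z)⁻¹) hi
    hg.self_of_nhds h1 e2
  rw [e3, dG_T1 (r := (g z)⁻¹ * (-(Matrix.of fun c e => dS (-I) c (dS I e u) z)) * (g z)⁻¹)]
  rw [mul_assoc]


end formulas

end

end Crest.Agent.R273.ParB_880
end

-- ▼ part R273/ParC_880
section

/-!
# R273 (S0416), leaf PSPL (helper880), part C: subharmonic functions on compact Kaehler manifolds

* `gl f`       : the function on `M` glued from a family which agrees on overlaps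
* `lapK K u`   : `∑ γ_{ba} ∂_a ∂̄_b u` in the chart `i`
* `sub_zero`   : `lapK K u ≥ 0` on a compact manifold implies `lapK K u = 0`
-/

set_option autoImplicit false
set_option linter.unusedSectionVars false

open Set Filter Topology Complex Matrix
open scoped ContDiff Matrix ComplexConjugate ComplexOrder

namespace Crest.Agent.R273.ParC_880

open Crest.Agent.R275 Crest.Agent.R275.Geo Crest.Agent.R275.Core144 Crest.Agent.R275.EDR890
open Crest.Agent.R275.Pai323 Crest.Agent.R275.C1d194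
open Crest.Agent.R275.SerG398 (lint dens)
open Crest.Agent.R275.OmT75 (dl)
open Crest.Agent.R273.Defs_333 Crest.Agent.R273.HM_333 Crest.Agent.R273.Kah_333
open Crest.Agent.R273.Vol_333 Crest.Agent.R273.StV_37 Crest.Agent.R273.Green_5
open Crest.Agent.R273.Fock_243 Crest.Agent.R273.Calc_243 Crest.Agent.R273.Bkn_243
open Crest.Agent.R273.Pos_243 Crest.Agent.R273.BKNa_37

noncomputable section

variable {n : ℕ} {M : Type} [TopologicalSpace M] {A : Atl n M}

/-! ### gluing -/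

open Classical in
/-- the function glued from a family which agrees on overlaps -/
def gl {W : Type*} (f : A.ι → M → W) (x : M) : W := f (A.cover x).choose x

theorem gl_eq {W : Type*} {f : A.ι → M → W}
    (h : ∀ i j, ∀ x ∈ (A.e i).source ∩ (A.e j).source, f i x = f j x) {i : A.ι} {x : M}
    (hx : x ∈ (A.e i).source) : gl f x = f i x :=
  h _ _ x ⟨(A.cover x).choose_spec, hx⟩

/-! ### the Laplacian -/

/-- `∑ γ_{ba} ∂_a ∂̄_b u` in the chart `i` -/
def lapK (K : Kah A) (u : M → ℝ) (i : A.ι) (x : M) : ℂ :=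
  ∑ a, ∑ b, (K.g i x)⁻¹ b a * hsf A u i x a b

theorem tr_adj (K : Kah A) (u : M → ℝ) (i : A.ι) {x : M} (hx : x ∈ (A.e i).source) :
    ((K.g i x).adjugate * hsf A u i x).trace = (K.g i x).det * lapK K u i x := by
  unfold lapK
  rw [Finset.sum_comm, Matrix.trace, Finset.mul_sum]
  refine Finset.sum_congr rfl fun b _ => ?_
  rw [Matrix.diag_apply, Matrix.mul_apply, Finset.mul_sum]
  refine Finset.sum_congr rfl fun a _ => ?_
  have h0 : (K.g i x).det ≠ 0 := (K.pos i x hx).det_pos.ne'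
  rw [Matrix.inv_def, Matrix.smul_apply, Ring.inverse_eq_inv', smul_eq_mul, ← mul_assoc,
    ← mul_assoc, mul_inv_cancel₀ h0, one_mul]

theorem tr_law {g g' h h' J : Matrix (Fin n) (Fin n) ℂ} (hg : g = Jᵀ * g' * J.map conj)
    (hh : h = Jᵀ * h' * J.map conj) :
    (g.adjugate * h).trace = (J.det * conj J.det) * (g'.adjugate * h').trace := by
  have e1 : (J.map conj).det = conj J.det := by
    rw [← RingHom.mapMatrix_apply, ← RingHom.map_det]
  rw [hg, hh, Matrix.adjugate_mul_distrib, Matrix.adjugate_mul_distrib]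
  calc ((J.map conj).adjugate * (g'.adjugate * Jᵀ.adjugate) * (Jᵀ * h' * J.map conj)).trace
      = ((J.map conj).adjugate * (g'.adjugate * (Jᵀ.adjugate * Jᵀ) * h' * J.map conj)).trace := by
        simp only [Matrix.mul_assoc]
    _ = (g'.adjugate * (Jᵀ.adjugate * Jᵀ) * h' * (J.map conj * (J.map conj).adjugate)).trace := by
        rw [Matrix.trace_mul_comm]
        simp only [Matrix.mul_assoc]
    _ = _ := by
        rw [Matrix.adjugate_mul, Matrix.mul_adjugate, e1, Matrix.det_transpose]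
        simp only [Matrix.mul_smul, Matrix.smul_mul, Matrix.mul_one, Matrix.trace_smul,
          smul_eq_mul]
        ring

/-- **positivity**: `lapK K u ≥ 0` on compact `M` implies `lapK K u = 0` -/
theorem sub_zero [T2Space M] [CompactSpace M] (P : Part A) (K : Kah A) {u : M → ℝ}
    (hu : A.Sm u) (hp : ∀ i, ∀ x ∈ (A.e i).source, 0 ≤ lapK K u i x) :
    ∀ i, ∀ x ∈ (A.e i).source, lapK K u i x = 0 := by
  set f : A.ι → M → ℂ := fun i x => ((K.g i x).adjugate * hm A (fun y => (u y : ℂ)) i x).trace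
    with hf
  have hfe : ∀ i, ∀ x ∈ (A.e i).source, f i x = (K.g i x).det * lapK K u i x := by
    intro i x hx
    rw [← tr_adj K u i hx, hf]
    simp only
    rw [hm_ofReal u i hx]
  have huc : ∀ i, A.SmAt i (fun y => (u y : ℂ)) := fun i => smAt_ofReal (hu i)
  have hD : StokesV_332.Den A f := by
    refine ⟨fun i => smAt_tr (kah_cf K) (huc i), fun i j x hx => ?_⟩
    have h1 : f i x = ((K.g i x).adjugate * hsf A u i x).trace := by
      rw [hf]; simp only; rw [hm_ofReal u i hx.1]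
    have h2 : f j x = ((K.g j x).adjugate * hsf A u j x).trace := by
      rw [hf]; simp only; rw [hm_ofReal u j hx.2]
    rw [h1, h2, tr_law (K.tr i j x hx) (hsf_tr hu hx), SerG398.dens_eq]
    rfl
  have hdet : ∀ i, ∀ x ∈ (A.e i).source, 0 < (K.g i x).det := fun i x hx => (K.pos i x hx).det_pos
  have hn : StokesV_332.NonnegD A f := by
    intro i x hx
    have h1 : 0 ≤ f i x := by
      rw [hfe i x hx]
      exact mul_nonneg (hdet i x hx).le (hp i x hx)
    have h2 := Complex.le_def.1 h1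
    exact ⟨h2.1, h2.2.symm⟩
  have h0 : StokesV_332.OffK A f univ := StokesV_332.offK_univ f
  have hz : StokesV_332.intD P f = 0 := by
    rw [StokesV_332.intD_eq_sum P isCompact_univ (Finset.Subset.refl _) h0]
    exact green1c P (kah_cf K) huc
  have h3 := StokesV_332.eq_zero_of_intD P hD hn isCompact_univ h0 (by rw [hz]; rfl)
  intro i x hx
  have h4 := h3 i x hx
  rw [hfe i x hx] at h4
  exact (mul_eq_zero.1 h4).resolve_left (hdet i x hx).ne'

/-! ### chart readings of a Kaehler metric -/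

/-- the metric read in a chart -/
def gr (K : Kah A) (i : A.ι) : Cn n → Matrix (Fin n) (Fin n) ℂ := fun z => K.g i ((A.e i).symm z)

section gr

variable (K : Kah A) (i : A.ι) {z : Cn n}

theorem gr_x {x : M} (hx : x ∈ (A.e i).source) : gr K i (A.e i x) = K.g i x := by
  unfold gr; rw [(A.e i).left_inv hx]

theorem ev_tg (hz : z ∈ (A.e i).target) : ∀ᶠ y in 𝓝 z, y ∈ (A.e i).target :=
  (A.e i).open_target.mem_nhds hz

theorem gr_sm (hz : z ∈ (A.e i).target) : ∀ᶠ y in 𝓝 z, SmM y (gr K i) := by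
  filter_upwards [ev_tg i hz] with y hy
  exact fun a b => sm_rd (K.sm i a b) hy

theorem gr_pos (hz : z ∈ (A.e i).target) : ∀ᶠ y in 𝓝 z, (gr K i y).PosDef := by
  filter_upwards [ev_tg i hz] with y hy
  exact K.pos i _ ((A.e i).map_target hy)

theorem gr_c (hz : z ∈ (A.e i).target) :
    ∀ᶠ y in 𝓝 z, ∀ a b c, dM (-I) c (gr K i) y a b = dM (-I) a (gr K i) y c b := by
  filter_upwards [ev_tg i hz] with y hy a b c
  have h := K.closed i y hy a b c
  rw [wd_eq_dS, wd_eq_dS] at h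
  exact h

theorem gr_c' (hz : z ∈ (A.e i).target) :
    ∀ᶠ y in 𝓝 z, ∀ a b c, dM I c (gr K i) y a b = dM I b (gr K i) y a c := by
  filter_upwards [ev_tg i hz] with y hy a b c
  have h := K.closed' i y hy a b c
  rw [wd_eq_dS', wd_eq_dS'] at h
  exact h

theorem gr_u (hz : z ∈ (A.e i).target) : ∀ᶠ y in 𝓝 z, Sm y (lamr (volK K) i) := by
  filter_upwards [ev_tg i hz] with y hy
  exact sm_lamr (volK K) i hy

theorem gr_det (hz : z ∈ (A.e i).target) :
    ∀ᶠ y in 𝓝 z, Complex.exp (lamr (volK K) i y) = (gr K i y).det := by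
  filter_upwards [ev_tg i hz] with y hy
  rw [exp_lamr (volK K) i hy, volK_w K i ((A.e i).map_target hy)]
  rfl

theorem gr_cur {x : M} (hx : x ∈ (A.e i).source) :
    -(Matrix.of fun c e => dS (-I) c (dS I e (lamr (volK K) i)) (A.e i x)) = cur (volK K) i x := by
  rw [← cur_eq_dS (volK K) i hx]
  ext c e
  rw [Matrix.neg_apply, Matrix.of_apply, Matrix.of_apply,
    dS_comm (sm_lamr (volK K) i ((A.e i).map_source hx))]

end gr

/-! ### holomorphic families -/

theorem hol_sm {s : A.ι → M → FI n → ℂ} (h : ∀ i T, HolAt A i univ (fun x => s i x T)) (i : A.ι)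
    (T : FI n) : A.SmAt i (fun x => s i x T) := by
  have := (h i T).contDiffOn isOpen_univ
  rwa [preimage_univ, inter_univ] at this

theorem hol_dV {s : A.ι → M → FI n → ℂ} (h : ∀ i T, HolAt A i univ (fun x => s i x T)) (i : A.ι)
    {z : Cn n} (hz : z ∈ (A.e i).target) (b : Fin n) : dV I b (rV s i) z = 0 := by
  funext T
  have h1 := (h i T).diffAt isOpen_univ ((A.e i).map_target hz) (mem_univ _)
  rw [(A.e i).right_inv hz] at h1
  exact dS_hol h1 b

/-! ### quadratic functions of a family -/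

/-- `s* H s`, real part, glued -/
def nrm (H : A.ι → M → Matrix (FI n) (FI n) ℂ) (s : A.ι → M → FI n → ℂ) : M → ℝ :=
  gl fun i x => (star (s i x) ⬝ᵥ (H i x *ᵥ s i x)).re

section nrm

variable {H : A.ι → M → Matrix (FI n) (FI n) ℂ} {s : A.ι → M → FI n → ℂ}

theorem nrm_eq (hl : ∀ i j, ∀ x ∈ (A.e i).source ∩ (A.e j).source,
      star (s i x) ⬝ᵥ (H i x *ᵥ s i x) = star (s j x) ⬝ᵥ (H j x *ᵥ s j x))
    (hp : ∀ i, ∀ x ∈ (A.e i).source, (H i x).PosDef) {i : A.ι} {x : M}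
    (hx : x ∈ (A.e i).source) :
    ((nrm H s x : ℝ) : ℂ) = star (s i x) ⬝ᵥ (H i x *ᵥ s i x) := by
  unfold nrm
  rw [gl_eq (fun i j x hx => by rw [hl i j x hx]) hx]
  have h1 := (hp i x hx).posSemidef.dotProduct_mulVec_nonneg (s i x)
  have h2 := (Complex.le_def.1 h1).2
  apply Complex.ext
  · simp
  · simpa using h2

theorem nrm_sm (hl : ∀ i j, ∀ x ∈ (A.e i).source ∩ (A.e j).source,
      star (s i x) ⬝ᵥ (H i x *ᵥ s i x) = star (s j x) ⬝ᵥ (H j x *ᵥ s j x))
    (hH : ∀ i, ∀ z ∈ (A.e i).target, SmM z (fun y => H i ((A.e i).symm y)))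
    (hs : ∀ i T, A.SmAt i (fun x => s i x T)) : A.Sm (nrm H s) := by
  intro i z hz
  have h1 : Sm z (fun y => star (rV s i y) ⬝ᵥ (H i ((A.e i).symm y) *ᵥ rV s i y)) :=
    SmV.dot (smV_rV hs i hz).star (SmM.mulVec (hH i z hz) (smV_rV hs i hz))
  have h2 : ContDiffAt ℝ ∞ (fun y => (star (rV s i y) ⬝ᵥ
      (H i ((A.e i).symm y) *ᵥ rV s i y)).re) z := Complex.reCLM.contDiff.contDiffAt.comp z h1
  refine (h2.congr_of_eventuallyEq ?_).contDiffWithinAt
  filter_upwards [ev_tg i hz] with y hy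
  unfold nrm
  rw [gl_eq (fun i j x hx => by rw [hl i j x hx]) ((A.e i).map_target hy)]
  rfl

/-- the Laplacian of `s* H s` in a chart -/
theorem lapK_nrm (K : Kah A) (hl : ∀ i j, ∀ x ∈ (A.e i).source ∩ (A.e j).source,
      star (s i x) ⬝ᵥ (H i x *ᵥ s i x) = star (s j x) ⬝ᵥ (H j x *ᵥ s j x))
    (hp : ∀ i, ∀ x ∈ (A.e i).source, (H i x).PosDef) {i : A.ι} {x : M}
    (hx : x ∈ (A.e i).source) :
    lapK K (nrm H s) i x = ∑ a, ∑ b, (K.g i x)⁻¹ b a *
      dS (-I) a (dS I b (fun y => star (rV s i y) ⬝ᵥ (H i ((A.e i).symm y) *ᵥ rV s i y)))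
        (A.e i x) := by
  unfold lapK
  refine Finset.sum_congr rfl fun a _ => Finset.sum_congr rfl fun b _ => ?_
  congr 1
  rw [← hm_ofReal _ i hx, hm_apply, dl_eq_dS]
  refine dS_congr ?_
  filter_upwards [ev_tg i ((A.e i).map_source hx)] with y hy
  rw [db_eq_dS, (A.e i).right_inv hy]
  refine dS_congr ?_
  filter_upwards [ev_tg i hy] with w hw
  exact nrm_eq hl hp ((A.e i).map_target hw)

end nrm

end

end Crest.Agent.R273.ParC_880
end

-- ▼ part R273/ParD_880
section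

/-!
# R273 (S0416), leaf PSPL (helper880), part D: BOCH

`M` compact, `K : Kah A` with semipositive Ricci form `cur (volK K)`.

* `boch_form` : a holomorphic form `β` is parallel, and `∑_b (ρ γ)_{cb} i_b β = 0`
* `boch_vec`  : a holomorphic polyvector which is null for the Ricci form is parallel
                (no semipositivity needed)
-/

set_option autoImplicit false
set_option linter.unusedSectionVars false

open Set Filter Topology Complex Matrix
open scoped ContDiff Matrix ComplexConjugate ComplexOrder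

namespace Crest.Agent.R273.ParD_880

open Crest.Agent.R275 Crest.Agent.R275.Geo Crest.Agent.R275.Core144 Crest.Agent.R275.EDR890
open Crest.Agent.R273.Defs_333 Crest.Agent.R273.HM_333 Crest.Agent.R273.Kah_333
open Crest.Agent.R273.Vol_333
open Crest.Agent.R273.Fock_243 Crest.Agent.R273.Calc_243 Crest.Agent.R273.Bkn_243
open Crest.Agent.R273.Pos_243 Crest.Agent.R273.BKNa_37 Crest.Agent.R273.BKNb_37
open Crest.Agent.R273.ParA_880 Crest.Agent.R273.ParB_880 Crest.Agent.R273.ParC_880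

noncomputable section

variable {n : ℕ} {M : Type} [TopologicalSpace M] {A : Atl n M}

/-- law of the inverse metric -/
theorem inv_law (K : Kah A) {i j : A.ι} {x : M} (hx : x ∈ (A.e i).source ∩ (A.e j).source) :
    (K.g j x)⁻¹ = (Jm A i j x)ᵀᴴ * (K.g i x)⁻¹ * (Jm A i j x)ᵀ := by
  symm
  have h1 := K.tr i j x hx
  have h2 : K.g i x * (K.g i x)⁻¹ = 1 :=
    Matrix.mul_nonsing_inv _ (K.pos i x hx.1).det_pos.ne'.isUnit
  have h3 : (Jm A i j x)ᵀᴴ = (Jm A i j x).map conj := by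
    ext a b; rfl
  rw [h1] at h2
  have h4 : (K.g j x * ((Jm A i j x).map conj * (K.g i x)⁻¹)) * (Jm A i j x)ᵀ = 1 := by
    apply mul_eq_one_comm.1
    rw [← h2, h1]
    simp only [Matrix.mul_assoc]
  rw [h3]
  symm
  apply Matrix.inv_eq_right_inv
  rw [← h4]
  simp only [Matrix.mul_assoc]

theorem form_law (K : Kah A) {β : A.ι → M → FI n → ℂ}
    (tr : ∀ i j, ∀ x ∈ (A.e i).source ∩ (A.e j).source, β i x = Gam (Jm A i j x)ᵀ *ᵥ β j x)
    (i j : A.ι) (x : M) (hx : x ∈ (A.e i).source ∩ (A.e j).source) :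
    star (β i x) ⬝ᵥ (Gam (K.g i x)⁻¹ *ᵥ β i x) = star (β j x) ⬝ᵥ (Gam (K.g j x)⁻¹ *ᵥ β j x) := by
  rw [tr i j x hx]
  exact ip_Gam (inv_law K hx) (β j x) (β j x)


/-- sums of nonnegative numbers -/
theorem zero_of_add {a b : ℂ} (ha : 0 ≤ a) (hb : 0 ≤ b) (h : a + b = 0) : a = 0 ∧ b = 0 := by
  have h1 : a ≤ 0 := by
    rw [← h]; exact le_add_of_nonneg_right hb
  have h2 : a = 0 := le_antisymm h1 ha
  rw [h2, zero_add] at h
  exact ⟨h2, h⟩

/-- **BOCH for holomorphic forms** -/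
theorem boch_form [T2Space M] [CompactSpace M] (P : Part A) (K : Kah A)
    (ric : ∀ i, ∀ x ∈ (A.e i).source, (cur (volK K) i x).PosSemidef)
    {β : A.ι → M → FI n → ℂ} (hol : ∀ i T, HolAt A i univ (fun x => β i x T))
    (tr : ∀ i j, ∀ x ∈ (A.e i).source ∩ (A.e j).source, β i x = Gam (Jm A i j x)ᵀ *ᵥ β j x)
    (i : A.ι) {x : M} (hx : x ∈ (A.e i).source) :
    (∀ a, Dc (fun y => Gam (gr K i y)⁻¹) (Gam (K.g i x)) (rV β i) (A.e i x) a = 0) ∧
      ∀ c, ∑ b, (cur (volK K) i x * (K.g i x)⁻¹) c b • (iW (ep b) *ᵥ β i x) = 0 := by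
  set H : A.ι → M → Matrix (FI n) (FI n) ℂ := fun i x => Gam (K.g i x)⁻¹ with hH
  have hHp : ∀ i, ∀ x ∈ (A.e i).source, (H i x).PosDef := fun i x hx =>
    Gam_posDef (K.pos i x hx).inv
  have hl := form_law K tr
  have hHs : ∀ i, ∀ z ∈ (A.e i).target, SmM z (fun y => H i ((A.e i).symm y)) := by
    intro i z hz
    have h1 := (gr_sm K i hz).self_of_nhds
    have h2 := (gr_pos K i hz).self_of_nhds.det_pos.ne'
    exact SmM.Gam (sm_inv h1 h2)
  have hsm := hol_sm hol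
  have hu : A.Sm (nrm H β) := nrm_sm hl hHs hsm
  -- the formula
  have key : ∀ i, ∀ x ∈ (A.e i).source, lapK K (nrm H β) i x =
      T1 (Gam (K.g i x)⁻¹) (K.g i x)⁻¹
        (fun a => Dc (fun y => Gam (gr K i y)⁻¹) (Gam (K.g i x)) (rV β i) (A.e i x) a)
        (fun a => Dc (fun y => Gam (gr K i y)⁻¹) (Gam (K.g i x)) (rV β i) (A.e i x) a) +
      T1 (Gam (K.g i x)⁻¹) ((K.g i x)⁻¹ * cur (volK K) i x * (K.g i x)⁻¹)
        (fun k => iW (ep k) *ᵥ β i x) (fun k => iW (ep k) *ᵥ β i x) := by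
    intro i x hx
    have hz := (A.e i).map_source hx
    rw [lapK_nrm K hl hHp hx]
    have h1 := lap_form (g := gr K i) (u := lamr (volK K) i) (z := A.e i x) (s := rV β i)
      (gr_sm K i hz) (gr_pos K i hz) (gr_c K i hz) (gr_c' K i hz) (gr_u K i hz) (gr_det K i hz)
      (by filter_upwards [ev_tg i hz] with y hy using smV_rV hsm i hy)
      (by filter_upwards [ev_tg i hz] with y hy using fun b => hol_dV hol i hy b)
    rw [gr_cur K i hx, gr_x K i hx] at h1
    have h2 : rV β i (A.e i x) = β i x := by unfold rV; rw [(A.e i).left_inv hx]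
    rw [h2] at h1
    exact h1
  have hp1 : ∀ i, ∀ x ∈ (A.e i).source, 0 ≤ T1 (Gam (K.g i x)⁻¹) (K.g i x)⁻¹
        (fun a => Dc (fun y => Gam (gr K i y)⁻¹) (Gam (K.g i x)) (rV β i) (A.e i x) a)
        (fun a => Dc (fun y => Gam (gr K i y)⁻¹) (Gam (K.g i x)) (rV β i) (A.e i x) a) :=
    fun i x hx => T1_nonneg (hHp i x hx).posSemidef (K.pos i x hx).inv.posSemidef _
  have hps : ∀ i, ∀ x ∈ (A.e i).source,
      ((K.g i x)⁻¹ * cur (volK K) i x * (K.g i x)⁻¹).PosSemidef := by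
    intro i x hx
    have h1 := (ric i x hx).mul_mul_conjTranspose_same (K.g i x)⁻¹
    rwa [(K.pos i x hx).inv.isHermitian.eq] at h1
  have hp2 : ∀ i, ∀ x ∈ (A.e i).source, 0 ≤ T1 (Gam (K.g i x)⁻¹)
      ((K.g i x)⁻¹ * cur (volK K) i x * (K.g i x)⁻¹)
        (fun k => iW (ep k) *ᵥ β i x) (fun k => iW (ep k) *ᵥ β i x) :=
    fun i x hx => T1_nonneg (hHp i x hx).posSemidef (hps i x hx) _
  have hz := sub_zero P K hu (fun i x hx => by
    rw [key i x hx]; exact add_nonneg (hp1 i x hx) (hp2 i x hx)) i x hx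
  rw [key i x hx] at hz
  obtain ⟨h1, h2⟩ := zero_of_add (hp1 i x hx) (hp2 i x hx) hz
  refine ⟨(T1_eq_zero_iff_posDef (hHp i x hx) (K.pos i x hx).inv _).1 h1, fun c => ?_⟩
  have h3 := (T1_eq_zero_iff (hHp i x hx) (hps i x hx) _).1 h2
  have h4 : cur (volK K) i x * (K.g i x)⁻¹ =
      K.g i x * ((K.g i x)⁻¹ * cur (volK K) i x * (K.g i x)⁻¹) := by
    rw [← mul_assoc, ← mul_assoc, Matrix.mul_nonsing_inv _ (K.pos i x hx).det_pos.ne'.isUnit,
      one_mul]
  rw [h4]
  simp only [Matrix.mul_apply (M := K.g i x), Finset.sum_smul, mul_smul]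
  rw [Finset.sum_comm]
  refine Finset.sum_eq_zero fun l _ => ?_
  rw [← Finset.smul_sum, h3 l, smul_zero]


end

end Crest.Agent.R273.ParD_880
end

-- ▼ part R273/ParE_880

/-!
# R273 (S0416), leaf PSPL (helper880), part E: the metric dual and the endomorphism of a family

`M` compact, `K : Kah A` with semipositive Ricci form.

* `dv K β`    : the metric dual polyvector `star (Gam(g⁻¹) β)`
* `dv_mem`    : it is a holomorphic polyvector, null for the Ricci form: `dv K β ∈ NV 1 (volK K) q`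
* `Bm`        : the Gram matrix `B_{cb} = ⟨i_b β, i_c β⟩`, positive semidefinite
* `g_ctM`     : `gᵀ ctM β (dv K β) = B`
* `EF K β`    : the endomorphism `∑_j ctM (β j) (dv K (β j))` of a finite family of holomorphic
  forms; `EF_psd`, `EF_ker`, `EF_null`
-/

set_option autoImplicit false
set_option linter.unusedSectionVars false

open Set Filter Topology Complex Matrix
open scoped ContDiff Matrix ComplexConjugate ComplexOrder

namespace Crest.Agent.R273.ParE_880

open Crest.Agent.R275 Crest.Agent.R275.Geo Crest.Agent.R275.Core144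
open Crest.Agent.R273.Defs_333 Crest.Agent.R273.HM_333 Crest.Agent.R273.Kah_333
open Crest.Agent.R273.Vol_333 Crest.Agent.R273.NV_578 Crest.Agent.R273.HolF_578
open Crest.Agent.R273.Fock_243 Crest.Agent.R273.Calc_243 Crest.Agent.R273.Bkn_243
open Crest.Agent.R273.Pos_243 Crest.Agent.R273.BKNa_37 Crest.Agent.R273.Spl1_404
open Crest.Agent.R273.ParA_880 Crest.Agent.R273.ParB_880 Crest.Agent.R273.ParC_880
open Crest.Agent.R273.ParD_880

noncomputable section

variable {n : ℕ}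

/-! ### pointwise algebra -/

section alg

variable {g : Matrix (Fin n) (Fin n) ℂ}

/-- the Gram matrix of the contractions -/
def Bm (g : Matrix (Fin n) (Fin n) ℂ) (β : FI n → ℂ) : Matrix (Fin n) (Fin n) ℂ :=
  Matrix.of fun c b => star (iW (ep c) *ᵥ β) ⬝ᵥ (Gam g⁻¹ *ᵥ (iW (ep b) *ᵥ β))

/-- the matrix of the contractions -/
def Lm (β : FI n → ℂ) : Matrix (FI n) (Fin n) ℂ := Matrix.of fun S b => (iW (ep b) *ᵥ β) S

theorem Lm_mulVec (β : FI n → ℂ) (u : Fin n → ℂ) : Lm β *ᵥ u = iW u *ᵥ β := by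
  rw [iW_eq_sum u, Matrix.sum_mulVec]
  funext S
  rw [Finset.sum_apply]
  simp only [Matrix.mulVec, dotProduct, Lm, Matrix.of_apply, Matrix.smul_apply, smul_eq_mul]
  refine Finset.sum_congr rfl fun b _ => ?_
  rw [mul_comm, Finset.mul_sum]
  exact Finset.sum_congr rfl fun T _ => by ring

theorem Bm_eq (g : Matrix (Fin n) (Fin n) ℂ) (β : FI n → ℂ) :
    Bm g β = (Lm β)ᴴ * Gam g⁻¹ * Lm β := by
  ext c b
  rw [Matrix.mul_assoc, Matrix.mul_apply]
  simp only [Bm, Matrix.of_apply, dotProduct]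
  refine Finset.sum_congr rfl fun S _ => ?_
  rfl

theorem Bm_psd (hg : g.PosDef) (β : FI n → ℂ) : (Bm g β).PosSemidef := by
  rw [Bm_eq]
  exact (Gam_posDef hg.inv).posSemidef.conjTranspose_mul_mul_same _

theorem Bm_ker (hg : g.PosDef) (β : FI n → ℂ) (u : Fin n → ℂ) :
    star u ⬝ᵥ (Bm g β *ᵥ u) = 0 ↔ iW u *ᵥ β = 0 := by
  have h1 : star u ⬝ᵥ (Bm g β *ᵥ u) = star (iW u *ᵥ β) ⬝ᵥ (Gam g⁻¹ *ᵥ (iW u *ᵥ β)) := by
    rw [Bm_eq, ← Lm_mulVec, Matrix.star_mulVec, ← Matrix.mulVec_mulVec, ← Matrix.mulVec_mulVec,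
      Matrix.dotProduct_mulVec]
  rw [h1]
  constructor
  · intro h
    by_contra h2
    exact ((Gam_posDef hg.inv).dotProduct_mulVec_pos h2).ne' h
  · intro h
    rw [h, Matrix.mulVec_zero, dotProduct_zero]

/-- the contractions of the dual -/
theorem iW_dual (g : Matrix (Fin n) (Fin n) ℂ) (β : FI n → ℂ) (a : Fin n) :
    iW (ep a) *ᵥ star (Gam g⁻¹ *ᵥ β) =
      ∑ l, conj (g⁻¹ a l) • star (Gam g⁻¹ *ᵥ (iW (ep l) *ᵥ β)) := by
  rw [← star_iW, iW_Gam_ep, star_sum]
  refine Finset.sum_congr rfl fun l _ => ?_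
  ext S
  simp

theorem g_ctM (hg : g.PosDef) (β : FI n → ℂ) :
    gᵀ * ctM β (star (Gam g⁻¹ *ᵥ β)) = Bm g β := by
  have hgi : g * g⁻¹ = 1 := Matrix.mul_nonsing_inv _ hg.det_pos.ne'.isUnit
  ext c b
  rw [Matrix.mul_apply]
  have h1 : ∀ a, ctM β (star (Gam g⁻¹ *ᵥ β)) a b =
      (iW (ep b) *ᵥ β) ⬝ᵥ (iW (ep a) *ᵥ star (Gam g⁻¹ *ᵥ β)) := fun a => by
    rw [dot_iW]
    rfl
  have h2 : ∑ a, gᵀ c a * ctM β (star (Gam g⁻¹ *ᵥ β)) a b =
      (iW (ep b) *ᵥ β) ⬝ᵥ ∑ a, g a c • (iW (ep a) *ᵥ star (Gam g⁻¹ *ᵥ β)) := by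
    rw [dotProduct_sum]
    refine Finset.sum_congr rfl fun a _ => ?_
    rw [dotProduct_smul, smul_eq_mul, h1, Matrix.transpose_apply]
  have h3 : ∑ a, g a c • (iW (ep a) *ᵥ star (Gam g⁻¹ *ᵥ β)) =
      star (Gam g⁻¹ *ᵥ (iW (ep c) *ᵥ β)) := by
    have h4 : ∀ a, g a c • (iW (ep a) *ᵥ star (Gam g⁻¹ *ᵥ β)) =
        ∑ l, (g a c * conj (g⁻¹ a l)) • star (Gam g⁻¹ *ᵥ (iW (ep l) *ᵥ β)) := by
      intro a
      rw [iW_dual, Finset.smul_sum]
      exact Finset.sum_congr rfl fun l _ => smul_smul _ _ _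
    rw [Finset.sum_congr rfl fun a _ => h4 a, Finset.sum_comm]
    have h5 : ∀ l, ∑ a, g a c * conj (g⁻¹ a l) = if c = l then 1 else 0 := by
      intro l
      have h6 := congrArg (starRingEnd ℂ) (congrFun (congrFun hgi c) l)
      rw [Matrix.mul_apply, map_sum, Matrix.one_apply] at h6
      have h7 : ∀ a, g a c * conj (g⁻¹ a l) = conj (g c a * g⁻¹ a l) := by
        intro a
        rw [map_mul]
        congr 1
        exact (hg.isHermitian.apply a c).symm
      rw [Finset.sum_congr rfl fun a _ => h7 a, h6]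
      split_ifs <;> simp
    have h8 : ∀ l, ∑ a, (g a c * conj (g⁻¹ a l)) • star (Gam g⁻¹ *ᵥ (iW (ep l) *ᵥ β)) =
        (if c = l then (1 : ℂ) else 0) • star (Gam g⁻¹ *ᵥ (iW (ep l) *ᵥ β)) := by
      intro l
      rw [← Finset.sum_smul, h5]
    rw [Finset.sum_congr rfl fun l _ => h8 l]
    simp
  rw [h2, h3, dotProduct_comm, star_Gam_dot (map_eq_transpose_of_isHermitian hg.inv.isHermitian)]
  rfl

end alg

/-! ### the dual polyvector -/

variable {M : Type} [TopologicalSpace M] {A : Atl n M}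

/-- the metric dual of a form -/
def dv (K : Kah A) (β : A.ι → M → FI n → ℂ) : A.ι → M → FI n → ℂ := fun i x =>
  star (Gam (K.g i x)⁻¹ *ᵥ β i x)

theorem dv_mem [T2Space M] [CompactSpace M] (P : Part A) (K : Kah A)
    (ric : ∀ i, ∀ x ∈ (A.e i).source, (cur (volK K) i x).PosSemidef) {q : ℕ}
    {β : A.ι → M → FI n → ℂ} (hβ : β ∈ Om A q) : dv K β ∈ NV (1 : LB A) (volK K) q := by
  have hb := fun i x hx => boch_form P K ric hβ.1 hβ.2.2.2 i (x := x) hx
  have hsm := hol_sm hβ.1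
  refine ⟨⟨fun i T => ?_, fun i x hx => ?_, fun i x T hT => ?_, fun i j x hx => ?_⟩,
    mem_NulS.2 fun i x hx c => ?_⟩
  · -- holomorphy
    intro z hz
    have hzt := hz.1
    have hx := (A.e i).map_target hzt
    have hg := (gr_sm K i hzt).self_of_nhds
    have hp := (gr_pos K i hzt).self_of_nhds
    have hG : SmM z (fun y => Gam (gr K i y)⁻¹) := SmM.Gam (sm_inv hg hp.det_pos.ne')
    have hX : SmV z (fun y => Gam (gr K i y)⁻¹ *ᵥ rV β i y) :=
      SmM.mulVec hG (smV_rV hsm i hzt)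
    have h1 : DifferentiableAt ℝ (fun y => dv K β i ((A.e i).symm y) T) z :=
      (hX.star T).diff
    refine (GeoHol912.differentiableAt_of_dbj h1 fun a => ?_).differentiableWithinAt
    rw [dbj_eq]
    show dS I a (fun y => conj ((Gam (gr K i y)⁻¹ *ᵥ rV β i y) T)) z = 0
    rw [dS_conj (hX T).diff, Complex.conj_I]
    have h2 := dV_mulVec (s := -I) (a := a) (m := fun y => Gam (gr K i y)⁻¹) (v := rV β i) (z := z)
      (fun S T => (hG S T).diff) (fun S => (smV_rV hsm i hzt S).diff)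
    have h3 := (hb i _ hx).1 a
    rw [(A.e i).right_inv hzt] at h3
    unfold Dc at h3
    have h4 : Gam (gr K i z)⁻¹ * Gam (gr K i z) = 1 :=
      Gam_mul_inv (Matrix.nonsing_inv_mul _ hp.det_pos.ne'.isUnit)
    have h5 := congrArg (fun w => Gam (gr K i z)⁻¹ *ᵥ w) h3
    simp only [Matrix.mulVec_add, Matrix.mulVec_zero] at h5
    have h6 : Gam (gr K i z)⁻¹ *ᵥ (Gam (K.g i ((A.e i).symm z)) *ᵥ
        (dM (-I) a (fun y => Gam (gr K i y)⁻¹) z *ᵥ rV β i z)) =
        dM (-I) a (fun y => Gam (gr K i y)⁻¹) z *ᵥ rV β i z := by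
      rw [Matrix.mulVec_mulVec]
      have : Gam (K.g i ((A.e i).symm z)) = Gam (gr K i z) := rfl
      rw [this, h4, Matrix.one_mulVec]
    rw [h6, add_comm] at h5
    rw [h5] at h2
    have h7 : dS (-I) a (fun y => (Gam (gr K i y)⁻¹ *ᵥ rV β i y) T) z = 0 := congrFun h2 T
    rw [h7, map_zero]
  · unfold dv
    rw [hβ.2.1 i x hx, Matrix.mulVec_zero, star_zero]
  · unfold dv
    rw [Pi.star_apply]
    have h1 : (Gam (K.g i x)⁻¹ *ᵥ β i x) T = 0 := by
      rw [Matrix.mulVec, dotProduct]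
      refine Finset.sum_eq_zero fun S _ => ?_
      by_cases hS : S.card = q
      · rw [Gam_of_ne _ (by rw [hS]; exact hT), zero_mul]
      · rw [hβ.2.2.1 i x S hS, mul_zero]
    rw [h1, star_zero]
  · rw [LB.one_g, one_smul]
    unfold dv
    have hJ : Jm A j i x * Jm A i j x = 1 := Jm_inv hx
    have h1 : (K.g j x)⁻¹ = (Jm A i j x)ᵀᴴ * (K.g i x)⁻¹ * (Jm A i j x)ᵀ := inv_law K hx
    have h2 : Gam (K.g i x)⁻¹ *ᵥ β i x = Gam (Jm A j i x)ᵀᴴ *ᵥ (Gam (K.g j x)⁻¹ *ᵥ β j x) := by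
      rw [hβ.2.2.2 i j x hx, h1, Gam_mul, Gam_mul]
      rw [Matrix.mulVec_mulVec, Matrix.mulVec_mulVec, ← Matrix.mul_assoc, ← Matrix.mul_assoc,
        ← Gam_mul (Jm A j i x)ᵀᴴ, ← Matrix.conjTranspose_mul, ← Matrix.transpose_mul, hJ,
        Matrix.transpose_one, Matrix.conjTranspose_one, Gam_one, Matrix.one_mul]
    rw [h2, star_mulVec', Gam_map]
    congr 2
    ext a b
    simp
  · -- nullity
    unfold dv
    have h1 := (hb i x hx).2 c
    have h2 : ∀ d, cur (volK K) i x d c • (iW (ep d) *ᵥ star (Gam (K.g i x)⁻¹ *ᵥ β i x)) =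
        ∑ l, conj (cur (volK K) i x c d * (K.g i x)⁻¹ d l) •
          star (Gam (K.g i x)⁻¹ *ᵥ (iW (ep l) *ᵥ β i x)) := by
      intro d
      rw [iW_dual, Finset.smul_sum]
      refine Finset.sum_congr rfl fun l _ => ?_
      rw [smul_smul, map_mul]
      congr 2
      exact ((ric i x hx).isHermitian.apply d c).symm
    rw [Finset.sum_congr rfl fun d _ => h2 d, Finset.sum_comm]
    have h3 : ∀ l, ∑ d, conj (cur (volK K) i x c d * (K.g i x)⁻¹ d l) •
          star (Gam (K.g i x)⁻¹ *ᵥ (iW (ep l) *ᵥ β i x)) =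
        star (Gam (K.g i x)⁻¹ *ᵥ ((cur (volK K) i x * (K.g i x)⁻¹) c l • (iW (ep l) *ᵥ β i x))) := by
      intro l
      rw [← Finset.sum_smul, ← map_sum, ← Matrix.mul_apply, Matrix.mulVec_smul]
      ext S
      simp
    rw [Finset.sum_congr rfl fun l _ => h3 l, ← star_sum, ← Matrix.mulVec_sum, h1,
      Matrix.mulVec_zero, star_zero]

/-! ### the endomorphism of a finite family -/

/-- a finite family of holomorphic forms -/
structure Fam (A : Atl n M) where
  κ : Type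
  fin : Fintype κ
  deg : κ → ℕ
  β : κ → A.ι → M → FI n → ℂ
  mem : ∀ k, β k ∈ Om A (deg k)
  pos : ∀ k, deg k ≠ 0

attribute [instance] Fam.fin

variable (F : Fam A) (K : Kah A)

/-- the endomorphism -/
def EF [T2Space M] [CompactSpace M] (P : Part A)
    (ric : ∀ i, ∀ x ∈ (A.e i).source, (cur (volK K) i x).PosSemidef) : HEnd A where
  E i x := ∑ k, (ctE (F.mem k) (dv_mem P K ric (F.mem k)).1).E i x
  hol i a b := by
    have h1 : HolAt A i univ (fun x => ∑ k,
        (ctE (F.mem k) (dv_mem P K ric (F.mem k)).1).E i x a b) :=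
      HolAt.sum _ fun k _ => (ctE (F.mem k) (dv_mem P K ric (F.mem k)).1).hol i a b
    refine h1.congr fun x _ _ => ?_
    rw [Matrix.sum_apply]
  tr i j x hx := by
    rw [Matrix.mul_sum, Matrix.sum_mul]
    exact Finset.sum_congr rfl fun k _ => (ctE (F.mem k) (dv_mem P K ric (F.mem k)).1).tr i j x hx

section EF

variable [T2Space M] [CompactSpace M] (P : Part A)
    (ric : ∀ i, ∀ x ∈ (A.e i).source, (cur (volK K) i x).PosSemidef)

theorem EF_g {i : A.ι} {x : M} (hx : x ∈ (A.e i).source) :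
    (K.g i x)ᵀ * (EF F K P ric).E i x = ∑ k, Bm (K.g i x) (F.β k i x) := by
  show (K.g i x)ᵀ * ∑ k, ctM (F.β k i x) (dv K (F.β k) i x) = _
  rw [Matrix.mul_sum]
  exact Finset.sum_congr rfl fun k _ => g_ctM (K.pos i x hx) _

theorem EF_psd {i : A.ι} {x : M} (hx : x ∈ (A.e i).source) :
    ((K.g i x)ᵀ * (EF F K P ric).E i x).PosSemidef := by
  rw [EF_g F K P ric hx]
  exact Matrix.posSemidef_sum _ fun k _ => Bm_psd (K.pos i x hx) _

/-- the kernel of the endomorphism -/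
theorem EF_ker {i : A.ι} {x : M} (hx : x ∈ (A.e i).source) (u : Fin n → ℂ) :
    (EF F K P ric).E i x *ᵥ u = 0 ↔ ∀ k, iW u *ᵥ F.β k i x = 0 := by
  have hg := K.pos i x hx
  have h0 : (EF F K P ric).E i x *ᵥ u = 0 ↔
      ((K.g i x)ᵀ * (EF F K P ric).E i x) *ᵥ u = 0 := by
    constructor
    · intro h
      rw [← Matrix.mulVec_mulVec, h, Matrix.mulVec_zero]
    · intro h
      rw [← Matrix.mulVec_mulVec] at h
      have h1 : ((K.g i x)ᵀ)⁻¹ * (K.g i x)ᵀ = 1 := inv_T hg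
      have h2 := congrArg (fun w => ((K.g i x)ᵀ)⁻¹ *ᵥ w) h
      simp only [Matrix.mulVec_zero] at h2
      rwa [Matrix.mulVec_mulVec, h1, Matrix.one_mulVec] at h2
  rw [h0, ← (EF_psd F K P ric hx).dotProduct_mulVec_zero_iff, EF_g F K P ric hx,
    Matrix.sum_mulVec, dotProduct_sum,
    Finset.sum_eq_zero_iff_of_nonneg fun k _ => (Bm_psd hg _).dotProduct_mulVec_nonneg u]
  constructor
  · intro h k
    exact (Bm_ker hg _ u).1 (h k (Finset.mem_univ k))
  · intro h k _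
    exact (Bm_ker hg _ u).2 (h k)

/-- the image of the endomorphism is null for the Ricci form -/
theorem EF_null {i : A.ι} {x : M} (hx : x ∈ (A.e i).source) :
    (cur (volK K) i x)ᵀ * (EF F K P ric).E i x = 0 := by
  show (cur (volK K) i x)ᵀ * ∑ k, (ctE (F.mem k) (dv_mem P K ric (F.mem k)).1).E i x = 0
  rw [Matrix.mul_sum]
  exact Finset.sum_eq_zero fun k _ => ctE_null (F.mem k) (dv_mem P K ric (F.mem k)) i hx

end EF

end

end Crest.Agent.R273.ParE_880
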