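import Crest.Agent.R273.Ric1_798
import Crest.Agent.R273.RMan3_798
import Crest.Agent.R273.Vol_333
import Crest.Agent.R273.UCovE_914

-- ▼ part R273/Ric2_798
section

/-!
# R273 (S0416), leaf BGT-1 (helper798), part 2: the real metric of a Kaehler matrix and its
Christoffel symbols

`G K z u v = Re (v̄ · K(z) u)`; `hm e K` the real coordinate metric (`e : V n ≃L[ℝ] ℝᵐ`);
`S K z u = K⁻¹ ∂_u K` (Chern connection), `B K z u v = S K z u *ᵥ v`;
`chr_eq : christoffel (hm e K) y k i j = e (B K (e⁻¹ y) bᵢ bⱼ) k`.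
-/

set_option autoImplicit false
set_option linter.unusedSectionVars false

open Set Filter Topology Complex Matrix
open scoped ContDiff ComplexConjugate ComplexOrder
open Crest.GeometryTopology.CoordMetric

namespace Crest.Agent.R273.Ric_798

noncomputable section

variable {n m : ℕ}

/-- Kaehler matrix data on an open set -/
structure KD (K : V n → Matrix (Fin n) (Fin n) ℂ) (U : Set (V n)) : Prop where
  op : IsOpen U
  sm : ∀ a b, ContDiffOn ℝ ∞ (fun w => K w a b) U
  pd : ∀ z ∈ U, (K z).PosDef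
  ka : ∀ z ∈ U, ∀ u v : V n, D1 K z u *ᵥ v.ofLp = D1 K z v *ᵥ u.ofLp

/-- the real inner product -/
def G (K : V n → Matrix (Fin n) (Fin n) ℂ) (z u v : V n) : ℝ :=
  (star v.ofLp ⬝ᵥ (K z *ᵥ u.ofLp)).re

theorem G_add_left (K : V n → Matrix (Fin n) (Fin n) ℂ) (z u u' v : V n) :
    G K z (u + u') v = G K z u v + G K z u' v := by
  simp [G, Matrix.mulVec_add, dotProduct_add]

theorem G_smul_left (K : V n → Matrix (Fin n) (Fin n) ℂ) (z : V n) (c : ℝ) (u v : V n) :
    G K z (c • u) v = c * G K z u v := by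
  have h : (c • u).ofLp = (c : ℂ) • u.ofLp := by
    ext a
    simp
  simp only [G, h, Matrix.mulVec_smul, dotProduct_smul, smul_eq_mul, re_ofReal_mul]

theorem G_sum_left (K : V n → Matrix (Fin n) (Fin n) ℂ) (z v : V n) {ι : Type*} (s : Finset ι)
    (c : ι → ℝ) (u : ι → V n) :
    G K z (∑ i ∈ s, c i • u i) v = ∑ i ∈ s, c i * G K z (u i) v := by
  classical
  induction s using Finset.induction_on with
  | empty => simp [G]
  | insert a s ha ih => rw [Finset.sum_insert ha, Finset.sum_insert ha, G_add_left, G_smul_left, ih]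

theorem sd_conj (A : Matrix (Fin n) (Fin n) ℂ) (x y : Fin n → ℂ) :
    star (star x ⬝ᵥ (A *ᵥ y)) = star y ⬝ᵥ (Aᴴ *ᵥ x) := by
  rw [Matrix.star_dotProduct, star_star, Matrix.star_mulVec, ← Matrix.dotProduct_mulVec]

theorem G_symm {K : V n → Matrix (Fin n) (Fin n) ℂ} {z : V n} (hK : (K z).IsHermitian)
    (u v : V n) : G K z u v = G K z v u := by
  unfold G
  rw [← hK.eq, ← sd_conj, hK.eq]
  simp

theorem G_self_pos {K : V n → Matrix (Fin n) (Fin n) ℂ} {z : V n} (hK : (K z).PosDef)
    {u : V n} (hu : u ≠ 0) : 0 < G K z u u := by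
  unfold G
  have h0 : u.ofLp ≠ 0 := fun h => hu (by ext a; simpa using congrFun h a)
  have := hK.dotProduct_mulVec_pos h0
  exact (Complex.pos_iff.1 this).1

theorem differentiableAt_entry {K : V n → Matrix (Fin n) (Fin n) ℂ} {U : Set (V n)}
    (hU : IsOpen U) (hK : ∀ a b, ContDiffOn ℝ ∞ (fun w => K w a b) U) {z : V n} (hz : z ∈ U)
    (a b : Fin n) : DifferentiableAt ℝ (fun w => K w a b) z :=
  ((hK a b).contDiffAt (hU.mem_nhds hz)).differentiableAt (by simp)

/-- derivative of a matrix coefficient -/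
theorem hasFDerivAt_sd {K : V n → Matrix (Fin n) (Fin n) ℂ} {z : V n}
    (hK : ∀ a b, DifferentiableAt ℝ (fun w => K w a b) z) (x y : Fin n → ℂ) (w : V n) :
    DifferentiableAt ℝ (fun z => x ⬝ᵥ (K z *ᵥ y)) z ∧
    fderiv ℝ (fun z => x ⬝ᵥ (K z *ᵥ y)) z w = x ⬝ᵥ (DM K z w *ᵥ y) := by
  have h1 : (fun z => x ⬝ᵥ (K z *ᵥ y)) = fun z => ∑ a, x a * ∑ b, K z a b * y b := by
    funext z
    simp [dotProduct, Matrix.mulVec]
  have h2 : HasFDerivAt (fun z => ∑ a, x a * ∑ b, K z a b * y b)
      (∑ a, x a • ∑ b, y b • fderiv ℝ (fun w => K w a b) z) z := by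
    apply HasFDerivAt.fun_sum
    intro a _
    apply HasFDerivAt.const_mul
    apply HasFDerivAt.fun_sum
    intro b _
    exact (hK a b).hasFDerivAt.mul_const (y b)
  rw [h1]
  refine ⟨h2.differentiableAt, ?_⟩
  rw [h2.fderiv]
  simp only [FunLike.coe_sum, Finset.sum_apply, FunLike.coe_smul, Pi.smul_apply, smul_eq_mul,
    dotProduct, Matrix.mulVec, DM_apply]
  refine Finset.sum_congr rfl fun a _ => ?_
  congr 1
  refine Finset.sum_congr rfl fun b _ => ?_
  ring

theorem fderiv_G {K : V n → Matrix (Fin n) (Fin n) ℂ} {z : V n}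
    (hK : ∀ a b, DifferentiableAt ℝ (fun w => K w a b) z) (u v w : V n) :
    fderiv ℝ (fun z => G K z u v) z w = (star v.ofLp ⬝ᵥ (DM K z w *ᵥ u.ofLp)).re := by
  obtain ⟨h1, h2⟩ := hasFDerivAt_sd hK (star v.ofLp) u.ofLp w
  have h3 : HasFDerivAt (fun z => G K z u v)
      (Complex.reCLM.comp (fderiv ℝ (fun z => star v.ofLp ⬝ᵥ (K z *ᵥ u.ofLp)) z)) z :=
    Complex.reCLM.hasFDerivAt.comp z h1.hasFDerivAt
  rw [h3.fderiv, ContinuousLinearMap.comp_apply, h2]
  rfl

theorem differentiableAt_G {K : V n → Matrix (Fin n) (Fin n) ℂ} {z : V n}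
    (hK : ∀ a b, DifferentiableAt ℝ (fun w => K w a b) z) (u v : V n) :
    DifferentiableAt ℝ (fun z => G K z u v) z := by
  obtain ⟨h1, -⟩ := hasFDerivAt_sd hK (star v.ofLp) u.ofLp 0
  exact (Complex.reCLM.hasFDerivAt.comp z h1.hasFDerivAt).differentiableAt

theorem DM_herm {K : V n → Matrix (Fin n) (Fin n) ℂ} {U : Set (V n)} (h : KD K U) {z : V n}
    (hz : z ∈ U) (u : V n) : (DM K z u)ᴴ = DM K z u := by
  ext a b
  rw [Matrix.conjTranspose_apply, DM_apply, DM_apply]
  have h1 : (fun w => K w a b) =ᶠ[𝓝 z] fun w => conj (K w b a) := by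
    filter_upwards [h.op.mem_nhds hz] with w hw
    exact ((h.pd w hw).1.apply a b).symm
  have h2 : HasFDerivAt (fun w => conj (K w b a))
      ((Complex.conjCLE : ℂ →L[ℝ] ℂ).comp (fderiv ℝ (fun w => K w b a) z)) z :=
    (Complex.conjCLE : ℂ →L[ℝ] ℂ).hasFDerivAt.comp z
      (differentiableAt_entry h.op h.sm hz b a).hasFDerivAt
  rw [h1.fderiv_eq, h2.fderiv]
  simp

theorem D1_herm {K : V n → Matrix (Fin n) (Fin n) ℂ} {U : Set (V n)} (h : KD K U) {z : V n}
    (hz : z ∈ U) (u : V n) : (D1 K z u)ᴴ = D2 K z u := by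
  unfold D1 D2
  rw [Matrix.conjTranspose_smul, Matrix.conjTranspose_sub, Matrix.conjTranspose_smul,
    DM_herm h hz, DM_herm h hz]
  simp

/-- the Kaehler form of the Koszul formula -/
theorem koszul {K : V n → Matrix (Fin n) (Fin n) ℂ} {U : Set (V n)} (h : KD K U) {z : V n}
    (hz : z ∈ U) (u v w : V n) :
    fderiv ℝ (fun z => G K z v w) z u + fderiv ℝ (fun z => G K z u w) z v
      - fderiv ℝ (fun z => G K z u v) z w = 2 * (star w.ofLp ⬝ᵥ (D1 K z u *ᵥ v.ofLp)).re := by
  have hd := differentiableAt_entry h.op h.sm hz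
  rw [fderiv_G hd, fderiv_G hd, fderiv_G hd, ← D1_add_D2, ← D1_add_D2 K z v, ← D1_add_D2 K z w]
  have e1 : ∀ u v w : V n, (star w.ofLp ⬝ᵥ (D2 K z u *ᵥ v.ofLp)).re
      = (star v.ofLp ⬝ᵥ (D1 K z u *ᵥ w.ofLp)).re := by
    intro u v w
    rw [← D1_herm h hz, ← sd_conj]
    simp
  have e2 : ∀ u v w : V n, (star w.ofLp ⬝ᵥ (D1 K z u *ᵥ v.ofLp)).re
      = (star w.ofLp ⬝ᵥ (D1 K z v *ᵥ u.ofLp)).re := by
    intro u v w
    rw [h.ka z hz]
  simp only [Matrix.add_mulVec, dotProduct_add, add_re, e1]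
  rw [e2 v u w, e2 w u v, e2 v w u, e2 w v u]
  rw [e2 u w v]
  ring

/-- the real coordinate metric -/
def hm (e : V n ≃L[ℝ] EuclideanSpace ℝ (Fin m)) (K : V n → Matrix (Fin n) (Fin n) ℂ) :
    MetricField m := fun y =>
  Matrix.of fun i j => G K (e.symm y) (e.symm (EuclideanSpace.single i 1))
    (e.symm (EuclideanSpace.single j 1))

/-- Chern connection matrix -/
def S (K : V n → Matrix (Fin n) (Fin n) ℂ) (z u : V n) : Matrix (Fin n) (Fin n) ℂ :=
  (K z)⁻¹ * D1 K z u

/-- Chern connection -/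
def B (K : V n → Matrix (Fin n) (Fin n) ℂ) (z u v : V n) : V n :=
  WithLp.toLp 2 (S K z u *ᵥ v.ofLp)

theorem B_symm {K : V n → Matrix (Fin n) (Fin n) ℂ} {U : Set (V n)} (h : KD K U) {z : V n}
    (hz : z ∈ U) (u v : V n) : B K z u v = B K z v u := by
  unfold B S
  rw [← Matrix.mulVec_mulVec, ← Matrix.mulVec_mulVec, h.ka z hz]

variable (e : V n ≃L[ℝ] EuclideanSpace ℝ (Fin m))

/-- the real basis -/
def bb (i : Fin m) : V n := e.symm (EuclideanSpace.single i 1)

theorem sum_bb (v : V n) : ∑ i, (e v i) • bb e i = v := by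
  have h1 : (∑ i, (e v i) • EuclideanSpace.single i (1 : ℝ)) = e v := by
    ext j
    simp [Finset.sum_apply, Pi.single_apply]
  calc ∑ i, (e v i) • bb e i = e.symm (∑ i, (e v i) • EuclideanSpace.single i (1 : ℝ)) := by
        simp [map_sum, bb]
    _ = v := by rw [h1]; simp

theorem sum_hm {K : V n → Matrix (Fin n) (Fin n) ℂ} {y : EuclideanSpace ℝ (Fin m)}
    (hK : (K (e.symm y)).IsHermitian) (u v : EuclideanSpace ℝ (Fin m)) :
    ∑ i, ∑ j, hm e K y i j * u i * v j = G K (e.symm y) (e.symm u) (e.symm v) := by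
  have hsym : ∀ u v, G K (e.symm y) u v = G K (e.symm y) v u := G_symm hK
  have hu : e.symm u = ∑ i, (u i) • bb e i := by
    conv_lhs => rw [← sum_bb e (e.symm u)]
    simp
  have hv : e.symm v = ∑ i, (v i) • bb e i := by
    conv_lhs => rw [← sum_bb e (e.symm v)]
    simp
  rw [hu, G_sum_left]
  refine Finset.sum_congr rfl fun i _ => ?_
  rw [hsym, hv, G_sum_left, Finset.mul_sum]
  refine Finset.sum_congr rfl fun j _ => ?_
  rw [hsym]
  simp only [hm, Matrix.of_apply, bb]
  ring


theorem hm_posDef {K : V n → Matrix (Fin n) (Fin n) ℂ} {U : Set (V n)} (h : KD K U)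
    {y : EuclideanSpace ℝ (Fin m)} (hy : e.symm y ∈ U) : (hm e K y).PosDef := by
  have hH := (h.pd _ hy).1
  refine Matrix.PosDef.of_dotProduct_mulVec_pos ?_ ?_
  · ext i j
    rw [Matrix.conjTranspose_apply]
    simp only [hm, Matrix.of_apply, star_trivial]
    exact G_symm hH _ _
  · intro x hx
    have h1 := sum_hm e hH (WithLp.toLp 2 x) (WithLp.toLp 2 x)
    have h2 : e.symm (WithLp.toLp 2 x) ≠ 0 := by
      intro h0
      apply hx
      have : (WithLp.toLp 2 x : EuclideanSpace ℝ (Fin m)) = 0 := by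
        simpa using h0
      ext i
      simpa using congrFun (congrArg WithLp.ofLp this) i
    have h3 := G_self_pos (h.pd _ hy) h2
    rw [← h1] at h3
    have h4 : star x ⬝ᵥ (hm e K y *ᵥ x) = ∑ i, ∑ j, hm e K y i j * x i * x j := by
      simp only [dotProduct, Matrix.mulVec, Finset.mul_sum, star_trivial, Pi.star_apply]
      refine Finset.sum_congr rfl fun i _ => ?_
      refine Finset.sum_congr rfl fun j _ => ?_
      ring
    rw [h4]
    exact h3

theorem pderiv_hm {K : V n → Matrix (Fin n) (Fin n) ℂ} {U : Set (V n)} (h : KD K U)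
    {y : EuclideanSpace ℝ (Fin m)} (hy : e.symm y ∈ U) (l i j : Fin m) :
    pderiv l (fun y => hm e K y i j) y =
      fderiv ℝ (fun z => G K z (bb e i) (bb e j)) (e.symm y) (bb e l) := by
  unfold pderiv
  have h1 : (fun y => hm e K y i j) = (fun z => G K z (bb e i) (bb e j)) ∘ e.symm := rfl
  have hd := differentiableAt_G (differentiableAt_entry h.op h.sm hy) (bb e i) (bb e j)
  rw [h1, fderiv_comp y hd e.symm.differentiableAt, e.symm.fderiv]
  rfl

theorem chr_eq {K : V n → Matrix (Fin n) (Fin n) ℂ} {U : Set (V n)} (h : KD K U)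
    {y : EuclideanSpace ℝ (Fin m)} (hy : e.symm y ∈ U) (k i j : Fin m) :
    christoffel (hm e K) y k i j = e (B K (e.symm y) (bb e i) (bb e j)) k := by
  set z := e.symm y with hz
  set c : Fin m → ℝ := fun k => e (B K z (bb e i) (bb e j)) k with hc
  have hsym : ∀ u v, G K z u v = G K z v u := G_symm (h.pd z hy).1
  have h1 : ∀ l, pderiv i (fun y => hm e K y j l) y + pderiv j (fun y => hm e K y i l) y
      - pderiv l (fun y => hm e K y i j) y = 2 * (hm e K y *ᵥ c) l := by
    intro l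
    rw [pderiv_hm e h hy, pderiv_hm e h hy, pderiv_hm e h hy, koszul h hy]
    congr 1
    have h2 : (hm e K y *ᵥ c) l = G K z (B K z (bb e i) (bb e j)) (bb e l) := by
      conv_rhs => rw [← sum_bb e (B K z (bb e i) (bb e j)), G_sum_left]
      simp only [Matrix.mulVec, dotProduct]
      refine Finset.sum_congr rfl fun k _ => ?_
      rw [mul_comm, hsym]
      rfl
    rw [h2]
    unfold G B S
    rw [Matrix.mulVec_mulVec, ← mul_assoc,
      Matrix.mul_nonsing_inv _ (isUnit_iff_ne_zero.2 (h.pd z hy).det_pos.ne'), one_mul]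
  unfold christoffel
  simp only [h1]
  have h3 : ∑ l, inverseField (hm e K) y k l * (2 * (hm e K y *ᵥ c) l)
      = 2 * ((hm e K y)⁻¹ *ᵥ (hm e K y *ᵥ c)) k := by
    simp only [inverseField, Matrix.mulVec, dotProduct, Finset.mul_sum]
    refine Finset.sum_congr rfl fun l _ => ?_
    refine Finset.sum_congr rfl fun k _ => ?_
    ring
  rw [h3, Matrix.mulVec_mulVec,
    Matrix.nonsing_inv_mul _ (isUnit_iff_ne_zero.2 (hm_posDef e h hy).det_pos.ne'),
    Matrix.one_mulVec]
  simp [hc]

end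

end Crest.Agent.R273.Ric_798
end

-- ▼ part R273/Ric3_798
section

/-!
# R273 (S0416), leaf BGT-1 (helper798), part 3: real traces
-/

set_option autoImplicit false
set_option linter.unusedSectionVars false

open Set Filter Topology Complex Matrix
open scoped ContDiff ComplexConjugate ComplexOrder
open Crest.GeometryTopology.CoordMetric

namespace Crest.Agent.R273.Ric_798

noncomputable section

variable {n m : ℕ}

/-! ### real traces -/

/-- the real trace of a map `V n → V n` in the basis given by `e` -/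
def trE (e : V n ≃L[ℝ] EuclideanSpace ℝ (Fin m)) (F : V n → V n) : ℝ :=
  ∑ k, e (F (bb e k)) k


theorem trE_sub (e : V n ≃L[ℝ] EuclideanSpace ℝ (Fin m)) (F F' : V n → V n) :
    trE e (fun w => F w - F' w) = trE e F - trE e F' := by
  simp [trE, Finset.sum_sub_distrib]

/-- the real basis `1, i` times the unit vectors -/
def rb (n : ℕ) : Module.Basis (Fin 2 × Fin n) ℝ (V n) :=
  Complex.basisOneI.smulTower (EuclideanSpace.basisFun (Fin n) ℂ).toBasis

theorem rb_zero (a : Fin n) : rb n (0, a) = EuclideanSpace.single a (1 : ℂ) := by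
  simp [rb]

theorem rb_one (a : Fin n) : rb n (1, a) = I • EuclideanSpace.single a (1 : ℂ) := by
  simp [rb]

theorem rb_repr_zero (v : V n) (a : Fin n) : (rb n).repr v (0, a) = (v a).re := by
  simp [rb, Module.Basis.smulTower_repr]

theorem rb_repr_one (v : V n) (a : Fin n) : (rb n).repr v (1, a) = (v a).im := by
  simp [rb, Module.Basis.smulTower_repr]

theorem trE_eq (e : V n ≃L[ℝ] EuclideanSpace ℝ (Fin m)) (F : V n →ₗ[ℝ] V n) :
    trE e F = ∑ a, ((F (EuclideanSpace.single a 1) a).re +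
      (F (I • EuclideanSpace.single a 1) a).im) := by
  have h1 : LinearMap.trace ℝ (V n) F = trE e F := by
    rw [LinearMap.trace_eq_matrix_trace ℝ
      ((EuclideanSpace.basisFun (Fin m) ℝ).toBasis.map e.symm.toLinearEquiv)]
    simp [Matrix.trace, LinearMap.toMatrix_apply, trE, bb]
  have h2 : LinearMap.trace ℝ (V n) F = ∑ a, ((F (EuclideanSpace.single a 1) a).re +
      (F (I • EuclideanSpace.single a 1) a).im) := by
    rw [LinearMap.trace_eq_matrix_trace ℝ (rb n)]
    simp only [Matrix.trace, Matrix.diag_apply, LinearMap.toMatrix_apply]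
    rw [Fintype.sum_prod_type, Fin.sum_univ_two, ← Finset.sum_add_distrib]
    refine Finset.sum_congr rfl fun a _ => ?_
    rw [rb_zero, rb_one, rb_repr_zero, rb_repr_one]
  rw [← h1, h2]

/-- the real trace of an antilinear map vanishes -/
theorem trE_anti (e : V n ≃L[ℝ] EuclideanSpace ℝ (Fin m)) (F : V n → V n)
    (ha : ∀ u v, F (u + v) = F u + F v) (hs : ∀ (c : ℝ) u, F (c • u) = c • F u)
    (hI : ∀ u, F (I • u) = -(I • F u)) : trE e F = 0 := by
  have := trE_eq e (LinearMap.mk ⟨F, ha⟩ hs)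
  refine Eq.trans this ?_
  refine Finset.sum_eq_zero fun a _ => ?_
  have h1 : (LinearMap.mk ⟨F, ha⟩ hs : V n →ₗ[ℝ] V n) (I • EuclideanSpace.single a 1) =
    -(I • F (EuclideanSpace.single a 1)) := hI _
  rw [h1]
  simp

/-- the real trace of a complex matrix -/
theorem trE_mat (e : V n ≃L[ℝ] EuclideanSpace ℝ (Fin m)) (A : Matrix (Fin n) (Fin n) ℂ) :
    trE e (fun w => WithLp.toLp 2 (A *ᵥ w.ofLp)) = 2 * A.trace.re := by
  set F : V n →ₗ[ℝ] V n := (Matrix.toLpLin 2 2 A).restrictScalars ℝ with hF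
  have h0 : (fun w : V n => (WithLp.toLp 2 (A *ᵥ w.ofLp) : V n)) = F := by
    funext w
    rw [hF, LinearMap.coe_restrictScalars, Matrix.toLpLin_apply]
  rw [h0, trE_eq]
  simp only [hF, LinearMap.coe_restrictScalars, map_smul]
  rw [Matrix.trace, Complex.re_sum, Finset.mul_sum]
  refine Finset.sum_congr rfl fun a _ => ?_
  simp [Matrix.toLpLin_apply, Matrix.mulVec_single]
  ring

/-! ### derivatives of the Chern connection -/

variable {K : V n → Matrix (Fin n) (Fin n) ℂ} {U : Set (V n)}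

theorem contDiffOn_DM (hU : IsOpen U) (hK : ∀ a b, ContDiffOn ℝ ∞ (fun w => K w a b) U) (u : V n)
    (a b : Fin n) : ContDiffOn ℝ ∞ (fun w => DM K w u a b) U := by
  simp only [DM_apply]
  exact ((hK a b).fderiv_of_isOpen hU (by simp)).clm_apply contDiffOn_const

theorem contDiffOn_D1 (hU : IsOpen U) (hK : ∀ a b, ContDiffOn ℝ ∞ (fun w => K w a b) U) (u : V n)
    (a b : Fin n) : ContDiffOn ℝ ∞ (fun w => D1 K w u a b) U := by
  simp only [D1, Matrix.smul_apply, Matrix.sub_apply, smul_eq_mul]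
  exact contDiffOn_const.mul ((contDiffOn_DM hU hK u a b).sub
    (contDiffOn_const.mul (contDiffOn_DM hU hK (I • u) a b)))

theorem contDiffOn_mul {P Q : V n → Matrix (Fin n) (Fin n) ℂ}
    (hP : ∀ a b, ContDiffOn ℝ ∞ (fun w => P w a b) U)
    (hQ : ∀ a b, ContDiffOn ℝ ∞ (fun w => Q w a b) U) (a b : Fin n) :
    ContDiffOn ℝ ∞ (fun w => (P w * Q w) a b) U := by
  simp only [Matrix.mul_apply]
  exact ContDiffOn.sum fun c _ => (hP a c).mul (hQ c b)

theorem KD.det_ne (h : KD K U) : ∀ z ∈ U, (K z).det ≠ 0 := fun z hz => (h.pd z hz).det_pos.ne'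

theorem contDiffOn_S (h : KD K U) (u : V n) (a b : Fin n) :
    ContDiffOn ℝ ∞ (fun w => S K w u a b) U :=
  contDiffOn_mul (contDiffOn_inv h.sm h.det_ne) (contDiffOn_D1 h.op h.sm u) a b

/-- iterated `(1,0)` derivative: symmetric in the directions -/
theorem D1_D1_symm (h : KD K U) {z : V n} (hz : z ∈ U) (u v : V n) :
    D1 (fun w => D1 K w u) z v = D1 (fun w => D1 K w v) z u := by
  have hsd : ∀ (a b : Fin n) (u v : V n), fderiv ℝ (fun w => fderiv ℝ (fun w => K w a b) w u) z v
      = fderiv ℝ (fun w => fderiv ℝ (fun w => K w a b) w v) z u := by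
    intro a b u v
    have h1 : ContDiffAt ℝ 2 (fun w => K w a b) z :=
      ((h.sm a b).contDiffAt (h.op.mem_nhds hz)).of_le (WithTop.coe_le_coe.2 le_top)
    have h2 : DifferentiableAt ℝ (fderiv ℝ (fun w => K w a b)) z :=
      (h1.fderiv_right (m := 1) (by norm_num)).differentiableAt (by simp)
    have h3 := h1.isSymmSndFDerivAt (by simp)
    have h4 : ∀ x : V n, fderiv ℝ (fun w => fderiv ℝ (fun w => K w a b) w x) z =
        (fderiv ℝ (fderiv ℝ (fun w => K w a b)) z).flip x := by
      intro x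
      ext y
      rw [fderiv_clm_apply h2 (differentiableAt_const x)]
      simp
    rw [h4, h4]
    exact h3 v u
  have hDM : ∀ u v : V n, DM (fun w => DM K w u) z v = DM (fun w => DM K w v) z u := by
    intro u v
    ext a b
    simp only [DM_apply]
    exact hsd a b u v
  have hd : ∀ (x : V n) (a b : Fin n), DifferentiableAt ℝ (fun w => DM K w x a b) z :=
    fun x => differentiableAt_entry h.op (contDiffOn_DM h.op h.sm x) hz
  have hlin : ∀ u v : V n, DM (fun w => D1 K w u) z v =
      (1 / 2 : ℂ) • (DM (fun w => DM K w u) z v - I • DM (fun w => DM K w (I • u)) z v) := by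
    intro u v
    ext a b
    rw [DM_apply]
    have e1 : (fun w => D1 K w u a b) = fun w => (1 / 2 : ℂ) * (DM K w u a b - I * DM K w (I • u) a b) := by
      funext w
      simp [D1]
    have e2 : HasFDerivAt (fun w => (1 / 2 : ℂ) * (DM K w u a b - I * DM K w (I • u) a b))
        ((1 / 2 : ℂ) • (fderiv ℝ (fun w => DM K w u a b) z -
          I • fderiv ℝ (fun w => DM K w (I • u) a b) z)) z :=
      ((hd u a b).hasFDerivAt.sub ((hd (I • u) a b).hasFDerivAt.const_mul I)).const_mul _
    rw [e1, e2.fderiv]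
    simp [DM_apply]
  unfold D1 at hlin ⊢
  rw [hlin, hlin, hlin, hlin, hDM u v, hDM (I • u) v, hDM u (I • v), hDM (I • u) (I • v)]
  module

theorem fderiv_B (h : KD K U) {z : V n} (hz : z ∈ U) (u v w : V n) :
    DifferentiableAt ℝ (fun z => B K z u v) z ∧
    fderiv ℝ (fun z => B K z u v) z w =
      WithLp.toLp 2 (DM (fun z => S K z u) z w *ᵥ v.ofLp) := by
  have hS := differentiableAt_entry h.op (contDiffOn_S h u) hz
  have h1 : HasFDerivAt (fun z => S K z u *ᵥ v.ofLp)
      (ContinuousLinearMap.pi fun a => ∑ b, v b • fderiv ℝ (fun w => S K w u a b) z) z := by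
    rw [hasFDerivAt_pi]
    intro a
    simp only [Matrix.mulVec, dotProduct]
    apply HasFDerivAt.fun_sum
    intro b _
    exact (hS a b).hasFDerivAt.mul_const (v b)
  have h2 : HasFDerivAt (fun z => B K z u v)
      ((PiLp.continuousLinearEquiv 2 ℝ (fun _ : Fin n => ℂ)).symm.toContinuousLinearMap.comp
        (ContinuousLinearMap.pi fun a => ∑ b, v b • fderiv ℝ (fun w => S K w u a b) z)) z :=
    (PiLp.continuousLinearEquiv 2 ℝ (fun _ : Fin n => ℂ)).symm.hasFDerivAt.comp z h1
  refine ⟨h2.differentiableAt, ?_⟩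
  rw [h2.fderiv]
  ext a
  simp [Matrix.mulVec, dotProduct, DM_apply, mul_comm]

end

end Crest.Agent.R273.Ric_798
end

-- ▼ part R273/Ric4_798
section

/-!
# R273 (S0416), leaf BGT-1 (helper798), part 4: the Ricci tensor of a Kaehler metric

`ricci_hm` : `Ric(v,v) = - 1/2 (D²ψ(v,v) + D²ψ(iv,iv))`, `ψ = log det K`.
-/

set_option autoImplicit false
set_option linter.unusedSectionVars false

open Set Filter Topology Complex Matrix
open scoped ContDiff ComplexConjugate ComplexOrder
open Crest.GeometryTopology.CoordMetric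

namespace Crest.Agent.R273.Ric_798

noncomputable section

variable {n m : ℕ} {K : V n → Matrix (Fin n) (Fin n) ℂ} {U : Set (V n)}

theorem DM_mulVec {P : V n → Matrix (Fin n) (Fin n) ℂ} {z : V n}
    (hP : ∀ a b, DifferentiableAt ℝ (fun w => P w a b) z) (x : Fin n → ℂ) (u : V n) (a : Fin n) :
    (DM P z u *ᵥ x) a = fderiv ℝ (fun w => (P w *ᵥ x) a) z u := by
  have h2 : HasFDerivAt (fun w => ∑ b, P w a b * x b)
      (∑ b, x b • fderiv ℝ (fun w => P w a b) z) z := by
    apply HasFDerivAt.fun_sum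
    intro b _
    exact (hP a b).hasFDerivAt.mul_const (x b)
  simp only [Matrix.mulVec, dotProduct]
  rw [h2.fderiv]
  simp [DM_apply, mul_comm]

theorem DM_mulVec_congr {P Q : V n → Matrix (Fin n) (Fin n) ℂ} {z : V n}
    (hP : ∀ a b, DifferentiableAt ℝ (fun w => P w a b) z)
    (hQ : ∀ a b, DifferentiableAt ℝ (fun w => Q w a b) z) {x y : Fin n → ℂ}
    (h : (fun w => P w *ᵥ x) =ᶠ[𝓝 z] fun w => Q w *ᵥ y) (u : V n) :
    DM P z u *ᵥ x = DM Q z u *ᵥ y := by
  ext a
  rw [DM_mulVec hP, DM_mulVec hQ]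
  have : (fun w => (P w *ᵥ x) a) =ᶠ[𝓝 z] fun w => (Q w *ᵥ y) a := by
    filter_upwards [h] with w hw
    rw [hw]
  rw [this.fderiv_eq]

theorem D1_mulVec_congr {P Q : V n → Matrix (Fin n) (Fin n) ℂ} {z : V n}
    (hP : ∀ a b, DifferentiableAt ℝ (fun w => P w a b) z)
    (hQ : ∀ a b, DifferentiableAt ℝ (fun w => Q w a b) z) {x y : Fin n → ℂ}
    (h : (fun w => P w *ᵥ x) =ᶠ[𝓝 z] fun w => Q w *ᵥ y) (u : V n) :
    D1 P z u *ᵥ x = D1 Q z u *ᵥ y := by
  unfold D1
  rw [Matrix.smul_mulVec, Matrix.smul_mulVec, Matrix.sub_mulVec, Matrix.sub_mulVec,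
    Matrix.smul_mulVec, Matrix.smul_mulVec, DM_mulVec_congr hP hQ h, DM_mulVec_congr hP hQ h]

/-- Kaehler symmetry of the second `(1,0)` derivatives -/
theorem D1_D1_kae (h : KD K U) {z : V n} (hz : z ∈ U) (u v w : V n) :
    D1 (fun y => D1 K y u) z w *ᵥ v.ofLp = D1 (fun y => D1 K y u) z v *ᵥ w.ofLp := by
  rw [D1_D1_symm h hz u w, D1_D1_symm h hz u v]
  refine D1_mulVec_congr (differentiableAt_entry h.op (contDiffOn_D1 h.op h.sm w) hz)
    (differentiableAt_entry h.op (contDiffOn_D1 h.op h.sm v) hz) ?_ u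
  filter_upwards [h.op.mem_nhds hz] with y hy
  exact h.ka y hy w v

theorem D1_S (h : KD K U) {z : V n} (hz : z ∈ U) (u w : V n) :
    D1 (fun y => S K y u) z w = (K z)⁻¹ * D1 (fun y => D1 K y u) z w - S K z w * S K z u := by
  have h1 := D1_mul (differentiableAt_entry h.op (contDiffOn_inv h.sm h.det_ne) hz)
    (differentiableAt_entry h.op (contDiffOn_D1 h.op h.sm u) hz) w
  rw [D1_inv h.op h.sm h.det_ne hz] at h1
  have h2 : (fun y => S K y u) = fun y => (K y)⁻¹ * D1 K y u := rfl
  rw [h2, h1]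
  unfold S
  rw [neg_mul, ← sub_eq_neg_add]
  simp only [mul_assoc]

/-- the essential identity -/
theorem stuff (h : KD K U) {z : V n} (hz : z ∈ U) (u v w : V n) :
    fderiv ℝ (fun y => B K y u v) z w - fderiv ℝ (fun y => B K y w u) z v
      + B K z w (B K z u v) - B K z v (B K z w u)
    = WithLp.toLp 2 (D2 (fun y => S K y u) z w *ᵥ v.ofLp)
      - WithLp.toLp 2 (D2 (fun y => S K y u) z v *ᵥ w.ofLp) := by
  have e1 : (fun y => B K y w u) =ᶠ[𝓝 z] fun y => B K y u w := by
    filter_upwards [h.op.mem_nhds hz] with y hy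
    exact B_symm h hy w u
  rw [e1.fderiv_eq, (fderiv_B h hz u v w).2, (fderiv_B h hz u w v).2, B_symm h hz w u,
    ← D1_add_D2, ← D1_add_D2 (fun y => S K y u) z v, D1_S h hz, D1_S h hz]
  simp only [B]
  rw [← WithLp.toLp_sub, ← WithLp.toLp_add, ← WithLp.toLp_sub, ← WithLp.toLp_sub]
  congr 1
  simp only [Matrix.add_mulVec, Matrix.sub_mulVec, Matrix.mulVec_mulVec]
  rw [← Matrix.mulVec_mulVec, ← Matrix.mulVec_mulVec v.ofLp, D1_D1_kae h hz u v w]
  rw [← Matrix.mulVec_mulVec w.ofLp]
  abel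

/-! ### the Ricci tensor -/

variable (e : V n ≃L[ℝ] EuclideanSpace ℝ (Fin m))

/-- derivative of a component of a vector valued function pulled back by `e` -/
theorem pderiv_comp {F : V n → V n} {y : EuclideanSpace ℝ (Fin m)}
    (hF : DifferentiableAt ℝ F (e.symm y)) (l k : Fin m) :
    pderiv l (fun y => e (F (e.symm y)) k) y = e (fderiv ℝ F (e.symm y) (bb e l)) k := by
  unfold pderiv
  have h1 : HasFDerivAt (fun y => e (F (e.symm y)) k)
      ((EuclideanSpace.proj k : EuclideanSpace ℝ (Fin m) →L[ℝ] ℝ).comp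
        ((e : V n →L[ℝ] EuclideanSpace ℝ (Fin m)).comp ((fderiv ℝ F (e.symm y)).comp
          (e.symm : EuclideanSpace ℝ (Fin m) →L[ℝ] V n)))) y :=
    (EuclideanSpace.proj k : EuclideanSpace ℝ (Fin m) →L[ℝ] ℝ).hasFDerivAt.comp y
      ((e : V n →L[ℝ] EuclideanSpace ℝ (Fin m)).hasFDerivAt.comp y
        (hF.hasFDerivAt.comp y (e.symm : EuclideanSpace ℝ (Fin m) →L[ℝ] V n).hasFDerivAt))
  rw [h1.fderiv]
  rfl

theorem B_sum_left {z : V n} {ι : Type*} (s : Finset ι) (c : ι → ℝ) (u : ι → V n) (v : V n) :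
    B K z (∑ i ∈ s, c i • u i) v = ∑ i ∈ s, c i • B K z (u i) v := by
  classical
  have h0 : ∀ (c : ℝ) (u v : V n), B K z (c • u) v = c • B K z u v := by
    intro c u v
    unfold B S
    rw [D1_rsmul_dir, Matrix.mul_smul, Matrix.smul_mulVec]
    ext a
    simp
  have h1 : ∀ (u u' v : V n), B K z (u + u') v = B K z u v + B K z u' v := by
    intro u u' v
    unfold B S
    rw [D1_add_dir, mul_add, Matrix.add_mulVec, WithLp.toLp_add]
  have h2 : B K z 0 v = 0 := by
    have := h0 0 0 v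
    simpa using this
  induction s using Finset.induction_on with
  | empty => simpa using h2
  | insert a s ha ih => rw [Finset.sum_insert ha, Finset.sum_insert ha, h1, h0, ih]

/-- first form of the Ricci tensor -/
theorem ricci_trace (h : KD K U) {y : EuclideanSpace ℝ (Fin m)} (hy : e.symm y ∈ U)
    (i j : Fin m) :
    ricci (hm e K) y i j =
      trE e (fun w => fderiv ℝ (fun z => B K z (bb e i) (bb e j)) (e.symm y) w
        - fderiv ℝ (fun z => B K z w (bb e i)) (e.symm y) (bb e j)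
        + B K (e.symm y) w (B K (e.symm y) (bb e i) (bb e j))
        - B K (e.symm y) (bb e j) (B K (e.symm y) w (bb e i))) := by
  set z := e.symm y with hz
  have hev : ∀ᶠ y' in 𝓝 y, e.symm y' ∈ U :=
    e.symm.continuous.continuousAt.preimage_mem_nhds (h.op.mem_nhds hy)
  have e1 : ∀ k i j : Fin m, (fun y => christoffel (hm e K) y k i j) =ᶠ[𝓝 y]
      fun y => e (B K (e.symm y) (bb e i) (bb e j)) k := by
    intro k i j
    filter_upwards [hev] with y' hy'
    exact chr_eq e h hy' k i j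
  have e2 : ∀ l k i j : Fin m, pderiv l (fun y => christoffel (hm e K) y k i j) y =
      e (fderiv ℝ (fun z => B K z (bb e i) (bb e j)) z (bb e l)) k := by
    intro l k i j
    have : pderiv l (fun y => christoffel (hm e K) y k i j) y =
        pderiv l (fun y => e (B K (e.symm y) (bb e i) (bb e j)) k) y := by
      unfold pderiv
      rw [(e1 k i j).fderiv_eq]
    rw [this]
    exact pderiv_comp e (F := fun z => B K z (bb e i) (bb e j)) (fderiv_B h hy _ _ 0).1 l k
  have e3 : pderiv j (fun y => ∑ k, christoffel (hm e K) y k k i) y =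
      ∑ k, pderiv j (fun y => christoffel (hm e K) y k k i) y := by
    unfold pderiv
    have hd : ∀ k : Fin m, DifferentiableAt ℝ (fun y => christoffel (hm e K) y k k i) y := by
      intro k
      refine DifferentiableAt.congr_of_eventuallyEq ?_ (e1 k k i)
      have hF : DifferentiableAt ℝ (fun z => B K z (bb e k) (bb e i)) (e.symm y) :=
        (fderiv_B h hy _ _ 0).1
      have h1 : HasFDerivAt (fun y => e (B K (e.symm y) (bb e k) (bb e i)) k)
        ((EuclideanSpace.proj k : EuclideanSpace ℝ (Fin m) →L[ℝ] ℝ).comp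
          ((e : V n →L[ℝ] EuclideanSpace ℝ (Fin m)).comp
            ((fderiv ℝ (fun z => B K z (bb e k) (bb e i)) (e.symm y)).comp
            (e.symm : EuclideanSpace ℝ (Fin m) →L[ℝ] V n)))) y :=
        (EuclideanSpace.proj k : EuclideanSpace ℝ (Fin m) →L[ℝ] ℝ).hasFDerivAt.comp y
        ((e : V n →L[ℝ] EuclideanSpace ℝ (Fin m)).hasFDerivAt.comp y
          (hF.hasFDerivAt.comp y (e.symm : EuclideanSpace ℝ (Fin m) →L[ℝ] V n).hasFDerivAt))
      exact h1.differentiableAt
    rw [fderiv_fun_sum fun k _ => hd k]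
    simp
  have e4 : ∀ u : V n, ∑ l, (e u l) • bb e l = u := sum_bb e
  have e5 : ∀ k : Fin m, ∑ l, christoffel (hm e K) y k k l * christoffel (hm e K) y l i j =
      e (B K z (bb e k) (B K z (bb e i) (bb e j))) k := by
    intro k
    have hs : B K z (bb e k) (B K z (bb e i) (bb e j)) =
        ∑ l, (e (B K z (bb e i) (bb e j)) l) • B K z (bb e k) (bb e l) := by
      rw [B_symm h hy]
      conv_lhs => rw [← e4 (B K z (bb e i) (bb e j)), B_sum_left]
      refine Finset.sum_congr rfl fun l _ => ?_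
      rw [B_symm h hy (bb e l) (bb e k)]
    rw [hs]
    simp only [chr_eq e h hy, map_sum, map_smul]
    simp [Finset.sum_apply, mul_comm, hz]
  have e6 : ∀ k : Fin m, ∑ l, christoffel (hm e K) y k j l * christoffel (hm e K) y l k i =
      e (B K z (bb e j) (B K z (bb e k) (bb e i))) k := by
    intro k
    have hs : B K z (bb e j) (B K z (bb e k) (bb e i)) =
        ∑ l, (e (B K z (bb e k) (bb e i)) l) • B K z (bb e j) (bb e l) := by
      rw [B_symm h hy]
      conv_lhs => rw [← e4 (B K z (bb e k) (bb e i)), B_sum_left]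
      refine Finset.sum_congr rfl fun l _ => ?_
      rw [B_symm h hy (bb e l) (bb e j)]
    rw [hs]
    simp only [chr_eq e h hy, map_sum, map_smul]
    simp [Finset.sum_apply, mul_comm, hz]
  unfold ricci
  simp only [e2, e3, e5, e6]
  unfold trE
  rw [← Finset.sum_sub_distrib, ← Finset.sum_add_distrib, ← Finset.sum_sub_distrib]
  refine Finset.sum_congr rfl fun k _ => ?_
  simp [map_add, map_sub]

/-- second form of the Ricci tensor -/
theorem ricci_D2 (h : KD K U) {y : EuclideanSpace ℝ (Fin m)} (hy : e.symm y ∈ U)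
    (i j : Fin m) :
    ricci (hm e K) y i j =
      - (2 * (D2 (fun z => S K z (bb e i)) (e.symm y) (bb e j)).trace.re) := by
  rw [ricci_trace e h hy]
  simp only [stuff h hy]
  rw [trE_sub, trE_mat, trE_anti, zero_sub]
  · intro u v
    rw [D2_add_dir, Matrix.add_mulVec, WithLp.toLp_add]
  · intro c u
    rw [D2_rsmul_dir, Matrix.smul_mulVec]
    ext a
    simp
  · intro u
    rw [D2_I_dir, Matrix.neg_mulVec, Matrix.smul_mulVec]
    ext a
    simp

end

end Crest.Agent.R273.Ric_798
end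

-- ▼ part R273/Ric5_798
section

/-!
# R273 (S0416), leaf BGT-1 (helper798), part 5: Ricci = - i∂∂̄ log det
-/

set_option autoImplicit false
set_option linter.unusedSectionVars false

open Set Filter Topology Complex Matrix
open scoped ContDiff ComplexConjugate ComplexOrder
open Crest.GeometryTopology.CoordMetric

namespace Crest.Agent.R273.Ric_798

noncomputable section

variable {n m : ℕ} {K : V n → Matrix (Fin n) (Fin n) ℂ} {U : Set (V n)}

/-- `log det K` -/
def ld (K : V n → Matrix (Fin n) (Fin n) ℂ) (z : V n) : ℝ := Real.log (K z).det.re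

theorem det_re_pos (h : KD K U) {z : V n} (hz : z ∈ U) :
    0 < (K z).det.re ∧ (K z).det.im = 0 := by
  have := (h.pd z hz).det_pos
  rw [Complex.pos_iff] at this
  exact ⟨this.1, this.2.symm⟩

/-- Jacobi's formula -/
theorem fderiv_det (h : KD K U) {z : V n} (hz : z ∈ U) (u : V n) :
    fderiv ℝ (fun w => (K w).det) z u = (K z).det * ((K z)⁻¹ * DM K z u).trace := by
  have hd := differentiableAt_entry h.op h.sm hz
  have hdet : DifferentiableAt ℝ (fun w => (K w).det) z :=
    ((contDiffOn_det h.sm).contDiffAt (h.op.mem_nhds hz)).differentiableAt (by simp)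
  have hline : HasDerivAt (fun t : ℝ => z + t • u) u 0 := by
    simpa using ((hasDerivAt_id (0 : ℝ)).smul_const u).const_add z
  have hu : IsUnit (K z).det := isUnit_iff_ne_zero.2 (h.det_ne z hz)
  have h1 : HasDerivAt (fun t : ℝ => ((K z)⁻¹ * K (z + t • u)).det)
      ((K z)⁻¹ * DM K z u).trace 0 := by
    refine Crest.Agent.R264.D8d.hasDerivAt_detM (A := fun t : ℝ => (K z)⁻¹ * K (z + t • u)) ?_ ?_
    · intro i j
      simp only [Matrix.mul_apply]
      have : HasDerivAt (fun t : ℝ => ∑ c, (K z)⁻¹ i c * K (z + t • u) c j)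
          (∑ c, (K z)⁻¹ i c * DM K z u c j) 0 := by
        apply HasDerivAt.fun_sum
        intro c _
        apply HasDerivAt.const_mul
        have h2 : HasFDerivAt (fun w => K w c j) (fderiv ℝ (fun w => K w c j) z) (z + (0 : ℝ) • u) := by
          simpa using (hd c j).hasFDerivAt
        exact h2.comp_hasDerivAt (0 : ℝ) hline
      exact this
    · simp [Matrix.nonsing_inv_mul _ hu]
  have h2 : HasDerivAt (fun t : ℝ => (K (z + t • u)).det)
      (fderiv ℝ (fun w => (K w).det) z u) 0 := by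
    have h3 : HasFDerivAt (fun w => (K w).det) (fderiv ℝ (fun w => (K w).det) z)
        (z + (0 : ℝ) • u) := by
      simpa using hdet.hasFDerivAt
    exact h3.comp_hasDerivAt (0 : ℝ) hline
  have h4 : (fun t : ℝ => (K (z + t • u)).det) =
      fun t : ℝ => (K z).det * ((K z)⁻¹ * K (z + t • u)).det := by
    funext t
    rw [← Matrix.det_mul, ← mul_assoc, Matrix.mul_nonsing_inv _ hu, one_mul]
  rw [h4] at h2
  exact h2.unique (h1.const_mul _)

theorem trace_real (h : KD K U) {z : V n} (hz : z ∈ U) (u : V n) :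
    (((K z)⁻¹ * DM K z u).trace).im = 0 := by
  rw [← Complex.conj_eq_iff_im, ← Complex.star_def, ← Matrix.trace_conjTranspose,
    Matrix.conjTranspose_mul, DM_herm h hz, (h.pd z hz).1.inv.eq, Matrix.trace_mul_comm]

theorem contDiffOn_ld (h : KD K U) : ContDiffOn ℝ ∞ (ld K) U := by
  unfold ld
  refine ContDiffOn.log ?_ fun z hz => (det_re_pos h hz).1.ne'
  exact Complex.reCLM.contDiff.comp_contDiffOn (contDiffOn_det h.sm)

theorem fderiv_ld (h : KD K U) {z : V n} (hz : z ∈ U) (u : V n) :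
    ((fderiv ℝ (ld K) z u : ℝ) : ℂ) = ((K z)⁻¹ * DM K z u).trace := by
  have hdet : DifferentiableAt ℝ (fun w => (K w).det) z :=
    ((contDiffOn_det h.sm).contDiffAt (h.op.mem_nhds hz)).differentiableAt (by simp)
  obtain ⟨hp, hi⟩ := det_re_pos h hz
  have h1 : HasFDerivAt (fun w => (K w).det.re)
      (Complex.reCLM.comp (fderiv ℝ (fun w => (K w).det) z)) z :=
    Complex.reCLM.hasFDerivAt.comp z hdet.hasFDerivAt
  have h2 : HasFDerivAt (ld K)
      (((K z).det.re)⁻¹ • (Complex.reCLM.comp (fderiv ℝ (fun w => (K w).det) z))) z :=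
    h1.log hp.ne'
  have ht := trace_real h hz u
  rw [h2.fderiv]
  apply Complex.ext
  · simp only [FunLike.coe_smul, Pi.smul_apply, ContinuousLinearMap.comp_apply, smul_eq_mul,
      Complex.ofReal_re, Complex.reCLM_apply, fderiv_det h hz, Complex.mul_re, hi, zero_mul,
      sub_zero]
    field_simp
  · rw [ht]
    simp

/-- trace of the Chern connection -/
theorem trace_S (h : KD K U) {z : V n} (hz : z ∈ U) (u : V n) :
    (S K z u).trace = (1 / 2 : ℂ) * ((fderiv ℝ (ld K) z u : ℝ) -
      I * (fderiv ℝ (ld K) z (I • u) : ℝ)) := by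
  rw [fderiv_ld h hz, fderiv_ld h hz]
  unfold S D1
  rw [Matrix.mul_smul, Matrix.mul_sub, Matrix.mul_smul, Matrix.trace_smul, Matrix.trace_sub,
    Matrix.trace_smul, smul_eq_mul, smul_eq_mul]

theorem trace_DM {P : V n → Matrix (Fin n) (Fin n) ℂ} {z : V n}
    (hP : ∀ a b, DifferentiableAt ℝ (fun w => P w a b) z) (u : V n) :
    (DM P z u).trace = fderiv ℝ (fun w => (P w).trace) z u := by
  simp only [Matrix.trace, Matrix.diag_apply]
  rw [fderiv_fun_sum fun a _ => hP a a]
  simp [DM_apply]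

/-- second derivatives of `log det` -/
theorem trace_DM_S (h : KD K U) {z : V n} (hz : z ∈ U) (u v : V n) :
    (DM (fun y => S K y u) z v).trace = (1 / 2 : ℂ) *
      ((fderiv ℝ (fderiv ℝ (ld K)) z v u : ℝ) - I * (fderiv ℝ (fderiv ℝ (ld K)) z v (I • u) : ℝ)) := by
  rw [trace_DM (differentiableAt_entry h.op (contDiffOn_S h u) hz)]
  have h1 : (fun w => (S K w u).trace) =ᶠ[𝓝 z] fun z => (1 / 2 : ℂ) *
      ((fderiv ℝ (ld K) z u : ℝ) - I * (fderiv ℝ (ld K) z (I • u) : ℝ)) := by
    filter_upwards [h.op.mem_nhds hz] with w hw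
    exact trace_S h hw u
  rw [h1.fderiv_eq]
  have h2 : DifferentiableAt ℝ (fderiv ℝ (ld K)) z :=
    (((contDiffOn_ld h).fderiv_of_isOpen (m := ∞) h.op (by simp)).contDiffAt
      (h.op.mem_nhds hz)).differentiableAt (by simp)
  have h3 : ∀ x : V n, HasFDerivAt (fun z => ((fderiv ℝ (ld K) z x : ℝ) : ℂ))
      (Complex.ofRealCLM.comp ((fderiv ℝ (fderiv ℝ (ld K)) z).flip x)) z := by
    intro x
    refine Complex.ofRealCLM.hasFDerivAt.comp z ?_
    have := h2.hasFDerivAt.clm_apply (hasFDerivAt_const x z)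
    refine this.congr_fderiv ?_
    refine ContinuousLinearMap.ext fun y => ?_
    show fderiv ℝ (ld K) z (0 : V n) + (fderiv ℝ (fderiv ℝ (ld K)) z).flip x y = _
    rw [map_zero, zero_add]
  have h4 : HasFDerivAt (fun z => (1 / 2 : ℂ) *
      ((fderiv ℝ (ld K) z u : ℝ) - I * (fderiv ℝ (ld K) z (I • u) : ℝ))) _ z :=
    ((h3 u).sub ((h3 (I • u)).const_mul I)).const_mul (1 / 2 : ℂ)
  rw [h4.fderiv]
  simp

variable (e : V n ≃L[ℝ] EuclideanSpace ℝ (Fin m))

theorem ricci_ij (h : KD K U) {y : EuclideanSpace ℝ (Fin m)} (hy : e.symm y ∈ U)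
    (i j : Fin m) :
    ricci (hm e K) y i j = -(1 / 2) *
      (fderiv ℝ (fderiv ℝ (ld K)) (e.symm y) (bb e j) (bb e i) +
       fderiv ℝ (fderiv ℝ (ld K)) (e.symm y) (I • bb e j) (I • bb e i)) := by
  rw [ricci_D2 e h hy]
  unfold D2
  rw [Matrix.trace_smul, Matrix.trace_add, Matrix.trace_smul, trace_DM_S h hy, trace_DM_S h hy]
  simp
  ring

/-- **Ricci form of a Kaehler metric** -/
theorem ricci_hm (h : KD K U) {y : EuclideanSpace ℝ (Fin m)} (hy : e.symm y ∈ U)
    (v : EuclideanSpace ℝ (Fin m)) :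
    ∑ i, ∑ j, ricci (hm e K) y i j * v i * v j = -(1 / 2) *
      (iteratedFDeriv ℝ 2 (ld K) (e.symm y) ![e.symm v, e.symm v] +
       iteratedFDeriv ℝ 2 (ld K) (e.symm y) ![I • e.symm v, I • e.symm v]) := by
  set z := e.symm y with hz
  have hv : e.symm v = ∑ i, (v i) • bb e i := by
    conv_lhs => rw [← sum_bb e (e.symm v)]
    simp
  have hIv : I • e.symm v = ∑ i, (v i) • (I • bb e i) := by
    rw [hv, Finset.smul_sum]
    refine Finset.sum_congr rfl fun i _ => ?_
    rw [smul_comm]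
  rw [iteratedFDeriv_two_apply, iteratedFDeriv_two_apply]
  simp only [Matrix.cons_val_zero, Matrix.cons_val_one]
  rw [hIv, hv]
  simp only [map_sum, map_smul, FunLike.coe_sum, FunLike.coe_smul, Finset.sum_apply,
    Pi.smul_apply, smul_eq_mul]
  simp only [ricci_ij e h hy]
  rw [← Finset.sum_add_distrib, Finset.mul_sum]
  refine Finset.sum_congr rfl fun i _ => ?_
  rw [← mul_add, ← Finset.sum_add_distrib, Finset.mul_sum, Finset.mul_sum]
  refine Finset.sum_congr rfl fun j _ => ?_
  ring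

end

end Crest.Agent.R273.Ric_798
end

-- ▼ part R273/RMan4_798

/-!
# R273 (S0416), leaf BGT-2 (helper798), part 4: the Riemannian manifold of a Kaehler metric

`ofKah K : RAtl (2 * n) M`, `hasRicci` : `cur (volK K) ≥ 0` gives `HasRicciLowerBound 0`,
`pullKah` : pull-back of a Kaehler metric to `D.cov F`, deck maps are isometries.
-/

set_option autoImplicit false
set_option linter.unusedSectionVars false

open Set Filter Topology Complex
open scoped ContDiff Matrix ComplexConjugate Manifold ComplexOrder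

namespace Crest.Agent.R273.RMan4_798

open Crest.Agent.R275.Geo Crest.Agent.R275.Core144 Crest.Agent.R275.EDR890
open Crest.Agent.R273.Defs_333 Crest.Agent.R273.Hess_333 Crest.Agent.R273.HessB_333
open Crest.Agent.R273.HM_333 Crest.Agent.R273.Kah_333 Crest.Agent.R273.Vol_333
open Crest.Agent.R273.Ric_798 Crest.Agent.R273.RMan_798 Crest.Agent.R273.UCov_914
open Crest.GeometryTopology.CoordMetric Crest.GeometryTopology.ChartCurvature
  Crest.GeometryTopology.PointedLimit

noncomputable section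

variable {n : ℕ} {M : Type} [TopologicalSpace M] {A : Atl n M}

/-- the Kaehler matrix in my convention -/
def KK (K : Kah A) (i : A.ι) (z : Cn n) : Matrix (Fin n) (Fin n) ℂ :=
  (K.g i ((A.e i).symm z))ᵀ

theorem kd (K : Kah A) (i : A.ι) : KD (KK K i) (A.e i).target where
  op := (A.e i).open_target
  sm a b := K.sm i b a
  pd z hz := (K.pos i _ ((A.e i).map_target hz)).transpose
  ka z hz u v := by
    have h1 : ∀ (u : Cn n) (b a : Fin n), D1 (KK K i) z u b a =
        ∑ c, u c * wd (false, c) (fun w => K.g i ((A.e i).symm w) a b) z := by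
      intro u b a
      have h2 := wdL_vec false (fderiv ℝ (fun w => K.g i ((A.e i).symm w) a b) z) u
      simp only [cI_false, smul_eq_mul, cj_false] at h2
      unfold D1
      simp only [Matrix.smul_apply, Matrix.sub_apply, smul_eq_mul, DM_apply, KK,
        Matrix.transpose_apply]
      refine Eq.trans ?_ h2
      ring
    funext b
    simp only [Matrix.mulVec, dotProduct, h1, Finset.sum_mul]
    rw [Finset.sum_comm]
    refine Finset.sum_congr rfl fun c _ => Finset.sum_congr rfl fun a _ => ?_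
    rw [K.closed i z hz a b c]
    ring

theorem ld_KK (K : Kah A) (i : A.ι) : ld (KK K i) = fun z => -((volK K).wt i z) := by
  funext z
  simp only [ld, KK, Matrix.det_transpose, HM.wt, neg_neg]
  rfl

/-- a real linear isomorphism `ℂⁿ ≃ ℝ²ⁿ` -/
def eR (n : ℕ) : Cn n ≃L[ℝ] EE (2 * n) :=
  ContinuousLinearEquiv.ofFinrankEq (by
    rw [finrank_real_of_complex, finrank_euclideanSpace_fin, finrank_euclideanSpace_fin])

/-- the chart into `ℝ²ⁿ` -/
def cR (A : Atl n M) (i : A.ι) : OpenPartialHomeomorph M (EE (2 * n)) :=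
  (A.e i).trans (eR n).toHomeomorph.toOpenPartialHomeomorph

@[simp] theorem cR_apply (i : A.ι) (x : M) : cR A i x = eR n (A.e i x) := rfl
@[simp] theorem cR_symm (i : A.ι) (y : EE (2 * n)) :
    (cR A i).symm y = (A.e i).symm ((eR n).symm y) := rfl
theorem cR_source (i : A.ι) : (cR A i).source = (A.e i).source := by
  simp [cR]
theorem cR_target (i : A.ι) : (cR A i).target = {y | (eR n).symm y ∈ (A.e i).target} := by
  ext y
  simp [cR]


theorem contDiffOn_hm {K : V n → Matrix (Fin n) (Fin n) ℂ} {U : Set (V n)} (h : KD K U)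
    (a b : Fin (2 * n)) : ContDiffOn ℝ ∞ (fun y => hm (eR n) K y a b) {y | (eR n).symm y ∈ U} := by
  have h1 : ∀ u v : V n, ContDiffOn ℝ ∞ (fun z => G K z u v) U := by
    intro u v
    unfold G
    refine Complex.reCLM.contDiff.comp_contDiffOn ?_
    simp only [dotProduct, Matrix.mulVec]
    exact ContDiffOn.sum fun c _ => contDiffOn_const.mul
      (ContDiffOn.sum fun d _ => (h.sm c d).mul contDiffOn_const)
  exact (h1 _ _).comp (eR n).symm.contDiff.contDiffOn fun y hy => hy

/-- transformation law of the real metric -/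
theorem G_tr (K : Kah A) {i j : A.ι} {x : M} (hx : x ∈ (A.e i).source ∩ (A.e j).source)
    (u v : Cn n) :
    G (KK K i) (A.e i x) u v = G (KK K j) (A.e j x)
      (fderiv ℝ (fun w => A.e j ((A.e i).symm w)) (A.e i x) u)
      (fderiv ℝ (fun w => A.e j ((A.e i).symm w)) (A.e i x) v) := by
  have hd : DifferentiableAt ℂ (fun w => A.e j ((A.e i).symm w)) (A.e i x) := by
    have ho : IsOpen (A.ov i j) := isOpen_ov i j
    exact (A.holo i j).differentiableAt (ho.mem_nhds (mem_ov hx))
  have hJ : ∀ u : Cn n, (fderiv ℝ (fun w => A.e j ((A.e i).symm w)) (A.e i x) u).ofLp =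
      Jm A i j x *ᵥ u.ofLp := by
    intro u
    rw [hd.fderiv_restrictScalars ℝ]
    have hu : u = ∑ a, u a • EuclideanSpace.single a (1 : ℂ) := by
      ext b
      simp [Finset.sum_apply, Pi.single_apply]
    funext b
    conv_lhs => rw [hu]
    simp only [ContinuousLinearMap.coe_restrictScalars', map_sum, map_smul, Matrix.mulVec,
      dotProduct, Jm, Matrix.of_apply, Atl.J]
    simp [Finset.sum_apply, mul_comm]
  have hi : KK K i (A.e i x) = (K.g i x)ᵀ := by
    unfold KK
    rw [(A.e i).left_inv hx.1]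
  have hj : KK K j (A.e j x) = (K.g j x)ᵀ := by
    unfold KK
    rw [(A.e j).left_inv hx.2]
  unfold G
  rw [hJ, hJ, hi, hj, K.tr i j x hx]
  congr 1
  have h1 : ((Jm A i j x).map conj)ᵀ = (Jm A i j x)ᴴ := rfl
  rw [Matrix.transpose_mul, Matrix.transpose_mul, Matrix.transpose_transpose, h1,
    Matrix.star_mulVec, ← Matrix.dotProduct_mulVec, Matrix.mulVec_mulVec, Matrix.mulVec_mulVec,
    mul_assoc]

/-- **the Riemannian chart data of a Kaehler metric** -/
def ofKah (K : Kah A) : RAtl (2 * n) M where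
  ι := A.ι
  c := cR A
  cover x := by
    obtain ⟨i, hi⟩ := A.cover x
    exact ⟨i, by rw [cR_source]; exact hi⟩
  smt i j := by
    have h1 : ContDiffOn ℝ ∞ (fun w => A.e j ((A.e i).symm w)) (A.ov i j) :=
      ((Crest.Agent.R266.SCV.contDiffOn_omega_of_differentiableOn (isOpen_ov i j)
        (A.holo i j)).restrict_scalars ℝ).of_le le_top
    have h2 : ContDiffOn ℝ ∞ (fun y : EE (2 * n) => eR n (A.e j ((A.e i).symm ((eR n).symm y))))
        {y | (eR n).symm y ∈ A.ov i j} :=
      (eR n).contDiff.comp_contDiffOn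
        (h1.comp (eR n).symm.contDiff.contDiffOn fun y hy => hy)
    refine h2.mono ?_
    rintro y ⟨hy1, hy2⟩
    rw [cR_target] at hy1
    rw [cR_source] at hy2
    exact ⟨hy1, hy2⟩
  G i := hm (eR n) (KK K i)
  Gsm i a b := by
    rw [cR_target]
    exact contDiffOn_hm (kd K i) a b
  Gpd i y hy := by
    rw [cR_target] at hy
    exact hm_posDef (eR n) (kd K i) hy
  Gtr i j x hx v w := by
    rw [cR_source, cR_source] at hx
    have hd : DifferentiableAt ℂ (fun w => A.e j ((A.e i).symm w)) (A.e i x) := by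
      have ho : IsOpen (A.ov i j) := isOpen_ov i j
      exact (A.holo i j).differentiableAt (ho.mem_nhds (mem_ov hx))
    have hdr : DifferentiableAt ℝ (fun w => A.e j ((A.e i).symm w)) (A.e i x) :=
      hd.restrictScalars ℝ
    have h0 : (eR n).symm (cR A i x) = A.e i x := by simp
    have hf : ∀ v : EE (2 * n), fderiv ℝ (fun y => cR A j ((cR A i).symm y)) (cR A i x) v =
        eR n (fderiv ℝ (fun w => A.e j ((A.e i).symm w)) (A.e i x) ((eR n).symm v)) := by
      intro v
      have h1 : HasFDerivAt (fun y => cR A j ((cR A i).symm y))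
          (((eR n : Cn n →L[ℝ] EE (2 * n)).comp
            (fderiv ℝ (fun w => A.e j ((A.e i).symm w)) (A.e i x))).comp
            ((eR n).symm : EE (2 * n) →L[ℝ] Cn n)) (cR A i x) := by
        have h2 : HasFDerivAt (fun w => A.e j ((A.e i).symm w))
            (fderiv ℝ (fun w => A.e j ((A.e i).symm w)) (A.e i x))
            ((eR n).symm (cR A i x)) := by
          rw [h0]
          exact hdr.hasFDerivAt
        exact ((eR n : Cn n →L[ℝ] EE (2 * n)).hasFDerivAt.comp _ h2).comp (cR A i x)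
          ((eR n).symm : EE (2 * n) →L[ℝ] Cn n).hasFDerivAt
      rw [h1.fderiv]
      rfl
    rw [hf, hf]
    have hi : (KK K i ((eR n).symm (cR A i x))).IsHermitian := by
      rw [h0]; exact ((kd K i).pd _ ((A.e i).map_source hx.1)).1
    have h0' : (eR n).symm (cR A j x) = A.e j x := by simp
    have hj : (KK K j ((eR n).symm (cR A j x))).IsHermitian := by
      rw [h0']; exact ((kd K j).pd _ ((A.e j).map_source hx.2)).1
    rw [sum_hm (eR n) hi, sum_hm (eR n) hj, h0, h0', G_tr K hx]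
    simp

theorem ricci_nonneg (K : Kah A) (hR : (volK K).Semipos) (i : A.ι) {y : EE (2 * n)}
    (hy : (eR n).symm y ∈ (A.e i).target) (v : EE (2 * n)) :
    0 ≤ ∑ a, ∑ b, ricci (hm (eR n) (KK K i)) y a b * v a * v b := by
  have h1 := ricci_hm (eR n) (kd K i) hy v
  have h2 := hR i _ hy ((eR n).symm v)
  have h3 : ∀ u : Cn n, iteratedFDeriv ℝ 2 (ld (KK K i)) ((eR n).symm y) ![u, u] =
      -iteratedFDeriv ℝ 2 ((volK K).wt i) ((eR n).symm y) ![u, u] := by
    intro u
    rw [ld_KK, show (fun z => -((volK K).wt i z)) = -((volK K).wt i) from rfl,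
      iteratedFDeriv_neg_apply]
    rfl
  rw [h3, h3] at h1
  rw [h1]
  unfold lev at h2
  linarith

/-- **Ricci curvature** -/
theorem hasRicci (K : Kah A) (hR : (volK K).Semipos) :
    HasRicciLowerBound (2 * n) (ofKah K).M 0 := by
  refine (ofKah K).hasRicciLowerBound fun i y hy v => ?_
  rw [zero_mul]
  exact ricci_nonneg K hR i ((Set.ext_iff.1 (cR_target (A := A) i) y).1 hy) v

/-! ### coverings -/

variable {G : Type} [Group G] (D : MonD A G) (F : Type) [MulAction G F]

/-- pull-back of a Kaehler metric -/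
def pullKah (K : Kah A) : Kah (D.atl F) where
  g p e := K.g p.1 (D.pr e)
  sm p a b := K.sm p.1 a b
  pos p _ he := K.pos p.1 _ he.1
  tr p q _ he := K.tr p.1 q.1 _ ⟨he.1.1, he.2.1⟩
  closed p z hz a b c := K.closed p.1 z hz a b c
  closed' p z hz a b c := K.closed' p.1 z hz a b c

theorem volK_pull_semipos {K : Kah A} (h : (volK K).Semipos) : (volK (pullKah D F K)).Semipos :=
  fun p z hz v => h p.1 z hz v

instance actM (K : Kah A) : MulAction G (ofKah (pullKah D G K)).M :=
  inferInstanceAs (MulAction G (D.cov G))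

/-- deck maps are isometries in the charts -/
theorem chIso_deck (K : Kah A) (g : G) :
    RAtl.ChIso (ofKah (pullKah D G K)) (ofKah (pullKah D G K))
      (fun e : (ofKah (pullKah D G K)).M => g • e) := by
  rintro (e : D.cov G)
  obtain ⟨i, hi⟩ := A.cover (D.pr e)
  refine ⟨((i, D.co i e) : A.ι × G), ((i, D.co i (g • e)) : A.ι × G), ?_, ?_, rfl⟩
  · exact (Set.ext_iff.1 (cR_source (A := D.atl G) (i, D.co i e)) e).2 ⟨hi, rfl⟩
  · have h1 : ∀ᶠ y in 𝓝 (g • e), y ∈ D.sheet i (D.co i (g • e)) :=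
      (D.isOpen_sheet i _).mem_nhds ⟨hi, rfl⟩
    have h3 : Continuous (fun e : D.cov G => g • e) := continuous_const_smul g
    have h2 : ∀ᶠ y : D.cov G in 𝓝 e, g • y ∈ D.sheet i (D.co i (g • e)) :=
      (h3.continuousAt (x := e)).eventually h1
    refine Filter.Eventually.mono h2 fun y hy => ⟨?_, rfl⟩
    exact (Set.ext_iff.1 (cR_source (A := D.atl G) (i, D.co i (g • e))) (g • y)).2 hy

end

end Crest.Agent.R273.RMan4_798
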