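import Crest.Agent.R273.PartA_61
import Crest.Agent.R273.TD3_733
import Crest.Agent.R273.SerE_945
import Crest.Agent.R273.HolF_578
import Crest.Agent.R273.YauKah_635
import Crest.Agent.R273.D13_505
import Crest.Agent.R273.UCovD_914
import Crest.Agent.R273.ParE_880
import Crest.Agent.R273.SplA_836
import Crest.Agent.R273.PB_835
import Crest.Agent.R273.Spl1_404
import Crest.Agent.R273.Act_836
import Crest.Agent.R273.PCovB_835
import Crest.Agent.R273.Dsc_333
import Crest.Agent.R273.NoHVF_376
import Crest.Agent.R273.HFlowC_376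
import Crest.Agent.R273.NoVF_534
import Crest.Agent.R273.FlatSec_534
import Crest.Agent.R273.RMan4_798
import Crest.Agent.R273.EqvB_914

-- ▼ part R273/ClassC_945
section

/-!
# R273 (S0416), leaf CHAIN (helper945): the case `H^q(O) = 0` for `q ≥ 1`

* `hB_BN_zero`     : `hB (BN L) 0 = dim HS L`
* `hB_one_zero`    : `hB (BN 1) 0 = 1` on a compact connected manifold
* `chB_one`        : `χ(O) = 1` if the higher cohomology of `O` vanishes
* `exists_kah`     : Yau: Main-level data give a Kaehler metric whose Ricci form is `cur h`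
* `D2Stmt`         : the semipositive Hodge theorem for all manifolds
* `eff_of_chi'`    : effectivity if `χ(O) ≠ 0`
* `classC`         : effectivity if `H^q(O) = 0` for `q ≥ 1`
-/

set_option autoImplicit false
set_option linter.unusedSectionVars false

open Set Filter Topology Complex
open scoped ContDiff Matrix ComplexConjugate Manifold ComplexOrder

namespace Crest.Agent.R273.ClassC_945

open Crest.Agent.R275 Crest.Agent.R275.Geo Crest.Agent.R275.Core144 Crest.Agent.R275.GC293
open Crest.Agent.R275.SerG398 (hB fr FinS Zd Bd mem_Zd mem_Bd)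
open Crest.Agent.R273.Defs_333 Crest.Agent.R273.Kah_333 Crest.Agent.R273.HM_333
open Crest.Agent.R273.FS_333 Crest.Agent.R273.Vol_333
open Crest.Agent.R273.YauDefs_635 (YauStmt)
open Crest.Agent.R273.NV_578 Crest.Agent.R273.PartA_61 Crest.Agent.R273.TD3_733
open Crest.Agent.R273.LamN127 Crest.Agent.R273.ChiPoly_290
open Crest.Agent.R273.SerA_945 Crest.Agent.R273.SerE_945

noncomputable section

variable {n : ℕ} {M : Type} [TopologicalSpace M] {A : Atl n M}

/-! ### degree zero -/

















/-! ### Yau -/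

/-- **Kaehler metric with prescribed Ricci form** from the Main-level data -/
theorem exists_kah (hY : YauStmt) [T2Space M] [CompactSpace M] [ConnectedSpace M] [Finite A.ι]
    (hG : GoodA A) (hP : Nonempty (Part A)) (D : ProjD A) (h : HM (KB A)⁻¹) :
    ∃ (u : M → ℝ) (hu : A.Sm u) (hp : (tw (fs D) u hu).Pos) (c : ℝ),
      (∀ i, ∀ x ∈ (A.e i).source,
        (volK (kah (tw (fs D) u hu) hp)).w i x = Real.exp c * h.w i x) ∧
      ∀ i, ∀ x ∈ (A.e i).source, cur (volK (kah (tw (fs D) u hu) hp)) i x = cur h i x :=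
  YauKah_635.yau_HM hY hG hP (fs_pos D) h


/-! ### the case `χ(O) ≠ 0` -/




end

end Crest.Agent.R273.ClassC_945
end

-- ▼ part R273/BOne_484
section

/-!
# R273 (S0416), Part B (helper484): the bound `q(M) ≤ n`

* `NoZ A p`        : every nonzero holomorphic `p`-form has a polyvector with contraction one
                     (the output `(PAIR)` of `HodgeP_578`), so it has no zeros
* `finrank_Om_le`  : `Om A p` is finite dimensional, `finrank (Om A p) ≤ n.choose p`
* `pullOm`         : pull-back of holomorphic forms to the coverings `D.cov F`, injective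
* `finrank_Om_mono`: `finrank (Om A p) ≤ finrank (Om (D.atl F) p)`
* `qd`, `qd_le`, `qd_mono` : the case of one-forms
-/

set_option autoImplicit false
set_option linter.unusedSectionVars false

open Set Filter Topology Complex Matrix
open scoped ContDiff Matrix ComplexConjugate

namespace Crest.Agent.R273.BOne_484

open Crest.Agent.R275.Geo Crest.Agent.R275.Core144
open Crest.Agent.R273.Defs_333 Crest.Agent.R273.UCov_914
open Crest.Agent.R273.Fock_243 (FI Gam eW iW ep)
open Crest.Agent.R273.NV_578 Crest.Agent.R273.HolF_578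

noncomputable section

variable {n : ℕ} {M : Type} [TopologicalSpace M] {A : Atl n M}

/-- every nonzero holomorphic `p`-form has a polyvector with contraction one -/
def NoZ (A : Atl n M) (p : ℕ) : Prop :=
  ∀ β ∈ Om A p, β ≠ 0 → ∃ v : A.ι → M → FI n → ℂ, ∀ i, ∀ x ∈ (A.e i).source, ctr β v i x = 1

theorem NoZ.ne_zero {p : ℕ} (h : NoZ A p) {β : A.ι → M → FI n → ℂ} (hβ : β ∈ Om A p)
    (h0 : β ≠ 0) {i : A.ι} {x : M} (hx : x ∈ (A.e i).source) : β i x ≠ 0 := by
  obtain ⟨v, hv⟩ := h β hβ h0
  intro h1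
  have h2 := hv i x hx
  rw [ctr_eq, h1, zero_dotProduct] at h2
  exact zero_ne_one h2

/-- evaluation of the `p`-forms at one point of one chart -/
def ev (A : Atl n M) (p : ℕ) (i : A.ι) (x : M) : Om A p →ₗ[ℂ] ({T : FI n // T.card = p} → ℂ) where
  toFun β T := β.1 i x T.1
  map_add' _ _ := rfl
  map_smul' _ _ := rfl

theorem NoZ.ev_injective {p : ℕ} (h : NoZ A p) {i : A.ι} {x : M} (hx : x ∈ (A.e i).source) :
    Function.Injective (ev A p i x) := by
  rw [← LinearMap.ker_eq_bot, LinearMap.ker_eq_bot']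
  intro β hβ
  by_contra hne
  have hne' : β.1 ≠ 0 := fun h0 => hne (Subtype.ext h0)
  refine h.ne_zero β.2 hne' hx ?_
  funext T
  by_cases hT : T.card = p
  · exact congrFun hβ ⟨T, hT⟩
  · exact β.2.2.2.1 i x T hT

theorem NoZ.finite [Nonempty M] {p : ℕ} (h : NoZ A p) : FiniteDimensional ℂ (Om A p) := by
  obtain ⟨x⟩ := ‹Nonempty M›
  obtain ⟨i, hi⟩ := A.cover x
  exact FiniteDimensional.of_injective _ (h.ev_injective hi)


/-! ### pull-back to coverings -/

variable {G : Type} [Group G] (D : MonD A G) {F : Type} [MulAction G F]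

open Classical in
/-- pull-back of a family of vectors -/
def pullV {W : Type*} [Zero W] (F : Type) [MulAction G F] (s : A.ι → M → W) :
    (D.atl F).ι → D.cov F → W := fun p e =>
  if e ∈ ((D.atl F).e p).source then s p.1 (D.pr e) else 0

theorem pullV_apply {W : Type*} [Zero W] (s : A.ι → M → W) {p : A.ι × F} {e : D.cov F}
    (h : e ∈ ((D.atl F).e p).source) : pullV D F s p e = s p.1 (D.pr e) := if_pos h

theorem pullV_off {W : Type*} [Zero W] (s : A.ι → M → W) {p : A.ι × F} {e : D.cov F}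
    (h : e ∉ ((D.atl F).e p).source) : pullV D F s p e = 0 := if_neg h


theorem pullV_mem_Om {p : ℕ} {β : A.ι → M → FI n → ℂ} (hβ : β ∈ Om A p) :
    pullV D F β ∈ Om (D.atl F) p := by
  obtain ⟨h1, h2, h3, h4⟩ := hβ
  refine ⟨fun P T => ?_, fun P e he => pullV_off D β he, fun P e T hT => ?_,
    fun P Q e he => ?_⟩
  · refine (D.holAt_pull (F := F) (p := P) (h1 P.1 T)).congr fun e he _ => ?_
    rw [pullV_apply D β he]
  · by_cases he : e ∈ ((D.atl F).e P).source
    · rw [pullV_apply D β he]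
      exact h3 P.1 _ T hT
    · rw [pullV_off D β he]; rfl
  · rw [pullV_apply D β he.1, pullV_apply D β he.2]
    exact h4 P.1 Q.1 _ ⟨he.1.1, he.2.1⟩

/-- pull-back of holomorphic forms to a covering -/
def pullOm (F : Type) [MulAction G F] (p : ℕ) : Om A p →ₗ[ℂ] Om (D.atl F) p where
  toFun β := ⟨pullV D F β.1, pullV_mem_Om D β.2⟩
  map_add' β β' := by
    apply Subtype.ext
    funext P e
    change pullV D F (β.1 + β'.1) P e = pullV D F β.1 P e + pullV D F β'.1 P e
    by_cases he : e ∈ ((D.atl F).e P).source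
    · rw [pullV_apply D _ he, pullV_apply D _ he, pullV_apply D _ he]; rfl
    · rw [pullV_off D _ he, pullV_off D _ he, pullV_off D _ he, add_zero]
  map_smul' c β := by
    apply Subtype.ext
    funext P e
    change pullV D F (c • β.1) P e = c • pullV D F β.1 P e
    by_cases he : e ∈ ((D.atl F).e P).source
    · rw [pullV_apply D _ he, pullV_apply D _ he]; rfl
    · rw [pullV_off D _ he, pullV_off D _ he, smul_zero]

@[simp] theorem pullOm_coe (p : ℕ) (β : Om A p) :
    (pullOm D F p β : (D.atl F).ι → D.cov F → FI n → ℂ) = pullV D F β.1 := rfl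



/-! ### one-forms -/






end

end Crest.Agent.R273.BOne_484
end

-- ▼ part R273/ParG_880
section

/-!
# R273 (S0416), leaf PSPL (helper880), part G: all holomorphic forms at once

`M` compact connected, `K : Kah A` with semipositive Ricci form.

* `ctr_dv`   : `ctr β (dv K β) = |β|²`
* `pair`     : a nonzero `β ∈ Om A q` has `v ∈ NV 1 (volK K) q` with `ctr β v = 1` on all charts
* `noZ`      : helper484's `NoZ A q`; `om_fin` : `Om A q` is finite dimensional
* `allF A`   : the finite family of all holomorphic forms of positive degree (bases)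
* `ann_iff`  : common kernel of `allF A`
-/

set_option autoImplicit false
set_option linter.unusedSectionVars false

open Set Filter Topology Complex Matrix
open scoped ContDiff Matrix ComplexConjugate ComplexOrder

namespace Crest.Agent.R273.ParG_880

open Crest.Agent.R275 Crest.Agent.R275.Geo Crest.Agent.R275.Core144
open Crest.Agent.R273.Defs_333 Crest.Agent.R273.HM_333 Crest.Agent.R273.Kah_333
open Crest.Agent.R273.Vol_333 Crest.Agent.R273.NV_578 Crest.Agent.R273.HolF_578
open Crest.Agent.R273.Fock_243 Crest.Agent.R273.Calc_243 Crest.Agent.R273.Bkn_243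
open Crest.Agent.R273.Pos_243 Crest.Agent.R273.BKNa_37 Crest.Agent.R273.BOne_484
open Crest.Agent.R273.ParE_880

noncomputable section

variable {n : ℕ} {M : Type} [TopologicalSpace M] {A : Atl n M}

theorem ctr_dv (K : Kah A) (β : A.ι → M → FI n → ℂ) {i : A.ι} {x : M} (hx : x ∈ (A.e i).source) :
    ctr β (dv K β) i x = star (β i x) ⬝ᵥ (Gam (K.g i x)⁻¹ *ᵥ β i x) := by
  rw [ctr_eq, dotProduct_comm]
  exact star_Gam_dot (map_eq_transpose_of_isHermitian (K.pos i x hx).inv.isHermitian) _ _

theorem ctr_dv_zero (K : Kah A) (β : A.ι → M → FI n → ℂ) {i : A.ι} {x : M}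
    (hx : x ∈ (A.e i).source) (h : ctr β (dv K β) i x = 0) : β i x = 0 := by
  rw [ctr_dv K β hx] at h
  by_contra h1
  exact ((Gam_posDef (K.pos i x hx).inv).dotProduct_mulVec_pos h1).ne' h

section main

variable [T2Space M] [CompactSpace M] [ConnectedSpace M] (P : Part A) (K : Kah A)
    (ric : ∀ i, ∀ x ∈ (A.e i).source, (cur (volK K) i x).PosSemidef)
include P ric

/-- a nonzero holomorphic form has a null holomorphic polyvector with contraction one -/
theorem pair {q : ℕ} {β : A.ι → M → FI n → ℂ} (hβ : β ∈ Om A q) (h0 : β ≠ 0) :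
    ∃ v ∈ NV (1 : LB A) (volK K) q, ∀ i, ∀ x ∈ (A.e i).source, ctr β v i x = 1 := by
  have hv := dv_mem P K ric hβ
  obtain ⟨c, hc⟩ := ctr_const hβ hv.1
  have hc0 : c ≠ 0 := by
    intro h
    apply h0
    funext i x
    by_cases hx : x ∈ (A.e i).source
    · exact ctr_dv_zero K β hx (by rw [hc i x hx, h])
    · exact hβ.2.1 i x hx
  refine ⟨c⁻¹ • dv K β, Submodule.smul_mem _ _ hv, fun i x hx => ?_⟩
  rw [ctr_smul_right]
  show c⁻¹ * ctr β (dv K β) i x = 1
  rw [hc i x hx, inv_mul_cancel₀ hc0]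

theorem noZ (q : ℕ) : NoZ A q := by
  intro β hβ h0
  obtain ⟨v, _, hv⟩ := pair P K ric hβ h0
  exact ⟨v, hv⟩

theorem om_fin (q : ℕ) : FiniteDimensional ℂ (Om A q) := (noZ P K ric q).finite

end main

/-! ### the family of all forms -/

/-- bases of the spaces of holomorphic forms of degrees `1, …, n` -/
def allF (A : Atl n M) (hfin : ∀ q, FiniteDimensional ℂ (Om A q)) : Fam A :=
  haveI := hfin
  { κ := Σ q : Fin n, Fin (Module.finrank ℂ (Om A (q.1 + 1)))
    fin := inferInstance
    deg := fun k => k.1.1 + 1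
    β := fun k => (Module.finBasis ℂ (Om A (k.1.1 + 1)) k.2 : A.ι → M → FI n → ℂ)
    mem := fun k => (Module.finBasis ℂ (Om A (k.1.1 + 1)) k.2).2
    pos := fun _ => Nat.succ_ne_zero _ }

/-- holomorphic forms of degree `> n` vanish -/
theorem om_gt {q : ℕ} (hq : n < q) {β : A.ι → M → FI n → ℂ} (hβ : β ∈ Om A q) : β = 0 := by
  funext i x T
  refine hβ.2.2.1 i x T ?_
  have := Finset.card_le_univ T
  rw [Fintype.card_fin] at this
  omega

/-- the tangent vector `u` (in the chart `i` at `x`) is annihilated by all holomorphic forms of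
positive degree -/
def Ann (A : Atl n M) (i : A.ι) (x : M) (u : Fin n → ℂ) : Prop :=
  ∀ q, q ≠ 0 → ∀ β ∈ Om A q, iW u *ᵥ (β i x) = 0

theorem ann_iff (hfin : ∀ q, FiniteDimensional ℂ (Om A q)) (i : A.ι) (x : M) (u : Fin n → ℂ) :
    (∀ k, iW u *ᵥ (allF A hfin).β k i x = 0) ↔ Ann A i x u := by
  haveI := hfin
  constructor
  · intro h q hq β hβ
    by_cases hqn : n < q
    · rw [om_gt hqn hβ]
      exact Matrix.mulVec_zero _
    obtain ⟨p, rfl⟩ : ∃ p, q = p + 1 := ⟨q - 1, by omega⟩
    have hp : p < n := by omega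
    have h1 := (Module.finBasis ℂ (Om A (p + 1))).sum_repr ⟨β, hβ⟩
    have h2 : β = ∑ j, (Module.finBasis ℂ (Om A (p + 1))).repr ⟨β, hβ⟩ j •
        (Module.finBasis ℂ (Om A (p + 1)) j : A.ι → M → FI n → ℂ) := by
      have h3 := congrArg (Submodule.subtype (Om A (p + 1))) h1
      rw [map_sum] at h3
      simpa using h3.symm
    rw [h2, Finset.sum_apply, Finset.sum_apply, Matrix.mulVec_sum]
    refine Finset.sum_eq_zero fun j _ => ?_
    have h4 := h ⟨⟨p, hp⟩, j⟩
    rw [Pi.smul_apply, Pi.smul_apply, Matrix.mulVec_smul]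
    have h5 : iW u *ᵥ (Module.finBasis ℂ (Om A (p + 1)) j : A.ι → M → FI n → ℂ) i x = 0 := h4
    rw [h5, smul_zero]
  · intro h k
    exact h _ ((allF A hfin).pos k) _ ((allF A hfin).mem k)

/-- if all vectors are annihilated, there is no form -/
theorem om_zero_of_ann {i : A.ι} {x : M} (hx : x ∈ (A.e i).source) (h : ∀ u, Ann A i x u)
    (hN : ∀ q, NoZ A q) {q : ℕ} (hq : q ≠ 0) {β : A.ι → M → FI n → ℂ} (hβ : β ∈ Om A q) :
    β = 0 := by
  by_contra h0
  refine (hN q).ne_zero hβ h0 hx ?_
  have h1 := Spl1_404.num_mulVec (β i x) (fun T hT => hβ.2.2.1 i x T hT)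
  have h2 : ∑ j, (eW (ep j) *ᵥ (iW (ep j) *ᵥ β i x)) = 0 :=
    Finset.sum_eq_zero fun j _ => by rw [h (ep j) q hq β hβ, Matrix.mulVec_zero]
  rw [h2] at h1
  rcases smul_eq_zero.1 h1.symm with h3 | h3
  · exact absurd (Nat.cast_eq_zero.1 h3) hq
  · exact h3

end

end Crest.Agent.R273.ParG_880
end

-- ▼ part R273/ParF_880
section

/-!
# R273 (S0416), leaf PSPL (helper880), part F: self-adjoint holomorphic endomorphisms are parallel

* `Chr K i z c`   : the Christoffel matrix `Γ_c = κ⁻¹ ∂_c κ`, `κ = gᵀ`; `Chr_symm`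
* `par_of_sa`     : `∂_c Q = Q Γ_c - Γ_c Q` for a holomorphic `Q` with `gᵀ Q` hermitian
* `splOf`         : a self-adjoint idempotent `HEnd` gives helper836's `Spl`
-/

set_option autoImplicit false
set_option linter.unusedSectionVars false

open Set Filter Topology Complex Matrix
open scoped ContDiff Matrix ComplexConjugate ComplexOrder

namespace Crest.Agent.R273.ParF_880

open Crest.Agent.R275 Crest.Agent.R275.Geo Crest.Agent.R275.Core144
open Crest.Agent.R273.Defs_333 Crest.Agent.R273.HM_333 Crest.Agent.R273.Kah_333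
open Crest.Agent.R273.Fock_243 Crest.Agent.R273.Calc_243
open Crest.Agent.R273.BKNa_37 Crest.Agent.R273.Spl1_404 Crest.Agent.R273.SplA_836
open Crest.Agent.R273.ParA_880 Crest.Agent.R273.ParC_880

noncomputable section

variable {n : ℕ} {M : Type} [TopologicalSpace M] {A : Atl n M}

/-- the Christoffel matrix -/
def Chr (K : Kah A) (i : A.ι) (z : Cn n) (c : Fin n) : Matrix (Fin n) (Fin n) ℂ :=
  ((gr K i z)ᵀ)⁻¹ * dM (-I) c (fun y => (gr K i y)ᵀ) z

theorem Chr_symm (K : Kah A) (i : A.ι) {z : Cn n} (hz : z ∈ (A.e i).target) (a b c : Fin n) :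
    Chr K i z c a b = Chr K i z b a c := by
  unfold Chr
  rw [Matrix.mul_apply, Matrix.mul_apply]
  refine Finset.sum_congr rfl fun d _ => ?_
  congr 1
  exact (gr_c K i hz).self_of_nhds b d c

/-- the Christoffel form -/
def ChrV (K : Kah A) (i : A.ι) (z : Cn n) (u : Fin n → ℂ) : Matrix (Fin n) (Fin n) ℂ :=
  ∑ c, u c • Chr K i z c

theorem ChrV_symm (K : Kah A) (i : A.ι) {z : Cn n} (hz : z ∈ (A.e i).target) (u v : Fin n → ℂ) :
    ChrV K i z u *ᵥ v = ChrV K i z v *ᵥ u := by
  funext a
  have h : ∀ u v : Fin n → ℂ, (ChrV K i z u *ᵥ v) a = ∑ c, ∑ b, u c * (Chr K i z c a b * v b) := by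
    intro u v
    unfold ChrV
    rw [Matrix.sum_mulVec, Finset.sum_apply]
    refine Finset.sum_congr rfl fun c _ => ?_
    rw [Matrix.smul_mulVec, Pi.smul_apply, smul_eq_mul, Matrix.mulVec, dotProduct,
      Finset.mul_sum]
  rw [h, h, Finset.sum_comm]
  refine Finset.sum_congr rfl fun b _ => Finset.sum_congr rfl fun c _ => ?_
  rw [Chr_symm K i hz a b c]
  ring

/-- **a holomorphic self-adjoint endomorphism is parallel** -/
theorem par_of_sa (K : Kah A) {Q : A.ι → M → Matrix (Fin n) (Fin n) ℂ}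
    (hol : ∀ i a b, HolAt A i univ (fun x => Q i x a b))
    (sa : ∀ i, ∀ x ∈ (A.e i).source, ((K.g i x)ᵀ * Q i x).IsHermitian)
    (i : A.ι) {z : Cn n} (hz : z ∈ (A.e i).target) (c : Fin n) :
    dM (-I) c (fun y => Q i ((A.e i).symm y)) z =
      Q i ((A.e i).symm z) * Chr K i z c - Chr K i z c * Q i ((A.e i).symm z) := by
  set κ : Cn n → Matrix (Fin n) (Fin n) ℂ := fun y => (gr K i y)ᵀ with hκ
  set q : Cn n → Matrix (Fin n) (Fin n) ℂ := fun y => Q i ((A.e i).symm y) with hq
  have hκs : SmM z κ := fun a b => (gr_sm K i hz).self_of_nhds b a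
  have hqs : SmM z q := by
    intro a b
    have h1 : A.SmAt i (fun x => Q i x a b) := by
      have := (hol i a b).contDiffOn isOpen_univ
      rwa [preimage_univ, inter_univ] at this
    exact sm_rd h1 hz
  have hqh : SmM z (fun y => (q y)ᴴ) := fun a b => (hqs b a).conj
  have hpos : ∀ᶠ y in 𝓝 z, (κ y).PosDef := by
    filter_upwards [gr_pos K i hz] with y hy
    exact hy.transpose
  have h1 : ∀ᶠ y in 𝓝 z, κ y * q y = (q y)ᴴ * κ y := by
    filter_upwards [ev_tg i hz, hpos] with y hy hy'
    have h2 := sa i _ ((A.e i).map_target hy)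
    have h3 : (κ y * q y)ᴴ = κ y * q y := h2
    rw [Matrix.conjTranspose_mul, hy'.isHermitian.eq] at h3
    exact h3.symm
  have h2 : dM (-I) c (fun y => κ y * q y) z = dM (-I) c (fun y => (q y)ᴴ * κ y) z := by
    ext a b
    exact dS_congr (h1.mono fun y hy => congrFun (congrFun hy a) b)
  rw [dM_mul (fun a b => (hκs a b).diff) (fun a b => (hqs a b).diff),
    dM_mul (fun a b => (hqh a b).diff) (fun a b => (hκs a b).diff)] at h2
  have h3 : dM (-I) c (fun y => (q y)ᴴ) z = 0 := by
    ext a b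
    show dS (-I) c (fun y => conj (q y b a)) z = 0
    rw [dS_conj (hqs b a).diff]
    have h4 : dS (conj (-I)) c (fun y => q y b a) z = 0 := by
      have h5 : conj (-I : ℂ) = I := by simp
      rw [h5]
      have h6 := (hol i b a).diffAt isOpen_univ ((A.e i).map_target hz) (mem_univ _)
      rw [(A.e i).right_inv hz] at h6
      exact dS_hol h6 c
    rw [h4, map_zero]
  rw [h3, zero_mul, zero_add] at h2
  have hz1 := h1.self_of_nhds
  have hd : (κ z).det ≠ 0 := hpos.self_of_nhds.det_pos.ne'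
  have h4 : (κ z)⁻¹ * κ z = 1 := Matrix.nonsing_inv_mul _ hd.isUnit
  have h5 : κ z * (κ z)⁻¹ = 1 := Matrix.mul_nonsing_inv _ hd.isUnit
  have h6 : (κ z)⁻¹ * (q z)ᴴ = q z * (κ z)⁻¹ := by
    calc (κ z)⁻¹ * (q z)ᴴ = (κ z)⁻¹ * ((q z)ᴴ * κ z) * (κ z)⁻¹ := by
          rw [mul_assoc, mul_assoc, h5, mul_one]
      _ = (κ z)⁻¹ * (κ z * q z) * (κ z)⁻¹ := by rw [hz1]
      _ = q z * (κ z)⁻¹ := by rw [← mul_assoc, h4, one_mul]
  have h7 : κ z * dM (-I) c q z = (q z)ᴴ * dM (-I) c κ z - dM (-I) c κ z * q z :=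
    eq_sub_of_add_eq' h2
  calc dM (-I) c q z = (κ z)⁻¹ * (κ z * dM (-I) c q z) := by rw [← mul_assoc, h4, one_mul]
    _ = (κ z)⁻¹ * (q z)ᴴ * dM (-I) c κ z - (κ z)⁻¹ * dM (-I) c κ z * q z := by
        rw [h7, mul_sub, mul_assoc, mul_assoc]
    _ = _ := by rw [h6, mul_assoc]; rfl

/-! ### the derivative of the projection field -/

theorem dS_of_hol {f : Cn n → ℂ} {z : Cn n} (hf : DifferentiableAt ℂ f z) (c : Fin n) :
    dS (-I) c f z = fderiv ℂ f z (EuclideanSpace.single c 1) := by
  have h1 : fderiv ℝ f z = (fderiv ℂ f z).restrictScalars ℝ :=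
    (hf.hasFDerivAt.restrictScalars ℝ).fderiv
  unfold dS
  rw [h1, GeoHol912.single_I]
  simp only [ContinuousLinearMap.coe_restrictScalars', map_smul, smul_eq_mul]
  have : -I * (I * (fderiv ℂ f z) (EuclideanSpace.single c 1)) =
      (fderiv ℂ f z) (EuclideanSpace.single c 1) := by
    rw [← mul_assoc, neg_mul, I_mul_I, neg_neg, one_mul]
  rw [this]
  ring

theorem fderiv_sum_single {f : Cn n → ℂ} {z : Cn n} (hf : DifferentiableAt ℂ f z) (u : Cn n) :
    fderiv ℂ f z u = ∑ c, u c * dS (-I) c f z := by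
  conv_lhs => rw [← GeoHol912.sum_single u]
  rw [map_sum]
  refine Finset.sum_congr rfl fun c _ => ?_
  rw [map_smul, smul_eq_mul, dS_of_hol hf]

theorem rdP_fderiv {P : A.ι → M → Matrix (Fin n) (Fin n) ℂ}
    (hol : ∀ i a b, HolAt A i univ (fun x => P i x a b)) (i : A.ι) {z : Cn n}
    (hz : z ∈ (A.e i).target) (u v : Cn n) (b : Fin n) :
    (fderiv ℂ (rdP A P i) z u v) b =
      ∑ c, u c * (dM (-I) c (fun y => P i ((A.e i).symm y)) z *ᵥ fun a => v a) b := by
  have hd : ∀ a b, DifferentiableAt ℂ (fun y => P i ((A.e i).symm y) a b) z := by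
    intro a b
    have h6 := (hol i a b).diffAt isOpen_univ ((A.e i).map_target hz) (mem_univ _)
    rwa [(A.e i).right_inv hz] at h6
  have hD : DifferentiableAt ℂ (rdP A P i) z := by
    have h1 : rdP A P i = fun w => ∑ b, ∑ a, P i ((A.e i).symm w) b a • Ec b a := rfl
    rw [h1]
    exact DifferentiableAt.fun_sum fun b _ => DifferentiableAt.fun_sum fun a _ =>
      (hd b a).smul_const _
  have h2 : HasFDerivAt (fun w => (rdP A P i w v) b)
      (((EuclideanSpace.proj b : Cn n →L[ℂ] ℂ).comp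
        (ContinuousLinearMap.apply ℂ (Cn n) v)).comp (fderiv ℂ (rdP A P i) z)) z := by
    have := ((EuclideanSpace.proj b : Cn n →L[ℂ] ℂ).comp
        (ContinuousLinearMap.apply ℂ (Cn n) v)).hasFDerivAt.comp z hD.hasFDerivAt
    exact this
  have h3 : (fun w => (rdP A P i w v) b) = fun w => ∑ a, P i ((A.e i).symm w) b a * v a := by
    funext w
    exact toC_apply _ _ _
  have h4 : (fderiv ℂ (rdP A P i) z u v) b =
      fderiv ℂ (fun w => ∑ a, P i ((A.e i).symm w) b a * v a) z u := by
    rw [← h3, h2.fderiv]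
    rfl
  have h5 : fderiv ℂ (fun w => ∑ a, P i ((A.e i).symm w) b a * v a) z u =
      ∑ a, fderiv ℂ (fun w => P i ((A.e i).symm w) b a) z u * v a := by
    rw [fderiv_fun_sum fun a _ => (hd b a).mul_const _, _root_.sum_apply]
    refine Finset.sum_congr rfl fun a _ => ?_
    rw [fderiv_mul_const (hd b a), _root_.smul_apply, smul_eq_mul, mul_comm]
  rw [h4, h5]
  simp only [fderiv_sum_single (hd b _), Matrix.mulVec, dotProduct, Finset.sum_mul,
    Finset.mul_sum]
  rw [Finset.sum_comm]
  refine Finset.sum_congr rfl fun c _ => Finset.sum_congr rfl fun a _ => ?_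
  rw [mul_assoc]
  rfl

/-- the derivative of a parallel field -/
theorem rdP_par (K : Kah A) {Q : A.ι → M → Matrix (Fin n) (Fin n) ℂ}
    (hol : ∀ i a b, HolAt A i univ (fun x => Q i x a b))
    (sa : ∀ i, ∀ x ∈ (A.e i).source, ((K.g i x)ᵀ * Q i x).IsHermitian)
    (i : A.ι) {z : Cn n} (hz : z ∈ (A.e i).target) (u v : Cn n) :
    (fun b => (fderiv ℂ (rdP A Q i) z u v) b) =
      Q i ((A.e i).symm z) *ᵥ (ChrV K i z (fun a => u a) *ᵥ fun a => v a) -
        ChrV K i z (fun a => u a) *ᵥ (Q i ((A.e i).symm z) *ᵥ fun a => v a) := by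
  funext b
  rw [rdP_fderiv hol i hz u v b]
  have h1 : ∀ c, u c * (dM (-I) c (fun y => Q i ((A.e i).symm y)) z *ᵥ fun a => v a) b =
      (Q i ((A.e i).symm z) *ᵥ ((u c • Chr K i z c) *ᵥ fun a => v a)) b -
      ((u c • Chr K i z c) *ᵥ (Q i ((A.e i).symm z) *ᵥ fun a => v a)) b := by
    intro c
    rw [par_of_sa K hol sa i hz c, Matrix.sub_mulVec, Pi.sub_apply, mul_sub,
      ← Matrix.mulVec_mulVec, ← Matrix.mulVec_mulVec, Matrix.smul_mulVec, Matrix.smul_mulVec,
      Matrix.mulVec_smul, Pi.smul_apply, Pi.smul_apply, smul_eq_mul, smul_eq_mul]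
  rw [Finset.sum_congr rfl fun c _ => h1 c, Finset.sum_sub_distrib]
  unfold ChrV
  rw [Pi.sub_apply, Matrix.sum_mulVec, Matrix.mulVec_sum, Finset.sum_apply, Matrix.sum_mulVec,
    Finset.sum_apply]

theorem rdP_mulVec {P : A.ι → M → Matrix (Fin n) (Fin n) ℂ} {i : A.ι} {z : Cn n} {v w : Cn n}
    (h : rdP A P i z v = w) : (P i ((A.e i).symm z) *ᵥ fun a => v a) = fun a => w a := by
  funext b
  rw [← h]
  exact (toC_apply _ _ _).symm

/-- **a self-adjoint holomorphic projection field is a splitting** -/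
def splOf (K : Kah A) (E : HEnd A) (idem : ∀ i, ∀ x ∈ (A.e i).source, E.E i x * E.E i x = E.E i x)
    (sa : ∀ i, ∀ x ∈ (A.e i).source, ((K.g i x)ᵀ * E.E i x).IsHermitian) : Spl A where
  P := E.E
  hol := E.hol
  idem := idem
  tr i j x hx := by
    rw [E.tr i j x hx, ← mul_assoc, ← mul_assoc, HolF_578.Jm_inv ⟨hx.2, hx.1⟩, one_mul]
  int1 i z hz u v hu hv := by
    ext b
    have h1 := congrFun (rdP_par K E.hol sa i hz u v) b
    have h2 := congrFun (rdP_par K E.hol sa i hz v u) b
    rw [rdP_mulVec hv] at h1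
    rw [rdP_mulVec hu] at h2
    rw [h1, h2, ChrV_symm K i hz (fun a => u a) (fun a => v a)]
  int2 i z hz u v hu hv := by
    ext b
    have h1 := congrFun (rdP_par K E.hol sa i hz u v) b
    have h2 := congrFun (rdP_par K E.hol sa i hz v u) b
    have h0 : (fun a => (0 : Cn n) a) = (0 : Fin n → ℂ) := rfl
    rw [rdP_mulVec hv, h0, Matrix.mulVec_zero, _root_.sub_zero] at h1
    rw [rdP_mulVec hu, h0, Matrix.mulVec_zero, _root_.sub_zero] at h2
    rw [h1, h2, ChrV_symm K i hz (fun a => u a) (fun a => v a)]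

@[simp] theorem splOf_P (K : Kah A) (E : HEnd A)
    (idem : ∀ i, ∀ x ∈ (A.e i).source, E.E i x * E.E i x = E.E i x)
    (sa : ∀ i, ∀ x ∈ (A.e i).source, ((K.g i x)ᵀ * E.E i x).IsHermitian) :
    (splOf K E idem sa).P = E.E := rfl

end

end Crest.Agent.R273.ParF_880
end

-- ▼ part R273/ParH_880
section

/-!
# R273 (S0416), leaf PSPL (helper880), part H: pull-back of forms and invariance of the projection

* `pbO A B f β`, `pbO_mem` : pull-back of holomorphic forms along a `HolMap` (equal dimensions)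
* `ann_push`    : `u` annihilated by all forms of `A` ⇒ `T u` annihilated by all forms of `B`
* `sa_unique`   : a self-adjoint idempotent matrix is determined by its kernel
* `inv_of_isom` : the self-adjoint projections with kernel `Ann` are intertwined by isometries
-/

set_option autoImplicit false
set_option linter.unusedSectionVars false

open Set Filter Topology Complex Matrix
open scoped ContDiff Matrix ComplexConjugate ComplexOrder

namespace Crest.Agent.R273.ParH_880

open Crest.Agent.R275 Crest.Agent.R275.Geo Crest.Agent.R275.Core144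
open Crest.Agent.R273.Defs_333 Crest.Agent.R273.HM_333 Crest.Agent.R273.Kah_333
open Crest.Agent.R273.HolF_578 Crest.Agent.R273.Map_835 Crest.Agent.R273.PB_835
open Crest.Agent.R273.Fock_243 Crest.Agent.R273.ParG_880

noncomputable section

variable {n : ℕ} {M N : Type} [TopologicalSpace M] [TopologicalSpace N]
  {A : Atl n M} {B : Atl n N} {f : M → N}

/-! ### pull-back of forms -/

open Classical in
/-- pull-back of a form -/
def pbO (A : Atl n M) (B : Atl n N) (f : M → N) (β : B.ι → N → FI n → ℂ) :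
    A.ι → M → FI n → ℂ := fun i x =>
  if x ∈ (A.e i).source then Gam (Jp A B f i (PB.ch B (f x)) x)ᵀ *ᵥ β (PB.ch B (f x)) (f x) else 0

theorem pbO_eq (h : HolMap A B f) {q : ℕ} {β : B.ι → N → FI n → ℂ} (hβ : β ∈ Om B q)
    {i : A.ι} {j : B.ι} {x : M} (hx : x ∈ (A.e i).source) (hj : f x ∈ (B.e j).source) :
    pbO A B f β i x = Gam (Jp A B f i j x)ᵀ *ᵥ β j (f x) := by
  unfold pbO
  rw [if_pos hx]
  have hc := PB.ch_mem B (f x)
  have h1 : β (PB.ch B (f x)) (f x) = Gam (Jm B (PB.ch B (f x)) j (f x))ᵀ *ᵥ β j (f x) :=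
    hβ.2.2.2 _ _ _ ⟨hc, hj⟩
  rw [h1, Matrix.mulVec_mulVec, ← Gam_mul, ← Matrix.transpose_mul, h.Jp_right hx ⟨hc, hj⟩]

theorem pbO_mem (h : HolMap A B f) {q : ℕ} {β : B.ι → N → FI n → ℂ} (hβ : β ∈ Om B q) :
    pbO A B f β ∈ Om A q := by
  refine ⟨fun i T => ?_, fun i x hx => ?_, fun i x T hT => ?_, fun i j x hx => ?_⟩
  · refine holAt_of_local fun x hx _ => ?_
    obtain ⟨j, hj⟩ := B.cover (f x)
    refine ⟨f ⁻¹' (B.e j).source, (B.e j).open_source.preimage h.cont, hj, ?_⟩
    have h1 : HolAt A i (f ⁻¹' (B.e j).source)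
        (fun x => ∑ S, Gam (Jp A B f i j x)ᵀ T S * β j (f x) S) := by
      refine HolAt.sum _ fun S _ => HolAt.mul ?_ ?_
      · by_cases hST : T.card = S.card
        · have h2 : (fun x => Gam (Jp A B f i j x)ᵀ T S) = fun x =>
              ((Jp A B f i j x)ᵀ.submatrix (T.orderEmbOfFin rfl)
                (S.orderEmbOfFin hST.symm)).det := by
            funext x
            exact Gam_eq _ rfl hST.symm
          rw [h2]
          exact holAt_det fun a b => h.holAt_Jp i j _ _
        · have h2 : (fun x => Gam (Jp A B f i j x)ᵀ T S) = fun _ => 0 := by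
            funext x
            exact Gam_of_ne _ hST
          rw [h2]
          exact holAt_const 0
      · have h2 := h.comp_holAt (i := i) (hβ.1 j S)
        rwa [univ_inter] at h2
    refine h1.congr fun y hy hyj => ?_
    rw [pbO_eq h hβ hy hyj]
    rfl
  · unfold pbO
    rw [if_neg hx]
  · by_cases hx : x ∈ (A.e i).source
    · obtain ⟨j, hj⟩ := B.cover (f x)
      rw [pbO_eq h hβ hx hj, Matrix.mulVec, dotProduct]
      refine Finset.sum_eq_zero fun S _ => ?_
      by_cases hS : S.card = q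
      · rw [Gam_of_ne _ (by rw [hS]; exact hT), zero_mul]
      · rw [hβ.2.2.1 j (f x) S hS, mul_zero]
    · unfold pbO
      rw [if_neg hx]
      rfl
  · obtain ⟨k, hk⟩ := B.cover (f x)
    rw [pbO_eq h hβ hx.1 hk, pbO_eq h hβ hx.2 hk, Matrix.mulVec_mulVec, ← Gam_mul,
      ← Matrix.transpose_mul, h.Jp_left hx hk]

/-- push-forward of annihilated vectors -/
theorem ann_push (h : HolMap A B f) {i : A.ι} {j : B.ι} {x : M} (hx : x ∈ (A.e i).source)
    (hj : f x ∈ (B.e j).source) {Ti : Matrix (Fin n) (Fin n) ℂ}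
    (hT : Jp A B f i j x * Ti = 1) {u : Fin n → ℂ} (hu : Ann A i x u) :
    Ann B j (f x) (Jp A B f i j x *ᵥ u) := by
  intro q hq β hβ
  have h1 := hu q hq _ (pbO_mem h hβ)
  rw [pbO_eq h hβ hx hj, Matrix.mulVec_mulVec, iW_Gam, Matrix.transpose_transpose,
    ← Matrix.mulVec_mulVec] at h1
  have h2 : Gam Tiᵀ * Gam (Jp A B f i j x)ᵀ = 1 := by
    rw [← Gam_mul, ← Matrix.transpose_mul, hT, Matrix.transpose_one, Gam_one]
  have h3 := congrArg (fun w => Gam Tiᵀ *ᵥ w) h1
  simp only [Matrix.mulVec_zero] at h3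
  rwa [Matrix.mulVec_mulVec, h2, Matrix.one_mulVec] at h3

/-! ### uniqueness of the self-adjoint projection -/

theorem sa_unique {κ R R' : Matrix (Fin n) (Fin n) ℂ} (hκ : κ.PosDef)
    (hR : (κ * R).IsHermitian) (hR' : (κ * R').IsHermitian) (i1 : R * R = R) (i2 : R' * R' = R')
    (h : ∀ u, R *ᵥ u = 0 ↔ R' *ᵥ u = 0) : R = R' := by
  have k1 : R * R' = R := by
    have h1 : R * (1 - R') = 0 := by
      have h2 : ∀ u, (R * (1 - R')) *ᵥ u = 0 := by
        intro u
        rw [← Matrix.mulVec_mulVec]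
        refine (h _).2 ?_
        rw [Matrix.mulVec_mulVec, mul_sub, mul_one, i2, sub_self, Matrix.zero_mulVec]
      ext a b
      have := congrFun (h2 (Pi.single b 1)) a
      simpa using this
    rw [mul_sub, mul_one, sub_eq_zero] at h1
    exact h1.symm
  have k2 : R' * R = R' := by
    have h1 : R' * (1 - R) = 0 := by
      have h2 : ∀ u, (R' * (1 - R)) *ᵥ u = 0 := by
        intro u
        rw [← Matrix.mulVec_mulVec]
        refine (h _).1 ?_
        rw [Matrix.mulVec_mulVec, mul_sub, mul_one, i1, sub_self, Matrix.zero_mulVec]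
      ext a b
      have := congrFun (h2 (Pi.single b 1)) a
      simpa using this
    rw [mul_sub, mul_one, sub_eq_zero] at h1
    exact h1.symm
  -- adjoint
  have a1 : Rᴴ * κ = κ * R := by
    have := hR.eq
    rwa [Matrix.conjTranspose_mul, hκ.isHermitian.eq] at this
  have a2 : R'ᴴ * κ = κ * R' := by
    have := hR'.eq
    rwa [Matrix.conjTranspose_mul, hκ.isHermitian.eq] at this
  have k3 : κ * R = κ * R' := by
    calc κ * R = Rᴴ * κ := a1.symm
      _ = (R * R')ᴴ * κ := by rw [k1]
      _ = R'ᴴ * (Rᴴ * κ) := by rw [Matrix.conjTranspose_mul, mul_assoc]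
      _ = R'ᴴ * κ * R := by rw [a1, mul_assoc]
      _ = κ * (R' * R) := by rw [a2, mul_assoc]
      _ = κ * R' := by rw [k2]
  have hi : κ⁻¹ * κ = 1 := Matrix.nonsing_inv_mul _ hκ.det_pos.ne'.isUnit
  calc R = κ⁻¹ * (κ * R) := by rw [← mul_assoc, hi, one_mul]
    _ = R' := by rw [k3, ← mul_assoc, hi, one_mul]

/-- **invariance under isometries** -/
theorem inv_of_isom {g : N → M} (hf : HolMap A B f) (hg : HolMap B A g) (hgf : ∀ x, g (f x) = x)
    {K : Kah A} {K' : Kah B} {i : A.ι} {j : B.ι} {x : M}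
    (hx : x ∈ (A.e i).source) (hj : f x ∈ (B.e j).source)
    (hK : K.g i x = (Jp A B f i j x)ᵀ * K'.g j (f x) * (Jp A B f i j x).map conj)
    {Q Q' : Matrix (Fin n) (Fin n) ℂ} (hQ : ((K.g i x)ᵀ * Q).IsHermitian)
    (hQ' : ((K'.g j (f x))ᵀ * Q').IsHermitian) (i1 : Q * Q = Q) (i2 : Q' * Q' = Q')
    (k1 : ∀ u, Q *ᵥ u = 0 ↔ Ann A i x u) (k2 : ∀ u, Q' *ᵥ u = 0 ↔ Ann B j (f x) u) :
    Jp A B f i j x * Q = Q' * Jp A B f i j x := by
  have hgx : g (f x) ∈ (A.e i).source := by rw [hgf]; exact hx
  set T := Jp A B f i j x with hT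
  set S := Jp B A g j i (f x) with hS
  have e1 : S * T = 1 := by
    have h1 := Jp_comp hg hf hx hj hgx
    rw [h1]
    have h2 : (fun x => g (f x)) = id := funext hgf
    rw [h2]
    have h3 : Jp A A id i i x = Jm A i i x := rfl
    rw [h3, J_self i hx]
  have e2 : T * S = 1 := mul_eq_one_comm.1 e1
  have p1 : (K'.g j (f x))ᵀ.PosDef := (K'.pos j _ hj).transpose
  have hκ : (K.g i x)ᵀ = Tᴴ * (K'.g j (f x))ᵀ * T := by
    rw [hK, Matrix.transpose_mul, Matrix.transpose_mul, Matrix.transpose_transpose,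
      Matrix.mul_assoc]
    rfl
  have hR : ((K'.g j (f x))ᵀ * (T * Q * S)).IsHermitian := by
    have h1 : (K'.g j (f x))ᵀ * (T * Q * S) = Sᴴ * ((K.g i x)ᵀ * Q) * S := by
      have h2 : Sᴴ * Tᴴ = 1 := by
        rw [← Matrix.conjTranspose_mul, e2, Matrix.conjTranspose_one]
      rw [hκ]
      calc (K'.g j (f x))ᵀ * (T * Q * S) = (Sᴴ * Tᴴ) * (K'.g j (f x))ᵀ * (T * Q * S) := by
            rw [h2, one_mul]
        _ = _ := by simp only [mul_assoc]
    rw [h1]
    exact Matrix.isHermitian_conjTranspose_mul_mul S hQ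
  have i3 : (T * Q * S) * (T * Q * S) = T * Q * S := by
    calc (T * Q * S) * (T * Q * S) = T * Q * (S * T) * (Q * S) := by simp only [mul_assoc]
      _ = T * (Q * Q) * S := by rw [e1, mul_one]; simp only [mul_assoc]
      _ = T * Q * S := by rw [i1]
  have hker : ∀ u, (T * Q * S) *ᵥ u = 0 ↔ Q' *ᵥ u = 0 := by
    intro u
    have h1 : (T * Q * S) *ᵥ u = 0 ↔ Q *ᵥ (S *ᵥ u) = 0 := by
      constructor
      · intro h
        have h2 := congrArg (fun w => S *ᵥ w) h
        simp only [Matrix.mulVec_zero] at h2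
        rwa [Matrix.mulVec_mulVec, ← mul_assoc, ← mul_assoc, e1, one_mul,
          ← Matrix.mulVec_mulVec] at h2
      · intro h
        rw [← Matrix.mulVec_mulVec, ← Matrix.mulVec_mulVec, h, Matrix.mulVec_zero]
    rw [h1, k1, k2]
    constructor
    · intro h
      have h2 := ann_push hf hx hj e2 h
      rwa [← hT, Matrix.mulVec_mulVec, e2, Matrix.one_mulVec] at h2
    · intro h
      have h2 := ann_push hg hj hgx e1 h
      rwa [← hS, hgf] at h2
  have h1 := sa_unique p1 hR hQ' i3 i2 hker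
  rw [← h1, mul_assoc, mul_assoc, e1, mul_one]

end

end Crest.Agent.R273.ParH_880
end

-- ▼ part R273/Spl2_404
section

/-!
# R273 (S0416), leaf SPLIT (helper404), part 2: the idempotent of a holomorphic endomorphism

* `exists_sep χ`      : one polynomial `p`, `X ∣ p`, `χ ∣ p (1 - p)`, `χ ∣ X^k (1 - p)`
* matrices            : `sa_*` for `m` with `mᵀ g` hermitian, `g > 0`
* `HEnd.pol E p`      : functional calculus of holomorphic endomorphisms
* `HEnd.charpoly_const` : on compact connected `M` the characteristic polynomial is constant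
* `pj E`              : the idempotent
-/

set_option autoImplicit false
set_option linter.unusedSectionVars false

open Set Filter Topology Complex Matrix
open scoped ContDiff Matrix ComplexConjugate Manifold ComplexOrder

namespace Crest.Agent.R273.Spl1_404

open Crest.Agent.R275.Geo Crest.Agent.R275.Core144 Crest.Agent.R275.Kos798
open Crest.Agent.R273.Defs_333 Crest.Agent.R273.HM_333 Crest.Agent.R273.Kah_333
open Crest.Agent.R273.HolF_578

noncomputable section

/-! ### the polynomial -/

section Poly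

open Polynomial

theorem exists_sep (χ : ℂ[X]) (h0 : χ ≠ 0) :
    ∃ (k : ℕ) (p : ℂ[X]), X ∣ p ∧ χ ∣ p * (1 - p) ∧ χ ∣ X ^ k * (1 - p) := by
  obtain ⟨r, hr, hnd⟩ := χ.exists_eq_pow_rootMultiplicity_mul_and_not_dvd h0 0
  set k := rootMultiplicity 0 χ
  rw [C_0, sub_zero] at hr hnd
  have h1 : IsCoprime (X : ℂ[X]) r := (irreducible_X.coprime_iff_not_dvd).2 hnd
  have h2 : IsCoprime ((X : ℂ[X]) ^ (k + 1)) r := h1.pow_left
  obtain ⟨a, b, hab⟩ := h2
  have h3 : 1 - a * X ^ (k + 1) = b * r := by rw [← hab]; ring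
  refine ⟨k, a * X ^ (k + 1), ⟨a * X ^ k, by ring⟩, ⟨a * b * X, ?_⟩, ⟨b, ?_⟩⟩
  · rw [h3]
    conv_rhs => rw [hr]
    ring
  · rw [h3]
    conv_rhs => rw [hr]
    ring

/-- exponent and polynomial attached to `χ` -/
def sepK (χ : ℂ[X]) : ℕ := open Classical in
  if h : χ ≠ 0 then (exists_sep χ h).choose else 0

def sepP (χ : ℂ[X]) : ℂ[X] := open Classical in
  if h : χ ≠ 0 then (exists_sep χ h).choose_spec.choose else 0

theorem sepP_spec {χ : ℂ[X]} (h : χ ≠ 0) :
    X ∣ sepP χ ∧ χ ∣ sepP χ * (1 - sepP χ) ∧ χ ∣ X ^ sepK χ * (1 - sepP χ) := by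
  unfold sepP sepK
  rw [dif_pos h, dif_pos h]
  exact (exists_sep χ h).choose_spec.choose_spec

variable {n : ℕ} {m : Matrix (Fin n) (Fin n) ℂ} {χ : ℂ[X]}

theorem aeval_eq_zero_of_dvd (hm : m.charpoly = χ) {p : ℂ[X]} (h : χ ∣ p) : aeval m p = 0 := by
  obtain ⟨w, rfl⟩ := h
  rw [map_mul, ← hm, Matrix.aeval_self_charpoly, zero_mul]

theorem sep_idem (hm : m.charpoly = χ) : aeval m (sepP χ) * aeval m (sepP χ) = aeval m (sepP χ) := by
  have h0 : χ ≠ 0 := by rw [← hm]; exact (Matrix.charpoly_monic m).ne_zero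
  have h1 := aeval_eq_zero_of_dvd hm (sepP_spec h0).2.1
  rw [map_mul, map_sub, map_one, mul_sub, mul_one, sub_eq_zero] at h1
  exact h1.symm

theorem sep_pow (hm : m.charpoly = χ) : m ^ sepK χ * (1 - aeval m (sepP χ)) = 0 := by
  have h0 : χ ≠ 0 := by rw [← hm]; exact (Matrix.charpoly_monic m).ne_zero
  have h1 := aeval_eq_zero_of_dvd hm (sepP_spec h0).2.2
  rwa [map_mul, map_pow, aeval_X, map_sub, map_one] at h1

theorem sep_dvd (hm : m.charpoly = χ) :
    ∃ w : Matrix (Fin n) (Fin n) ℂ, aeval m (sepP χ) = m * w ∧ aeval m (sepP χ) = w * m := by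
  have h0 : χ ≠ 0 := by rw [← hm]; exact (Matrix.charpoly_monic m).ne_zero
  obtain ⟨w, hw⟩ := (sepP_spec h0).1
  refine ⟨aeval m w, ?_, ?_⟩
  · rw [hw, map_mul, aeval_X]
  · rw [hw, mul_comm X w, map_mul, aeval_X]

theorem sep_comm (p : ℂ[X]) : m * aeval m p = aeval m p * m := by
  have h1 : aeval m (X * p) = aeval m (p * X) := by rw [mul_comm]
  rwa [map_mul, map_mul, aeval_X] at h1

end Poly

/-! ### self-adjoint matrices -/

section SA

variable {n : ℕ} {m g : Matrix (Fin n) (Fin n) ℂ}

/-- `m` is self-adjoint for `g` -/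
def SA (g m : Matrix (Fin n) (Fin n) ℂ) : Prop := (mᵀ * g).IsHermitian

theorem map_conj_mul (a b : Matrix (Fin n) (Fin n) ℂ) :
    (a * b).map conj = a.map conj * b.map conj := by
  ext i j
  simp [Matrix.mul_apply, Matrix.map_apply]

theorem transpose_cT (a : Matrix (Fin n) (Fin n) ℂ) : (aᵀ)ᴴ = a.map conj := by
  ext i j
  simp [Matrix.conjTranspose_apply]

theorem cT_map (a : Matrix (Fin n) (Fin n) ℂ) : (a.map conj)ᴴ = aᵀ := by
  ext i j
  simp [Matrix.conjTranspose_apply]

theorem sa_iff (hg : g.IsHermitian) : SA g m ↔ mᵀ * g = g * m.map conj := by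
  unfold SA Matrix.IsHermitian
  rw [Matrix.conjTranspose_mul, hg.eq, transpose_cT]
  exact ⟨fun h => h.symm, fun h => h.symm⟩

theorem kill (hg : g.PosDef) {c : Matrix (Fin n) (Fin n) ℂ} (h : cᵀ * g * c.map conj = 0) :
    c = 0 := by
  have h1 : c.map conj = 0 := by
    by_contra h2
    have h3 : ∃ j, (fun i => (c.map conj) i j) ≠ 0 := by
      by_contra h4
      push Not at h4
      refine h2 ?_
      ext i j
      exact congrFun (h4 j) i
    obtain ⟨j, hj⟩ := h3
    have h4 := hg.dotProduct_mulVec_pos hj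
    have h5 : star (fun i => (c.map conj) i j) ⬝ᵥ (g *ᵥ fun i => (c.map conj) i j) =
        (cᵀ * g * c.map conj) j j := by
      rw [Matrix.mul_assoc, Matrix.mul_apply]
      refine Finset.sum_congr rfl fun a _ => ?_
      rw [Matrix.mul_apply]
      simp [Matrix.mulVec, dotProduct, Matrix.map_apply]
    rw [h5, h] at h4
    simp at h4
  ext i j
  have h2 := congrFun (congrFun h1 i) j
  simpa [Matrix.map_apply] using h2

theorem sa_step (hg : g.PosDef) (hs : SA g m) {B : Matrix (Fin n) (Fin n) ℂ}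
    (h : m * (m * B) = 0) : m * B = 0 := by
  have h1 := (sa_iff hg.isHermitian).1 hs
  refine kill hg ?_
  rw [Matrix.transpose_mul, map_conj_mul]
  have h2 : Bᵀ * mᵀ * g * (m.map conj * B.map conj) =
      Bᵀ * g * (m * (m * B)).map conj := by
    rw [map_conj_mul, map_conj_mul, Matrix.mul_assoc Bᵀ mᵀ g, h1]
    simp only [Matrix.mul_assoc]
  rw [h2, h]
  simp

theorem sa_pow (hg : g.PosDef) (hs : SA g m) (k : ℕ) {B : Matrix (Fin n) (Fin n) ℂ}
    (h : m ^ (k + 1) * B = 0) : m * B = 0 := by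
  induction k generalizing B with
  | zero => simpa using h
  | succ k ih =>
    refine sa_step hg hs (ih ?_)
    rw [pow_succ, Matrix.mul_assoc] at h
    exact h

/-- a projection commuting with `m`, killing nothing more than `m` -/
theorem sa_proj (hg : g.IsHermitian) (hs : SA g m) {P w : Matrix (Fin n) (Fin n) ℂ}
    (h1 : P = m * w) (h3 : m * P = m) (h4 : m * P = P * m) :
    SA g P := by
  have h0 := (sa_iff hg).1 hs
  rw [sa_iff hg]
  have h6 : m * (1 - P) = 0 := by rw [mul_sub, mul_one, h3, sub_self]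
  have h7 : (1 - P) * m = 0 := by rw [sub_mul, one_mul, ← h4, h3, sub_self]
  have e1 : (1 - P)ᵀ * g * P.map conj = 0 := by
    rw [h1, map_conj_mul, ← h1]
    calc (1 - P)ᵀ * g * (m.map conj * w.map conj)
        = (1 - P)ᵀ * (g * m.map conj) * w.map conj := by simp only [Matrix.mul_assoc]
      _ = ((1 - P)ᵀ * mᵀ) * g * w.map conj := by rw [← h0]; simp only [Matrix.mul_assoc]
      _ = 0 := by rw [← Matrix.transpose_mul, h6]; simp
  have e2 : Pᵀ * g * (1 - P).map conj = 0 := by
    have h5 : (g * P.map conj)ᴴ = Pᵀ * g := by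
      rw [Matrix.conjTranspose_mul, cT_map, hg.eq]
    have h8 : ((1 - P)ᵀ * (g * P.map conj))ᴴ = (Pᵀ * g) * (1 - P).map conj := by
      rw [Matrix.conjTranspose_mul, h5, transpose_cT]
    rw [← h8, ← Matrix.mul_assoc, e1]
    simp
  have e3 : (1 - P).map conj = 1 - P.map conj := by
    ext i j
    by_cases h : i = j
    · simp [Matrix.map_apply, Matrix.one_apply, h]
    · simp [Matrix.map_apply, Matrix.one_apply, h]
  rw [e3, mul_sub, mul_one, sub_eq_zero] at e2
  rw [e2]
  rw [Matrix.transpose_sub, Matrix.transpose_one, sub_mul, sub_mul, one_mul, sub_eq_zero] at e1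
  rw [e1]

end SA

/-! ### rank and trace of idempotents -/

section Rk

variable {n : ℕ} {P : Matrix (Fin n) (Fin n) ℂ}





end Rk

/-! ### functional calculus of holomorphic endomorphisms -/

variable {n : ℕ} {M : Type} [TopologicalSpace M] {A : Atl n M}

open Polynomial in
theorem aeval_conj (J J' m : Matrix (Fin n) (Fin n) ℂ) (h : J' * J = 1) (h' : J * J' = 1)
    (p : ℂ[X]) : aeval (J * m * J') p = J * aeval m p * J' := by
  induction p using Polynomial.induction_on' with
  | add p q hp hq => rw [map_add, map_add, hp, hq, mul_add, add_mul]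
  | monomial k a =>
    rw [aeval_monomial, aeval_monomial]
    have h1 : (J * m * J') ^ k = J * m ^ k * J' := by
      induction k with
      | zero => rw [pow_zero, pow_zero, mul_one, h']
      | succ k ih =>
        rw [pow_succ, ih, pow_succ]
        calc J * m ^ k * J' * (J * m * J') = J * m ^ k * (J' * J) * m * J' := by
              simp only [Matrix.mul_assoc]
          _ = J * (m ^ k * m) * J' := by rw [h, mul_one]; simp only [Matrix.mul_assoc]
    rw [h1, Algebra.algebraMap_eq_smul_one, smul_mul_assoc, one_mul, smul_mul_assoc, one_mul,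
      Matrix.mul_smul, Matrix.smul_mul]

theorem Jm_mul {i j : A.ι} {x : M} (hx : x ∈ (A.e i).source ∩ (A.e j).source) :
    Jm A j i x * Jm A i j x = 1 ∧ Jm A i j x * Jm A j i x = 1 :=
  ⟨Jm_inv hx, Jm_inv ⟨hx.2, hx.1⟩⟩

theorem holAt_mul {i : A.ι} {a b : M → Matrix (Fin n) (Fin n) ℂ}
    (ha : ∀ r s, HolAt A i univ (fun x => a x r s)) (hb : ∀ r s, HolAt A i univ (fun x => b x r s))
    (r s : Fin n) : HolAt A i univ (fun x => (a x * b x) r s) := by
  have h1 : HolAt A i univ (fun x => ∑ t, a x r t * b x t s) :=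
    HolAt.sum _ fun t _ => (ha r t).mul (hb t s)
  exact h1

theorem holAt_pow {i : A.ι} {a : M → Matrix (Fin n) (Fin n) ℂ}
    (ha : ∀ r s, HolAt A i univ (fun x => a x r s)) (k : ℕ) :
    ∀ r s : Fin n, HolAt A i univ (fun x => (a x ^ k) r s) := by
  induction k with
  | zero =>
    intro r s
    simp only [pow_zero]
    exact holAt_const _
  | succ k ih =>
    intro r s
    simp only [pow_succ]
    exact holAt_mul ih ha r s

namespace HEnd

/-- product of holomorphic endomorphisms -/
def mul (E F : HEnd A) : HEnd A where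
  E i x := E.E i x * F.E i x
  hol i := holAt_mul (E.hol i) (F.hol i)
  tr i j x hx := by
    rw [E.tr i j x hx, F.tr i j x hx]
    calc Jm A j i x * E.E j x * Jm A i j x * (Jm A j i x * F.E j x * Jm A i j x)
        = Jm A j i x * E.E j x * (Jm A i j x * Jm A j i x) * F.E j x * Jm A i j x := by
          simp only [Matrix.mul_assoc]
      _ = Jm A j i x * (E.E j x * F.E j x) * Jm A i j x := by
          rw [(Jm_mul hx).2, mul_one]; simp only [Matrix.mul_assoc]

/-- sum of holomorphic endomorphisms -/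
def add (E F : HEnd A) : HEnd A where
  E i x := E.E i x + F.E i x
  hol i a b := (E.hol i a b).add (F.hol i a b)
  tr i j x hx := by
    rw [E.tr i j x hx, F.tr i j x hx, mul_add, add_mul]

/-- zero -/
def zero : HEnd A where
  E _ _ := 0
  hol i a b := holAt_const 0
  tr i j x hx := by simp

/-- finite sums of holomorphic endomorphisms -/
def sum {κ : Type*} (s : Finset κ) (E : κ → HEnd A) : HEnd A where
  E i x := ∑ k ∈ s, (E k).E i x
  hol i a b := by
    have h1 : HolAt A i univ fun x => ∑ k ∈ s, (E k).E i x a b :=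
      HolAt.sum _ fun k _ => (E k).hol i a b
    refine h1.congr fun x _ _ => ?_
    rw [Matrix.sum_apply]
  tr i j x hx := by
    rw [Finset.mul_sum, Finset.sum_mul]
    exact Finset.sum_congr rfl fun k _ => (E k).tr i j x hx

open Polynomial in
/-- functional calculus -/
def pol (E : HEnd A) (p : ℂ[X]) : HEnd A where
  E i x := aeval (E.E i x) p
  hol i a b := by
    have h1 : HolAt A i univ fun x => ∑ k ∈ Finset.range (p.natDegree + 1),
        p.coeff k * (E.E i x ^ k) a b :=
      HolAt.sum _ fun k _ => (holAt_pow (E.hol i) k a b).const_mul _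
    refine h1.congr fun x _ _ => ?_
    rw [aeval_eq_sum_range, Matrix.sum_apply]
    rfl
  tr i j x hx := by
    rw [E.tr i j x hx]
    exact aeval_conj _ _ _ (Jm_mul hx).2 (Jm_mul hx).1 p

theorem det_const [CompactSpace M] [ConnectedSpace M] (E : HEnd A) (t : ℂ) :
    ∃ c : ℂ, ∀ i, ∀ x ∈ (A.e i).source, (Matrix.scalar (Fin n) t - E.E i x).det = c := by
  classical
  let s : A.ι → M → ℂ := fun i x =>
    if x ∈ (A.e i).source then (Matrix.scalar (Fin n) t - E.E i x).det else 0
  have hs : IsHS (1 : LB A) univ s := by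
    refine ⟨fun i => ?_, fun i x hx => if_neg hx, fun i j x hx _ => ?_⟩
    · have h1 : HolAt A i univ fun x => (Matrix.scalar (Fin n) t - E.E i x).det := by
        have h2 : HolAt A i univ fun x => ∑ σ : Equiv.Perm (Fin n),
            ((Equiv.Perm.sign σ : ℤ) : ℂ) *
              ∏ a, (Matrix.scalar (Fin n) t - E.E i x) (σ a) a := by
          refine HolAt.sum _ fun σ _ => (HolAt.prod _ fun a _ => ?_).const_mul _
          exact (holAt_const (Matrix.scalar (Fin n) t (σ a) a)).sub (E.hol i _ _)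
        refine h2.congr fun x _ _ => ?_
        rw [Matrix.det_apply']
      refine h1.congr fun x hx _ => ?_
      simp only [s]
      rw [if_pos hx]
    · simp only [s]
      rw [if_pos hx.1, if_pos hx.2, LB.one_g, one_mul, E.tr i j x hx]
      have h1 : Matrix.scalar (Fin n) t - Jm A j i x * E.E j x * Jm A i j x =
          Jm A j i x * (Matrix.scalar (Fin n) t - E.E j x) * Jm A i j x := by
        rw [mul_sub, sub_mul, ← Matrix.scalar_commute t (fun r => Commute.all _ _) (Jm A j i x),
          Matrix.mul_assoc (Matrix.scalar (Fin n) t), (Jm_mul hx).1, mul_one]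
      rw [h1, Matrix.det_mul, Matrix.det_mul]
      have h2 : (Jm A j i x).det * (Jm A i j x).det = 1 := by
        rw [← Matrix.det_mul, (Jm_mul hx).1, Matrix.det_one]
      calc (Jm A j i x).det * (Matrix.scalar (Fin n) t - E.E j x).det * (Jm A i j x).det
          = ((Jm A j i x).det * (Jm A i j x).det) * (Matrix.scalar (Fin n) t - E.E j x).det := by
            ring
        _ = _ := by rw [h2, one_mul]
  obtain ⟨c, hc⟩ := isHS_one_const hs
  refine ⟨c, fun i x hx => ?_⟩
  rw [← hc i x hx]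
  simp only [s]
  rw [if_pos hx]

open Polynomial in
/-- the characteristic polynomial is constant -/
theorem charpoly_const [CompactSpace M] [ConnectedSpace M] (E : HEnd A) :
    ∃ χ : ℂ[X], ∀ i, ∀ x ∈ (A.e i).source, (E.E i x).charpoly = χ := by
  obtain ⟨x0⟩ := (inferInstance : Nonempty M)
  obtain ⟨i0, hi0⟩ := A.cover x0
  refine ⟨(E.E i0 x0).charpoly, fun i x hx => ?_⟩
  refine Polynomial.funext fun t => ?_
  obtain ⟨c, hc⟩ := det_const E t
  rw [Matrix.eval_charpoly, Matrix.eval_charpoly, hc i x hx, hc i0 x0 hi0]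


variable [CompactSpace M] [ConnectedSpace M]

/-- the characteristic polynomial -/
def chi (E : HEnd A) : Polynomial ℂ := E.charpoly_const.choose

theorem chi_spec (E : HEnd A) {i : A.ι} {x : M} (hx : x ∈ (A.e i).source) :
    (E.E i x).charpoly = E.chi := E.charpoly_const.choose_spec i x hx

/-- the idempotent of `E` -/
def pj (E : HEnd A) : HEnd A := E.pol (sepP E.chi)

variable (E : HEnd A) {i : A.ι} {x : M} 

theorem pj_idem (hx : x ∈ (A.e i).source) : E.pj.E i x * E.pj.E i x = E.pj.E i x :=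
  sep_idem (E.chi_spec hx)

theorem pj_pow (hx : x ∈ (A.e i).source) : E.E i x ^ sepK E.chi * (1 - E.pj.E i x) = 0 :=
  sep_pow (E.chi_spec hx)

theorem pj_comm : E.E i x * E.pj.E i x = E.pj.E i x * E.E i x :=
  sep_comm _

theorem pj_dvd (hx : x ∈ (A.e i).source) : ∃ w : Matrix (Fin n) (Fin n) ℂ,
    E.pj.E i x = E.E i x * w ∧ E.pj.E i x = w * E.E i x :=
  sep_dvd (E.chi_spec hx)

theorem pj_null_left (hx : x ∈ (A.e i).source) {t : Matrix (Fin n) (Fin n) ℂ}
    (h : t * E.E i x = 0) : t * E.pj.E i x = 0 := by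
  obtain ⟨w, h1, -⟩ := E.pj_dvd hx
  rw [h1, ← Matrix.mul_assoc, h, zero_mul]

theorem pj_null_right (hx : x ∈ (A.e i).source) {v : Fin n → ℂ}
    (h : E.E i x *ᵥ v = 0) : E.pj.E i x *ᵥ v = 0 := by
  obtain ⟨w, -, h2⟩ := E.pj_dvd hx
  rw [h2, ← Matrix.mulVec_mulVec, h, Matrix.mulVec_zero]

variable {E}

section SAdj

variable {g : Matrix (Fin n) (Fin n) ℂ} (hx : x ∈ (A.e i).source) (hg : g.PosDef)
  (hs : SA g (E.E i x))

include hx hg hs

theorem pj_mul_right : E.E i x * E.pj.E i x = E.E i x := by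
  have h1 : E.E i x ^ (sepK E.chi + 1) * (1 - E.pj.E i x) = 0 := by
    rw [pow_succ', Matrix.mul_assoc, E.pj_pow hx, mul_zero]
  have h2 := sa_pow hg hs _ h1
  rw [mul_sub, mul_one, sub_eq_zero] at h2
  exact h2.symm


/-- the idempotent is self-adjoint -/
theorem pj_sa : SA g (E.pj.E i x) := by
  obtain ⟨w, h1, -⟩ := E.pj_dvd hx
  exact sa_proj hg.isHermitian hs h1 (pj_mul_right hx hg hs) E.pj_comm

/-- the kernel does not change -/
theorem pj_ker (v : Fin n → ℂ) : E.pj.E i x *ᵥ v = 0 ↔ E.E i x *ᵥ v = 0 := by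
  refine ⟨fun h => ?_, fun h => E.pj_null_right hx h⟩
  rw [← pj_mul_right hx hg hs, ← Matrix.mulVec_mulVec, h, Matrix.mulVec_zero]


end SAdj




end HEnd

end

end Crest.Agent.R273.Spl1_404
end

-- ▼ part R273/ParI_880
section

/-!
# R273 (S0416), leaf PSPL (helper880), part I: the canonical splitting

`M` compact connected, `K : Kah A` with semipositive Ricci form.

* `CanS K`        : a splitting (helper836's `Spl`) whose projection field `P` is self-adjoint for
                    `K`, has kernel `Ann` (vectors annihilated by all holomorphic forms of positive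
                    degree) and satisfies `Ricᵀ * P = 0`
* `exists_canS`   : it exists; `CanS.unique` : it is unique
* `CanS.pos_rank` : the rank is positive if there is a nonzero form of positive degree
* `CanS.flat`     : if the rank is `n`, then the Ricci form vanishes
* `CanS.pres`, `CanS.presG` : it is preserved by holomorphic isometries
-/

set_option autoImplicit false
set_option linter.unusedSectionVars false

open Set Filter Topology Complex Matrix
open scoped ContDiff Matrix ComplexConjugate ComplexOrder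

namespace Crest.Agent.R273.ParI_880

open Crest.Agent.R275 Crest.Agent.R275.Geo Crest.Agent.R275.Core144
open Crest.Agent.R273.Defs_333 Crest.Agent.R273.HM_333 Crest.Agent.R273.Kah_333
open Crest.Agent.R273.Vol_333
open Crest.Agent.R273.HolF_578 Crest.Agent.R273.Map_835
open Crest.Agent.R273.Fock_243 Crest.Agent.R273.Spl1_404 Crest.Agent.R273.SplA_836
open Crest.Agent.R273.ParE_880 Crest.Agent.R273.ParF_880 Crest.Agent.R273.ParG_880
open Crest.Agent.R273.ParH_880

noncomputable section

variable {n : ℕ} {M N : Type} [TopologicalSpace M] [TopologicalSpace N]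
  {A : Atl n M} {B : Atl n N}

/-- a canonical splitting -/
structure CanS (K : Kah A) where
  S : Spl A
  ker : ∀ i, ∀ x ∈ (A.e i).source, ∀ u, S.P i x *ᵥ u = 0 ↔ Ann A i x u
  sa : ∀ i, ∀ x ∈ (A.e i).source, ((K.g i x)ᵀ * S.P i x).IsHermitian
  null : ∀ i, ∀ x ∈ (A.e i).source, (cur (volK K) i x)ᵀ * S.P i x = 0

theorem sa_of {g m : Matrix (Fin n) (Fin n) ℂ} : SA g m ↔ (gᵀ * m).IsHermitian := by
  unfold SA
  constructor
  · intro h
    have := h.transpose
    rwa [Matrix.transpose_mul, Matrix.transpose_transpose] at this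
  · intro h
    have := h.transpose
    rwa [Matrix.transpose_mul, Matrix.transpose_transpose] at this

/-- splitting of a finite family of forms -/
theorem exists_spl [T2Space M] [CompactSpace M] [ConnectedSpace M] (P : Part A) (K : Kah A)
    (ric : ∀ i, ∀ x ∈ (A.e i).source, (cur (volK K) i x).PosSemidef) (F : Fam A) :
    ∃ S : Spl A, (∀ i, ∀ x ∈ (A.e i).source, ∀ u, S.P i x *ᵥ u = 0 ↔
        ∀ k, iW u *ᵥ F.β k i x = 0) ∧
      (∀ i, ∀ x ∈ (A.e i).source, ((K.g i x)ᵀ * S.P i x).IsHermitian) ∧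
      ∀ i, ∀ x ∈ (A.e i).source, (cur (volK K) i x)ᵀ * S.P i x = 0 := by
  set E := EF F K P ric with hE
  have hs : ∀ i, ∀ x ∈ (A.e i).source, SA (K.g i x) (E.E i x) := fun i x hx =>
    sa_of.2 (EF_psd F K P ric hx).isHermitian
  have hsa : ∀ i, ∀ x ∈ (A.e i).source, ((K.g i x)ᵀ * E.pj.E i x).IsHermitian := fun i x hx =>
    sa_of.1 (HEnd.pj_sa hx (K.pos i x hx) (hs i x hx))
  refine ⟨splOf K E.pj (fun i x hx => E.pj_idem hx) hsa, fun i x hx u => ?_, hsa,
    fun i x hx => ?_⟩
  · rw [splOf_P, HEnd.pj_ker hx (K.pos i x hx) (hs i x hx)]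
    exact EF_ker F K P ric hx u
  · exact E.pj_null_left hx (EF_null F K P ric hx)

/-- **existence of the canonical splitting** -/
theorem exists_canS [T2Space M] [CompactSpace M] [ConnectedSpace M] (P : Part A) (K : Kah A)
    (ric : ∀ i, ∀ x ∈ (A.e i).source, (cur (volK K) i x).PosSemidef) : Nonempty (CanS K) := by
  obtain ⟨S, h1, h2, h3⟩ := exists_spl P K ric (allF A (om_fin P K ric))
  exact ⟨⟨S, fun i x hx u => (h1 i x hx u).trans (ann_iff _ i x u), h2, h3⟩⟩

namespace CanS

variable {K : Kah A}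


/-- rank zero: all vectors are annihilated -/
theorem ann_of_rk_zero (C : CanS K) (hr : C.S.IsRk 0) {i : A.ι} {x : M}
    (hx : x ∈ (A.e i).source) (u : Fin n → ℂ) : Ann A i x u := by
  rw [← C.ker i x hx]
  have h1 : rkA C.S i x = 0 := hr i x hx
  unfold rkA at h1
  have h2 := Submodule.finrank_eq_zero.1 h1
  have h3 : toC (C.S.P i x) (WithLp.toLp 2 u) = 0 := by
    have h4 : toC (C.S.P i x) (WithLp.toLp 2 u) ∈
        LinearMap.range (toC (C.S.P i x)).toLinearMap := ⟨WithLp.toLp 2 u, rfl⟩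
    rw [h2] at h4
    exact (Submodule.mem_bot ℂ).1 h4
  funext b
  have h5 := toC_apply (C.S.P i x) (WithLp.toLp 2 u) b
  rw [h3] at h5
  exact h5.symm

/-- the rank is positive if there is a form of positive degree -/
theorem pos_rank [T2Space M] [CompactSpace M] [ConnectedSpace M] (P : Part A)
    (ric : ∀ i, ∀ x ∈ (A.e i).source, (cur (volK K) i x).PosSemidef) (C : CanS K) {r : ℕ}
    (hr : C.S.IsRk r) {q : ℕ} (hq : q ≠ 0) {β : A.ι → M → FI n → ℂ} (hβ : β ∈ Om A q)
    (h0 : β ≠ 0) : 0 < r := by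
  rcases Nat.eq_zero_or_pos r with h | h
  · subst h
    obtain ⟨x⟩ := (inferInstance : Nonempty M)
    obtain ⟨i, hi⟩ := A.cover x
    exact absurd (om_zero_of_ann hi (fun u => C.ann_of_rk_zero hr hi u)
      (fun q => noZ P K ric q) hq hβ) h0
  · exact h

/-- full rank: the projection is the identity -/
theorem one_of_rk (C : CanS K) (hr : C.S.IsRk n) {i : A.ι} {x : M}
    (hx : x ∈ (A.e i).source) : C.S.P i x = 1 := by
  have h1 : rkA C.S i x = n := hr i x hx
  unfold rkA at h1
  have h2 : LinearMap.range (toC (C.S.P i x)).toLinearMap = ⊤ := by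
    apply Submodule.eq_top_of_finrank_eq
    rw [h1, finrank_euclideanSpace_fin]
  have h3 : ∀ v, toC (C.S.P i x) v = v := by
    intro v
    obtain ⟨w, hw⟩ := LinearMap.range_eq_top.1 h2 v
    have hw' : toC (C.S.P i x) w = v := hw
    rw [← hw', ← toC_mul, C.S.idem i x hx]
  ext b a
  have h4 := congrArg (fun w : Cn n => w b) (h3 (EuclideanSpace.single a 1))
  simp only [toC_apply] at h4
  simp only [PiLp.single_apply] at h4
  simpa [Matrix.one_apply] using h4

/-- full rank: the Ricci form vanishes -/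
theorem flat (C : CanS K) (hr : C.S.IsRk n) {i : A.ι} {x : M} (hx : x ∈ (A.e i).source) :
    cur (volK K) i x = 0 := by
  have h1 := C.null i x hx
  rw [C.one_of_rk hr hx, mul_one] at h1
  rw [← Matrix.transpose_transpose (cur (volK K) i x), h1, Matrix.transpose_zero]

/-- the canonical splitting is preserved by isometries -/
theorem pres {K' : Kah B} (C : CanS K) (C' : CanS K') {f : M → N} {g : N → M}
    (hf : HolMap A B f) (hg : HolMap B A g) (hgf : ∀ x, g (f x) = x)
    (hK : ∀ i j x, x ∈ (A.e i).source → f x ∈ (B.e j).source →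
      K.g i x = (Jp A B f i j x)ᵀ * K'.g j (f x) * (Jp A B f i j x).map conj) :
    Pres C.S C'.S f :=
  Pres.of_matrix hf fun i j x hx hj =>
    (inv_of_isom hf hg hgf hx hj (hK i j x hx hj) (C.sa i x hx) (C'.sa j _ hj)
      (C.S.idem i x hx) (C'.S.idem j _ hj) (C.ker i x hx) (C'.ker j _ hj)).symm

/-- the canonical splitting is preserved by groups of isometries -/
theorem presG (C : CanS K) {G : Type*} [Group G] [MulAction G M]
    (hG : ∀ g : G, HolMap A A (fun x : M => g • x))
    (hK : ∀ (g : G) i j x, x ∈ (A.e i).source → g • x ∈ (A.e j).source →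
      K.g i x = (Jp A A (fun x : M => g • x) i j x)ᵀ * K.g j (g • x) *
        (Jp A A (fun x : M => g • x) i j x).map conj) : PresG C.S G := fun g =>
  C.pres C (hG g) (hG g⁻¹) (fun x => inv_smul_smul g x) (hK g)

end CanS

end

end Crest.Agent.R273.ParI_880
end

-- ▼ part R273/AsmB_534

/-!
# R273 (S0416), Part B, global assembly (helper534): the strong induction over `MainN`

`Pol A K`   : `K` is a positive multiple of the curvature of a metric on `O(1)`;
`Equi G M`  : equicontinuous action;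
`HasSus K`  : `(M, K)` has the normal form `(ℂ^g × Y) / G` (333's `Sus`);
`NFStmt`, `SubStmt`, `LiftStmt`, `BBStmt`, `CaseCStmt`, `EquiStmt` : the inputs of the owners;
`sus_main`  : the induction step for a manifold in normal form;
`main_of`   : `Main`.
-/

set_option autoImplicit false
set_option linter.unusedSectionVars false

open Set Metric Filter Topology Complex Function
open scoped ContDiff Matrix ComplexConjugate

namespace Crest.Agent.R273.AsmB_534

open Crest.Agent.R275.Geo Crest.Agent.R275.Core144 Crest.Agent.R275.GC293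
open Crest.Agent.R275.SerG398
open Crest.Agent.R273.Defs_333 Crest.Agent.R273.HM_333 Crest.Agent.R273.Hess_333
open Crest.Agent.R273.Kah_333 Crest.Agent.R273.Vol_333 Crest.Agent.R273.FS_333
open Crest.Agent.R273.Map_835 Crest.Agent.R273.PB_835 Crest.Agent.R273.Prd_835
open Crest.Agent.R273.UCov_914 Crest.Agent.R273.Sus_333 Crest.Agent.R273.TorDefs_422
open Crest.Agent.R273.PartA_61 Crest.Agent.R273.LamN127 Crest.Agent.R273.TD3_733
open Crest.Agent.R273.HFlow3_376 Crest.Agent.R273.RMan4_798
open Crest.Agent.R273.YauDefs_635 (YauStmt)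

noncomputable section

variable {n : ℕ} {M : Type} [TopologicalSpace M] {A : Atl n M}

/-! ### polarisations -/

/-- the Kaehler form is the curvature of a line bundle and a positive multiple of it is the
curvature of a metric on `O(1)` -/
structure Pol (A : Atl n M) (K : Kah A) where
  P : ProjD A
  H : HM (lb P)
  c : ℝ
  cpos : 0 < c
  cur : ∀ i, ∀ x ∈ (A.e i).source, Kah_333.cur H i x = (c : ℂ) • K.g i x
  L : LB A
  hL : HM L
  curL : ∀ i, ∀ x ∈ (A.e i).source, Kah_333.cur hL i x = K.g i x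

theorem cur_cast {L L' : LB A} (h : HM L) (e : L = L') (i : A.ι) (x : M) :
    Kah_333.cur (MonD.HM.cast h e) i x = Kah_333.cur h i x := by
  subst e
  rfl

/-- polarisations of finite coverings -/
theorem Pol.cov [T2Space M] [CompactSpace M] [Finite A.ι] {G : Type} [Group G] (D : MonD A G)
    {F : Type} [MulAction G F] [Finite F] (PA : Part (D.atl F)) {K : Kah A} (p : Pol A K) :
    Nonempty (Pol (D.atl F) (pullKah D F K)) := by
  obtain ⟨m0, h⟩ := PCov_835.pcov_cov D F PA (D13_505.d2 PA (pullKah D F K)) p.P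
  obtain ⟨P', hP'⟩ := h (m0 + 1) (Nat.le_succ _)
  refine ⟨{ P := P'
            H := MonD.HM.cast (HM_333.pow (D.pullHM (F := F) p.H) (m0 + 1)) hP'.symm
            c := (m0 + 1 : ℕ) * p.c
            cpos := mul_pos (Nat.cast_pos.2 (Nat.succ_pos _)) p.cpos
            cur := ?_
            L := D.pullLB F p.L
            hL := D.pullHM (F := F) p.hL
            curL := fun i x hx => p.curL i.1 (D.pr x) hx.1 }⟩
  intro i x hx
  rw [cur_cast, cur_pow _ _ _ hx]
  have h1 : Kah_333.cur (D.pullHM (F := F) p.H) i x = Kah_333.cur p.H i.1 (D.pr x) := rfl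
  rw [h1, p.cur _ _ hx.1, smul_smul]
  push_cast
  rfl

/-! ### equicontinuous actions -/



/-! ### the normal form -/

/-- `(M, K)` has the normal form `(ℂ^g × Y) / G` -/
inductive HasSus : {n : ℕ} → {M : Type} → [TopologicalSpace M] → {A : Atl n M} → Kah A → Prop
  | mk {g d : ℕ} {M : Type} [TopologicalSpace M] {A : Atl (g + d) M} (K : Kah A) (G : Type)
      [CommGroup G] [Group.FG G] (D : MonD A G) [SimplyConnectedSpace (D.cov G)] (Y : Type)
      [TopologicalSpace Y] [T2Space Y] [CompactSpace Y] [SimplyConnectedSpace Y]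
      [MulAction G Y] (B : Atl d Y) [Finite B.ι] (hB : GoodA B) (pB : Nonempty (Part B))
      (S : Sus D K B) (hl : Injective S.lam) : HasSus K

/-- NF (127 + 645): a finite covering has the normal form -/
def NFStmt : Prop :=
  ∀ (n : ℕ) (M : Type) [TopologicalSpace M] [T2Space M] [CompactSpace M] [ConnectedSpace M]
    (A : Atl n M) [Finite A.ι], GoodA A → Part A → ∀ K : Kah A, (volK K).Semipos →
    ∃ (G : Type) (_ : Group G) (D : MonD A G) (F : Type) (_ : MulAction G F), Finite F ∧
      Nonempty F ∧ ConnectedSpace (D.cov F) ∧ HasSus (pullKah D F K)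

/-- the situation of the induction step -/
structure Sit {g d : ℕ} {M : Type} [TopologicalSpace M] (A : Atl (g + d) M) (K : Kah A)
    (G : Type) [CommGroup G] (D : MonD A G) (Y : Type) [TopologicalSpace Y] [MulAction G Y]
    (B : Atl d Y) where
  goodA : GoodA A
  part : Part A
  pol : Pol A K
  ric : (volK K).Semipos
  goodB : GoodA B
  partB : Part B
  S : Sus D K B
  inj : Injective S.lam






end

end Crest.Agent.R273.AsmB_534
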