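import Crest.Agent.R273.HFlow9_376
import Crest.Agent.R273.UCovC_914
import Crest.Agent.R273.Map_835

/-!
# R273 (S0416), HFLOW (helper376), file C: bridge to `HolMap` (helper835), covering spaces (helper914):
pull-back of fields and Kaehler metrics, flows on the universal cover of a field invariant under a
finite index subgroup of the deck group.
-/

set_option autoImplicit false
set_option linter.unusedSectionVars false

open Set Metric Filter Topology Complex Function
open scoped NNReal ContDiff Matrix ComplexConjugate ComplexOrder Pointwise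

namespace Crest.Agent.R273.HFlowC_376

open Crest.Agent.R275.Geo Crest.Agent.R275.Core144 Crest.Agent.R275.EDR890
open Crest.Agent.R273.Kah_333 Crest.Agent.R273.Map_835 Crest.Agent.R273.UCov_914
open Crest.Agent.R273.HFlow3_376 Crest.Agent.R273.HFlow4_376 Crest.Agent.R273.HFlow5_376
open Crest.Agent.R273.HFlow6_376 Crest.Agent.R273.HFlow7_376 Crest.Agent.R273.HFlow8_376
open Crest.Agent.R273.HFlow9_376

noncomputable section

/-! ### bridge `HolM` / `HolMap` -/

section Bridge

variable {n m : ℕ} {M M' : Type} [TopologicalSpace M] [TopologicalSpace M']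
  {A : Atl n M} {B : Atl m M'} {f : M → M'}

theorem holM_of_holMap (h : HolMap A B f) : HolM A B f := by
  intro x
  obtain ⟨i, hi⟩ := A.cover x
  obtain ⟨j, hj⟩ := B.cover (f x)
  exact ⟨h.cont.continuousAt, i, j, hi, hj, h.diffAt (mem_dm hi hj)⟩

theorem holMap_of_holM (h : HolM A B f) : HolMap A B f := by
  refine ⟨h.continuous, fun i j z hz => ?_⟩
  have h1 := h.diff (i := i) (j := j) ((A.e i).map_target hz.1) hz.2
  rw [(A.e i).right_inv hz.1] at h1
  exact h1.differentiableWithinAt

theorem holM_iff : HolM A B f ↔ HolMap A B f := ⟨holMap_of_holM, holM_of_holMap⟩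



end Bridge

/-! ### coverings -/

section Cover

variable {n : ℕ} {M : Type} [TopologicalSpace M] {A : Atl n M} {G : Type} [Group G]
  (D : MonD A G)

section Pull

variable {F F' : Type} [MulAction G F] [MulAction G F']

/-- pull-back of a holomorphic vector field to a covering -/
def pullV (V : HVF A) : HVF (D.atl F) where
  X p e := V.X p.1 (D.pr e)
  hol p := V.hol p.1
  tr p q e he := V.tr p.1 q.1 (D.pr e) ⟨he.1.1, he.2.1⟩



theorem holM_pr : HolM (D.atl F) A (D.pr (F := F)) := by
  refine holM_of_holMap ⟨D.continuous_pr, fun p j => ?_⟩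
  exact (A.holo p.1 j).mono fun z hz => ⟨hz.1, hz.2⟩

theorem related_pr (V : HVF A) : Related (pullV D V : HVF (D.atl F)) V (D.pr (F := F)) := by
  refine ⟨holM_pr D, fun p j e hp hj => ?_⟩
  exact (V.tr p.1 j (D.pr e) ⟨hp.1, hj⟩).symm





theorem tm_pr {p : (D.atl F).ι} {j : A.ι} (e : D.cov F) :
    tm (D.atl F) A (D.pr (F := F)) p j e = tm A A id p.1 j (D.pr e) := rfl

/-- pull-back of a Kaehler metric -/
def pullK (K : Kah A) : Kah (D.atl F) where
  g p e := K.g p.1 (D.pr e)
  sm p a b := K.sm p.1 a b
  pos p e he := K.pos p.1 (D.pr e) he.1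
  tr p q e he := K.tr p.1 q.1 (D.pr e) ⟨he.1.1, he.2.1⟩
  closed p z hz a b c := K.closed p.1 z hz a b c
  closed' p z hz a b c := K.closed' p.1 z hz a b c


theorem isom_pr (K : Kah A) : Isom (pullK D K : Kah (D.atl F)) K (D.pr (F := F)) := by
  refine ⟨holM_pr D, fun p j e hp hj v w => ?_⟩
  rw [tm_pr]
  exact hf_tr K hp.1 hj v w


end Pull

/-! ### the deck group -/

/-- deck transformation as a homeomorphism -/
def deckH (g : G) : D.cov G ≃ₜ D.cov G := Homeomorph.smul g

@[simp] theorem deckH_apply (g : G) (e : D.cov G) : deckH D g e = g • e := rfl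

@[simp] theorem deckH_symm (g : G) (e : D.cov G) : (deckH D g).symm e = g⁻¹ • e := rfl










end Cover

end

end Crest.Agent.R273.HFlowC_376
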