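import Mathlib
import Crest.Agent.R273.TorG_522
import Crest.Agent.R273.PCovA_835
import Crest.Agent.R273.FlatSec_534
import Crest.Agent.R273.Kah_333

-- ▼ part R273/TorC_522
section

/-!
# R273 (S0416), torus step BP-T (helper522): T1-C, commuting lifts and characters

* `comm_pow`          : `Φ Ψ = c Ψ Φ` on a finite dimensional space ⇒ `Φ ^ dim` commutes with `Ψ`
* `exists_char_basis` : a unitary representation of an abelian group on a finite dimensional space
                        has an orthonormal basis of common eigenvectors (characters)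
* `exists_char_of_proj` : unitary lifts of commuting automorphisms: after a power, characters
-/

set_option autoImplicit false
set_option linter.unusedSectionVars false

open Finset Module
open scoped ComplexConjugate

namespace Crest.Agent.R273.TorC_522

noncomputable section

section commpow

variable {V : Type*} [AddCommGroup V] [Module ℂ V] [FiniteDimensional ℂ V]

theorem pow_finrank_eq_one (Φ Ψ : V ≃ₗ[ℂ] V) (c : ℂ)
    (h : ∀ v, Φ (Ψ v) = c • Ψ (Φ v)) : c ^ finrank ℂ V = 1 := by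
  have h1 : (Φ : V →ₗ[ℂ] V) ∘ₗ (Ψ : V →ₗ[ℂ] V) = c • ((Ψ : V →ₗ[ℂ] V) ∘ₗ (Φ : V →ₗ[ℂ] V)) := by
    ext v; exact h v
  have h2 := congrArg LinearMap.det h1
  rw [LinearMap.det_smul, LinearMap.det_comp, LinearMap.det_comp] at h2
  have hΦ : LinearMap.det (Φ : V →ₗ[ℂ] V) ≠ 0 := (LinearEquiv.isUnit_det' Φ).ne_zero
  have hΨ : LinearMap.det (Ψ : V →ₗ[ℂ] V) ≠ 0 := (LinearEquiv.isUnit_det' Ψ).ne_zero
  have h3 : (c ^ finrank ℂ V - 1) * (LinearMap.det (Φ : V →ₗ[ℂ] V) *
      LinearMap.det (Ψ : V →ₗ[ℂ] V)) = 0 := by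
    linear_combination -h2
  rcases mul_eq_zero.1 h3 with h4 | h4
  · exact sub_eq_zero.1 h4
  · exact absurd h4 (mul_ne_zero hΦ hΨ)

theorem pow_comm_smul (Φ Ψ : V ≃ₗ[ℂ] V) (c : ℂ)
    (h : ∀ v, Φ (Ψ v) = c • Ψ (Φ v)) (k : ℕ) (v : V) :
    (Φ ^ k) (Ψ v) = c ^ k • Ψ ((Φ ^ k) v) := by
  induction k generalizing v with
  | zero => simp
  | succ k ih =>
    rw [pow_succ, LinearEquiv.mul_apply, h, map_smul, ih, LinearEquiv.mul_apply, smul_smul,
      pow_succ, mul_comm]

/-- T1: lifts which commute up to scalars commute after taking the power `dim V` -/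
theorem comm_pow (Φ Ψ : V ≃ₗ[ℂ] V) (c : ℂ)
    (h : ∀ v, Φ (Ψ v) = c • Ψ (Φ v)) (v : V) :
    (Φ ^ finrank ℂ V) (Ψ v) = Ψ ((Φ ^ finrank ℂ V) v) := by
  rw [pow_comm_smul Φ Ψ c h, pow_finrank_eq_one Φ Ψ c h, one_smul]

end commpow

section charbasis

variable {V : Type*} [NormedAddCommGroup V] [InnerProductSpace ℂ V] [FiniteDimensional ℂ V]
variable {G : Type*} [CommGroup G] (Φ : G →* (V ≃ₗᵢ[ℂ] V))

/-- invariant subspace -/
def Inv (W : Submodule ℂ V) : Prop := ∀ g, ∀ w ∈ W, Φ g w ∈ W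

theorem phi_comm (g h : G) (v : V) : Φ g (Φ h v) = Φ h (Φ g v) := by
  have h1 : Φ (g * h) = Φ (h * g) := by rw [mul_comm]
  rw [map_mul, map_mul] at h1
  exact congrArg (fun T : V ≃ₗᵢ[ℂ] V => T v) h1

theorem exists_common {W : Submodule ℂ V} (hW : Inv Φ W) (hne : W ≠ ⊥) :
    ∃ v ∈ W, v ≠ 0 ∧ ∀ g, ∃ z : ℂ, Φ g v = z • v := by
  classical
  let P : ℕ → Prop := fun k => ∃ U : Submodule ℂ V, U ≠ ⊥ ∧ U ≤ W ∧ Inv Φ U ∧ finrank ℂ U = k
  have hex : ∃ k, P k := ⟨_, W, hne, le_rfl, hW, rfl⟩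
  obtain ⟨U, hU0, hUW, hUi, hUk⟩ := Nat.find_spec hex
  have hmin : ∀ k, P k → Nat.find hex ≤ k := fun k hk => Nat.find_min' hex hk
  have hUn : Nontrivial U := (Submodule.nontrivial_iff_ne_bot).2 hU0
  have hscal : ∀ g, ∃ z : ℂ, ∀ w ∈ U, Φ g w = z • w := by
    intro g
    have hinv : ∀ w ∈ U, ((Φ g).toLinearEquiv : V →ₗ[ℂ] V) w ∈ U := fun w hw => hUi g w hw
    obtain ⟨z, hz⟩ := Module.End.exists_eigenvalue
      (((Φ g).toLinearEquiv : V →ₗ[ℂ] V).restrict hinv)
    obtain ⟨v, hv⟩ := hz.exists_hasEigenvector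
    have h1 : Φ g (v : V) = z • (v : V) := by
      have := congrArg Subtype.val hv.apply_eq_smul
      simpa using this
    refine ⟨z, ?_⟩
    let E : Submodule ℂ V := U ⊓ Module.End.eigenspace ((Φ g).toLinearEquiv : V →ₗ[ℂ] V) z
    have hE : ∀ w, w ∈ E ↔ w ∈ U ∧ Φ g w = z • w := fun w => by
      rw [Submodule.mem_inf, Module.End.mem_eigenspace_iff]; rfl
    have hE0 : E ≠ ⊥ := by
      intro hbot
      have h2 : (v : V) ∈ E := (hE _).2 ⟨v.2, h1⟩
      rw [hbot, Submodule.mem_bot] at h2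
      exact hv.2 (Subtype.ext h2)
    have hEi : Inv Φ E := by
      intro h w hw
      obtain ⟨hw1, hw2⟩ := (hE w).1 hw
      refine (hE _).2 ⟨hUi h w hw1, ?_⟩
      rw [phi_comm, hw2, map_smul]
    have hEU : E ≤ U := inf_le_left
    have hle : finrank ℂ U ≤ finrank ℂ E := by
      rw [hUk]
      exact hmin _ ⟨E, hE0, hEU.trans hUW, hEi, rfl⟩
    have hEeq : E = U := Submodule.eq_of_le_of_finrank_le hEU hle
    intro w hw
    rw [← hEeq] at hw
    exact ((hE w).1 hw).2
  obtain ⟨v, hv⟩ := exists_ne (0 : U)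
  refine ⟨v, hUW v.2, fun h => hv (Subtype.ext h), fun g => ?_⟩
  obtain ⟨z, hz⟩ := hscal g
  exact ⟨z, hz v v.2⟩

theorem exists_family : ∀ (k : ℕ) (W : Submodule ℂ V), Inv Φ W → finrank ℂ W = k →
    ∃ e : Fin k → V, Orthonormal ℂ e ∧ ∀ i, e i ∈ W ∧ ∀ g, ∃ z : ℂ, Φ g (e i) = z • e i := by
  intro k
  induction k with
  | zero =>
    intro W _ _
    exact ⟨fun i => i.elim0, ⟨fun i => i.elim0, fun i => i.elim0⟩, fun i => i.elim0⟩
  | succ k ih =>
    intro W hW hk
    have hne : W ≠ ⊥ := by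
      intro h0
      rw [h0, finrank_bot] at hk
      omega
    obtain ⟨v0, hv0W, hv0, hv0g⟩ := exists_common Φ hW hne
    -- normalise
    set v : V := ((‖v0‖ : ℂ)⁻¹) • v0 with hv
    have hnorm : ‖v‖ = 1 := by
      rw [hv, norm_smul, norm_inv, Complex.norm_real, norm_norm,
        inv_mul_cancel₀ (norm_ne_zero_iff.2 hv0)]
    have hvW : v ∈ W := W.smul_mem _ hv0W
    have hvg : ∀ g, ∃ z : ℂ, Φ g v = z • v := by
      intro g
      obtain ⟨z, hz⟩ := hv0g g
      exact ⟨z, by rw [hv, map_smul, hz, smul_comm]⟩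
    set W' : Submodule ℂ V := (ℂ ∙ v)ᗮ ⊓ W with hW'
    have hvne : v ≠ 0 := by
      intro h0
      rw [h0, norm_zero] at hnorm
      exact zero_ne_one hnorm
    have hle : (ℂ ∙ v) ≤ W := (Submodule.span_singleton_le_iff_mem v W).2 hvW
    have hfr : finrank ℂ W' = k := by
      have h1 := Submodule.finrank_add_inf_finrank_orthogonal hle
      rw [finrank_span_singleton hvne, hk] at h1
      have h2 : finrank ℂ W' = finrank ℂ ((ℂ ∙ v)ᗮ ⊓ W : Submodule ℂ V) := rfl
      omega
    have hinv : Inv Φ W' := by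
      intro g w hw
      refine ⟨?_, hW g w hw.2⟩
      obtain ⟨z, hz⟩ := hvg g
      have hz1 : ‖z‖ = 1 := by
        have h1 : ‖Φ g v‖ = ‖z • v‖ := congrArg norm hz
        rw [LinearIsometryEquiv.norm_map, norm_smul z v, hnorm, mul_one] at h1
        exact h1.symm
      have hz0 : z ≠ 0 := fun h0 => by rw [h0, norm_zero] at hz1; exact zero_ne_one hz1
      rw [SetLike.mem_coe, Submodule.mem_orthogonal_singleton_iff_inner_right]
      have h1 : inner ℂ v w = 0 :=
        (Submodule.mem_orthogonal_singleton_iff_inner_right).1 hw.1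
      have h2 : inner ℂ (Φ g v) (Φ g w) = 0 := by
        rw [LinearIsometryEquiv.inner_map_map, h1]
      rw [hz, inner_smul_left] at h2
      rcases mul_eq_zero.1 h2 with h3 | h3
      · exact absurd ((map_eq_zero _).1 h3) hz0
      · exact h3
    obtain ⟨e, heo, he⟩ := ih W' hinv hfr
    refine ⟨Fin.cons v e, ?_, ?_⟩
    · rw [orthonormal_iff_ite]
      intro i j
      have hve : ∀ j, inner ℂ v (e j) = 0 := fun j =>
        (Submodule.mem_orthogonal_singleton_iff_inner_right).1 (he j).1.1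
      refine Fin.cases ?_ (fun i => ?_) i
      · refine Fin.cases ?_ (fun j => ?_) j
        · simp [hnorm, inner_self_eq_norm_sq_to_K]
        · rw [Fin.cons_zero, Fin.cons_succ, hve, if_neg (Fin.succ_ne_zero j).symm]
      · refine Fin.cases ?_ (fun j => ?_) j
        · rw [Fin.cons_zero, Fin.cons_succ, if_neg (Fin.succ_ne_zero i), ← inner_conj_symm, hve,
            map_zero]
        · rw [Fin.cons_succ, Fin.cons_succ, (orthonormal_iff_ite.1 heo) i j]
          simp [Fin.succ_inj]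
    · intro i
      refine Fin.cases ?_ (fun i => ?_) i
      · exact ⟨hvW, hvg⟩
      · exact ⟨(he i).1.2, (he i).2⟩

/-- orthonormal basis of common eigenvectors -/
theorem exists_basis : ∃ b : OrthonormalBasis (Fin (finrank ℂ V)) ℂ V,
    ∀ i g, ∃ z : ℂ, Φ g (b i) = z • b i := by
  obtain ⟨e, heo, he⟩ := exists_family Φ (finrank ℂ V) ⊤ (fun _ _ _ => trivial) (finrank_top ℂ V)
  have hspan : ⊤ ≤ Submodule.span ℂ (Set.range e) := by
    have h1 : finrank ℂ (Submodule.span ℂ (Set.range e)) = finrank ℂ V := by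
      rw [finrank_span_eq_card heo.linearIndependent, Fintype.card_fin]
    exact (Submodule.eq_top_of_finrank_eq h1).ge
  refine ⟨OrthonormalBasis.mk heo hspan, fun i g => ?_⟩
  rw [OrthonormalBasis.coe_mk]
  exact (he i).2 g


end charbasis

end

end Crest.Agent.R273.TorC_522
end

-- ▼ part R273/LiftA_522
section

/-!
# R273 (S0416), torus step BP-T, T1 (helper522): projective representations of abelian groups

* `ker_sq`, `maxGen_eq` : isometries of a definite seminorm have no Jordan blocks;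
* `exists_joint`        : joint eigenbasis of a commuting family of such isometries;
* `proj_rep`            : a projective isometric representation of a finitely generated abelian
  group is diagonal with torsion free ratios of characters on the subgroup of `N`-th powers;
* `finiteIndex_range_pow`.
-/

set_option autoImplicit false
set_option linter.unusedSectionVars false

open Module Set

namespace Crest.Agent.R273.LiftA_522

noncomputable section

section joint

variable {V : Type*} [AddCommGroup V] [Module ℂ V] (p : Seminorm ℂ V)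
  (hp : ∀ v, p v = 0 → v = 0)

include hp

/-- an isometry of a definite seminorm has no Jordan block -/
theorem ker_sq (T : End ℂ V) (hT : ∀ v, p (T v) = p v) (μ : ℂ) {v : V}
    (h : T (T v - μ • v) = μ • (T v - μ • v)) : T v - μ • v = 0 := by
  set w := T v - μ • v with hw
  by_contra hne
  have hpw : 0 < p w := lt_of_le_of_ne (apply_nonneg p w) (fun h0 => hne (hp w h0.symm))
  have hμ : ‖μ‖ = 1 := by
    have h1 := hT w
    rw [h, map_smul_eq_mul] at h1
    exact mul_right_cancel₀ hpw.ne' (by rw [h1, one_mul])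
  have hμ0 : μ ≠ 0 := by
    intro h0
    rw [h0, norm_zero] at hμ
    exact zero_ne_one hμ
  have hTv : T v = μ • v + w := by rw [hw]; abel
  have hpow : ∀ n : ℕ, (T ^ n) v = μ ^ n • v + ((n : ℂ) * (μ ^ n / μ)) • w := by
    intro n
    induction n with
    | zero => simp
    | succ n ih =>
      rw [pow_succ', Module.End.mul_apply, ih, map_add, map_smul, map_smul, hTv, h, smul_add,
        smul_smul, smul_smul, ← pow_succ, add_assoc, ← add_smul]
      congr 2
      push_cast
      field_simp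
      ring
  have hiso : ∀ n : ℕ, p ((T ^ n) v) = p v := by
    intro n
    induction n with
    | zero => simp
    | succ n ih => rw [pow_succ', Module.End.mul_apply, hT, ih]
  have hbd : ∀ n : ℕ, (n : ℝ) * p w ≤ 2 * p v := by
    intro n
    have h1 : ((n : ℂ) * (μ ^ n / μ)) • w = (T ^ n) v - μ ^ n • v := by
      rw [hpow n]; abel
    have h2 := congrArg p h1
    rw [map_smul_eq_mul, norm_mul, norm_div, norm_pow, hμ, one_pow, div_one, mul_one,
      Complex.norm_natCast] at h2
    rw [h2]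
    calc p ((T ^ n) v - μ ^ n • v) ≤ p ((T ^ n) v) + p (μ ^ n • v) := map_sub_le_add p _ _
      _ = 2 * p v := by
        rw [hiso, map_smul_eq_mul, norm_pow, hμ, one_pow, one_mul]; ring
  obtain ⟨n, hn⟩ := exists_nat_gt (2 * p v / p w)
  rw [div_lt_iff₀ hpw] at hn
  exact absurd (hbd n) (not_le.2 hn)

theorem maxGen_le (T : End ℂ V) (hT : ∀ v, p (T v) = p v) (μ : ℂ) {v : V}
    (hv : v ∈ T.maxGenEigenspace μ) : T v = μ • v := by
  rw [Module.End.mem_maxGenEigenspace] at hv
  obtain ⟨k, hk⟩ := hv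
  have key : ∀ (k : ℕ), ((T - μ • 1) ^ (k + 1)) v = 0 → (T - μ • 1) v = 0 := by
    intro k
    induction k with
    | zero => intro h; simpa using h
    | succ k ih =>
      intro h
      apply ih
      set u := ((T - μ • 1) ^ k) v with hu
      have h1 : (T - μ • 1) ((T - μ • 1) u) = 0 := by
        rw [pow_succ', pow_succ', Module.End.mul_apply, Module.End.mul_apply] at h
        exact h
      have h2 : T u - μ • u = 0 := by
        apply ker_sq p hp T hT μ
        have h3 : (T - μ • 1) u = T u - μ • u := by simp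
        rw [h3] at h1
        have h4 : (T - μ • 1) (T u - μ • u) = T (T u - μ • u) - μ • (T u - μ • u) := by simp
        rw [h4] at h1
        exact sub_eq_zero.1 h1
      rw [pow_succ', Module.End.mul_apply]
      have h3 : (T - μ • 1) u = T u - μ • u := by simp
      rw [h3]
      exact h2
  have h1 : (T - μ • 1) v = 0 := by
    rcases k with _ | k
    · have : v = 0 := by simpa using hk
      rw [this, map_zero]
    · exact key k hk
  have h3 : (T - μ • 1) v = T v - μ • v := by simp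
  rw [h3] at h1
  exact sub_eq_zero.1 h1

/-- joint eigenbasis -/
theorem exists_joint [FiniteDimensional ℂ V] {α : Type*} (T : α → End ℂ V)
    (hT : ∀ a v, p (T a v) = p v) (hc : ∀ a b, Commute (T a) (T b)) :
    ∃ b : Basis (Fin (finrank ℂ V)) ℂ V, ∀ k a, ∃ z : ℂ, T a (b k) = z • b k := by
  classical
  have h1 := Module.End.iSup_iInf_maxGenEigenspace_eq_top_of_iSup_maxGenEigenspace_eq_top_of_commute
    T (fun a b _ => hc a b) (fun a => Module.End.iSup_maxGenEigenspace_eq_top (T a))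
  set S : Set V := {v | ∀ a, ∃ z : ℂ, T a v = z • v} with hS
  have hspan : ⊤ ≤ Submodule.span ℂ S := by
    rw [← h1]
    refine iSup_le fun χ => ?_
    intro v hv
    rw [Submodule.mem_iInf] at hv
    exact Submodule.subset_span fun a => ⟨χ a, maxGen_le p hp (T a) (hT a) (χ a) (hv a)⟩
  set b0 := Basis.ofSpan hspan with hb0
  have hfin : Fintype ((linearIndepOn_empty ℂ id).extend (empty_subset S)) :=
    FiniteDimensional.fintypeBasisIndex b0
  have hcard : Fintype.card ((linearIndepOn_empty ℂ id).extend (empty_subset S)) =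
      finrank ℂ V := (finrank_eq_card_basis b0).symm
  refine ⟨b0.reindex (Fintype.equivFinOfCardEq hcard), fun k a => ?_⟩
  rw [Basis.reindex_apply]
  have h2 : b0 ((Fintype.equivFinOfCardEq hcard).symm k) ∈ S :=
    Basis.ofSpan_subset hspan ⟨_, rfl⟩
  exact h2 a

end joint

/-! ### projective representations -/

/-- a projective isometric representation of the commutative group `G`: `Lf g φ` means that `φ`
is a lift of `g` -/
structure PRep (V : Type*) [AddCommGroup V] [Module ℂ V] (G : Type*) [CommGroup G] where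
  p : Seminorm ℂ V
  hp : ∀ v, p v = 0 → v = 0
  Lf : G → End ℂ V → Prop
  ex : ∀ g, ∃ φ, Lf g φ
  one : Lf 1 1
  mul : ∀ {g g' φ φ'}, Lf g φ → Lf g' φ' → Lf (g * g') (φ * φ')
  uniq : ∀ {g φ φ'}, Lf g φ → Lf g φ' → ∃ u : ℂ, ‖u‖ = 1 ∧ φ = u • φ'
  iso : ∀ {g φ}, Lf g φ → ∀ v, p (φ v) = p v

namespace PRep

variable {V : Type*} [AddCommGroup V] [Module ℂ V] {G : Type*} [CommGroup G] (R : PRep V G)

theorem pow {g : G} {φ : End ℂ V} (h : R.Lf g φ) (m : ℕ) : R.Lf (g ^ m) (φ ^ m) := by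
  induction m with
  | zero => simpa using R.one
  | succ m ih => rw [pow_succ, pow_succ]; exact R.mul ih h

/-- the restriction to a subgroup -/
def res (H : Subgroup G) : PRep V H where
  p := R.p
  hp := R.hp
  Lf g φ := R.Lf g φ
  ex g := R.ex g
  one := R.one
  mul h h' := R.mul h h'
  uniq h h' := R.uniq h h'
  iso h := R.iso h

variable [FiniteDimensional ℂ V]

/-- the powers of the lifts commute -/
theorem exists_basis :
    ∃ b : Basis (Fin (finrank ℂ V)) ℂ V, ∀ g φ,
      g ∈ (powMonoidHom (finrank ℂ V) : G →* G).range → R.Lf g φ →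
      ∀ k, ∃ z : ℂ, ‖z‖ = 1 ∧ φ (b k) = z • b k := by
  choose φ hφ using R.ex
  have hinj : ∀ g, Function.Injective (φ g) := by
    intro g
    rw [injective_iff_map_eq_zero]
    intro v hv
    apply R.hp
    rw [← R.iso (hφ g) v, hv, map_zero]
  set Φ : G → (V ≃ₗ[ℂ] V) := fun g => LinearEquiv.ofInjectiveEndo (φ g) (hinj g) with hΦ
  have hΦv : ∀ g v, Φ g v = φ g v := fun g v => rfl
  have hpow : ∀ g (m : ℕ) v, (Φ g ^ m) v = (φ g ^ m) v := by
    intro g m
    induction m with
    | zero => intro v; rfl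
    | succ m ih => intro v; rw [pow_succ, pow_succ, LinearEquiv.mul_apply, ih]; rfl
  have hcomm : ∀ g g' v, (φ g ^ finrank ℂ V) (φ g' v) = φ g' ((φ g ^ finrank ℂ V) v) := by
    intro g g' v
    have h1 := R.mul (hφ g) (hφ g')
    have h2 := R.mul (hφ g') (hφ g)
    rw [mul_comm g' g] at h2
    obtain ⟨u, _, hu⟩ := R.uniq h1 h2
    have h3 := TorC_522.comm_pow (Φ g) (Φ g') u (fun w => by
      have := congrArg (fun f : End ℂ V => f w) hu
      exact this) v
    rw [hpow] at h3
    rw [← hpow g _ v]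
    exact h3
  have hc : ∀ g g', Commute (φ g ^ finrank ℂ V) (φ g' ^ finrank ℂ V) := by
    intro g g'
    have h1 : Commute (φ g ^ finrank ℂ V) (φ g') := LinearMap.ext fun v => hcomm g g' v
    exact h1.pow_right _
  have hiso : ∀ g v, R.p ((φ g ^ finrank ℂ V) v) = R.p v := fun g v =>
    R.iso (R.pow (hφ g) _) v
  obtain ⟨b, hb⟩ := exists_joint R.p R.hp (fun g => φ g ^ finrank ℂ V) hiso hc
  refine ⟨b, ?_⟩
  rintro _ ψ ⟨g, rfl⟩ hψ k
  have h1 : R.Lf (g ^ finrank ℂ V) (φ g ^ finrank ℂ V) := R.pow (hφ g) _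
  obtain ⟨u, hu, hu'⟩ := R.uniq hψ h1
  obtain ⟨z, hz⟩ := hb k g
  have h2 : ψ (b k) = (u * z) • b k := by
    rw [hu', LinearMap.smul_apply, hz, smul_smul]
  refine ⟨u * z, ?_, h2⟩
  have h3 := R.iso hψ (b k)
  rw [h2, map_smul_eq_mul] at h3
  have h4 : R.p (b k) ≠ 0 := fun h0 => b.ne_zero k (R.hp _ h0)
  exact mul_right_cancel₀ h4 (by rw [h3, one_mul])

/-- ratios of characters, before making them torsion free -/
theorem exists_char (hV : 0 < finrank ℂ V) (b : Basis (Fin (finrank ℂ V)) ℂ V)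
    (hb : ∀ g φ, R.Lf g φ → ∀ k, ∃ z : ℂ, ‖z‖ = 1 ∧ φ (b k) = z • b k) :
    ∃ χ : Fin (finrank ℂ V) → (G →* Circle), ∀ g φ, R.Lf g φ →
      ∃ c : ℂ, c ≠ 0 ∧ ∀ k, φ (b k) = (c * χ k g) • b k := by
  choose φ hφ using R.ex
  have h0 := fun g k => hb g (φ g) (hφ g) k
  choose z hz1 hz using h0
  set k0 : Fin (finrank ℂ V) := ⟨0, hV⟩ with hk0
  have hzne : ∀ g k, z g k ≠ 0 := fun g k h => by
    have := hz1 g k
    rw [h, norm_zero] at this
    exact zero_ne_one this
  have hbs : ∀ k (a c : ℂ), a • b k = c • b k → a = c := fun k a c h =>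
    smul_left_injective ℂ (b.ne_zero k) h
  -- uniqueness
  have huni : ∀ g ψ, R.Lf g ψ → ∃ u : ℂ, ‖u‖ = 1 ∧ ∀ k, ψ (b k) = (u * z g k) • b k := by
    intro g ψ hψ
    obtain ⟨u, hu, hu'⟩ := R.uniq hψ (hφ g)
    refine ⟨u, hu, fun k => ?_⟩
    rw [hu', LinearMap.smul_apply, hz, smul_smul]
  have hone : ∀ k, z 1 k = z 1 k0 := by
    obtain ⟨u, hu, hu'⟩ := huni 1 1 R.one
    have h1 : ∀ k, u * z 1 k = 1 := fun k => (hbs k _ _ (by
      rw [← hu' k, one_smul, Module.End.one_apply]))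
    have hune : u ≠ 0 := fun h => by rw [h, norm_zero] at hu; exact zero_ne_one hu
    intro k
    exact mul_left_cancel₀ hune ((h1 k).trans (h1 k0).symm)
  have hmul : ∀ g g', ∃ u : ℂ, u ≠ 0 ∧ ∀ k, z g k * z g' k = u * z (g * g') k := by
    intro g g'
    obtain ⟨u, hu, hu'⟩ := huni (g * g') _ (R.mul (hφ g) (hφ g'))
    refine ⟨u, fun h => by rw [h, norm_zero] at hu; exact zero_ne_one hu, fun k => ?_⟩
    apply hbs k
    rw [← hu' k, Module.End.mul_apply, hz, map_smul, hz, smul_smul, mul_comm]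
  set χ : Fin (finrank ℂ V) → (G →* Circle) := fun k =>
    { toFun := fun g => ⟨z g k / z g k0, by
        rw [Submonoid.unitSphere, Submonoid.mem_mk, Subsemigroup.mem_mk, mem_sphere_zero_iff_norm, norm_div, hz1, hz1, div_one]⟩
      map_one' := by
        apply Circle.ext
        show z 1 k / z 1 k0 = 1
        rw [hone k, div_self (hzne _ _)]
      map_mul' := by
        intro g g'
        apply Circle.ext
        show z (g * g') k / z (g * g') k0 = (z g k / z g k0) * (z g' k / z g' k0)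
        obtain ⟨u, hu, hu'⟩ := hmul g g'
        rw [div_mul_div_comm, hu' k, hu' k0, mul_div_mul_left _ _ hu] } with hχ
  refine ⟨χ, fun g ψ hψ => ?_⟩
  obtain ⟨u, hu, hu'⟩ := huni g ψ hψ
  refine ⟨u * z g k0, mul_ne_zero (fun h => by rw [h, norm_zero] at hu; exact zero_ne_one hu)
    (hzne _ _), fun k => ?_⟩
  rw [hu' k]
  congr 1
  show u * z g k = u * z g k0 * (z g k / z g k0)
  field_simp [hzne g k0]

end PRep

/-- the exponent of the torsion of a finitely generated group of characters -/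
theorem exists_exp {G : Type*} [CommGroup G] (W : Subgroup (G →* Circle)) (hfg : W.FG) :
    ∃ M : ℕ, 0 < M ∧ ∀ w ∈ W, ∀ m : ℕ, m ≠ 0 → (w ^ M) ^ m = 1 → w ^ M = 1 := by
  have h1 : (Subgroup.toAddSubgroup W).FG := (Subgroup.fg_iff_add_fg W).1 hfg
  have h2 : (AddSubgroup.toIntSubmodule (Subgroup.toAddSubgroup W)).FG := by
    rw [Submodule.fg_iff_addSubgroup_fg, AddSubgroup.toIntSubmodule_toAddSubgroup]
    exact h1
  obtain ⟨M, hM, h⟩ := TorG_522.exists_pow_torsionFree _ h2
  refine ⟨M, hM, fun w hw m hm hwm => ?_⟩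
  have h3 := h (Additive.ofMul w) hw (m : ℤ) (by exact_mod_cast hm) (by
    rw [natCast_zsmul]
    exact congrArg Additive.ofMul hwm)
  exact h3

/-- the subgroup of `N`-th powers has finite index -/
theorem finiteIndex_range_pow (G : Type*) [CommGroup G] [Group.FG G] {N : ℕ} (hN : 0 < N) :
    ((powMonoidHom N : G →* G).range).FiniteIndex := by
  have h1 : IsMulTorsion (G ⧸ (powMonoidHom N : G →* G).range) := by
    intro q
    obtain ⟨g, rfl⟩ := QuotientGroup.mk_surjective q
    rw [isOfFinOrder_iff_pow_eq_one]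
    refine ⟨N, hN, ?_⟩
    rw [← QuotientGroup.mk_pow, QuotientGroup.eq_one_iff]
    exact ⟨g, rfl⟩
  have h2 : Finite (G ⧸ (powMonoidHom N : G →* G).range) :=
    CommGroup.finite_of_fg_isMulTorsion _ h1
  exact Subgroup.finiteIndex_of_finite_quotient

/-- **T1, algebra**: a projective isometric representation of a finitely generated abelian group
is diagonal on the subgroup of `N`-th powers, with a torsion free group of ratios -/
theorem PRep.main {V : Type*} [AddCommGroup V] [Module ℂ V] {G : Type*} [CommGroup G]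
    (R : PRep V G) [FiniteDimensional ℂ V] (hV : 0 < finrank ℂ V) :
    ∃ N : ℕ, 0 < N ∧ ∃ (b : Basis (Fin (finrank ℂ V)) ℂ V)
      (χ : Fin (finrank ℂ V) → ((powMonoidHom N : G →* G).range →* Circle)),
      (∀ (γ : (powMonoidHom N : G →* G).range) φ, R.Lf γ φ →
        ∃ c : ℂ, c ≠ 0 ∧ ∀ k, φ (b k) = (c * χ k γ) • b k) ∧
      (∀ w ∈ Subgroup.closure {w : (powMonoidHom N : G →* G).range →* Circle |
        ∃ k l, w = χ k / χ l}, ∀ m : ℕ, m ≠ 0 → w ^ m = 1 → w = 1) := by
  classical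
  have hB := R.exists_basis
  obtain ⟨b, hb⟩ := hB
  set H0 : Subgroup G := (powMonoidHom (finrank ℂ V) : G →* G).range with hH0
  obtain ⟨χ0, hχ0⟩ := (R.res H0).exists_char hV b (fun g φ hφ k => hb g φ g.2 hφ k)
  set S0 : Set (H0 →* Circle) := {w | ∃ k l, w = χ0 k / χ0 l} with hS0
  have hS0f : S0.Finite := by
    refine (Set.finite_range fun q : Fin (finrank ℂ V) × Fin (finrank ℂ V) => χ0 q.1 / χ0 q.2).subset ?_
    rintro _ ⟨k, l, rfl⟩
    exact ⟨(k, l), rfl⟩
  have hfg : (Subgroup.closure S0).FG := by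
    rw [Subgroup.fg_iff]
    exact ⟨S0, rfl, hS0f⟩
  obtain ⟨M0, hM0, hM⟩ := exists_exp _ hfg
  have hle : (powMonoidHom (finrank ℂ V * M0) : G →* G).range ≤ H0 := by
    rintro _ ⟨g, rfl⟩
    exact ⟨g ^ M0, by
      show (g ^ M0) ^ finrank ℂ V = g ^ (finrank ℂ V * M0)
      rw [← pow_mul, mul_comm]⟩
  set H : Subgroup G := (powMonoidHom (finrank ℂ V * M0) : G →* G).range with hH
  set r : (H0 →* Circle) →* (H →* Circle) :=
    { toFun := fun w => w.comp (Subgroup.inclusion hle)
      map_one' := rfl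
      map_mul' := fun _ _ => rfl } with hr
  refine ⟨finrank ℂ V * M0, Nat.mul_pos hV hM0, b, fun k => r (χ0 k), ?_, ?_⟩
  · intro γ φ hφ
    exact hχ0 (Subgroup.inclusion hle γ) φ hφ
  · intro w hw m hm hwm
    have hmap : w ∈ (Subgroup.closure S0).map r := by
      rw [MonoidHom.map_closure]
      refine Subgroup.closure_mono ?_ hw
      rintro _ ⟨k, l, rfl⟩
      exact ⟨χ0 k / χ0 l, ⟨k, l, rfl⟩, by rw [map_div]⟩
    obtain ⟨w0, hw0, rfl⟩ := hmap
    -- `w0 ^ M0` is torsion
    have h1 : (w0 ^ M0) ^ m = 1 := by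
      ext γ
      obtain ⟨g, hg⟩ := γ.2
      have hmem : γ.1 ^ M0 ∈ H := ⟨g, by
        rw [← hg]
        show g ^ (finrank ℂ V * M0) = (g ^ finrank ℂ V) ^ M0
        rw [pow_mul]⟩
      have h2 : ((r w0) ^ m) ⟨γ.1 ^ M0, hmem⟩ = 1 := by rw [hwm]; rfl
      have h3 : ((r w0) ^ m) ⟨γ.1 ^ M0, hmem⟩ = (w0 (γ ^ M0)) ^ m := rfl
      rw [h3, map_pow] at h2
      have h4 : ((w0 ^ M0) ^ m) γ = ((w0 γ) ^ M0) ^ m := rfl
      rw [h4, h2]
      rfl
    have h2 := hM w0 hw0 m hm h1
    ext γ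
    obtain ⟨g, hg⟩ := γ.2
    have h3 : (w0 ^ M0) ⟨g ^ finrank ℂ V, ⟨g, rfl⟩⟩ = 1 := by rw [h2]; rfl
    have h4 : (r w0) γ = (w0 ^ M0) ⟨g ^ finrank ℂ V, ⟨g, rfl⟩⟩ := by
      show w0 (Subgroup.inclusion hle γ) = (w0 ⟨g ^ finrank ℂ V, ⟨g, rfl⟩⟩) ^ M0
      rw [← map_pow]
      congr 1
      apply Subtype.ext
      show γ.1 = (g ^ finrank ℂ V) ^ M0
      rw [← hg, ← pow_mul]
      rfl
    rw [h4, h3]
    rfl

end

end Crest.Agent.R273.LiftA_522
end

-- ▼ part R273/LiftB_522

/-!
# R273 (S0416), torus step BP-T, T1 (helper522): unitary lifts to a hermitian line bundle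

* `cur_pull`  : curvature of a pull-back metric (any dimensions);
* `UL h g`    : unitary lift of `g : M → M` to `(L, h)`;
* `exists_ul` : existence, `M` simply connected, `g` preserving the curvature;
* `IsLift`    : the operators on `H⁰(M, L)`.
-/

set_option autoImplicit false
set_option linter.unusedSectionVars false

open Set Filter Topology Complex
open scoped ContDiff Matrix ComplexConjugate

namespace Crest.Agent.R273.LiftB_522

open Crest.Agent.R275.Geo Crest.Agent.R275.Core144 Crest.Agent.R273.Defs_333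
  Crest.Agent.R273.Hess_333 Crest.Agent.R273.HM_333 Crest.Agent.R273.Kah_333
  Crest.Agent.R273.Map_835 Crest.Agent.R273.PB_835 Crest.Agent.R273.PCovA_835
  Crest.Agent.R275.GC293

noncomputable section

variable {n m : ℕ} {M N : Type} [TopologicalSpace M] [TopologicalSpace N] {A : Atl n M}
  {B : Atl m N} {p : M → N}

/-! ### curvature of a pull-back -/

/-- polarisation -/
theorem eq_of_quad {k : ℕ} {X Y : Matrix (Fin k) (Fin k) ℂ}
    (h : ∀ v : Fin k → ℂ, ∑ a, ∑ b, X a b * v a * conj (v b) =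
      ∑ a, ∑ b, Y a b * v a * conj (v b)) : X = Y := by
  set D : Matrix (Fin k) (Fin k) ℂ := X - Y with hD
  set Bf : (Fin k → ℂ) → (Fin k → ℂ) → ℂ := fun v w => ∑ a, ∑ b, D a b * v a * conj (w b) with hBf
  have h0 : ∀ v, Bf v v = 0 := by
    intro v
    have h1 := h v
    rw [← sub_eq_zero, ← Finset.sum_sub_distrib] at h1
    rw [hBf, ← h1]
    refine Finset.sum_congr rfl fun a _ => ?_
    rw [← Finset.sum_sub_distrib]
    refine Finset.sum_congr rfl fun b _ => ?_
    rw [hD, Matrix.sub_apply]; ring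
  have hadd : ∀ v w, Bf (v + w) (v + w) = Bf v v + Bf v w + Bf w v + Bf w w := by
    intro v w
    simp only [hBf, ← Finset.sum_add_distrib]
    refine Finset.sum_congr rfl fun a _ => Finset.sum_congr rfl fun b _ => ?_
    rw [Pi.add_apply, Pi.add_apply, map_add]; ring
  have hI1 : ∀ v w, Bf v (I • w) = -I * Bf v w := by
    intro v w
    simp only [hBf, Finset.mul_sum]
    refine Finset.sum_congr rfl fun a _ => Finset.sum_congr rfl fun b _ => ?_
    rw [Pi.smul_apply, smul_eq_mul, map_mul, conj_I]; ring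
  have hI2 : ∀ v w, Bf (I • v) w = I * Bf v w := by
    intro v w
    simp only [hBf, Finset.mul_sum]
    refine Finset.sum_congr rfl fun a _ => Finset.sum_congr rfl fun b _ => ?_
    rw [Pi.smul_apply, smul_eq_mul]; ring
  have hB0 : ∀ v w, Bf v w = 0 := by
    intro v w
    have h1 := hadd v w
    have h2 := hadd v (I • w)
    rw [hI1, hI2, h0, h0, h0] at h2
    rw [h0, h0, h0] at h1
    have h3 : Bf v w + Bf w v = 0 := by linear_combination -h1
    have h4 : Bf v w - Bf w v = 0 := by linear_combination (-I) * h2 + (Bf v w - Bf w v) * I_sq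
    linear_combination (h3 + h4) / 2
  have hD0 : D = 0 := by
    ext a b
    have h1 := hB0 (Pi.single a 1) (Pi.single b 1)
    simp only [hBf] at h1
    rw [Finset.sum_eq_single a, Finset.sum_eq_single b] at h1
    · simpa using h1
    · intro c _ hc
      simp [hc]
    · simp
    · intro c _ hc
      refine Finset.sum_eq_zero fun d _ => ?_
      simp [hc]
    · simp
  exact sub_eq_zero.1 hD0

theorem sum4 {α β : Type*} [Fintype α] [Fintype β] (f : α → α → β → β → ℂ) :
    ∑ c, ∑ d, ∑ b, ∑ a, f c d b a = ∑ a, ∑ b, ∑ d, ∑ c, f c d b a := by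
  calc ∑ c, ∑ d, ∑ b, ∑ a, f c d b a
      = ∑ c, ∑ d, ∑ a, ∑ b, f c d b a :=
        Finset.sum_congr rfl fun c _ => Finset.sum_congr rfl fun d _ => Finset.sum_comm
    _ = ∑ c, ∑ a, ∑ d, ∑ b, f c d b a := Finset.sum_congr rfl fun c _ => Finset.sum_comm
    _ = ∑ a, ∑ c, ∑ d, ∑ b, f c d b a := Finset.sum_comm
    _ = ∑ a, ∑ c, ∑ b, ∑ d, f c d b a :=
        Finset.sum_congr rfl fun a _ => Finset.sum_congr rfl fun c _ => Finset.sum_comm
    _ = ∑ a, ∑ b, ∑ c, ∑ d, f c d b a := Finset.sum_congr rfl fun a _ => Finset.sum_comm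
    _ = ∑ a, ∑ b, ∑ d, ∑ c, f c d b a :=
        Finset.sum_congr rfl fun a _ => Finset.sum_congr rfl fun b _ => Finset.sum_comm

/-- curvature of a pull-back metric -/
theorem cur_pull {L' : LB A} {L : LB B} (T : PB p L' L) (hp : HolMap A B p) (h : HM L)
    {i : A.ι} {j : B.ι} {x : M} (hx : x ∈ (A.e i).source) (hj : p x ∈ (B.e j).source) :
    cur (T.pullHM hp h) i x =
      (Jp A B p i j x)ᵀ * cur h j (p x) * (Jp A B p i j x).map conj := by
  have hz : A.e i x ∈ dm A B p i j := mem_dm hx hj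
  have hpx : rd A B p i j (A.e i x) = B.e j (p x) := by
    simp only [rd]
    rw [(A.e i).left_inv hx]
  refine eq_of_quad fun v => ?_
  have h1 := T.pullHM_lev hp h hz (WithLp.toLp 2 v)
  have h2 := lev_eq (wt_contDiffAt (T.pullHM hp h) i ((A.e i).map_source hx)) (WithLp.toLp 2 v)
  have h3 := lev_eq (u := h.wt j) (z := rd A B p i j (A.e i x))
    (by rw [hpx]; exact wt_contDiffAt h j ((B.e j).map_source hj))
    (fderiv ℂ (rd A B p i j) (A.e i x) (WithLp.toLp 2 v))
  rw [h1, h3, hpx] at h2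
  have h4 := mul_left_cancel₀ (by norm_num : (4 : ℂ) ≠ 0) h2
  simp only [hq] at h4
  have h5 : ∀ c, (fderiv ℂ (rd A B p i j) (A.e i x) (WithLp.toLp 2 v)) c =
      ∑ a, Jp A B p i j x c a * v a := fun c => mt_apply _ _ c
  rw [show cur (T.pullHM hp h) i x = hess ((T.pullHM hp h).wt i) (A.e i x) from rfl]
  refine h4.symm.trans ?_
  simp only [h5, map_sum, map_mul, Matrix.mul_apply, Matrix.transpose_apply, Matrix.map_apply,
    Finset.sum_mul, Finset.mul_sum]
  rw [sum4]
  refine Finset.sum_congr rfl fun a _ => Finset.sum_congr rfl fun b _ =>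
    Finset.sum_congr rfl fun d _ => Finset.sum_congr rfl fun c _ => ?_
  rw [show cur h j (p x) c d = hess (h.wt j) (B.e j (p x)) c d from rfl]
  ring

/-! ### unitary lifts -/

variable {L : LB A}

/-- unitary lift of `g : M → M` to the hermitian line bundle `(L, h)` -/
structure UL (h : HM L) (g : M → M) where
  T : PB (A := A) (B := A) g L L
  unit : ∀ i j, ∀ x ∈ (A.e i).source, g x ∈ (A.e j).source →
    ‖T.c i j x‖ ^ 2 * h.w i x = h.w j (g x)

/-- the identity -/
def UL.refl (h : HM L) : UL h id where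
  T := PB.refl L
  unit i j x hx hj := by
    show ‖L.g i j x‖ ^ 2 * h.w i x = h.w j x
    exact (h.tr i j x ⟨hx, hj⟩).symm

/-- composition -/
def UL.comp {h : HM L} {g g' : M → M} (hg : HolMap A A g) (hg' : HolMap A A g') (T : UL h g)
    (S : UL h g') : UL h (fun x => g' (g x)) where
  T := PB.comp hg hg' T.T S.T
  unit i l x hx hl := by
    obtain ⟨j, hj⟩ := A.cover (g x)
    rw [PB.comp_c hg hg' T.T S.T hx hj hl, norm_mul, mul_pow, ← S.unit j l (g x) hj hl,
      ← T.unit i j x hx hj]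
    ring

/-- unitary lifts are unique up to a constant -/
theorem UL.uniq [PreconnectedSpace M] [Nonempty M] {h : HM L} {g : M → M}
    (hg : HolMap A A g) (T T' : UL h g) :
    ∃ u : ℂ, ‖u‖ = 1 ∧ ∀ i j, ∀ x ∈ (A.e i).source, g x ∈ (A.e j).source →
      T.T.c i j x = u * T'.T.c i j x := by
  set r : M → ℂ := fun x => T.T.c (PB.ch A x) (PB.ch A (g x)) x /
    T'.T.c (PB.ch A x) (PB.ch A (g x)) x with hr
  have hri : ∀ i j, ∀ x ∈ (A.e i).source, g x ∈ (A.e j).source →
      r x = T.T.c i j x / T'.T.c i j x := by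
    intro i j x hx hj
    have hx' := PB.ch_mem A x
    have hj' := PB.ch_mem A (g x)
    rw [hr]
    simp only
    rw [← T.T.left (PB.ch A x) i _ x ⟨hx', hx⟩ hj', ← T'.T.left (PB.ch A x) i _ x ⟨hx', hx⟩ hj',
      mul_div_mul_left _ _ (L.ne_zero _ _ _), ← T.T.right i j (PB.ch A (g x)) x hx ⟨hj, hj'⟩,
      ← T'.T.right i j (PB.ch A (g x)) x hx ⟨hj, hj'⟩, mul_div_mul_right _ _ (L.ne_zero _ _ _)]
  have hnn : ∀ i j, ∀ x ∈ (A.e i).source, g x ∈ (A.e j).source →
      ‖T.T.c i j x / T'.T.c i j x‖ = 1 := by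
    intro i j x hx hj
    have e1 := T.unit i j x hx hj
    have e2 := T'.unit i j x hx hj
    have e3 := h.pos i x hx
    have e4 : ‖T.T.c i j x‖ ^ 2 = ‖T'.T.c i j x‖ ^ 2 :=
      mul_right_cancel₀ e3.ne' (e1.trans e2.symm)
    have e5 : ‖T.T.c i j x‖ = ‖T'.T.c i j x‖ := (sq_eq_sq₀ (norm_nonneg _) (norm_nonneg _)).1 e4
    rw [norm_div, e5, div_self (norm_ne_zero_iff.2 (T'.T.ne i j x hx hj))]
  have hloc : IsLocallyConstant r := by
    rw [IsLocallyConstant.iff_eventually_eq]
    intro x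
    obtain ⟨i, hi⟩ := A.cover x
    obtain ⟨j, hj⟩ := A.cover (g x)
    have hzd : A.e i x ∈ dm A A g i j := mem_dm hi hj
    obtain ⟨ρ, hρ, hb⟩ := Metric.isOpen_iff.1 (hg.isOpen_dm i j) _ hzd
    have ho : IsOpen (g ⁻¹' (A.e j).source) := (A.e j).open_source.preimage hg.cont
    have hd : DifferentiableOn ℂ (fun z => r ((A.e i).symm z)) (Metric.ball (A.e i x) ρ) := by
      have h3 : HolAt A i (g ⁻¹' (A.e j).source) (fun x => T.T.c i j x * (T'.T.c i j x)⁻¹) :=
        (T.T.hol i j).mul ((T'.T.hol i j).inv fun x hx hj => T'.T.ne i j x hx hj)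
      refine DifferentiableOn.congr (f := fun z => T.T.c i j ((A.e i).symm z) *
        (T'.T.c i j ((A.e i).symm z))⁻¹) (DifferentiableOn.mono h3 fun z hz => ?_) fun z hz => ?_
      · exact hb hz
      · rw [hri i j _ ((A.e i).map_target (hb hz).1) (hb hz).2, div_eq_mul_inv]
    have h4 : ∀ z ∈ Metric.ball (A.e i x) ρ, ‖r ((A.e i).symm z)‖ = 1 := by
      intro z hz
      rw [hri i j _ ((A.e i).map_target (hb hz).1) (hb hz).2]
      exact hnn i j _ ((A.e i).map_target (hb hz).1) (hb hz).2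
    have h2 : ∀ᶠ y in 𝓝 x, A.e i y ∈ Metric.ball (A.e i x) ρ :=
      ((A.e i).continuousAt hi).eventually (Metric.ball_mem_nhds _ hρ)
    filter_upwards [h2, (A.e i).open_source.mem_nhds hi] with y hy hy'
    have h5 := FlatSec_534.const_of_norm Metric.isOpen_ball (convex_ball _ _).isPreconnected hd h4
      hy (Metric.mem_ball_self hρ)
    simpa only [(A.e i).left_inv hy', (A.e i).left_inv hi] using h5
  obtain ⟨x0⟩ := ‹Nonempty M›
  refine ⟨r x0, ?_, ?_⟩
  · rw [hri _ _ x0 (PB.ch_mem A x0) (PB.ch_mem A (g x0))]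
    exact hnn _ _ x0 (PB.ch_mem A x0) (PB.ch_mem A (g x0))
  · intro i j x hx hj
    have h3 : r x = r x0 :=
      hloc.apply_eq_of_isPreconnected isPreconnected_univ (mem_univ x) (mem_univ x0)
    rw [hri i j x hx hj] at h3
    rw [← h3, div_mul_cancel₀ _ (T'.T.ne i j x hx hj)]

/-- inverse of the identification `(L on the refined atlas)`  -/
def refInv {A' : Atl n M} (hid : HolMap A' A id) (R0 : Ref A' A id) (L : LB A) :
    PB (A := A) (B := A') id L (pullLB hid R0 L) where
  c i j x := L.g i (R0.r j) x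
  hol i j := by
    have h1 : HolAt A i (A.e (R0.r j)).source (L.g i (R0.r j)) := L.hol i (R0.r j)
    exact h1.mono fun x hx => R0.sub j x hx
  ne i j x _ _ := L.ne_zero _ _ _
  left i i' j x hx hj := L.mul i i' (R0.r j) x ⟨hx, R0.sub j x hj⟩
  right i j j' x hx hj := by
    have h1 : (pullLB hid R0 L).g j j' (id x) = L.g (R0.r j) (R0.r j') x :=
      pullLB_g hid R0 L hj
    rw [h1]
    exact L.mul i _ _ x ⟨⟨hx, R0.sub j x hj.1⟩, R0.sub j' x hj.2⟩

/-- **existence of unitary lifts** -/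
theorem exists_ul [CompactSpace M] [T2Space M] [SimplyConnectedSpace M] (h : HM L) {g : M → M}
    (hg : HolMap A A g) (hcur : ∀ i j, ∀ x ∈ (A.e i).source, g x ∈ (A.e j).source →
      cur h i x = (Jp A A g i j x)ᵀ * cur h j (g x) * (Jp A A g i j x).map conj) :
    Nonempty (UL h g) := by
  obtain ⟨A', -, hgood, -, ⟨R0⟩, ⟨R1⟩, hl, hl'⟩ := exists_refMap A hg
  have hid : HolMap A' A id := hl.toHolMap
  have hid' : HolMap A A' id := hl'.toHolMap
  have hg' : HolMap A' A g := hg.comp hid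
  set T1 := PB.ref hg' R1 L with hT1
  set T0 := PB.ref hid R0 L with hT0
  set h1 := T1.pullHM hg' h with hh1
  set h0 := T0.pullHM hid h with hh0
  have hflat : ∀ i, ∀ x ∈ (A'.e i).source, cur (mul (inv h1) h0) i x = 0 := by
    intro i x hx
    rw [cur_mul _ _ i hx, cur_inv _ i hx]
    obtain ⟨k, hk⟩ := A.cover x
    obtain ⟨j, hj⟩ := A.cover (g x)
    rw [hh1, hh0, cur_pull T1 hg' h hx hj, cur_pull T0 hid h hx (j := k) hk]
    have e1 : Jp A' A g i j x = Jp A A g k j x * Jp A' A id i k x :=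
      (Jp_comp (p := id) hg hid (j := k) hx hk hj).symm
    have e2 : (Jp A A g k j x * Jp A' A id i k x).map conj =
        (Jp A A g k j x).map conj * (Jp A' A id i k x).map conj :=
      Matrix.map_mul (f := (starRingEnd ℂ))
    rw [e1, e2, show cur h k (id x) = cur h k x from rfl, hcur k j x hk hj, Matrix.transpose_mul]
    simp only [Matrix.mul_assoc]
    exact neg_add_cancel _
  obtain ⟨σ, hσ, hσ1⟩ := FlatSec_534.flatSec hgood (mul (inv h1) h0) hflat
  have hσne : ∀ i, ∀ x ∈ (A'.e i).source, σ i x ≠ 0 := by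
    intro i x hx h0
    have := hσ1 i x hx
    rw [h0, norm_zero] at this
    norm_num at this
  let S : PB (A := A') (B := A) g (pullLB hid R0 L) L :=
    { c := fun i j x => σ i x * T1.c i j x
      hol := fun i j => ((hσ.hol i).mono (subset_univ _)).mul (T1.hol i j)
      ne := fun i j x hx hj => mul_ne_zero (hσne i x hx) (T1.ne i j x hx hj)
      left := by
        intro i i' j x hx hj
        have e1 := hσ.tr i i' x hx (mem_univ x)
        rw [e1, ← T1.left i i' j x hx hj, LB.mul_g, LB.inv_g]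
        have e2 := (pullLB hg' R1 L).ne_zero i i' x
        field_simp
      right := by
        intro i j j' x hx hj
        rw [mul_assoc, T1.right i j j' x hx hj] }
  let T : PB (A := A) (B := A) g L L := PB.comp hid' hg' (refInv hid R0 L) S
  refine ⟨⟨T, ?_⟩⟩
  intro i l x hx hl
  obtain ⟨i', hi'⟩ := A'.cover x
  set k := R0.r i' with hk
  have hkx : x ∈ (A.e k).source := R0.sub i' x hi'
  have hc : T.c i l x = L.g i k x * (σ i' x * T1.c i' l x) :=
    PB.comp_c hid' hg' (refInv hid R0 L) S hx (j := i') hi' hl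
  rw [hc, norm_mul, norm_mul, mul_pow, mul_pow]
  have e1 : h.w k x = ‖L.g i k x‖ ^ 2 * h.w i x := h.tr i k x ⟨hx, hkx⟩
  have e2 : h1.w i' x = h.w l (g x) / ‖T1.c i' l x‖ ^ 2 := T1.pullHM_w hg' h hi' hl
  have e3 : h0.w i' x = h.w k x / ‖T0.c i' k x‖ ^ 2 := T0.pullHM_w hid h hi' hkx
  have e4 : T0.c i' k x = 1 := L.self _ _
  have e5 : (h1.w i' x)⁻¹ * h0.w i' x * ‖σ i' x‖ ^ 2 = 1 := hσ1 i' x hi'
  have e6 := h1.pos i' x hi'
  have e7 := T1.ne i' l x hi' hl
  have e8 : 0 < ‖T1.c i' l x‖ := norm_pos_iff.2 e7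
  rw [e4, norm_one, one_pow, div_one] at e3
  rw [e3] at e5
  have e9 : h.w k x * ‖σ i' x‖ ^ 2 = h1.w i' x := by
    field_simp at e5
    linarith
  calc ‖L.g i k x‖ ^ 2 * (‖σ i' x‖ ^ 2 * ‖T1.c i' l x‖ ^ 2) * h.w i x
      = (h.w k x * ‖σ i' x‖ ^ 2) * ‖T1.c i' l x‖ ^ 2 := by rw [e1]; ring
    _ = h.w l (g x) := by
      rw [e9, e2]
      field_simp

end

end Crest.Agent.R273.LiftB_522
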