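import Crest.Agent.R273.RMan4_798
import Crest.Agent.R273.HFlowC_376
import Crest.Agent.R273.EqvB_914
import Mathlib.Topology.Covering.Quotient
import Crest.Agent.R273.Prd_835
import Crest.Agent.R273.Sus_333
import Crest.Agent.R273.Act_836
import Crest.Agent.R273.LiftB_522
import Crest.Agent.R273.FS_333
import Crest.Agent.R273.PCovA_835

-- ▼ part R273/Equi_798
section

/-!
# R273 (S0416), leaf B-N2 (helper798): holomorphic isometries are 1-Lipschitz; equicontinuity

`M` connected Hausdorff, `K : Kah A`.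
`exists_metric` : a metric on `M` with the given topology for which every holomorphic isometry is
1-Lipschitz; `equi_nhdsSet`, `equi_uniform` : equicontinuity of the holomorphic isometries (compact).
-/

set_option autoImplicit false
set_option linter.unusedSectionVars false

open Set Filter Topology Complex Metric Manifold Bundle
open scoped ContDiff Matrix ComplexConjugate Manifold ComplexOrder Uniformity Bundle ENNReal

namespace Crest.Agent.R273.Equi_798

open Crest.Agent.R275.Geo Crest.Agent.R275.Core144 Crest.Agent.R275.EDR890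
open Crest.Agent.R273.Defs_333 Crest.Agent.R273.Hess_333 Crest.Agent.R273.HessB_333
open Crest.Agent.R273.HM_333 Crest.Agent.R273.Kah_333 Crest.Agent.R273.Vol_333
open Crest.Agent.R273.Ric_798 Crest.Agent.R273.RMan_798 Crest.Agent.R273.RMan4_798
open Crest.Agent.R273.HFlow3_376 Crest.Agent.R273.HFlow5_376 Crest.Agent.R273.HFlow7_376
open Crest.Agent.R273.Map_835

noncomputable section

variable {n : ℕ} {M M' : Type} [TopologicalSpace M] [TopologicalSpace M'] {A : Atl n M}
  {B : Atl n M'}

theorem G_eq_hf (K : Kah A) {i : A.ι} {x : M} (hx : x ∈ (A.e i).source) (v : Cn n) :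
    G (KK K i) (A.e i x) v v = (hf K i x v v).re := by
  unfold G KK hf
  rw [(A.e i).left_inv hx, Matrix.mulVec_transpose, dotProduct_comm, ← Matrix.dotProduct_mulVec]

/-- the norm of a tangent vector of `ofKah K` -/
theorem inn_eq (K : Kah A) (p : (ofKah K).M) (v : EE (2 * n)) :
    (ofKah K).inn p v v = (hf K ((ofKah K).idx p) (p : M) ((eR n).symm v) ((eR n).symm v)).re := by
  set i : A.ι := (ofKah K).idx p with hi
  have hp : (p : M) ∈ (A.e i).source :=
    (Set.ext_iff.1 (cR_source (A := A) i) (p : M)).1 ((ofKah K).idx_mem p)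
  have h0 : (eR n).symm (cR A i (p : M)) = A.e i (p : M) := by simp
  have hH : (KK K i ((eR n).symm (cR A i (p : M)))).IsHermitian := by
    rw [h0]; exact ((kd K i).pd _ ((A.e i).map_source hp)).1
  have h1 : (ofKah K).inn p v v = ∑ a, ∑ b, hm (eR n) (KK K i) (cR A i (p : M)) a b * v a * v b :=
    (ofKah K).bil_apply i (cR A i (p : M)) v v
  rw [h1, sum_hm (eR n) hH, h0]
  exact G_eq_hf K hp _

theorem hol_real {f : M → M'} (hf' : HolM A B f) {i : A.ι} {j : B.ι} {x : M}
    (hi : x ∈ (A.e i).source) (hj : f x ∈ (B.e j).source) :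
    ContDiffAt ℝ ∞ (fun y : EE (2 * n) => eR n (B.e j (f ((A.e i).symm ((eR n).symm y)))))
      (cR A i x) ∧
    HasFDerivAt (fun y : EE (2 * n) => eR n (B.e j (f ((A.e i).symm ((eR n).symm y)))))
      (((eR n : Cn n →L[ℝ] EE (2 * n)).comp ((tm A B f i j x).restrictScalars ℝ)).comp
        ((eR n).symm : EE (2 * n) →L[ℝ] Cn n)) (cR A i x) := by
  have h0 : (eR n).symm (cR A i x) = A.e i x := by simp
  have hev : ∀ᶠ z in 𝓝 (A.e i x), z ∈ (A.e i).target ∧ f ((A.e i).symm z) ∈ (B.e j).source := by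
    have h4 : ContinuousAt (fun z => f ((A.e i).symm z)) (A.e i x) :=
      ContinuousAt.comp (g := f) hf'.continuous.continuousAt
        ((A.e i).continuousAt_symm ((A.e i).map_source hi))
    exact Filter.Eventually.and ((A.e i).open_target.mem_nhds ((A.e i).map_source hi))
      (h4 ((B.e j).open_source.mem_nhds (by simpa [(A.e i).left_inv hi] using hj)))
  have hd : ∀ᶠ z in 𝓝 (A.e i x), DifferentiableAt ℂ (fun z => B.e j (f ((A.e i).symm z))) z := by
    filter_upwards [hev] with z hz
    have h1 := hf'.diff ((A.e i).map_target hz.1) hz.2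
    rwa [(A.e i).right_inv hz.1] at h1
  obtain ⟨W, hW, hWo, hxW⟩ := _root_.mem_nhds_iff.1 hd
  have hana : ContDiffOn ℂ ω (fun z => B.e j (f ((A.e i).symm z))) W :=
    Crest.Agent.R266.SCV.contDiffOn_omega_of_differentiableOn hWo
      fun z hz => (hW hz).differentiableWithinAt
  have hsm : ContDiffAt ℝ ∞ (fun z => B.e j (f ((A.e i).symm z))) ((eR n).symm (cR A i x)) := by
    rw [h0]
    exact ((hana.restrict_scalars ℝ).of_le le_top).contDiffAt (hWo.mem_nhds hxW)
  have hfd : HasFDerivAt (fun z => B.e j (f ((A.e i).symm z)))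
      ((tm A B f i j x).restrictScalars ℝ) ((eR n).symm (cR A i x)) := by
    rw [h0]
    exact (hf'.diff hi hj).hasFDerivAt.restrictScalars ℝ
  refine ⟨?_, ?_⟩
  · have h1 : ContDiffAt ℝ ∞ ((fun z => B.e j (f ((A.e i).symm z))) ∘ (eR n).symm)
        (cR A i x) := ContDiffAt.comp (cR A i x) hsm (eR n).symm.contDiff.contDiffAt
    exact (eR n).contDiff.contDiffAt.comp (cR A i x) h1
  · exact ((eR n : Cn n →L[ℝ] EE (2 * n)).hasFDerivAt.comp _ hfd).comp (cR A i x)
      ((eR n).symm : EE (2 * n) →L[ℝ] Cn n).hasFDerivAt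

/-- the map between the Riemannian manifolds -/
def mp (K : Kah A) (K' : Kah B) (f : M → M') : (ofKah K).M → (ofKah K').M := f

theorem written (K : Kah A) (K' : Kah B) {f : M → M'} (hf' : HolM A B f) (x : (ofKah K).M) :
    ContDiffAt ℝ ∞ (writtenInExtChartAt (𝓡 (2 * n)) (𝓡 (2 * n)) x (mp K K' f))
      (extChartAt (𝓡 (2 * n)) x x) ∧
    HasMFDerivAt (𝓡 (2 * n)) (𝓡 (2 * n)) (mp K K' f) x
      (((eR n : Cn n →L[ℝ] EE (2 * n)).comp ((tm A B f ((ofKah K).idx x)
        ((ofKah K').idx (mp K K' f x)) (x : M)).restrictScalars ℝ)).comp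
        ((eR n).symm : EE (2 * n) →L[ℝ] Cn n)) := by
  have hi : (x : M) ∈ (A.e ((ofKah K).idx x)).source :=
    (Set.ext_iff.1 (cR_source (A := A) ((ofKah K).idx x)) (x : M)).1 ((ofKah K).idx_mem x)
  have hj : f (x : M) ∈ (B.e ((ofKah K').idx (mp K K' f x))).source :=
    (Set.ext_iff.1 (cR_source (A := B) ((ofKah K').idx (mp K K' f x))) (f (x : M))).1
      ((ofKah K').idx_mem (mp K K' f x))
  obtain ⟨h1, h2⟩ := hol_real hf' hi hj
  exact ⟨h1, hf'.continuous.continuousAt, h2.hasFDerivWithinAt⟩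

theorem contMDiff_mp (K : Kah A) (K' : Kah B) {f : M → M'} (hf' : HolM A B f) :
    ContMDiff (𝓡 (2 * n)) (𝓡 (2 * n)) ∞ (mp K K' f) := by
  intro x
  rw [contMDiffAt_iff]
  refine ⟨hf'.continuous.continuousAt, ?_⟩
  simp only [modelWithCornersSelf_coe, range_id, contDiffWithinAt_univ]
  exact (written K K' hf' x).1

theorem norm_mfderiv {K : Kah A} {K' : Kah B} {f : M → M'} (h : Isom K K' f) (x : (ofKah K).M)
    (v : TangentSpace (𝓡 (2 * n)) x) :
    ‖mfderiv (𝓡 (2 * n)) (𝓡 (2 * n)) (mp K K' f) x v‖ = ‖v‖ := by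
  rw [(written K K' h.1 x).2.mfderiv]
  rw [← sq_eq_sq₀ (norm_nonneg _) (norm_nonneg _), ← real_inner_self_eq_norm_sq,
    ← real_inner_self_eq_norm_sq]
  have hi : (x : M) ∈ (A.e ((ofKah K).idx x)).source :=
    (Set.ext_iff.1 (cR_source (A := A) ((ofKah K).idx x)) (x : M)).1 ((ofKah K).idx_mem x)
  have hj : f (x : M) ∈ (B.e ((ofKah K').idx (mp K K' f x))).source :=
    (Set.ext_iff.1 (cR_source (A := B) ((ofKah K').idx (mp K K' f x))) (f (x : M))).1
      ((ofKah K').idx_mem (mp K K' f x))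
  have h1 := inn_eq K x v
  have h2 := inn_eq K' (mp K K' f x) (eR n (tm A B f ((ofKah K).idx x)
        ((ofKah K').idx (mp K K' f x)) (x : M) ((eR n).symm v)))
  rw [ContinuousLinearEquiv.symm_apply_apply] at h2
  have h3 := h.2 _ _ _ hi hj ((eR n).symm v) ((eR n).symm v)
  have h4 : (hf K' ((ofKah K').idx (mp K K' f x)) (mp K K' f x : M')
      (tm A B f ((ofKah K).idx x) ((ofKah K').idx (mp K K' f x)) (x : M) ((eR n).symm v))
      (tm A B f ((ofKah K).idx x) ((ofKah K').idx (mp K K' f x)) (x : M) ((eR n).symm v))).re =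
      (hf K ((ofKah K).idx x) (x : M) ((eR n).symm v) ((eR n).symm v)).re := congrArg Complex.re h3
  exact h2.trans (h4.trans h1.symm)

theorem edist_le {K : Kah A} {K' : Kah B} {f : M → M'} (h : Isom K K' f) (x y : (ofKah K).M) :
    Manifold.riemannianEDist (𝓡 (2 * n)) (mp K K' f x) (mp K K' f y) ≤
      Manifold.riemannianEDist (𝓡 (2 * n)) x y := by
  refine RAtl.edist_map_le ((contMDiff_mp K K' h.1).of_le (by simp)) (fun x v => ?_) x y
  rw [← ofReal_norm, ← ofReal_norm, norm_mfderiv h]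

/-- **holomorphic isometries are 1-Lipschitz** -/
theorem dist_le [T2Space M] [ConnectedSpace M] [T2Space M'] [ConnectedSpace M'] {K : Kah A}
    {K' : Kah B} {f : M → M'} (h : Isom K K' f) (x y : (ofKah K).M) :
    dist (mp K K' f x) (mp K K' f y) ≤ dist x y := by
  have h1 := edist_le h x y
  rw [← IsRiemannianManifold.out (I := 𝓡 (2 * n)) (mp K K' f x) (mp K K' f y),
    ← IsRiemannianManifold.out (I := 𝓡 (2 * n)) x y, edist_dist, edist_dist] at h1
  exact (ENNReal.ofReal_le_ofReal_iff dist_nonneg).1 h1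

/-- the metric -/
@[reducible] def mK [T2Space M] [ConnectedSpace M] (K : Kah A) : MetricSpace M :=
  (ofKah K).msM

theorem mK_top [T2Space M] [ConnectedSpace M] (K : Kah A) :
    (mK K).toPseudoMetricSpace.toUniformSpace.toTopologicalSpace = ‹TopologicalSpace M› := rfl

theorem mK_le [T2Space M] [ConnectedSpace M] (K : Kah A) {f : M → M} (h : Isom K K f) (x y : M) :
    (mK K).dist (f x) (f y) ≤ (mK K).dist x y := dist_le h x y


theorem equi_metric {M : Type} [t : TopologicalSpace M] [CompactSpace M] (d : MetricSpace M)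
    (hd : d.toPseudoMetricSpace.toUniformSpace.toTopologicalSpace = t)
    {U : Set (M × M)} (hU : U ∈ 𝓝ˢ (Set.diagonal M)) :
    ∃ V ∈ 𝓝ˢ (Set.diagonal M), ∀ f : M → M, (∀ x y, d.dist (f x) (f y) ≤ d.dist x y) →
      ∀ x y, (x, y) ∈ V → (f x, f y) ∈ U := by
  subst hd
  have hU' : U ∈ 𝓤 M := by rwa [← nhdsSet_diagonal_eq_uniformity]
  obtain ⟨ε, hε, hb⟩ := Metric.mem_uniformity_dist.1 hU'
  refine ⟨{p | dist p.1 p.2 < ε}, ?_, fun f hf x y hxy => ?_⟩
  · rw [nhdsSet_diagonal_eq_uniformity]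
    exact Metric.dist_mem_uniformity hε
  · exact hb (lt_of_le_of_lt (hf x y) hxy)

/-- **Equi**: the holomorphic isometries of a compact Kaehler manifold are equicontinuous -/
theorem equi_nhdsSet [T2Space M] [ConnectedSpace M] [CompactSpace M] (K : Kah A)
    {U : Set (M × M)} (hU : U ∈ 𝓝ˢ (Set.diagonal M)) :
    ∃ V ∈ 𝓝ˢ (Set.diagonal M), ∀ f : M → M, Isom K K f → ∀ x y, (x, y) ∈ V → (f x, f y) ∈ U := by
  obtain ⟨V, hV, h⟩ := equi_metric (mK K) (mK_top K) hU
  exact ⟨V, hV, fun f hf => h f (mK_le K hf)⟩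

/-- Equi, for any uniform structure of `M` -/
theorem equi_uniform {M : Type} [UniformSpace M] {A : Atl n M} [T2Space M] [ConnectedSpace M]
    [CompactSpace M] (K : Kah A) {U : Set (M × M)} (hU : U ∈ 𝓤 M) :
    ∃ V ∈ 𝓤 M, ∀ f : M → M, Isom K K f → ∀ x y, (x, y) ∈ V → (f x, f y) ∈ U := by
  rw [← nhdsSet_diagonal_eq_uniformity] at hU ⊢
  exact equi_nhdsSet K hU

/-- Equi for group actions by holomorphic isometries (the hypothesis of
`NoVF_534.finite_of_equicont`) -/
theorem equi_smul {M : Type} [UniformSpace M] {A : Atl n M} [T2Space M] [ConnectedSpace M]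
    [CompactSpace M] (K : Kah A) {G : Type*} [SMul G M]
    (hG : ∀ g : G, Isom K K (fun x : M => g • x)) :
    ∀ U ∈ 𝓤 M, ∃ V ∈ 𝓤 M, ∀ g : G, ∀ x y : M, (x, y) ∈ V → (g • x, g • y) ∈ U := by
  intro U hU
  obtain ⟨V, hV, h⟩ := equi_uniform K hU
  exact ⟨V, hV, fun g x y hxy => h _ (hG g) x y hxy⟩

/-- the version with the topology only -/
theorem equi_smul_nhdsSet [T2Space M] [ConnectedSpace M] [CompactSpace M] (K : Kah A)
    {G : Type*} [SMul G M] (hG : ∀ g : G, Isom K K (fun x : M => g • x)) :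
    ∀ U ∈ 𝓝ˢ (Set.diagonal M), ∃ V ∈ 𝓝ˢ (Set.diagonal M), ∀ g : G, ∀ x y : M, (x, y) ∈ V →
      (g • x, g • y) ∈ U := by
  intro U hU
  obtain ⟨V, hV, h⟩ := equi_nhdsSet K hU
  exact ⟨V, hV, fun g x y hxy => h _ (hG g) x y hxy⟩

/-! ### the same with `HolMap` and `Jp` (Map_835) -/

theorem isom_of_jp {K : Kah A} {K' : Kah B} {f : M → M'} (hf' : HolMap A B f)
    (h : ∀ i j, ∀ x ∈ (A.e i).source, f x ∈ (B.e j).source →
      K.g i x = (Jp A B f i j x)ᵀ * K'.g j (f x) * (Jp A B f i j x).map conj) : Isom K K' f :=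
  Isom.of_matrix (HFlowC_376.holM_of_holMap hf') h

theorem equi_smul_jp {M : Type} [UniformSpace M] {A : Atl n M} [T2Space M] [ConnectedSpace M]
    [CompactSpace M] (K : Kah A) {G : Type*} [SMul G M]
    (hG : ∀ g : G, HolMap A A (fun x : M => g • x))
    (hI : ∀ g : G, ∀ i j, ∀ x ∈ (A.e i).source, g • x ∈ (A.e j).source →
      K.g i x = (Jp A A (fun x : M => g • x) i j x)ᵀ * K.g j (g • x) *
        (Jp A A (fun x : M => g • x) i j x).map conj) :
    ∀ U ∈ 𝓤 M, ∃ V ∈ 𝓤 M, ∀ g : G, ∀ x y : M, (x, y) ∈ V → (g • x, g • y) ∈ U :=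
  equi_smul K fun g => isom_of_jp (hG g) (hI g)

end

end Crest.Agent.R273.Equi_798
end

-- ▼ part R273/EqvD_914
section

/-!
# R273 (S0416), leaf EQV (helper914), part D: quotients

`π : N → Q` a quotient covering map for a group `P` (free, properly discontinuous action).
`LS π B`      : continuous sections of `π` over the charts of the atlas `B` of `Q`;
`mon hq S hB` : the cocycle `MonD B P`, `psi : N ≃ₜ (mon ..).cov P`, `P`-equivariant, over `Q`;
`qFam`        : the holomorphic charts of `Q` when `P` acts holomorphically on `N`;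
`exists_quot` : finite good atlas of `Q`, cocycle, biholomorphism `N ≅ D.cov P`.
-/

set_option autoImplicit false
set_option linter.unusedSectionVars false

open Set Filter Topology

namespace Crest.Agent.R273.Quot_914

open Crest.Agent.R275.Geo Crest.Agent.R275.ZC352 Crest.Agent.R275.GC293
open Crest.Agent.R275.Core144 Crest.Agent.R273.Defs_333 Crest.Agent.R273.Map_835
open Crest.Agent.R273.PB_835 Crest.Agent.R273.Fam_835 Crest.Agent.R273.UCov_914

noncomputable section

variable {n : ℕ} {N Q : Type} [TopologicalSpace N] [TopologicalSpace Q] {P : Type} [Group P]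
  [MulAction P N] {π : N → Q} (hq : IsQuotientCoveringMap π P) {B : Atl n Q}

/-- continuous local sections over the charts of an atlas -/
structure LS (π : N → Q) (B : Atl n Q) where
  s : B.ι → Q → N
  cont : ∀ j, ContinuousOn (s j) (B.e j).source
  sec : ∀ j, ∀ x ∈ (B.e j).source, π (s j x) = x

variable (S : LS π B)

include hq in
theorem eq_one_of_smul {p : P} {e : N} (h : p • e = e) : p = 1 := by
  obtain ⟨U, hU, hU'⟩ := hq.disjoint e
  exact hU' p ⟨e, ⟨e, mem_of_mem_nhds hU, h⟩, mem_of_mem_nhds hU⟩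

include hq in
theorem smul_inj {p p' : P} {e : N} (h : p • e = p' • e) : p = p' := by
  have h1 : (p'⁻¹ * p) • e = e := by rw [mul_smul, h, inv_smul_smul]
  have h2 := eq_one_of_smul hq h1
  rw [inv_mul_eq_one] at h2
  exact h2.symm

include hq in
theorem exists_co {j : B.ι} {e : N} (he : π e ∈ (B.e j).source) :
    ∃ p : P, p • e = S.s j (π e) := by
  have h1 : S.s j (π e) ∈ MulAction.orbit P e := hq.apply_eq_iff_mem_orbit.1 (S.sec j _ he)
  exact h1

open Classical in
/-- the coordinate of a point over a chart -/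
def co (j : B.ι) (e : N) : P :=
  if he : π e ∈ (B.e j).source then (exists_co hq S he).choose else 1

theorem co_smul {j : B.ι} {e : N} (he : π e ∈ (B.e j).source) :
    co hq S j e • e = S.s j (π e) := by
  rw [co, dif_pos he]
  exact (exists_co hq S he).choose_spec

theorem co_unique {j : B.ι} {e : N} (he : π e ∈ (B.e j).source) {p : P}
    (hp : p • e = S.s j (π e)) : co hq S j e = p :=
  smul_inj hq ((co_smul hq S he).trans hp.symm)

theorem co_deck {j : B.ι} {e : N} (he : π e ∈ (B.e j).source) (g : P) :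
    co hq S j (g • e) = co hq S j e * g⁻¹ := by
  have h1 : π (g • e) = π e := hq.map_smul g
  refine co_unique hq S (by rw [h1]; exact he) ?_
  rw [mul_smul, inv_smul_smul, h1, co_smul hq S he]

theorem co_sec {j : B.ι} {x : Q} (hx : x ∈ (B.e j).source) : co hq S j (S.s j x) = 1 := by
  have h1 : π (S.s j x) = x := S.sec j x hx
  refine co_unique hq S (by rw [h1]; exact hx) ?_
  rw [one_smul, h1]

include hq in
/-- two continuous lifts which agree up to `g` at a point agree up to `g` nearby -/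
theorem lift_eventually {X : Type*} [TopologicalSpace X] {f f' : X → N} {x0 : X} {g : P}
    (hf : ContinuousAt f x0) (hf' : ContinuousAt f' x0) (h0 : g • f x0 = f' x0)
    (h1 : ∀ᶠ x in 𝓝 x0, π (f x) = π (f' x)) : ∀ᶠ x in 𝓝 x0, g • f x = f' x := by
  obtain ⟨U, hU, hU'⟩ := hq.disjoint (f' x0)
  have : ContinuousConstSMul P N := hq.toContinuousConstSMul
  have h2 : ContinuousAt (fun x => g • f x) x0 := hf.const_smul g
  have h3 : ∀ᶠ x in 𝓝 x0, g • f x ∈ U := h2.preimage_mem_nhds (by rw [h0]; exact hU)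
  have h4 : ∀ᶠ x in 𝓝 x0, f' x ∈ U := hf'.preimage_mem_nhds hU
  filter_upwards [h1, h3, h4] with x hx1 hx2 hx3
  have h5 : f' x ∈ MulAction.orbit P (g • f x) := hq.apply_eq_iff_mem_orbit.1 (by
    rw [hq.map_smul, hx1])
  obtain ⟨p, hp⟩ := h5
  have hp' : p • (g • f x) = f' x := hp
  have h6 := hU' p ⟨f' x, ⟨g • f x, hx2, hp'⟩, hx3⟩
  rw [h6, one_smul] at hp'
  exact hp'

theorem co_eventually {j : B.ι} {e : N} (he : π e ∈ (B.e j).source) :
    ∀ᶠ e' in 𝓝 e, π e' ∈ (B.e j).source ∧ co hq S j e' = co hq S j e := by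
  have hπ : Continuous π := hq.isCoveringMap.continuous
  have h0 : ∀ᶠ e' in 𝓝 e, π e' ∈ (B.e j).source :=
    hπ.continuousAt.preimage_mem_nhds ((B.e j).open_source.mem_nhds he)
  have h1 : ContinuousAt (fun e' => S.s j (π e')) e :=
    ((S.cont j).continuousAt ((B.e j).open_source.mem_nhds he)).comp hπ.continuousAt
  have h2 := lift_eventually hq (f := fun e' : N => e') (f' := fun e' => S.s j (π e'))
    continuousAt_id h1 (co_smul hq S he) (by
      filter_upwards [h0] with e' he'
      exact (S.sec j _ he').symm)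
  filter_upwards [h0, h2] with e' h3 h4
  exact ⟨h3, co_unique hq S h3 h4⟩

theorem c_eventually {i j : B.ι} {x : Q} (hx : x ∈ (B.e i).source ∩ (B.e j).source) :
    ∀ᶠ y in 𝓝 x, co hq S j (S.s i y) = co hq S j (S.s i x) := by
  have h1 : ContinuousAt (S.s i) x := (S.cont i).continuousAt ((B.e i).open_source.mem_nhds hx.1)
  have h2 := co_eventually hq S (j := j) (e := S.s i x) (by rw [S.sec i x hx.1]; exact hx.2)
  filter_upwards [h1.eventually h2] with y hy
  exact hy.2

theorem isPreconnected_ov (hB : GoodA B) (i j : B.ι) :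
    IsPreconnected ((B.e i).source ∩ (B.e j).source) := by
  have h1 : (B.e i).source ∩ (B.e j).source = (B.e i).symm '' B.ov i j := by
    ext x
    constructor
    · rintro ⟨h1, h2⟩
      exact ⟨B.e i x, ⟨(B.e i).map_source h1, by rw [(B.e i).left_inv h1]; exact h2⟩,
        (B.e i).left_inv h1⟩
    · rintro ⟨z, hz, rfl⟩
      exact ⟨(B.e i).map_target hz.1, hz.2⟩
  rw [h1]
  exact (hB i j).isPreconnected.image _ ((B.e i).continuousOn_symm.mono fun z hz => hz.1)

/-- the cocycle -/
def mon (hB : GoodA B) : MonD B P where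
  c i j x := co hq S j (S.s i x)
  c_self i x hx := co_sec hq S hx
  c_mul i j k x hx := by
    have hi : π (S.s i x) = x := S.sec i x hx.1.1
    have hj : π (S.s j x) = x := S.sec j x hx.1.2
    refine (co_unique hq S (by rw [hi]; exact hx.2) ?_).symm
    have h1 : co hq S j (S.s i x) • S.s i x = S.s j x := by
      rw [co_smul hq S (by rw [hi]; exact hx.1.2), hi]
    rw [mul_smul, h1, co_smul hq S (by rw [hj]; exact hx.2), hj, hi]
  c_loc i j x hx y hy := by
    let _ : TopologicalSpace P := ⊥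
    have _ : DiscreteTopology P := ⟨rfl⟩
    refine (isPreconnected_ov hB i j).constant (Y := P) (f := fun y => co hq S j (S.s i y))
      ?_ hx hy
    intro y hy
    apply ContinuousAt.continuousWithinAt
    refine ContinuousAt.congr (f := fun _ => co hq S j (S.s i y)) continuousAt_const ?_
    filter_upwards [c_eventually hq S hy] with z hz
    exact hz.symm

variable (hB : GoodA B)

theorem mon_c (i j : B.ι) (x : Q) : (mon hq S hB).c i j x = co hq S j (S.s i x) := rfl

theorem co_change {i j : B.ι} {e : N} (hi : π e ∈ (B.e i).source) (hj : π e ∈ (B.e j).source) :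
    (mon hq S hB).c i j (π e) * co hq S i e = co hq S j e := by
  refine (co_unique hq S hj ?_).symm
  rw [mul_smul, co_smul hq S hi, mon_c, co_smul hq S (by rw [S.sec i _ hi]; exact hj), S.sec i _ hi]

/-- the map to the total space of the cocycle -/
def psi (e : N) : (mon hq S hB).cov P :=
  (mon hq S hB).pt (B.cover (π e)).choose (co hq S (B.cover (π e)).choose e) (π e)

@[simp] theorem pr_psi (e : N) : (mon hq S hB).pr (psi hq S hB e) = π e := rfl

theorem psi_eq {j : B.ι} {e : N} (hj : π e ∈ (B.e j).source) :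
    psi hq S hB e = (mon hq S hB).pt j (co hq S j e) (π e) := by
  have h0 := (B.cover (π e)).choose_spec
  unfold psi
  rw [(mon hq S hB).pt_eq _ h0 hj]
  congr 1
  exact co_change hq S hB h0 hj

theorem co_psi {j : B.ι} {e : N} (hj : π e ∈ (B.e j).source) :
    (mon hq S hB).co j (psi hq S hB e) = co hq S j e := by
  rw [psi_eq hq S hB hj]
  exact (mon hq S hB).co_pt _ hj

/-- the inverse map -/
def phi (e : (mon hq S hB).cov P) : N :=
  ((mon hq S hB).co (B.cover ((mon hq S hB).pr e)).choose e)⁻¹ •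
    S.s (B.cover ((mon hq S hB).pr e)).choose ((mon hq S hB).pr e)

theorem phi_eq {j : B.ι} {e : (mon hq S hB).cov P} (hj : (mon hq S hB).pr e ∈ (B.e j).source) :
    phi hq S hB e = ((mon hq S hB).co j e)⁻¹ • S.s j ((mon hq S hB).pr e) := by
  have h0 := (B.cover ((mon hq S hB).pr e)).choose_spec
  unfold phi
  set k := (B.cover ((mon hq S hB).pr e)).choose
  have h1 : (mon hq S hB).co j e = (mon hq S hB).c k j ((mon hq S hB).pr e) *
    (mon hq S hB).co k e := (mon hq S hB).co_eq h0 hj
  have h2 : (mon hq S hB).c k j ((mon hq S hB).pr e) • S.s k ((mon hq S hB).pr e) =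
      S.s j ((mon hq S hB).pr e) := by
    rw [mon_c, co_smul hq S (by rw [S.sec k _ h0]; exact hj), S.sec k _ h0]
  rw [h1, mul_inv_rev, mul_smul, ← h2, inv_smul_smul]

theorem pi_phi (e : (mon hq S hB).cov P) :
    π (phi hq S hB e) = (mon hq S hB).pr e := by
  unfold phi
  rw [hq.map_smul]
  exact S.sec _ _ (B.cover ((mon hq S hB).pr e)).choose_spec

theorem phi_psi (e : N) : phi hq S hB (psi hq S hB e) = e := by
  obtain ⟨j, hj⟩ := B.cover (π e)
  rw [phi_eq hq S hB (j := j) (e := psi hq S hB e) hj, co_psi hq S hB hj, pr_psi,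
    ← co_smul hq S hj, inv_smul_smul]

theorem psi_phi (e : (mon hq S hB).cov P) : psi hq S hB (phi hq S hB e) = e := by
  obtain ⟨j, hj⟩ := B.cover ((mon hq S hB).pr e)
  have h1 : π (phi hq S hB e) = (mon hq S hB).pr e := pi_phi hq S hB e
  have hj' : π (phi hq S hB e) ∈ (B.e j).source := by rw [h1]; exact hj
  refine (mon hq S hB).ext_co (i := j) hj' h1 ?_
  rw [co_psi hq S hB hj']
  refine co_unique hq S hj' ?_
  rw [h1, phi_eq hq S hB hj, smul_inv_smul]

theorem continuous_psi : Continuous (psi hq S hB) := by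
  rw [continuous_iff_continuousAt]
  intro e
  obtain ⟨j, hj⟩ := B.cover (π e)
  have hπ : Continuous π := hq.isCoveringMap.continuous
  have h1 : ContinuousAt ((mon hq S hB).pt j (co hq S j e)) (π e) :=
    ((mon hq S hB).continuousOn_pt j _).continuousAt ((B.e j).open_source.mem_nhds hj)
  have h2 := ContinuousAt.comp (f := π) h1 hπ.continuousAt
  refine h2.congr ?_
  filter_upwards [co_eventually hq S hj] with e' he'
  rw [psi_eq hq S hB he'.1, he'.2]
  rfl

theorem continuous_phi : Continuous (phi hq S hB) := by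
  rw [continuous_iff_continuousAt]
  intro e
  have : ContinuousConstSMul P N := hq.toContinuousConstSMul
  obtain ⟨j, hj⟩ := B.cover ((mon hq S hB).pr e)
  have h1 : ContinuousAt (S.s j) ((mon hq S hB).pr e) :=
    (S.cont j).continuousAt ((B.e j).open_source.mem_nhds hj)
  have h2 := ContinuousAt.comp (f := (mon hq S hB).pr) h1 (mon hq S hB).continuous_pr.continuousAt
  have h3 : ContinuousAt (fun e' => ((mon hq S hB).co j e)⁻¹ • S.s j ((mon hq S hB).pr e')) e :=
    h2.const_smul _
  refine h3.congr ?_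
  filter_upwards [(mon hq S hB).co_eventually hj] with e' he'
  rw [phi_eq hq S hB he'.1, he'.2]

/-- **`N` is the total space of the cocycle** -/
def psiH : N ≃ₜ (mon hq S hB).cov P where
  toFun := psi hq S hB
  invFun := phi hq S hB
  left_inv := phi_psi hq S hB
  right_inv := psi_phi hq S hB
  continuous_toFun := continuous_psi hq S hB
  continuous_invFun := continuous_phi hq S hB

@[simp] theorem psiH_apply (e : N) : psiH hq S hB e = psi hq S hB e := rfl
@[simp] theorem psiH_symm_apply (e : (mon hq S hB).cov P) :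
    (psiH hq S hB).symm e = phi hq S hB e := rfl

theorem psi_deck (p : P) (e : N) : psi hq S hB (p • e) = p • psi hq S hB e := by
  obtain ⟨j, hj⟩ := B.cover (π e)
  have h1 : π (p • e) = π e := hq.map_smul p
  have hj' : π (p • e) ∈ (B.e j).source := by rw [h1]; exact hj
  refine (mon hq S hB).ext_co (i := j) hj' h1 ?_
  rw [co_psi hq S hB hj', MonD.co_deck, co_psi hq S hB hj, co_deck hq S hj]


/-! ### holomorphic structure -/

section Hol

variable {AN : Atl n N} (hol : ∀ p : P, HolMap AN AN (fun e => p • e))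

/-- a local inverse of `π` at `x` -/
def lh (x : N) : OpenPartialHomeomorph N Q := (hq.isCoveringMap.isLocalHomeomorph x).choose

theorem lh_mem (x : N) : x ∈ (lh hq x).source :=
  (hq.isCoveringMap.isLocalHomeomorph x).choose_spec.1

theorem lh_apply (x y : N) : lh hq x y = π y :=
  (congrFun (hq.isCoveringMap.isLocalHomeomorph x).choose_spec.2 y).symm

theorem pi_lh_symm (x : N) {y : Q} (hy : y ∈ (lh hq x).target) : π ((lh hq x).symm y) = y := by
  rw [← lh_apply hq x]
  exact (lh hq x).right_inv hy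

include hol in
theorem key {i i' : AN.ι} {x' : N} {z : Cn n} (hz : z ∈ (AN.e i).target)
    (h1 : π ((AN.e i).symm z) ∈ (lh hq x').target)
    (h2 : (lh hq x').symm (π ((AN.e i).symm z)) ∈ (AN.e i').source) :
    DifferentiableAt ℂ (fun z => AN.e i' ((lh hq x').symm (π ((AN.e i).symm z)))) z := by
  have hπ : Continuous π := hq.isCoveringMap.continuous
  have hc : ContinuousAt (AN.e i).symm z := (AN.e i).continuousAt_symm hz
  have h3 : (lh hq x').symm (π ((AN.e i).symm z)) ∈ MulAction.orbit P ((AN.e i).symm z) :=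
    hq.apply_eq_iff_mem_orbit.1 (pi_lh_symm hq x' h1)
  obtain ⟨p, hp⟩ := h3
  have hp' : p • (AN.e i).symm z = (lh hq x').symm (π ((AN.e i).symm z)) := hp
  have hc2 : ContinuousAt (fun z => (lh hq x').symm (π ((AN.e i).symm z))) z :=
    ((lh hq x').continuousAt_symm h1).comp (f := fun z => π ((AN.e i).symm z))
      (hπ.continuousAt.comp hc)
  have h4 : ∀ᶠ w in 𝓝 z, π ((AN.e i).symm w) ∈ (lh hq x').target :=
    (hπ.continuousAt.comp hc).preimage_mem_nhds ((lh hq x').open_target.mem_nhds h1)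
  have h5 := lift_eventually hq (f := fun w => (AN.e i).symm w) hc hc2 hp' (by
    filter_upwards [h4] with w hw
    exact (pi_lh_symm hq x' hw).symm)
  have h6 : p • (AN.e i).symm z ∈ (AN.e i').source := by rw [hp']; exact h2
  have h7 : DifferentiableAt ℂ (fun w => AN.e i' (p • (AN.e i).symm w)) z :=
    (hol p).diffAt (i := i) (j := i') ⟨hz, h6⟩
  refine h7.congr_of_eventuallyEq ?_
  filter_upwards [h5] with w hw
  rw [hw]

/-- the holomorphic charts of the quotient -/
def qFam : Fam n Q where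
  ι := N × AN.ι
  e q := (lh hq q.1).symm.trans (AN.e q.2)
  cover y := by
    obtain ⟨x, rfl⟩ := hq.surjective y
    obtain ⟨i, hi⟩ := AN.cover x
    refine ⟨(x, i), ?_⟩
    rw [OpenPartialHomeomorph.trans_source, OpenPartialHomeomorph.symm_source]
    have h1 : π x ∈ (lh hq x).target := by
      rw [← lh_apply hq x]; exact (lh hq x).map_source (lh_mem hq x)
    refine ⟨h1, ?_⟩
    have h2 : (lh hq x).symm (π x) = x := by
      rw [← lh_apply hq x x]; exact (lh hq x).left_inv (lh_mem hq x)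
    change (lh hq x).symm (π x) ∈ (AN.e i).source
    rw [h2]
    exact hi
  holo q q' := by
    intro z hz
    obtain ⟨hz1, hz2⟩ := hz
    rw [OpenPartialHomeomorph.trans_target] at hz1
    have hz2' := hz2
    rw [OpenPartialHomeomorph.trans_source, OpenPartialHomeomorph.symm_source] at hz2'
    have e1 : ∀ w, ((lh hq q.1).symm.trans (AN.e q.2)).symm w = π ((AN.e q.2).symm w) := by
      intro w
      exact lh_apply hq q.1 _
    rw [e1] at hz2'
    have h1 := key hq hol (i := q.2) (i' := q'.2) (x' := q'.1) hz1.1 hz2'.1 hz2'.2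
    refine (h1.congr_of_eventuallyEq ?_).differentiableWithinAt
    refine Eventually.of_forall fun w => ?_
    change AN.e q'.2 ((lh hq q'.1).symm (((lh hq q.1).symm.trans (AN.e q.2)).symm w)) = _
    rw [e1]

theorem holC_pi : HolC (fam AN) (qFam hq hol) π := by
  refine ⟨hq.isCoveringMap.continuous, fun i q => ?_⟩
  rintro z ⟨hz1, hz2⟩
  have hz2' : π ((AN.e i).symm z) ∈ ((lh hq q.1).symm.trans (AN.e q.2)).source := hz2
  rw [OpenPartialHomeomorph.trans_source, OpenPartialHomeomorph.symm_source] at hz2'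
  exact (key hq hol (i := i) (i' := q.2) (x' := q.1) hz1 hz2'.1 hz2'.2).differentiableWithinAt

end Hol

end

end Crest.Agent.R273.Quot_914
end

-- ▼ part R273/EqvE_914
section

/-!
# R273 (S0416), leaf EQV (helper914), part E: existence of the quotient

`QD π AN P`  : a finite good atlas `B` of the quotient with a partition of unity, a cocycle
               `D : MonD B P` and a `P`-equivariant biholomorphism `Ψ : N ≃ₜ D.cov P` over `Q`;
`exists_qd`  : existence for a quotient covering map onto a compact Hausdorff space;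
`exists_qd_of_action` : free properly discontinuous cocompact holomorphic action, `Q = N / P`.
-/

set_option autoImplicit false
set_option linter.unusedSectionVars false

open Set Filter Topology

namespace Crest.Agent.R273.Quot_914

open Crest.Agent.R275.Geo Crest.Agent.R275.ZC352 Crest.Agent.R275.GC293
open Crest.Agent.R275.Core144 Crest.Agent.R273.Defs_333 Crest.Agent.R273.Map_835
open Crest.Agent.R273.PB_835 Crest.Agent.R273.Fam_835 Crest.Agent.R273.UCov_914

noncomputable section

variable {n : ℕ} {N Q : Type} [TopologicalSpace N] [TopologicalSpace Q] {P : Type} [Group P]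
  [MulAction P N] {π : N → Q} (hq : IsQuotientCoveringMap π P)
  {AN : Atl n N} (hol : ∀ p : P, HolMap AN AN (fun e => p • e))

theorem exists_good [T2Space Q] [CompactSpace Q] :
    ∃ B : Atl n Q, Finite B.ι ∧ GoodA B ∧ Nonempty (Part B) ∧ Nonempty (LS π B) ∧
      HolC (fam B) (qFam hq hol) id ∧ HolC (qFam hq hol) (fam B) id := by
  obtain ⟨B, h1, h2, h3, h4, h5, h6⟩ := (qFam hq hol).exists_atl
    (fun x : N => (lh hq x).target) (fun x => (lh hq x).open_target) (fun y => by
      obtain ⟨x, rfl⟩ := hq.surjective y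
      refine ⟨x, ?_⟩
      rw [← lh_apply hq x]
      exact (lh hq x).map_source (lh_mem hq x))
  choose k hk using h4
  refine ⟨B, h1, h2, h3, ⟨⟨fun j x => (lh hq (k j)).symm x, fun j => ?_, fun j x hx => ?_⟩⟩, h5, h6⟩
  · exact (lh hq (k j)).continuousOn_symm.mono (hk j)
  · exact pi_lh_symm hq (k j) (hk j hx)

variable {B : Atl n Q} (S : LS π B) (hB : GoodA B)
  (h5 : HolC (fam B) (qFam hq hol) id) (h6 : HolC (qFam hq hol) (fam B) id)

include h6 in
theorem holMap_pi : HolMap AN B π := by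
  have h1 := HolC.comp h6 (holC_pi hq hol)
  exact ⟨h1.cont, h1.hol⟩

include h5 in
/-- the local sections are holomorphic -/
theorem sec_diff {j : B.ι} {i' : AN.ι} {z : Cn n} (hz : z ∈ (B.e j).target)
    (hi : S.s j ((B.e j).symm z) ∈ (AN.e i').source) :
    DifferentiableAt ℂ (fun z => AN.e i' (S.s j ((B.e j).symm z))) z := by
  have : ContinuousConstSMul P N := hq.toContinuousConstSMul
  set x := (B.e j).symm z with hx
  have hxs : x ∈ (B.e j).source := (B.e j).map_target hz
  set w := S.s j x with hw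
  have hπw : π w = x := S.sec j x hxs
  -- the chart of the quotient at `w`
  have hx1 : x ∈ (lh hq w).target := by
    rw [← hπw, ← lh_apply hq w]; exact (lh hq w).map_source (lh_mem hq w)
  have hsx : (lh hq w).symm x = w := by
    have h2 : (lh hq w).symm (π w) = w := by
      rw [← lh_apply hq w w]; exact (lh hq w).left_inv (lh_mem hq w)
    rwa [hπw] at h2
  have hx2 : x ∈ ((qFam hq hol).e (w, i')).source := by
    change x ∈ ((lh hq w).symm.trans (AN.e i')).source
    rw [OpenPartialHomeomorph.trans_source, OpenPartialHomeomorph.symm_source]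
    refine ⟨hx1, ?_⟩
    change (lh hq w).symm x ∈ (AN.e i').source
    rw [hsx]
    exact hi
  have h2 := h5.diffAt (i := j) (j := (w, i')) (z := z) hz hx2
  refine h2.congr_of_eventuallyEq ?_
  have hc : ContinuousAt (B.e j).symm z := (B.e j).continuousAt_symm hz
  have hs : ContinuousAt (fun z => S.s j ((B.e j).symm z)) z :=
    ((S.cont j).continuousAt ((B.e j).open_source.mem_nhds hxs)).comp hc
  have hl : ContinuousAt (fun z => (lh hq w).symm ((B.e j).symm z)) z :=
    ((lh hq w).continuousAt_symm hx1).comp (f := fun z => (B.e j).symm z) hc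
  have h3 : ∀ᶠ u in 𝓝 z, u ∈ (B.e j).target := (B.e j).open_target.mem_nhds hz
  have h4 : ∀ᶠ u in 𝓝 z, (B.e j).symm u ∈ (lh hq w).target :=
    hc.preimage_mem_nhds ((lh hq w).open_target.mem_nhds hx1)
  have h7 := lift_eventually hq (g := (1 : P)) hl hs (by rw [one_smul]; exact hsx) (by
    filter_upwards [h3, h4] with u hu hu'
    rw [pi_lh_symm hq w hu', S.sec j _ ((B.e j).map_target hu)])
  filter_upwards [h7] with u hu
  rw [one_smul] at hu
  change AN.e i' (S.s j ((B.e j).symm u)) = AN.e i' ((lh hq w).symm ((B.e j).symm u))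
  rw [hu]

include h6 in
theorem holMap_psi : HolMap AN ((mon hq S hB).atl P) (psi hq S hB) := by
  have h1 := holMap_pi hq hol h6
  refine ⟨continuous_psi hq S hB, fun i q => ?_⟩
  refine (h1.hol i q.1).mono ?_
  rintro z ⟨hz1, hz2⟩
  exact ⟨hz1, hz2.1⟩

include hol h5 in
theorem holMap_phi : HolMap ((mon hq S hB).atl P) AN (phi hq S hB) := by
  refine ⟨continuous_phi hq S hB, fun q i => ?_⟩
  obtain ⟨j, p⟩ := q
  rintro z ⟨hz1, hz2⟩
  have hz : z ∈ (B.e j).target := hz1
  have hxs : (B.e j).symm z ∈ (B.e j).source := (B.e j).map_target hz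
  have hval : ∀ u ∈ (B.e j).target, phi hq S hB ((mon hq S hB).pt j p ((B.e j).symm u)) =
      p⁻¹ • S.s j ((B.e j).symm u) := by
    intro u hu
    have hus := (B.e j).map_target hu
    rw [phi_eq hq S hB (j := j) (e := (mon hq S hB).pt j p ((B.e j).symm u)) hus,
      (mon hq S hB).co_pt _ hus]
    rfl
  have hz2' : p⁻¹ • S.s j ((B.e j).symm z) ∈ (AN.e i).source := by
    rw [← hval z hz]; exact hz2
  obtain ⟨i0, hi0⟩ := AN.cover (S.s j ((B.e j).symm z))
  have h1 := sec_diff hq hol S h5 hz hi0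
  have h2 : DifferentiableAt ℂ (fun u => AN.e i (p⁻¹ • (AN.e i0).symm u))
      (AN.e i0 (S.s j ((B.e j).symm z))) := by
    refine (hol p⁻¹).diffAt (i := i0) (j := i) (mem_dm hi0 ?_)
    exact hz2'
  have h3 := DifferentiableAt.comp z (g := fun u => AN.e i (p⁻¹ • (AN.e i0).symm u))
    (f := fun z => AN.e i0 (S.s j ((B.e j).symm z))) h2 h1
  refine (h3.congr_of_eventuallyEq ?_).differentiableWithinAt
  have hc : ContinuousAt (B.e j).symm z := (B.e j).continuousAt_symm hz
  have hs : ContinuousAt (fun z => S.s j ((B.e j).symm z)) z :=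
    ((S.cont j).continuousAt ((B.e j).open_source.mem_nhds hxs)).comp hc
  filter_upwards [(B.e j).open_target.mem_nhds hz,
    hs.preimage_mem_nhds ((AN.e i0).open_source.mem_nhds hi0)] with u hu hu'
  change AN.e i (phi hq S hB ((mon hq S hB).pt j p ((B.e j).symm u))) =
    AN.e i (p⁻¹ • (AN.e i0).symm (AN.e i0 (S.s j ((B.e j).symm u))))
  rw [hval u hu, (AN.e i0).left_inv hu']

/-- a complex manifold structure on the quotient -/
structure QD (π : N → Q) (AN : Atl n N) (P : Type) [Group P] [MulAction P N] where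
  B : Atl n Q
  fin : Finite B.ι
  good : GoodA B
  part : Part B
  D : MonD B P
  Ψ : N ≃ₜ D.cov P
  pr_Ψ : ∀ e, D.pr (Ψ e) = π e
  deck : ∀ (p : P) (e : N), Ψ (p • e) = p • Ψ e
  hol : LBih AN (D.atl P) Ψ
  hol' : LBih (D.atl P) AN Ψ.symm

attribute [instance] QD.fin

include hq hol in
/-- **quotients exist** -/
theorem exists_qd [T2Space Q] [CompactSpace Q] : Nonempty (QD π AN P) := by
  obtain ⟨B, h1, h2, ⟨h3⟩, ⟨S⟩, h5, h6⟩ := exists_good hq hol
  have k1 := holMap_psi hq hol S h2 h6
  have k2 := holMap_phi hq hol S h2 h5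
  exact ⟨{ B := B
           fin := h1
           good := h2
           part := h3
           D := mon hq S h2
           Ψ := psiH hq S h2
           pr_Ψ := fun e => rfl
           deck := psi_deck hq S h2
           hol := lBih_of_inv k1 k2 (phi_psi hq S h2)
           hol' := lBih_of_inv k2 k1 (psi_phi hq S h2) }⟩

namespace QD

variable (X : QD π AN P)

theorem Ψ_symm_deck (p : P) (e : X.D.cov P) : X.Ψ.symm (p • e) = p • X.Ψ.symm e := by
  rw [X.Ψ.symm_apply_eq, X.deck, X.Ψ.apply_symm_apply]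


theorem holMap_pi : HolMap AN X.B π := by
  have h1 := (X.D.holMap_pr P).comp X.hol.toHolMap
  have h2 : (fun x => X.D.pr (X.Ψ x)) = π := funext X.pr_Ψ
  rw [h2] at h1
  exact h1

end QD

end

end Crest.Agent.R273.Quot_914
end

-- ▼ part R273/XTwo_836
section

/-!
# R273 (S0416), Part B, leaf B-X2 (helper836), part 1: quotients of products

`holMap_desc`, `holMap_desc2` : descent of invariant holomorphic maps through the coverings of 914
(with a parameter).
`exists_prod` : `D : MonD A P`, `Θ : N₁ × Z ≃ D.cov P` biholomorphic with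
`Θ (p • u, z) = p • Θ (u, z)`: then `M ≃ (N₁ / P) × Z`.
`main_quot` : the induction step for such `M`.
-/

set_option autoImplicit false
set_option linter.unusedSectionVars false

open Set Filter Topology Complex

namespace Crest.Agent.R273.XTwo_836

open Crest.Agent.R275.Geo Crest.Agent.R275.Core144 Crest.Agent.R275.GC293
open Crest.Agent.R275.Prod363
open Crest.Agent.R273.Defs_333 Crest.Agent.R273.Map_835 Crest.Agent.R273.PB_835
open Crest.Agent.R273.Fam_835 Crest.Agent.R273.Prd_835 Crest.Agent.R273.UCov_914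
open Crest.Agent.R273.Quot_914

noncomputable section

/-! ### descent -/

section descent

variable {n k l : ℕ} {M Z R : Type} [TopologicalSpace M] [TopologicalSpace Z]
  [TopologicalSpace R] {A : Atl n M} {C : Atl k Z} {E : Atl l R} {G : Type} [Group G]
  (D : MonD A G)

theorem continuous_desc {f : D.cov G → R} (hf : ∀ (g : G) (e : D.cov G), f (g • e) = f e)
    (hc : Continuous f) : Continuous (D.desc f) := by
  rw [continuous_iff_continuousAt]
  intro x
  obtain ⟨i, hi⟩ := A.cover x
  have h1 : ContinuousAt (D.pt i (1 : G)) x :=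
    (D.continuousOn_pt i _).continuousAt ((A.e i).open_source.mem_nhds hi)
  have h2 : ContinuousAt (fun x => f (D.pt i (1 : G) x)) x := hc.continuousAt.comp h1
  exact h2.congr (Eventually.of_forall fun y => (D.desc_apply hf i 1 y).symm)

/-- an invariant holomorphic map descends -/
theorem holMap_desc {f : D.cov G → R} (hf : ∀ (g : G) (e : D.cov G), f (g • e) = f e)
    (h : HolMap (D.atl G) E f) : HolMap A E (D.desc f) := by
  refine ⟨continuous_desc D hf h.cont, fun i j => ?_⟩
  refine ((h.hol (i, 1) j).mono ?_).congr ?_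
  · rintro z ⟨hz1, hz2⟩
    refine ⟨hz1, ?_⟩
    change D.desc f ((A.e i).symm z) ∈ (E.e j).source at hz2
    rw [D.desc_apply hf i 1] at hz2
    exact hz2
  · rintro z ⟨hz1, hz2⟩
    exact congrArg (E.e j) (D.desc_apply hf i 1 _)

/-- descent with a parameter -/
def desc2 (f : D.cov G × Z → R) (q : M × Z) : R := f (D.pt ((A.cover q.1).choose) 1 q.1, q.2)

variable {f : D.cov G × Z → R}
  (hf : ∀ (g : G) (e : D.cov G) (z : Z), f (g • e, z) = f (e, z))

include hf in
theorem desc2_pr (e : D.cov G) (z : Z) : desc2 D f (D.pr e, z) = f (e, z) := by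
  obtain ⟨g, hg⟩ := D.exists_deck (e := D.pt ((A.cover (D.pr e)).choose) 1 (D.pr e)) (e' := e) rfl
  unfold desc2
  rw [← hf g, hg]

include hf in
theorem desc2_apply (i : A.ι) (v : G) (x : M) (z : Z) : desc2 D f (x, z) = f (D.pt i v x, z) :=
  desc2_pr D hf (D.pt i v x) z

include hf in
theorem continuous_desc2 (hc : Continuous f) : Continuous (desc2 D f) := by
  rw [continuous_iff_continuousAt]
  rintro ⟨x, z⟩
  obtain ⟨i, hi⟩ := A.cover x
  have h1 : ContinuousAt (D.pt i (1 : G)) x :=
    (D.continuousOn_pt i _).continuousAt ((A.e i).open_source.mem_nhds hi)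
  have h2 : ContinuousAt (fun q : M × Z => f (D.pt i (1 : G) q.1, q.2)) (x, z) := by
    refine hc.continuousAt.comp (ContinuousAt.prodMk ?_ continuousAt_snd)
    exact ContinuousAt.comp (f := fun q : M × Z => q.1) (g := D.pt i (1 : G)) h1 continuousAt_fst
  exact h2.congr (Eventually.of_forall fun y => (desc2_apply D hf i 1 y.1 y.2).symm)

include hf in
/-- an invariant holomorphic map descends, with a parameter -/
theorem holMap_desc2 (h : HolMap ((D.atl G).prod C) E f) : HolMap (A.prod C) E (desc2 D f) := by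
  refine ⟨continuous_desc2 D hf h.cont, fun i j => ?_⟩
  refine ((h.hol ((i.1, 1), i.2) j).mono ?_).congr ?_
  · rintro z ⟨hz1, hz2⟩
    refine ⟨hz1, ?_⟩
    change desc2 D f ((A.e i.1).symm (fstL n k z), (C.e i.2).symm (sndL n k z)) ∈
      (E.e j).source at hz2
    rw [desc2_apply D hf i.1 1] at hz2
    exact hz2
  · rintro z ⟨hz1, hz2⟩
    exact congrArg (E.e j) (desc2_apply D hf i.1 1 _ _)

end descent

/-! ### quotients of products -/

section quot

variable {n n₁ b : ℕ} {M N₁ Z : Type} [TopologicalSpace M] [TopologicalSpace N₁]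
  [TopologicalSpace Z] {A : Atl n M} {A₁ : Atl n₁ N₁} {C : Atl b Z} {P : Type} [Group P]
  {D : MonD A P} [MulAction P N₁] {Θ : N₁ × Z ≃ₜ D.cov P}
  (hΘ : HolMap (A₁.prod C) (D.atl P) Θ) (hΘ' : HolMap (D.atl P) (A₁.prod C) Θ.symm)
  (eqv : ∀ (p : P) (u : N₁) (z : Z), Θ (p • u, z) = p • Θ (u, z))

include eqv in
theorem symm_deck (p : P) (e : D.cov P) :
    Θ.symm (p • e) = (p • (Θ.symm e).1, (Θ.symm e).2) := by
  rw [Θ.symm_apply_eq, eqv, Prod.mk.eta, Θ.apply_symm_apply]

include hΘ hΘ' eqv in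
theorem hol_act [Nonempty Z] (p : P) : HolMap A₁ A₁ (fun u : N₁ => p • u) := by
  obtain ⟨z⟩ := (inferInstance : Nonempty Z)
  have h1 := (holMap_fst (A := A₁) (B := C)).comp (hΘ'.comp ((D.holMap_deck p).comp
    (hΘ.comp (holMap_inl (A := A₁) (B := C) z))))
  have h2 : (fun x : N₁ => (Θ.symm (p • Θ (x, z))).1) = fun u : N₁ => p • u := by
    funext u
    rw [← eqv, Θ.symm_apply_apply]
  rw [h2] at h1
  exact h1

/-- the orbit space -/
abbrev OQ (P N₁ : Type) [Group P] [MulAction P N₁] : Type := MulAction.orbitRel.Quotient P N₁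

/-- the projection to the orbit space -/
def oq (P : Type) {N₁ : Type} [Group P] [MulAction P N₁] (u : N₁) : OQ P N₁ :=
  Quotient.mk (MulAction.orbitRel P N₁) u

theorem oq_smul (p : P) (u : N₁) : oq P (p • u) = oq P u :=
  Quotient.sound (MulAction.orbitRel_apply.2 ⟨p, rfl⟩)

theorem oq_surj : Function.Surjective (oq P (N₁ := N₁)) := Quotient.mk_surjective

theorem isQM_oq : IsQuotientMap (oq P (N₁ := N₁)) := isQuotientMap_quotient_mk'

include hΘ hΘ' eqv in
theorem isQC [Nonempty Z] : IsQuotientCoveringMap (oq P (N₁ := N₁)) P := by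
  obtain ⟨z⟩ := (inferInstance : Nonempty Z)
  exact
    { toIsQuotientMap := isQM_oq
      continuous_const_smul := fun p => (hol_act hΘ hΘ' eqv p).cont
      apply_eq_iff_mem_orbit := fun {u u'} => by
        unfold oq
        rw [Quotient.eq]
        exact MulAction.orbitRel_apply
      disjoint := fun u => by
        obtain ⟨i, hi⟩ := A.cover (D.pr (Θ (u, z)))
        refine ⟨(fun u' => Θ (u', z)) ⁻¹' D.sheet i (D.co i (Θ (u, z))), ?_, ?_⟩
        · have hc : Continuous fun u' => Θ (u', z) := by fun_prop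
          exact ((D.isOpen_sheet i _).preimage hc).mem_nhds (D.mem_sheet_co hi)
        · rintro p ⟨w, ⟨u', hu', rfl⟩, hw⟩
          have h1 : D.co i (Θ (u', z)) = D.co i (Θ (u, z)) := hu'.2
          have h2 : D.co i (Θ (p • u', z)) = D.co i (Θ (u, z)) := hw.2
          rw [eqv, D.co_deck, h1] at h2
          have h3 : (p⁻¹ : P) = 1 := mul_eq_left.1 h2
          exact inv_eq_one.1 h3 }

include eqv in
theorem t2_oq [Nonempty Z] [T2Space M] : T2Space (OQ P N₁) := by
  obtain ⟨z⟩ := (inferInstance : Nonempty Z)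
  have hinv : ∀ u u' : N₁, (MulAction.orbitRel P N₁) u u' →
      D.pr (Θ (u, z)) = D.pr (Θ (u', z)) := by
    intro u u' h
    obtain ⟨p, hp⟩ := MulAction.orbitRel_apply.1 h
    have hp' : p • u' = u := hp
    rw [← hp', eqv, D.pr_deck]
  refine T2Space.of_injective_continuous (f := fun q : OQ P N₁ =>
    Quotient.lift (fun u : N₁ => D.pr (Θ (u, z))) hinv q) ?_ ?_
  · intro q q'
    induction q using Quotient.inductionOn with
    | h u =>
    induction q' using Quotient.inductionOn with
    | h u' =>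
    intro h
    have h' : D.pr (Θ (u', z)) = D.pr (Θ (u, z)) := h.symm
    obtain ⟨p, hp⟩ := D.exists_deck h'
    rw [← eqv] at hp
    have h2 := congrArg Prod.fst (Θ.injective hp)
    exact Quotient.sound (MulAction.orbitRel_apply.2 ⟨p, h2⟩)
  · refine Continuous.quotient_lift ?_ hinv
    exact D.continuous_pr.comp (Θ.continuous.comp (by fun_prop))

/-- the map to the product -/
def psiE (D : MonD A P) (Θ : N₁ × Z ≃ₜ D.cov P) (e : D.cov P) : OQ P N₁ × Z :=
  (oq P (Θ.symm e).1, (Θ.symm e).2)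

include eqv in
theorem psiE_inv (p : P) (e : D.cov P) : psiE D Θ (p • e) = psiE D Θ e := by
  unfold psiE
  rw [symm_deck eqv, oq_smul]

theorem continuous_oq : Continuous (oq P (N₁ := N₁)) := isQM_oq.continuous

theorem continuous_psiE : Continuous (psiE D Θ) := by
  refine (continuous_oq.comp ?_).prodMk ?_
  · exact continuous_fst.comp Θ.symm.continuous
  · exact continuous_snd.comp Θ.symm.continuous

theorem surj_pr : Function.Surjective (D.pr (F := P)) := by
  intro x
  obtain ⟨i, hi⟩ := A.cover x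
  exact ⟨D.pt i 1 x, rfl⟩

include eqv in
theorem surj_psi : Function.Surjective (D.desc (psiE D Θ)) := by
  rintro ⟨q, z⟩
  obtain ⟨u, rfl⟩ := oq_surj q
  refine ⟨D.pr (Θ (u, z)), ?_⟩
  rw [D.desc_pr (psiE_inv eqv)]
  unfold psiE
  rw [Θ.symm_apply_apply]

include eqv in
theorem surj_psi₁ [Nonempty Z] : Function.Surjective fun x => (D.desc (psiE D Θ) x).1 := by
  obtain ⟨z⟩ := (inferInstance : Nonempty Z)
  intro q
  obtain ⟨x, hx⟩ := surj_psi eqv (q, z)
  exact ⟨x, congrArg Prod.fst hx⟩

include eqv in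
theorem continuous_psi₁ : Continuous fun x => (D.desc (psiE D Θ) x).1 :=
  continuous_fst.comp (continuous_desc D (psiE_inv eqv) continuous_psiE)

include eqv in
theorem compact_oq [Nonempty Z] [CompactSpace M] : CompactSpace (OQ P N₁) := by
  have h1 := isCompact_range (continuous_psi₁ eqv)
  rw [(surj_psi₁ eqv).range_eq] at h1
  exact ⟨h1⟩

include eqv in
theorem connected_oq [Nonempty Z] [ConnectedSpace M] : ConnectedSpace (OQ P N₁) :=
  (surj_psi₁ eqv).connectedSpace (continuous_psi₁ eqv)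

include hΘ hΘ' eqv in
/-- **`M ≃ (N₁ / P) × Z`** -/
theorem exists_prod [Nonempty Z] [T2Space M] [CompactSpace M] [ConnectedSpace M] :
    ∃ (Q : Type) (_ : TopologicalSpace Q) (_ : T2Space Q) (_ : CompactSpace Q)
      (_ : ConnectedSpace Q) (BQ : Atl n₁ Q) (φ : Q × Z → M) (ψ : M → Q × Z),
      HolMap (BQ.prod C) A φ ∧ HolMap A (BQ.prod C) ψ ∧ (∀ x, φ (ψ x) = x) ∧
        ∀ q, ψ (φ q) = q := by
  have i1 := t2_oq eqv
  have i2 := compact_oq eqv
  have i3 := connected_oq eqv
  obtain ⟨X⟩ := exists_qd (isQC hΘ hΘ' eqv) (hol_act hΘ hΘ' eqv)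
  have hφi : ∀ (p : P) (e : X.D.cov P) (z : Z),
      (fun q : X.D.cov P × Z => D.pr (Θ (X.Ψ.symm q.1, q.2))) (p • e, z) =
      (fun q : X.D.cov P × Z => D.pr (Θ (X.Ψ.symm q.1, q.2))) (e, z) := by
    intro p e z
    show D.pr (Θ (X.Ψ.symm (p • e), z)) = D.pr (Θ (X.Ψ.symm e, z))
    rw [X.Ψ_symm_deck, eqv, D.pr_deck]
  have hφ := holMap_desc2 (C := C) X.D hφi ((D.holMap_pr P).comp (hΘ.comp
    (holMap_pair (X.hol'.toHolMap.comp holMap_fst) holMap_snd)))
  have hψ := holMap_desc D (psiE_inv eqv)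
    (holMap_pair (X.holMap_pi.comp (holMap_fst.comp hΘ')) (holMap_snd.comp hΘ'))
  have e1 : ∀ u z, desc2 X.D (fun q : X.D.cov P × Z => D.pr (Θ (X.Ψ.symm q.1, q.2)))
      (oq P u, z) = D.pr (Θ (u, z)) := by
    intro u z
    rw [← X.pr_Ψ u, desc2_pr X.D hφi (X.Ψ u) z]
    simp only [Homeomorph.symm_apply_apply]
  refine ⟨OQ P N₁, inferInstance, i1, i2, i3, X.B,
    desc2 X.D (fun q : X.D.cov P × Z => D.pr (Θ (X.Ψ.symm q.1, q.2))), D.desc (psiE D Θ),
    hφ, hψ, fun x => ?_, ?_⟩
  · obtain ⟨e, rfl⟩ := surj_pr (D := D) x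
    rw [D.desc_pr (psiE_inv eqv)]
    unfold psiE
    rw [e1, Prod.mk.eta, Θ.apply_symm_apply]
  · rintro ⟨q, z⟩
    obtain ⟨u, rfl⟩ := oq_surj q
    rw [e1, D.desc_pr (psiE_inv eqv)]
    unfold psiE
    rw [Θ.symm_apply_apply]

include hΘ hΘ' eqv in
/-- the induction step -/
theorem main_quot [T2Space Z] [CompactSpace Z] [ConnectedSpace Z] [T2Space M] [CompactSpace M]
    [ConnectedSpace M] (hn : n = n₁ + b) (IH1 : MainN n₁) (IH2 : MainN b) (Pj : ProjD A)
    {h : HM (KB A)⁻¹} (hs : h.Semipos) : ∃ r : ℕ, 0 < r ∧ HasSec ((KB A)⁻¹ ^ r) := by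
  obtain ⟨Q, _, _, _, _, BQ, φ, ψ, hφ, hψ, h1, h2⟩ := exists_prod hΘ hΘ' eqv
  subst hn
  exact main_prod IH1 IH2 hφ hψ h1 h2 Pj hs

end quot

end

end Crest.Agent.R273.XTwo_836
end

-- ▼ part R273/XTwoB_836
section

/-!
# R273 (S0416), Part B, leaf B-X2 (helper836), part 2: the suspension of a product

`main_sus` : `S : Sus D K B` (`M = (ℂ^g × Y) / G`), `Y ≃ Y' × Z` biholomorphic, `H ≤ G` of finite
index acting as `γ × id` on `Y' × Z`: then the covering `D.cov (G ⧸ H)` is the product of
`(ℂ^g × Y') / H` and `Z`, so `MainN (g + a)` and `MainN b` give the conclusion for `M`.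
`main_dec₁`, `main_dec₂` : the case of a decomposition adapted to a splitting preserved by `G`.
-/

set_option autoImplicit false
set_option linter.unusedSectionVars false

open Set Filter Topology Complex

namespace Crest.Agent.R273.XTwo_836

open Crest.Agent.R275.Geo Crest.Agent.R275.Core144 Crest.Agent.R275.GC293
open Crest.Agent.R275.Prod363
open Crest.Agent.R273.Defs_333 Crest.Agent.R273.Map_835 Crest.Agent.R273.PB_835
open Crest.Agent.R273.Fam_835 Crest.Agent.R273.Prd_835 Crest.Agent.R273.UCov_914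
open Crest.Agent.R273.Quot_914 Crest.Agent.R273.EA_333 Crest.Agent.R273.Sus_333
open Crest.Agent.R273.Kah_333 Crest.Agent.R273.SplA_836

noncomputable section

/-! ### the twisted product -/

section tw

variable {g : ℕ} {P : Type} [Group P]

/-- `ℂ^g × Y'` with the action by translations and the given action -/
def Tw (_ : P →* Multiplicative (Cn g)) (Y' : Type) : Type := Cn g × Y'

variable (lam : P →* Multiplicative (Cn g)) (Y' : Type)

instance [TopologicalSpace Y'] : TopologicalSpace (Tw lam Y') :=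
  inferInstanceAs (TopologicalSpace (Cn g × Y'))

instance [MulAction P Y'] : MulAction P (Tw lam Y') where
  smul γ q := (q.1 + Multiplicative.toAdd (lam γ), γ • q.2)
  one_smul q := by
    show (q.1 + Multiplicative.toAdd (lam 1), (1 : P) • q.2) = q
    rw [map_one, toAdd_one, add_zero, one_smul]
    rfl
  mul_smul γ δ q := by
    show (q.1 + Multiplicative.toAdd (lam (γ * δ)), (γ * δ) • q.2) =
      ((q.1 + Multiplicative.toAdd (lam δ)) + Multiplicative.toAdd (lam γ), γ • δ • q.2)
    rw [map_mul, toAdd_mul, mul_smul, add_assoc, add_comm (Multiplicative.toAdd (lam δ))]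


end tw

section sus

variable {g d a b : ℕ} {M : Type} [TopologicalSpace M] {A : Atl (g + d) M} {G : Type}
  [CommGroup G] {D : MonD A G} {K : Kah A} {Y : Type} [TopologicalSpace Y] [MulAction G Y]
  {B : Atl d Y} (S : Sus D K B) {Y' Z : Type} [TopologicalSpace Y'] [TopologicalSpace Z]
  {B' : Atl a Y'} {C : Atl b Z} (F : Y ≃ₜ Y' × Z) (H : Subgroup G)

/-- the homeomorphism of the covering -/
def Th : (Tw (S.lam.comp H.subtype) Y') × Z ≃ₜ (D.sub H).cov H :=
  ((Homeomorph.prodAssoc (Cn g) Y' Z).trans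
    ((Homeomorph.refl (Cn g)).prodCongr F.symm)).trans (S.Ψ.trans (D.homeo H))

theorem Th_apply (q : (Tw (S.lam.comp H.subtype) Y') × Z) :
    Th S F H q = D.toSub H (S.Ψ (q.1.1, F.symm (q.1.2, q.2))) := rfl


variable {F} (hF : HolMap B (B'.prod C) F) (hF' : HolMap (B'.prod C) B F.symm)

include hF' in
theorem hol_Th : HolMap (((EA g).prod B').prod C) ((D.sub H).atl H) (Th S F H) := by
  have h1 : HolMap (((EA g).prod B').prod C) (EA g) (fun q : (Cn g × Y') × Z => q.1.1) :=
    holMap_fst.comp holMap_fst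
  have h2 : HolMap (((EA g).prod B').prod C) B' (fun q : (Cn g × Y') × Z => q.1.2) :=
    holMap_snd.comp holMap_fst
  have h3 : HolMap (((EA g).prod B').prod C) C (fun q : (Cn g × Y') × Z => q.2) := holMap_snd
  exact (D.holMap_toSub H).comp (S.lb.toHolMap.comp
    (holMap_pair h1 (hF'.comp (holMap_pair h2 h3))))

include hF in
theorem hol_Th_symm : HolMap ((D.sub H).atl H) (((EA g).prod B').prod C) (Th S F H).symm := by
  have h0 : HolMap ((D.sub H).atl H) ((EA g).prod B) (fun e => S.Ψ.symm (D.ofSub H e)) :=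
    S.lb_symm.toHolMap.comp (D.holMap_ofSub H)
  have h1 : HolMap ((D.sub H).atl H) (EA g) (fun e => (S.Ψ.symm (D.ofSub H e)).1) :=
    holMap_fst.comp h0
  have h2 : HolMap ((D.sub H).atl H) (B'.prod C) (fun e => F (S.Ψ.symm (D.ofSub H e)).2) :=
    hF.comp (holMap_snd.comp h0)
  exact holMap_pair (holMap_pair h1 (holMap_fst.comp h2)) (holMap_snd.comp h2)

theorem Th_eqv [MulAction G Y'] (hact : ∀ γ ∈ H, ∀ y : Y, F (γ • y) = (γ • (F y).1, (F y).2))
    (γ : H) (u : Tw (S.lam.comp H.subtype) Y') (z : Z) :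
    Th S F H (γ • u, z) = γ • Th S F H (u, z) := by
  rw [Th_apply, Th_apply, ← D.toSub_deck, S.eqv]
  congr 2
  have h1 : F.symm ((γ • u).2, z) = (γ : G) • F.symm (u.2, z) := by
    rw [F.symm_apply_eq, hact γ γ.2, F.apply_symm_apply]
    rfl
  exact congrArg (fun y => (u.1 + Multiplicative.toAdd (S.lam γ), y)) h1

include S hF hF' in
/-- **the induction step for the suspension of a product** -/
theorem main_sus [T2Space M] [CompactSpace M] [Finite A.ι] [ConnectedSpace (D.cov G)]
    [T2Space Z] [CompactSpace Z] [ConnectedSpace Z] [H.FiniteIndex] [MulAction G Y']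
    (hact : ∀ γ ∈ H, ∀ y : Y, F (γ • y) = (γ • (F y).1, (F y).2)) (hd : d = a + b)
    (IH1 : MainN (g + a)) (IH2 : MainN b) (Pj : ProjD (D.atl (G ⧸ H))) {h : HM (KB A)⁻¹}
    (hs : h.Semipos) : ∃ m : ℕ, 0 < m ∧ HasSec ((KB A)⁻¹ ^ m) := by
  have _ : Finite (G ⧸ H) := H.finite_quotient_of_finiteIndex
  have h1 := main_quot (N₁ := Tw (S.lam.comp H.subtype) Y') (hol_Th S H hF') (hol_Th_symm S H hF) (Th_eqv S H hact)
    (by omega) IH1 IH2 Pj (D.pullAnti_semipos (F := G ⧸ H) hs)
  exact D.main_of_cov h1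

end sus

section dec

variable {g d r s : ℕ} {M : Type} [TopologicalSpace M] {A : Atl (g + d) M} {G : Type}
  [CommGroup G] {D : MonD A G} {K : Kah A} {Y : Type} [TopologicalSpace Y] [MulAction G Y]
  {B : Atl d Y} (S : Sus D K B) {SB : Spl B} (Dc : Dec SB r s) (hG : PresG SB G)
  (H : Subgroup G)


include S in
/-- `H` acts trivially on the first factor -/
theorem main_dec₁ [T2Space M] [CompactSpace M] [Finite A.ι] [ConnectedSpace (D.cov G)]
    [H.FiniteIndex] (hH : ∀ γ ∈ H, ∀ z : Dc.Y₁, letI := Dc.act₁ hG; γ • z = z)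
    (hd : d = r + s) (IH1 : MainN (g + s)) (IH2 : MainN r) (Pj : ProjD (D.atl (G ⧸ H)))
    {h : HM (KB A)⁻¹} (hs : h.Semipos) : ∃ m : ℕ, 0 < m ∧ HasSec ((KB A)⁻¹ ^ m) := by
  let _ := Dc.act₁ hG
  let _ := Dc.act₂ hG
  have k1 : HolMap B (Dc.B₂.prod Dc.B₁) (Dc.Φ.trans (Homeomorph.prodComm Dc.Y₁ Dc.Y₂)) :=
    holMap_pair Dc.hol₂ Dc.hol₁
  have k2 : HolMap (Dc.B₂.prod Dc.B₁) B
      (Dc.Φ.trans (Homeomorph.prodComm Dc.Y₁ Dc.Y₂)).symm :=
    Dc.hol'.comp (holMap_pair holMap_snd holMap_fst)
  refine main_sus S H k1 k2 (fun γ hγ y => ?_) (by omega) IH1 IH2 Pj hs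
  have h1 := Dc.act_eq hG γ y
  have h2 := hH γ hγ (Dc.Φ y).1
  show (Dc.Φ (γ • y)).swap = (γ • (Dc.Φ y).2, (Dc.Φ y).1)
  rw [h1]
  exact congrArg (Prod.mk _) h2

end dec

end

end Crest.Agent.R273.XTwo_836
end

-- ▼ part R273/LiftC_522
section

/-!
# R273 (S0416), torus step BP-T, T1 (helper522): diagonal homogeneous coordinates

* `snorm h`   : the sup norm on `H⁰(M, L)`;
* `IsLift`    : operators induced by unitary lifts; `prep` : the projective representation;
* `lifts`     : **T1**: after passing to the subgroup of `N`-th powers there are homogeneous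
  coordinates in which the group acts diagonally, with torsion free ratios of characters.
-/

set_option autoImplicit false
set_option linter.unusedSectionVars false

open Set Filter Topology Complex Module
open scoped ContDiff Matrix ComplexConjugate

namespace Crest.Agent.R273.LiftC_522

open Crest.Agent.R275.Geo Crest.Agent.R275.Core144 Crest.Agent.R273.Defs_333
  Crest.Agent.R273.HM_333 Crest.Agent.R273.Kah_333
  Crest.Agent.R273.Map_835 Crest.Agent.R273.PB_835 Crest.Agent.R273.FS_333
  Crest.Agent.R275.GC293 Crest.Agent.R273.LiftA_522 Crest.Agent.R273.LiftB_522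

noncomputable section

variable {n : ℕ} {M : Type} [TopologicalSpace M] {A : Atl n M} {L : LB A}

/-! ### the sup norm -/

/-- pointwise norm -/
def ptn (h : HM L) (s : A.ι → M → ℂ) (x : M) : ℝ :=
  ‖s (PB.ch A x) x‖ * Real.sqrt (h.w (PB.ch A x) x)


theorem ptn_eq (h : HM L) {s : A.ι → M → ℂ} (hs : IsHS L univ s) {i : A.ι} {x : M}
    (hx : x ∈ (A.e i).source) : ptn h s x = ‖s i x‖ * Real.sqrt (h.w i x) := by
  have hx' := PB.ch_mem A x
  rw [ptn, hs.tr (PB.ch A x) i x ⟨hx', hx⟩ (mem_univ x), h.tr (PB.ch A x) i x ⟨hx', hx⟩,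
    Real.sqrt_mul (sq_nonneg _), Real.sqrt_sq (norm_nonneg _), norm_mul]
  ring

theorem continuous_ptn (h : HM L) {s : A.ι → M → ℂ} (hs : IsHS L univ s) :
    Continuous (ptn h s) := by
  rw [continuous_iff_continuousAt]
  intro x
  obtain ⟨i, hi⟩ := A.cover x
  have hz := (A.e i).map_source hi
  have h1 : ContinuousAt (fun z => s i ((A.e i).symm z)) (A.e i x) := by
    have := (hs.hol i).diffAt isOpen_univ hi (mem_univ x)
    exact this.continuousAt
  have h2 : ContinuousAt (fun z => h.w i ((A.e i).symm z)) (A.e i x) :=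
    ((h.sm i).contDiffAt ((A.e i).open_target.mem_nhds hz)).continuousAt
  have h3 : ContinuousAt (fun z => ‖s i ((A.e i).symm z)‖ *
      Real.sqrt (h.w i ((A.e i).symm z))) (A.e i x) :=
    h1.norm.mul (Real.continuous_sqrt.continuousAt.comp h2)
  have h4 : ContinuousAt (fun y => ‖s i ((A.e i).symm (A.e i y))‖ *
      Real.sqrt (h.w i ((A.e i).symm (A.e i y)))) x :=
    ContinuousAt.comp (g := fun z => ‖s i ((A.e i).symm z)‖ *
      Real.sqrt (h.w i ((A.e i).symm z))) h3 ((A.e i).continuousAt hi)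
  refine h4.congr ?_
  filter_upwards [(A.e i).open_source.mem_nhds hi] with y hy
  rw [(A.e i).left_inv hy, ptn_eq h hs hy]

section sup

variable [CompactSpace M] [Nonempty M]

theorem bdd_ptn (h : HM L) {s : A.ι → M → ℂ} (hs : IsHS L univ s) :
    BddAbove (range (ptn h s)) := (isCompact_range (continuous_ptn h hs)).bddAbove

/-- the sup norm -/
def snorm (h : HM L) : Seminorm ℂ (HS L univ) :=
  Seminorm.of (fun s => ⨆ x, ptn h s.1 x)
    (by
      intro s t
      refine ciSup_le fun x => ?_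
      have h1 := le_ciSup (bdd_ptn h s.2) x
      have h2 := le_ciSup (bdd_ptn h t.2) x
      have h3 : ptn h (s + t).1 x ≤ ptn h s.1 x + ptn h t.1 x := by
        rw [ptn, ptn, ptn, ← add_mul]
        exact mul_le_mul_of_nonneg_right (norm_add_le _ _) (Real.sqrt_nonneg _)
      exact h3.trans (add_le_add h1 h2))
    (by
      intro a s
      rw [Real.mul_iSup_of_nonneg (norm_nonneg a)]
      congr 1
      funext x
      rw [ptn, ptn, ← mul_assoc, ← norm_mul]
      rfl)

theorem snorm_apply (h : HM L) (s : HS L univ) : snorm h s = ⨆ x, ptn h s.1 x := rfl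

theorem snorm_def (h : HM L) (s : HS L univ) (h0 : snorm h s = 0) : s = 0 := by
  apply Subtype.ext
  funext i x
  by_cases hx : x ∈ (A.e i).source
  · have h1 : ptn h s.1 x ≤ 0 := by
      rw [← h0]
      exact le_ciSup (bdd_ptn h s.2) x
    rw [ptn_eq h s.2 hx] at h1
    have h2 : 0 < Real.sqrt (h.w i x) := Real.sqrt_pos.2 (h.pos i x hx)
    have h3 : ‖s.1 i x‖ ≤ 0 := by
      by_contra hc
      push Not at hc
      have := mul_pos hc h2
      linarith
    exact norm_le_zero_iff.1 h3
  · exact s.2.off i x hx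

end sup

/-! ### lifts as operators -/

/-- the operator `φ` is induced by a unitary lift of `f` -/
def IsLift (h : HM L) (f : M → M) (φ : End ℂ (HS L univ)) : Prop :=
  ∃ T : UL h f, ∀ s : HS L univ, (φ s).1 = T.T.pull s.1

theorem exists_op {h : HM L} {f : M → M} (hf : HolMap A A f) (T : UL h f) :
    ∃ φ, IsLift h f φ := by
  refine ⟨{ toFun := fun s => ⟨T.T.pull s.1, ?_⟩, map_add' := ?_, map_smul' := ?_ }, T,
    fun s => rfl⟩
  · have := T.T.pull_isHS hf isOpen_univ s.2
    rwa [preimage_univ] at this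
  · intro s t
    apply Subtype.ext
    funext i x
    show T.T.pull (s.1 + t.1) i x = T.T.pull s.1 i x + T.T.pull t.1 i x
    simp only [PB.pull, Pi.add_apply]
    split_ifs <;> ring
  · intro a s
    apply Subtype.ext
    funext i x
    show T.T.pull (a • s.1) i x = a * T.T.pull s.1 i x
    simp only [PB.pull, Pi.smul_apply, smul_eq_mul]
    split_ifs <;> ring

theorem isLift_one (h : HM L) : IsLift h id 1 := by
  refine ⟨UL.refl h, fun s => ?_⟩
  funext i x
  show s.1 i x = PB.pull (PB.refl L) s.1 i x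
  by_cases hx : x ∈ (A.e i).source
  · rw [PB.pull_eq (PB.refl L) hx (j := i) hx s.2 (mem_univ _)]
    show s.1 i x = L.g i i x * s.1 i x
    rw [L.self, one_mul]
  · rw [s.2.off i x hx, PB.pull, if_neg hx]

theorem isLift_mul {h : HM L} {g g' : M → M} (hg : HolMap A A g) (hg' : HolMap A A g')
    {φ φ' : End ℂ (HS L univ)} (hφ : IsLift h g φ) (hφ' : IsLift h g' φ') :
    IsLift h (fun x => g' (g x)) (φ * φ') := by
  obtain ⟨T, hT⟩ := hφ
  obtain ⟨S, hS⟩ := hφ'
  refine ⟨UL.comp hg hg' T S, fun s => ?_⟩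
  rw [Module.End.mul_apply, hT, hS]
  funext i x
  by_cases hx : x ∈ (A.e i).source
  · obtain ⟨j, hj⟩ := A.cover (g x)
    obtain ⟨l, hl⟩ := A.cover (g' (g x))
    have h1 : IsHS L univ (S.T.pull s.1) := by
      have := S.T.pull_isHS hg' isOpen_univ s.2
      rwa [preimage_univ] at this
    rw [T.T.pull_eq hx hj h1 (mem_univ _), S.T.pull_eq hj hl s.2 (mem_univ _),
      (UL.comp hg hg' T S).T.pull_eq hx hl s.2 (mem_univ _)]
    have h2 : (UL.comp hg hg' T S).T.c i l x = T.T.c i j x * S.T.c j l (g x) :=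
      PB.comp_c hg hg' T.T S.T hx hj hl
    rw [h2, mul_assoc]
  · rw [PB.pull, if_neg hx, PB.pull, if_neg hx]

theorem isLift_uniq [PreconnectedSpace M] [Nonempty M] {h : HM L} {g : M → M}
    (hg : HolMap A A g) {φ φ' : End ℂ (HS L univ)} (hφ : IsLift h g φ) (hφ' : IsLift h g φ') :
    ∃ u : ℂ, ‖u‖ = 1 ∧ φ = u • φ' := by
  obtain ⟨T, hT⟩ := hφ
  obtain ⟨T', hT'⟩ := hφ'
  obtain ⟨u, hu, h1⟩ := UL.uniq hg T T'
  refine ⟨u, hu, LinearMap.ext fun s => Subtype.ext ?_⟩
  rw [hT]
  show T.T.pull s.1 = u • (φ' s).1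
  rw [hT']
  funext i x
  by_cases hx : x ∈ (A.e i).source
  · obtain ⟨j, hj⟩ := A.cover (g x)
    rw [Pi.smul_apply, Pi.smul_apply, smul_eq_mul, T.T.pull_eq hx hj s.2 (mem_univ _),
      T'.T.pull_eq hx hj s.2 (mem_univ _), h1 i j x hx hj, mul_assoc]
  · rw [Pi.smul_apply, Pi.smul_apply, PB.pull, if_neg hx, PB.pull, if_neg hx, smul_zero]

theorem isLift_iso [CompactSpace M] [Nonempty M] {h : HM L} {g : M → M}
    (hsurj : Function.Surjective g) {φ : End ℂ (HS L univ)} (hφ : IsLift h g φ) (s : HS L univ) :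
    snorm h (φ s) = snorm h s := by
  obtain ⟨T, hT⟩ := hφ
  have h1 : ∀ x, ptn h (φ s).1 x = ptn h s.1 (g x) := by
    intro x
    obtain ⟨i, hi⟩ := A.cover x
    obtain ⟨j, hj⟩ := A.cover (g x)
    rw [ptn_eq h (φ s).2 hi, ptn_eq h s.2 hj, hT, T.T.pull_eq hi hj s.2 (mem_univ _),
      ← T.unit i j x hi hj, norm_mul, Real.sqrt_mul (sq_nonneg _), Real.sqrt_sq (norm_nonneg _)]
    ring
  rw [snorm_apply, snorm_apply]
  simp only [h1]
  exact hsurj.iSup_comp (fun x => ptn h s.1 x)

/-- the projective representation on `H⁰(M, L)` -/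
def prep [CompactSpace M] [T2Space M] [SimplyConnectedSpace M] (h : HM L) (G : Type)
    [CommGroup G] [MulAction G M] (hol : ∀ g : G, HolMap A A (fun x => g • x))
    (hcur : ∀ (g : G) i j, ∀ x ∈ (A.e i).source, g • x ∈ (A.e j).source →
      cur h i x = (Jp A A (fun x => g • x) i j x)ᵀ * cur h j (g • x) *
        (Jp A A (fun x => g • x) i j x).map conj) :
    PRep (HS L (univ : Set M)) G where
  p := snorm h
  hp := snorm_def h
  Lf g φ := IsLift h (fun x => g • x) φ
  ex g := by
    obtain ⟨T⟩ := exists_ul h (hol g) (hcur g)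
    exact exists_op (hol g) T
  one := by
    have e : (fun x : M => (1 : G) • x) = id := by funext x; exact one_smul G x
    rw [e]
    exact isLift_one h
  mul := by
    intro g g' φ φ' hφ hφ'
    have e : (fun x : M => (g * g') • x) = fun x => g' • (g • x) := by
      funext x
      rw [mul_comm, mul_smul]
    rw [e]
    exact isLift_mul (hol g) (hol g') hφ hφ'
  uniq := by
    intro g φ φ' hφ hφ'
    exact isLift_uniq (hol g) hφ hφ'
  iso := by
    intro g φ hφ v
    exact isLift_iso (fun x => ⟨g⁻¹ • x, smul_inv_smul g x⟩) hφ v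

/-! ### homogeneous coordinates from a basis -/

/-- evaluation of sections in the frame of the chart `i` -/
def ev (L : LB A) (i : A.ι) (x : M) : HS L univ →ₗ[ℂ] ℂ where
  toFun s := s.1 i x
  map_add' _ _ := rfl
  map_smul' _ _ := rfl

theorem diffAt_sec (s : HS L univ) {i : A.ι} {z : Cn n} (hz : z ∈ (A.e i).target) :
    DifferentiableAt ℂ (fun w => s.1 i ((A.e i).symm w)) z := by
  have := (s.2.hol i).diffAt isOpen_univ ((A.e i).map_target hz) (mem_univ _)
  rwa [(A.e i).right_inv hz] at this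

/-- derivative of sections in the chart `i` -/
def dev (L : LB A) (i : A.ι) {z : Cn n} (hz : z ∈ (A.e i).target) (v : Cn n) :
    HS L univ →ₗ[ℂ] ℂ where
  toFun s := fderiv ℂ (fun w => s.1 i ((A.e i).symm w)) z v
  map_add' s t := by
    have h1 : (fun w => (s + t).1 i ((A.e i).symm w)) =
      (fun w => s.1 i ((A.e i).symm w)) + fun w => t.1 i ((A.e i).symm w) := rfl
    rw [h1, fderiv_add (diffAt_sec s hz) (diffAt_sec t hz)]
    rfl
  map_smul' a s := by
    have h1 : (fun w => (a • s).1 i ((A.e i).symm w)) =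
      a • fun w => s.1 i ((A.e i).symm w) := rfl
    rw [h1, fderiv_const_smul (diffAt_sec s hz)]
    rfl

theorem fderiv_pi_apply {m : ℕ} {F : Cn n → Fin m → ℂ} {z : Cn n}
    (hF : ∀ k, DifferentiableAt ℂ (fun w => F w k) z) (v : Cn n) (k : Fin m) :
    (fderiv ℂ F z v) k = fderiv ℂ (fun w => F w k) z v := by
  have h1 : DifferentiableAt ℂ F z := differentiableAt_pi.2 hF
  have h2 := (hasFDerivAt_pi'.1 h1.hasFDerivAt) k
  rw [h2.fderiv]
  rfl

/-- homogeneous coordinates from a basis of sections -/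
def projOf (P0 : ProjD A) (hP0 : ∀ k, IsHS L univ (sec P0 k)) {d : ℕ}
    (b : Basis (Fin (d + 1)) ℂ (HS L (univ : Set M))) : ProjD A where
  N := d
  F i x k := (b k).1 i x
  hol i k := (b k).2.hol i
  ne i x hx h := by
    have h1 : ev L i x = 0 := b.ext fun k => congrFun h k
    refine P0.ne i x hx (funext fun k => ?_)
    have h2 : ev L i x ⟨sec P0 k, hP0 k⟩ = 0 := by rw [h1]; rfl
    have h3 : sec P0 k i x = 0 := h2
    rwa [sec_eq P0 hx] at h3
  tr i j x hx := ⟨L.g i j x, funext fun k => (b k).2.tr i j x hx (mem_univ x)⟩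
  inj i j x hx y hy := by
    rintro ⟨c, hc⟩
    have h1 : ev L i x = c • ev L j y := b.ext fun k => congrFun hc k
    refine P0.inj i j x hx y hy ⟨c, funext fun k => ?_⟩
    have h2 : ev L i x ⟨sec P0 k, hP0 k⟩ = c * ev L j y ⟨sec P0 k, hP0 k⟩ := by rw [h1]; rfl
    have h3 : sec P0 k i x = c * sec P0 k j y := h2
    rwa [sec_eq P0 hx, sec_eq P0 hy] at h3
  imm i z hz v := by
    rintro ⟨c, hc⟩
    have h1 : dev L i hz v = c • ev L i ((A.e i).symm z) := by
      refine b.ext fun k => ?_
      have h2 := congrFun hc k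
      rw [fderiv_pi_apply (fun k => diffAt_sec (b k) hz)] at h2
      exact h2
    refine P0.imm i z hz v ⟨c, funext fun k => ?_⟩
    have hd : ∀ k, DifferentiableAt ℂ (fun w => P0.F i ((A.e i).symm w) k) z := by
      intro k
      have := (P0.hol i k).diffAt isOpen_univ ((A.e i).map_target hz) (mem_univ _)
      rwa [(A.e i).right_inv hz] at this
    rw [fderiv_pi_apply hd]
    have h2 : dev L i hz v ⟨sec P0 k, hP0 k⟩ =
        c * ev L i ((A.e i).symm z) ⟨sec P0 k, hP0 k⟩ := by rw [h1]; rfl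
    have h3 : fderiv ℂ (fun w => sec P0 k i ((A.e i).symm w)) z v =
        c * sec P0 k i ((A.e i).symm z) := h2
    rw [sec_eq P0 ((A.e i).map_target hz)] at h3
    have h4 : (fun w => sec P0 k i ((A.e i).symm w)) =ᶠ[𝓝 z]
        fun w => P0.F i ((A.e i).symm w) k := by
      filter_upwards [(A.e i).open_target.mem_nhds hz] with w hw
      rw [sec_eq P0 ((A.e i).map_target hw)]
    rw [h4.fderiv_eq] at h3
    exact h3

/-- **T1 (LIFTS)** -/
theorem lifts [CompactSpace M] [T2Space M] [SimplyConnectedSpace M] (P0 : ProjD A)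
    (hP0 : ∀ k, IsHS L univ (sec P0 k)) (h : HM L) [FiniteDimensional ℂ (HS L (univ : Set M))]
    (G : Type) [CommGroup G] [MulAction G M] (hol : ∀ g : G, HolMap A A (fun x => g • x))
    (hcur : ∀ (g : G) i j, ∀ x ∈ (A.e i).source, g • x ∈ (A.e j).source →
      cur h i x = (Jp A A (fun x => g • x) i j x)ᵀ * cur h j (g • x) *
        (Jp A A (fun x => g • x) i j x).map conj) :
    ∃ N : ℕ, 0 < N ∧ ∃ (P : ProjD A)
      (χ : Fin (P.N + 1) → ((powMonoidHom N : G →* G).range →* Circle)),
      (∀ (γ : (powMonoidHom N : G →* G).range) i j, ∀ x ∈ (A.e i).source,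
        γ • x ∈ (A.e j).source →
        ∃ c : ℂ, ∀ k, P.F j (γ • x) k = c * ((χ k γ : ℂ) * P.F i x k)) ∧
      (∀ w ∈ Subgroup.closure {w : (powMonoidHom N : G →* G).range →* Circle |
        ∃ k l, w = χ k / χ l}, ∀ m : ℕ, m ≠ 0 → w ^ m = 1 → w = 1) ∧
      (∀ k, ∃ i, ∃ x ∈ (A.e i).source, P.F i x k ≠ 0) ∧
      (∀ k, IsHS L univ (fun i x => P.F i x k)) := by
  have hV : 0 < finrank ℂ (HS L (univ : Set M)) := by
    rw [finrank_pos_iff_exists_ne_zero]
    obtain ⟨x0⟩ := (inferInstance : Nonempty M)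
    obtain ⟨i, hi⟩ := A.cover x0
    have h1 := P0.ne i x0 hi
    obtain ⟨k, hk⟩ : ∃ k, P0.F i x0 k ≠ 0 := by
      by_contra hc
      push Not at hc
      exact h1 (funext hc)
    refine ⟨⟨sec P0 k, hP0 k⟩, fun h0 => hk ?_⟩
    have h2 := congrArg (fun s : HS L (univ : Set M) => s.1 i x0) h0
    rw [← sec_eq P0 hi k]
    exact h2
  obtain ⟨N, hN, b, χ, h1, h2⟩ := (prep h G hol hcur).main hV
  obtain ⟨d, hd⟩ : ∃ d, finrank ℂ (HS L (univ : Set M)) = d + 1 :=
    ⟨finrank ℂ (HS L (univ : Set M)) - 1, by omega⟩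
  set e := finCongr hd with he
  refine ⟨N, hN, projOf P0 hP0 (b.reindex e), fun k => χ (e.symm k), ?_, ?_, ?_, ?_⟩
  · intro γ i j x hx hj
    obtain ⟨φ, hφ⟩ := (prep h G hol hcur).ex γ
    obtain ⟨c, hc, hk⟩ := h1 γ φ hφ
    obtain ⟨T, hT⟩ : IsLift h (fun x => (γ : G) • x) φ := hφ
    refine ⟨c / T.T.c i j x, fun k => ?_⟩
    show ((b.reindex e) k).1 j (γ • x) = _ * (_ * ((b.reindex e) k).1 i x)
    rw [Basis.reindex_apply]
    have h3 := congrArg (fun s : HS L (univ : Set M) => s.1 i x) (hk (e.symm k))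
    have h4 : (φ (b (e.symm k))).1 i x = T.T.c i j x * (b (e.symm k)).1 j (γ • x) := by
      rw [hT]
      exact T.T.pull_eq hx hj (b (e.symm k)).2 (mem_univ _)
    have h5 : (φ (b (e.symm k))).1 i x = (c * χ (e.symm k) γ) * (b (e.symm k)).1 i x := h3
    rw [h4] at h5
    have h6 := T.T.ne i j x hx hj
    field_simp
    linear_combination h5
  · intro w hw
    refine h2 w (Subgroup.closure_mono ?_ hw)
    rintro _ ⟨k, l, rfl⟩
    exact ⟨_, _, rfl⟩
  · intro k
    by_contra hc
    push Not at hc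
    apply (b.reindex e).ne_zero k
    apply Subtype.ext
    funext i x
    by_cases hx : x ∈ (A.e i).source
    · exact hc i x hx
    · exact ((b.reindex e) k).2.off i x hx
  · intro k
    exact ((b.reindex e) k).2

end

end Crest.Agent.R273.LiftC_522
end

-- ▼ part R273/Slc_333
section

/-!
# R273 (S0416), helper333: the slices of the normal form

* `met_sl`   : the metric of `M` restricted to a slice `y ↦ S.π (z, y)` is `S.KY`
* `sl_inj`, `imm_sl` : for injective `S.lam` the slices are injective immersions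
* `projY`    : homogeneous coordinates on `Y` (given `Ref B A (S.sl z)`)
* `lifts_Y`  : helper522's lifts for the action of `G` on `Y`
-/

set_option autoImplicit false
set_option linter.unusedSectionVars false

open Set Filter Topology Complex
open scoped ContDiff Matrix ComplexConjugate Manifold ComplexOrder

namespace Crest.Agent.R273.Slc_333

open Crest.Agent.R275.Geo Crest.Agent.R275.Core144 Crest.Agent.R275.GC293
open Crest.Agent.R275.Prod363
open Crest.Agent.R273.Defs_333 Crest.Agent.R273.Kah_333 Crest.Agent.R273.Vol_333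
open Crest.Agent.R273.Map_835 Crest.Agent.R273.PB_835 Crest.Agent.R273.EA_333
open Crest.Agent.R273.UCov_914 Crest.Agent.R273.Prd_835 Crest.Agent.R273.Sus_333
open Crest.Agent.R273.FS_333

noncomputable section

/-! ### the Jacobian of an inclusion -/

section inr

variable {n m : ℕ} {M N : Type} [TopologicalSpace M] [TopologicalSpace N] {A : Atl n M}
  {B : Atl m N}

theorem fderiv_inr {i : A.ι} {j : B.ι} {x : M} {y : N} (hy : y ∈ (B.e j).source) :
    fderiv ℂ (rd B (A.prod B) (fun y => (x, y)) j (i, j)) (B.e j y) =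
      (appL n m).comp ((0 : Cn m →L[ℂ] Cn n).prod (ContinuousLinearMap.id ℂ (Cn m))) := by
  have h1 : rd B (A.prod B) (fun y => (x, y)) j (i, j) =ᶠ[𝓝 (B.e j y)]
      fun w => appL n m (A.e i x, w) := by
    filter_upwards [(B.e j).open_target.mem_nhds ((B.e j).map_source hy)] with w hw
    change appL n m (A.e i x, B.e j ((B.e j).symm w)) = _
    rw [(B.e j).right_inv hw]
  rw [h1.fderiv_eq]
  have h2 : HasFDerivAt (fun w : Cn m => (A.e i x, w))
      ((0 : Cn m →L[ℂ] Cn n).prod (ContinuousLinearMap.id ℂ (Cn m))) (B.e j y) :=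
    (hasFDerivAt_const _ _).prodMk (hasFDerivAt_id _)
  exact ((appL n m).hasFDerivAt.comp (B.e j y) h2).fderiv

theorem Jp_inr_left {i : A.ι} {j : B.ι} {x : M} {y : N} (hy : y ∈ (B.e j).source)
    (b : Fin n) (a : Fin m) :
    Jp B (A.prod B) (fun y => (x, y)) j (i, j) y (Fin.castAdd m b) a = 0 := by
  rw [Jp_eq, fderiv_inr hy]
  simp only [Map_835.mt, Matrix.of_apply, ContinuousLinearMap.comp_apply,
    ContinuousLinearMap.prod_apply, appL_apply, app_castAdd, _root_.zero_apply]
  rfl

theorem Jp_inr_right {i : A.ι} {j : B.ι} {x : M} {y : N} (hy : y ∈ (B.e j).source)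
    (b : Fin m) (a : Fin m) :
    Jp B (A.prod B) (fun y => (x, y)) j (i, j) y (Fin.natAdd n b) a =
      (1 : Matrix (Fin m) (Fin m) ℂ) b a := by
  rw [Jp_eq, fderiv_inr hy]
  simp only [Map_835.mt, Matrix.of_apply, ContinuousLinearMap.comp_apply,
    ContinuousLinearMap.prod_apply, appL_apply, app_natAdd, ContinuousLinearMap.id_apply,
    Matrix.one_apply]
  by_cases h : b = a <;> simp [h]

end inr

variable {g d : ℕ} {M : Type} [TopologicalSpace M] {A : Atl (g + d) M} {G : Type} [CommGroup G]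
variable {D : MonD A G} {K : Kah A} {Y : Type} [TopologicalSpace Y] [MulAction G Y]
  {B : Atl d Y} (S : Sus D K B)

/-- the metric restricted to the slices -/
theorem met_sl (z : Cn g) {j : B.ι} {a : A.ι} {y : Y} (hy : y ∈ (B.e j).source)
    (ha : S.sl z y ∈ (A.e a).source) :
    (Jp B A (S.sl z) j a y)ᵀ * K.g a (S.sl z y) * (Jp B A (S.sl z) j a y).map conj =
      S.KY.g j y := by
  obtain ⟨i, hi⟩ := (EA g).cover z
  have h1 := S.met i j a z y hi hy ha
  have h2 := Jp_comp (C := A) (q := S.π) (p := fun y => (z, y)) S.lb_π.toHolMap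
    (holMap_inr (A := EA g) (B := B) z) (i := j) (j := (i, j)) (l := a) (x := y) hy ⟨hi, hy⟩ ha
  have h3 : (fun y => S.π (z, y)) = S.sl z := rfl
  rw [h3] at h2
  set T := Jp ((EA g).prod B) A S.π (i, j) a (z, y) with hT
  set E := Jp B ((EA g).prod B) (fun y => (z, y)) j (i, j) y with hE
  have h4 : Tᵀ * K.g a (S.sl z y) * T.map conj = blk S.G0 (S.KY.g j y) := h1
  rw [← h2, Matrix.transpose_mul, Matrix.map_mul]
  have h5 : Eᵀ * Tᵀ * K.g a (S.sl z y) * (T.map conj * E.map conj) =
      Eᵀ * blk S.G0 (S.KY.g j y) * E.map conj := by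
    rw [← h4]
    simp only [Matrix.mul_assoc]
  rw [h5]
  ext b c
  simp only [Matrix.mul_apply, Matrix.transpose_apply, Matrix.map_apply, Fin.sum_univ_add]
  have e1 : ∀ b a, E (Fin.castAdd d b) a = 0 := fun b a => Jp_inr_left hy b a
  have e2 : ∀ b a, E (Fin.natAdd g b) a = (1 : Matrix (Fin d) (Fin d) ℂ) b a := fun b a =>
    Jp_inr_right hy b a
  simp only [e1, e2, blk_rr, Matrix.one_apply, map_zero, mul_zero, zero_mul,
    Finset.sum_const_zero, zero_add, ite_mul, one_mul, Finset.sum_ite_eq', Finset.mem_univ,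
    if_true]
  simp

/-- the slices are injective -/
theorem sl_inj (hl : Function.Injective S.lam) (z : Cn g) : Function.Injective (S.sl z) := by
  intro y y' h
  have h0 : D.pr (S.Ψ (z, y)) = D.pr (S.Ψ (z, y')) := h
  obtain ⟨γ, hγ⟩ := D.exists_deck h0
  rw [S.eqv] at hγ
  have h1 := S.Ψ.injective hγ
  rw [Prod.mk.injEq] at h1
  have h2 : S.lam γ = 1 := by
    have h3 : Multiplicative.toAdd (S.lam γ) = 0 := by simpa using h1.1
    exact Multiplicative.toAdd.injective h3
  have h4 : γ = 1 := hl (h2.trans (map_one _).symm)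
  rw [h4, one_smul] at h1
  exact h1.2

/-- the slices are immersions -/
theorem imm_sl (z : Cn g) : ∀ j a, ∀ w ∈ dm B A (S.sl z) j a,
    Function.Injective (fderiv ℂ (rd B A (S.sl z) j a) w) := by
  intro j a w hw v v' hv
  have hy := (B.e j).map_target hw.1
  have h1 := met_sl S z (a := a) hy hw.2
  rw [Jp_eq, (B.e j).right_inv hw.1] at h1
  set T := fderiv ℂ (rd B A (S.sl z) j a) w with hT
  have h2 : T (v - v') = 0 := by rw [map_sub, hv, sub_self]
  have h3 : (mt T).mulVec (fun c => (v - v') c) = 0 := by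
    ext b
    have h4 := mt_apply T (v - v') b
    rw [h2] at h4
    exact h4.symm
  have h5 : ((mt T).map conj).mulVec (fun c => conj ((v - v') c)) = 0 := by
    ext b
    have h6 := congrArg conj (congrFun h3 b)
    simp only [Matrix.mulVec, dotProduct, map_sum, map_mul, Pi.zero_apply, map_zero] at h6
    simpa only [Matrix.mulVec, dotProduct, Matrix.map_apply, Pi.zero_apply] using h6
  have h7 : (S.KY.g j ((B.e j).symm w)).mulVec (fun c => conj ((v - v') c)) = 0 := by
    rw [← h1, ← Matrix.mulVec_mulVec, h5, Matrix.mulVec_zero]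
  have h8 := Matrix.mulVec_injective_of_isUnit (S.KY.pos j _ hy).isUnit
    (h7.trans (Matrix.mulVec_zero _).symm)
  rw [← sub_eq_zero]
  ext c
  have h9 : conj ((v - v') c) = 0 := congrFun h8 c
  exact (map_eq_zero _).1 h9

/-! ### homogeneous coordinates on the fibre -/

/-- homogeneous coordinates on `Y` -/
def projY (hl : Function.Injective S.lam) (R : Ref B A (S.sl 0)) (P : ProjD A) : ProjD B :=
  pullProjD (S.holMap_sl 0) R (sl_inj S hl 0) (imm_sl S 0) P


/-- the ample bundle of `Y` -/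
abbrev LY (R : Ref B A (S.sl 0)) (P : ProjD A) : LB B := pullLB (S.holMap_sl 0) R (lb P)

theorem isHS_projY (hl : Function.Injective S.lam) (R : Ref B A (S.sl 0)) (P : ProjD A)
    (k : Fin ((projY S hl R P).N + 1)) :
    IsHS (LY S R P) univ (sec (projY S hl R P) k) where
  hol i := ((projY S hl R P).hol i k).congr fun x hx _ => (sec_eq _ hx k).symm
  off i x hx := if_neg hx
  tr i j x hx _ := by
    rw [sec_eq _ hx.1, sec_eq _ hx.2, pullLB_g (S.holMap_sl 0) R (lb P) hx]
    have h1 := (isHS_sec P (k : Fin (P.N + 1))).tr (R.r i) (R.r j) (S.sl 0 x)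
      ⟨R.sub i x hx.1, R.sub j x hx.2⟩ (mem_univ _)
    have e1 : sec P (k : Fin (P.N + 1)) (R.r i) (S.sl 0 x) = P.F (R.r i) (S.sl 0 x) k :=
      sec_eq P (R.sub i x hx.1) k
    have e2 : sec P (k : Fin (P.N + 1)) (R.r j) (S.sl 0 x) = P.F (R.r j) (S.sl 0 x) k :=
      sec_eq P (R.sub j x hx.2) k
    have h2 := e1.symm.trans (h1.trans (congrArg _ e2))
    exact h2

/-- its metric -/
def hmY (R : Ref B A (S.sl 0)) {P : ProjD A} (H : HM (lb P)) : HM (LY S R P) :=
  (PB.ref (S.holMap_sl 0) R (lb P)).pullHM (S.holMap_sl 0) H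



end

end Crest.Agent.R273.Slc_333
end

-- ▼ part R273/LiftS_522

/-!
# R273 (S0416), helper522: LIFTS for the normal form `Sus`

* `sl_quad`     : the slice `Y → M` pulls back `K` to `KY`;
* `Sus.chg`     : change of the atlas of `Y`;
* `exists_chg`  : a refined atlas for which the slice `Y → M` maps charts into charts;
* `lifts_sus`   : T1 for `Sus`.
-/

set_option autoImplicit false
set_option linter.unusedSectionVars false

open Set Filter Topology Complex Module
open scoped ContDiff Matrix ComplexConjugate ComplexOrder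

namespace Crest.Agent.R273.LiftS_522

open Crest.Agent.R275.Geo Crest.Agent.R275.Core144 Crest.Agent.R273.Defs_333
  Crest.Agent.R273.HM_333 Crest.Agent.R273.Kah_333 Crest.Agent.R275.Prod363
  Crest.Agent.R273.Map_835 Crest.Agent.R273.PB_835 Crest.Agent.R273.FS_333
  Crest.Agent.R275.GC293 Crest.Agent.R273.LiftA_522 Crest.Agent.R273.LiftB_522
  Crest.Agent.R273.LiftC_522 Crest.Agent.R273.Prd_835 Crest.Agent.R273.EA_333
  Crest.Agent.R273.UCov_914 Crest.Agent.R273.Sus_333 Crest.Agent.R273.PCovA_835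
  Crest.Agent.R273.Fam_835

noncomputable section

/-! ### the inclusion of a slice -/

section inr

variable {n m : ℕ} {M N : Type} [TopologicalSpace M] [TopologicalSpace N] {A : Atl n M}
  {B : Atl m N}

theorem Jp_inr {i : A.ι} {j : B.ι} (x : M) {y : N} (hy : y ∈ (B.e j).source) (c : Fin (n + m))
    (b : Fin m) : Jp B (A.prod B) (fun y => (x, y)) j (i, j) y c b =
      if c = Fin.natAdd n b then 1 else 0 := by
  have h1 : rd B (A.prod B) (fun y => (x, y)) j (i, j) =ᶠ[𝓝 (B.e j y)]
      fun w => appL n m (A.e i x, w) := by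
    filter_upwards [(B.e j).open_target.mem_nhds ((B.e j).map_source hy)] with w hw
    show app (A.e i x) (B.e j ((B.e j).symm w)) = app (A.e i x) w
    rw [(B.e j).right_inv hw]
  have h2 : HasFDerivAt (fun w => appL n m (A.e i x, w))
      ((appL n m).comp (ContinuousLinearMap.inr ℂ (Cn n) (Cn m))) (B.e j y) :=
    (appL n m).hasFDerivAt.comp (B.e j y) (hasFDerivAt_prodMk_right (A.e i x) (B.e j y))
  rw [Jp_eq, h1.fderiv_eq, h2.fderiv]
  show (app (0 : Cn n) (EuclideanSpace.single b 1)) c = _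
  induction c using Fin.addCases with
  | left c =>
    rw [app_castAdd]
    have : Fin.castAdd m c ≠ Fin.natAdd n b := by
      intro h
      have := congrArg Fin.val h
      simp at this
      omega
    rw [if_neg this]
    rfl
  | right c =>
    rw [app_natAdd]
    by_cases h : c = b
    · subst h; simp
    · have : Fin.natAdd n c ≠ Fin.natAdd n b := fun h' => h (by simpa using h')
      rw [if_neg this]
      simp [h]

end inr

variable {g d : ℕ} {M : Type} [TopologicalSpace M] {A : Atl (g + d) M} {G : Type} [CommGroup G]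
  {D : MonD A G} {K : Kah A} {Y : Type} [TopologicalSpace Y] [MulAction G Y] {B : Atl d Y}

/-- the Jacobian of the slice -/
theorem Jp_sl (S : Sus D K B) {i : (EA g).ι} {j : B.ι} {a : A.ι} {z : Cn g} {y : Y}
    (hz : z ∈ ((EA g).e i).source) (hy : y ∈ (B.e j).source) (ha : S.π (z, y) ∈ (A.e a).source)
    (c : Fin (g + d)) (b : Fin d) :
    Jp B A (S.sl z) j a y c b = Jp ((EA g).prod B) A S.π (i, j) a (z, y) c (Fin.natAdd g b) := by
  have h1 := Jp_comp S.lb_π.toHolMap (holMap_inr (A := EA g) (B := B) z) (i := j) (j := (i, j))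
    (l := a) (x := y) hy ⟨hz, hy⟩ ha
  have h2 : Jp B A (S.sl z) j a y = Jp ((EA g).prod B) A S.π (i, j) a (z, y) *
      Jp B ((EA g).prod B) (fun y => (z, y)) j (i, j) y := h1.symm
  rw [h2, Matrix.mul_apply, Finset.sum_eq_single (Fin.natAdd g b)]
  · rw [Jp_inr z hy, if_pos rfl, mul_one]
  · intro e _ he
    rw [Jp_inr z hy, if_neg he, mul_zero]
  · intro h
    exact absurd (Finset.mem_univ _) h

/-- the slice pulls back `K` to `KY` -/
theorem sl_quad (S : Sus D K B) {j : B.ι} {a : A.ι} {z : Cn g} {y : Y}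
    (hy : y ∈ (B.e j).source) (ha : S.sl z y ∈ (A.e a).source) :
    (Jp B A (S.sl z) j a y)ᵀ * K.g a (S.sl z y) * (Jp B A (S.sl z) j a y).map conj =
      S.KY.g j y := by
  obtain ⟨i, hi⟩ := (EA g).cover z
  have h1 := S.met i j a z y hi hy ha
  ext b c
  have h2 := congrFun (congrFun h1 (Fin.natAdd g b)) (Fin.natAdd g c)
  rw [blk_rr] at h2
  rw [← h2]
  simp only [Matrix.mul_apply, Matrix.transpose_apply, Matrix.map_apply]
  refine Finset.sum_congr rfl fun e _ => ?_
  rw [Jp_sl S hi hy ha]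
  congr 1
  refine Finset.sum_congr rfl fun f _ => ?_
  rw [Jp_sl S hi hy ha]
  rfl

/-- **change of the atlas of `Y`** -/
def chg (S : Sus D K B) {B' : Atl d Y} (h1 : LBih B' B id) (KY' : Kah B')
    (hK : ∀ j' j, ∀ y ∈ (B'.e j').source, y ∈ (B.e j).source → KY'.g j' y =
      (Jp B' B id j' j y)ᵀ * S.KY.g j y * (Jp B' B id j' j y).map conj) : Sus D K B' where
  lam := S.lam
  Ψ := S.Ψ
  lb := S.lb.comp (lBih_prodMap (lBih_id (EA g)) h1)
  eqv := S.eqv
  G0 := S.G0
  G0pos := S.G0pos
  KY := KY'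
  met := by
    intro i j' a z y hz hy ha
    obtain ⟨j, hj⟩ := B.cover y
    have h2 := S.met i j a z y hz hj ha
    have h3 := Jp_comp S.lb_π.toHolMap
      (lBih_prodMap (lBih_id (EA g)) h1).toHolMap (i := (i, j')) (j := (i, j)) (l := a)
      (x := (z, y)) ⟨hz, hy⟩ ⟨hz, hj⟩ ha
    have h4 := Jp_prodMap (lBih_id (EA g)).toHolMap h1.toHolMap (i := i) (i' := i) (j := j')
      (j' := j) (x := z) (y := y) hz hy hz hj
    have h5 : Jp (EA g) (EA g) id i i z = 1 := J_self i hz
    rw [h5] at h4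
    have h6 : Jp ((EA g).prod B') A (fun q => D.pr (S.Ψ q)) (i, j') a (z, y) =
        Jp ((EA g).prod B) A (fun q => D.pr (S.Ψ q)) (i, j) a (z, y) *
          blk 1 (Jp B' B id j' j y) := by
      rw [← h4]
      exact h3.symm
    rw [h6, Matrix.transpose_mul, Matrix.map_mul, hK j' j y hy hj]
    have h7 : ∀ (X T Kk X' T' : Matrix (Fin (g + d)) (Fin (g + d)) ℂ),
        X * T * Kk * (T' * X') = X * (T * Kk * T') * X' := by
      intro X T Kk X' T'
      simp only [Matrix.mul_assoc]
    rw [h7, h2, blk_transpose, blk_map, blk_mul, blk_mul]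
    congr 1
    rw [Matrix.transpose_one, Matrix.one_mul]
    simp



/-- a congruent matrix is positive definite -/
theorem posDef_congr {k : ℕ} {X : Matrix (Fin k) (Fin k) ℂ} (hX : X.PosDef)
    {J : Matrix (Fin k) (Fin k) ℂ} (hJ : J.det ≠ 0) : (Jᵀ * X * J.map conj).PosDef := by
  have h1 : (J.map conj).conjTranspose = Jᵀ := by
    ext a b
    simp [Matrix.conjTranspose_apply]
  have h2 := hX.conjTranspose_mul_mul_same (B := J.map conj) (by
    apply Matrix.mulVec_injective_of_isUnit
    rw [Matrix.isUnit_iff_isUnit_det, Sus.det_map_conj]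
    exact isUnit_iff_ne_zero.2 (by simpa using hJ))
  rwa [h1] at h2


/-- **a refined atlas of `Y`**, such that the slice maps charts into charts -/
theorem exists_chg [CompactSpace Y] [T2Space Y] {L : LB A} (S : Sus D K B) (hM : HM L)
    (hK : ∀ a, ∀ x ∈ (A.e a).source, cur hM a x = K.g a x) :
    ∃ B' : Atl d Y, Finite B'.ι ∧ GoodA B' ∧ Nonempty (Part B') ∧ LBih B' B id ∧ LBih B B' id ∧
      ∃ S' : Sus D K B', Nonempty (Ref B' A (S'.sl 0)) ∧ S'.lam = S.lam ∧ S'.Ψ = S.Ψ ∧
        S'.G0 = S.G0 := by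
  obtain ⟨B', h1, h2, h3, hr, -, h5, h6⟩ := exists_refine B
    (fun a : A.ι => S.sl 0 ⁻¹' (A.e a).source)
    (fun a => (A.e a).open_source.preimage (S.holMap_sl 0).cont) (fun y => A.cover (S.sl 0 y))
  choose r hr using hr
  let R : Ref B' A (S.sl 0) := ⟨r, fun i x hx => hr i hx⟩
  have hf : HolMap B' A (S.sl 0) := (S.holMap_sl 0).comp h5.toHolMap
  have hcur : ∀ j' j, ∀ y ∈ (B'.e j').source, y ∈ (B.e j).source →
      cur ((PB.ref hf R L).pullHM hf hM) j' y =
        (Jp B' B id j' j y)ᵀ * S.KY.g j y * (Jp B' B id j' j y).map conj := by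
    intro j' j y hy hj
    obtain ⟨a, ha⟩ := A.cover (S.sl 0 y)
    have e1 := cur_pull (PB.ref hf R L) hf hM (i := j') (j := a) hy ha
    have e2 : Jp B' A (S.sl 0) j' a y = Jp B A (S.sl 0) j a y * Jp B' B id j' j y :=
      (Jp_comp (p := id) (S.holMap_sl 0) h5.toHolMap (i := j') (j := j) (l := a) (x := y)
        hy hj ha).symm
    rw [e1, e2, hK a _ ha, ← sl_quad S (z := 0) hj ha, Matrix.transpose_mul, Matrix.map_mul]
    simp only [Matrix.mul_assoc]
  have hpos : ((PB.ref hf R L).pullHM hf hM).Pos := by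
    refine pos_of_cur fun j' y hy => ?_
    obtain ⟨j, hj⟩ := B.cover y
    rw [hcur j' j y hy hj]
    exact posDef_congr (S.KY.pos j y hj) (h5.det j' j y hy hj)
  refine ⟨B', h1, h2, h3, h5, h6, chg S h5 (kah _ hpos) hcur, ⟨R⟩, rfl, rfl, rfl⟩



end

end Crest.Agent.R273.LiftS_522
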