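import Crest.Agent.R273.Defs_333
import Crest.Prelude.Def_AnticanonicalChart

-- ▼ part R273/RedA_333
section

/-!
# R273 (S0416), Part E (helper333): descent to `Type`, transfer of charts

`exists_model` : a compact Hausdorff space charted over `Fin n → ℂ` is homeomorphic to a space in
`Type`.
`tc g e`  : the chart `e` of `X` as a chart of `M` (`g : M ≃ₜ X`) with values in Euclidean space.
-/

set_option autoImplicit false
set_option linter.unusedSectionVars false

open Set Filter Topology Complex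
open scoped ContDiff Manifold

namespace Crest.Agent.R273.RedA_333

open Crest.Agent.R275.Geo Crest.Agent.R275.Core144 Crest.Agent.R275.GC293
open Crest.Agent.R273.Defs_333

noncomputable section

universe u

/-- the model space of `Def_AnticanonicalChart` -/
abbrev Cs (n : ℕ) : Type := Crest.AlgGeometry.Anticanonical.Cn n

theorem exists_model (n : ℕ) (X : Type u) [TopologicalSpace X] [T2Space X] [CompactSpace X]
    [ChartedSpace (Cs n) X] :
    ∃ (M : Type) (_ : TopologicalSpace M), Nonempty (M ≃ₜ X) := by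
  have : SecondCountableTopology X := ChartedSpace.secondCountable_of_sigmaCompact (Cs n) X
  obtain ⟨f, hf⟩ := TopologicalSpace.exists_embedding_l_infty X
  exact ⟨range f, inferInstance, ⟨hf.toHomeomorph.symm⟩⟩

/-- `ℂⁿ` with the sup norm versus Euclidean norm -/
def lpE (n : ℕ) : EuclideanSpace ℂ (Fin n) ≃L[ℂ] Cs n := EuclideanSpace.equiv (Fin n) ℂ

variable {n : ℕ} {X : Type u} [TopologicalSpace X] [ChartedSpace (Cs n) X]
  {M : Type} [TopologicalSpace M]

/-- the chart `e` of `X` as a chart of `M` -/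
def tc (g : M ≃ₜ X) (e : OpenPartialHomeomorph X (Cs n)) :
    OpenPartialHomeomorph M (EuclideanSpace ℂ (Fin n)) :=
  (g.toOpenPartialHomeomorph ≫ₕ e).transHomeomorph (lpE n).symm.toHomeomorph

theorem tc_apply (g : M ≃ₜ X) (e : OpenPartialHomeomorph X (Cs n)) (x : M) :
    tc g e x = (lpE n).symm (e (g x)) := rfl

theorem tc_symm_apply (g : M ≃ₜ X) (e : OpenPartialHomeomorph X (Cs n))
    (z : EuclideanSpace ℂ (Fin n)) :
    (tc g e).symm z = g.symm (e.symm (lpE n z)) := rfl

theorem tc_source (g : M ≃ₜ X) (e : OpenPartialHomeomorph X (Cs n)) :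
    (tc g e).source = g ⁻¹' e.source := by
  ext x
  simp [tc]

theorem tc_target (g : M ≃ₜ X) (e : OpenPartialHomeomorph X (Cs n)) :
    (tc g e).target = (lpE n) ⁻¹' e.target := by
  ext x
  simp [tc]

/-- the charted space structure of `M` -/
@[reducible] def chartedM (g : M ≃ₜ X) : ChartedSpace (EuclideanSpace ℂ (Fin n)) M where
  atlas := tc g '' atlas (Cs n) X
  chartAt x := tc g (chartAt (Cs n) (g x))
  mem_chart_source x := by
    rw [tc_source]
    exact mem_chart_source (Cs n) (g x)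
  chart_mem_atlas x := ⟨_, chart_mem_atlas (Cs n) (g x), rfl⟩

theorem isManifold_chartedM (g : M ≃ₜ X) [IsManifold 𝓘(ℂ, Cs n) ω X] :
    let _ := chartedM (n := n) g
    IsManifold 𝓘(ℂ, EuclideanSpace ℂ (Fin n)) 1 M := by
  letI := chartedM (n := n) g
  apply isManifold_of_contDiffOn
  rintro _ _ ⟨e, he, rfl⟩ ⟨e', he', rfl⟩
  have h0 : ContDiffOn ℂ ω (e.symm ≫ₕ e') (e.symm ≫ₕ e').source := by
    have := contMDiffOn_of_mem_contDiffGroupoid (n := ω) (I := 𝓘(ℂ, Cs n))
      (HasGroupoid.compatible (G := contDiffGroupoid ω 𝓘(ℂ, Cs n)) he he')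
    exact contMDiffOn_iff_contDiffOn.1 this
  have h1 : ContDiffOn ℂ 1 (fun z : EuclideanSpace ℂ (Fin n) =>
      (lpE n).symm ((e.symm ≫ₕ e') (lpE n z))) ((lpE n) ⁻¹' (e.symm ≫ₕ e').source) := by
    refine (lpE n).symm.contDiff.comp_contDiffOn ?_
    exact ((h0.of_le le_top).comp (lpE n).contDiff.contDiffOn (fun z hz => hz))
  refine h1.congr_mono ?_ ?_
  · intro z _
    simp [tc_apply, tc_symm_apply]
  · intro z hz
    have h2 := hz.1
    simp only [mem_preimage, modelWithCornersSelf_coe_symm, id_eq, OpenPartialHomeomorph.trans_source,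
      OpenPartialHomeomorph.symm_source, tc_target, tc_source, mem_inter_iff] at h2 ⊢
    refine ⟨h2.1, ?_⟩
    have h3 := h2.2
    rw [tc_symm_apply] at h3
    simpa using h3

end

end Crest.Agent.R273.RedA_333
end

-- ▼ part R273/RedB_333
section

/-!
# R273 (S0416), Part E (helper333): comparison of an `Atl` on `M` with the atlas of `X`

`Lk A X` : homeomorphism `g : M ≃ₜ X`, every chart of `A` is (up to `lpE`) an affine image of a chart
of the atlas of `X`, with a common scaling factor `ρ`.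
-/

set_option autoImplicit false
set_option linter.unusedSectionVars false

open Set Filter Topology Complex
open scoped ContDiff Manifold

namespace Crest.Agent.R273.RedB_333

open Crest.Agent.R275.Geo Crest.Agent.R275.Core144 Crest.Agent.R275.GC293
open Crest.Agent.R273.Defs_333 Crest.Agent.R273.RedA_333
open Crest.AlgGeometry.Anticanonical

noncomputable section

universe u

variable {n : ℕ} {M : Type} [TopologicalSpace M]

/-- comparison data -/
structure Lk (A : Atl n M) (X : Type u) [TopologicalSpace X] [ChartedSpace (Cs n) X] where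
  g : M ≃ₜ X
  c : A.ι → OpenPartialHomeomorph X (Cs n)
  mem : ∀ i, c i ∈ atlas (Cs n) X
  ρ : ℝ
  ρ_pos : 0 < ρ
  b : A.ι → Cs n
  src : ∀ i, ∀ x ∈ (A.e i).source, g x ∈ (c i).source
  ap : ∀ i, ∀ x ∈ (A.e i).source, c i (g x) = (ρ : ℂ) • lpE n (A.e i x) + b i

variable {A : Atl n M} {X : Type u} [TopologicalSpace X] [ChartedSpace (Cs n) X]

namespace Lk

variable (K : Lk A X)

/-- the affine map -/
def ps (i : A.ι) (z : EuclideanSpace ℂ (Fin n)) : Cs n := (K.ρ : ℂ) • lpE n z + K.b i

theorem ps_e {i : A.ι} {x : M} (hx : x ∈ (A.e i).source) : K.ps i (A.e i x) = K.c i (K.g x) :=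
  (K.ap i x hx).symm

theorem ps_mem {i : A.ι} {z : EuclideanSpace ℂ (Fin n)} (hz : z ∈ (A.e i).target) :
    K.ps i z ∈ (K.c i).target := by
  have h1 := (A.e i).map_target hz
  have h2 := K.ps_e h1
  rw [(A.e i).right_inv hz] at h2
  rw [h2]
  exact (K.c i).map_source (K.src i _ h1)

theorem g_symm {i : A.ι} {z : EuclideanSpace ℂ (Fin n)} (hz : z ∈ (A.e i).target) :
    K.g ((A.e i).symm z) = (K.c i).symm (K.ps i z) := by
  have h1 := (A.e i).map_target hz
  have h2 := K.ps_e h1
  rw [(A.e i).right_inv hz] at h2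
  rw [h2, (K.c i).left_inv (K.src i _ h1)]

theorem c_symm {i : A.ι} {z : EuclideanSpace ℂ (Fin n)} (hz : z ∈ (A.e i).target) :
    K.c i (K.g ((A.e i).symm z)) = K.ps i z := by
  rw [K.g_symm hz, (K.c i).right_inv (K.ps_mem hz)]

theorem ρ_ne : (K.ρ : ℂ) ≠ 0 := by exact_mod_cast K.ρ_pos.ne'

/-- the linear part of `ps` -/
def lin : EuclideanSpace ℂ (Fin n) →L[ℂ] Cs n :=
  (K.ρ : ℂ) • (lpE n : EuclideanSpace ℂ (Fin n) →L[ℂ] Cs n)

theorem lin_apply (v : EuclideanSpace ℂ (Fin n)) : K.lin v = (K.ρ : ℂ) • lpE n v := rfl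

theorem hasFDerivAt_ps (i : A.ι) (z : EuclideanSpace ℂ (Fin n)) :
    HasFDerivAt (K.ps i) K.lin z :=
  (K.lin.hasFDerivAt).add_const (K.b i)

theorem hasFDerivAt_ps_real (i : A.ι) (z : EuclideanSpace ℂ (Fin n)) :
    HasFDerivAt (K.ps i) (K.lin.restrictScalars ℝ) z :=
  (K.hasFDerivAt_ps i z).restrictScalars ℝ

theorem differentiable_ps (i : A.ι) : Differentiable ℂ (K.ps i) := fun z =>
  (K.hasFDerivAt_ps i z).differentiableAt

theorem contDiff_ps (i : A.ι) : ContDiff ℝ ∞ (K.ps i) := by
  have h : ContDiff ℂ ω (K.ps i) := (K.lin.contDiff).add contDiff_const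
  exact (h.restrict_scalars ℝ).of_le le_top

theorem continuous_ps (i : A.ι) : Continuous (K.ps i) := (K.differentiable_ps i).continuous

/-- overlap of charts -/
theorem diff_trans [IsManifold 𝓘(ℂ, Cs n) ω X] {e e' : OpenPartialHomeomorph X (Cs n)}
    (he : e ∈ atlas (Cs n) X) (he' : e' ∈ atlas (Cs n) X) :
    DifferentiableOn ℂ (e' ∘ e.symm) (e.symm ≫ₕ e').source := by
  have := contMDiffOn_of_mem_contDiffGroupoid (n := ω) (I := 𝓘(ℂ, Cs n))
      (HasGroupoid.compatible (G := contDiffGroupoid ω 𝓘(ℂ, Cs n)) he he')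
  exact (contMDiffOn_iff_contDiffOn.1 this).differentiableOn (by simp)

theorem diffAt_trans [IsManifold 𝓘(ℂ, Cs n) ω X] {e e' : OpenPartialHomeomorph X (Cs n)}
    (he : e ∈ atlas (Cs n) X) (he' : e' ∈ atlas (Cs n) X) {x : X} (hx : x ∈ e.source)
    (hx' : x ∈ e'.source) : DifferentiableAt ℂ (e' ∘ e.symm) (e x) := by
  refine (diff_trans he he').differentiableAt ((e.symm ≫ₕ e').open_source.mem_nhds ?_)
  simp [e.map_source hx, e.left_inv hx, hx']

theorem hasFDerivAt_tr [IsManifold 𝓘(ℂ, Cs n) ω X] {i j : A.ι} {x : M}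
    (hi : x ∈ (A.e i).source) (hj : x ∈ (A.e j).source) :
    HasFDerivAt (fun z => A.e j ((A.e i).symm z))
      (((lpE n).symm : Cs n →L[ℂ] EuclideanSpace ℂ (Fin n)).comp
        ((fderiv ℂ (K.c j ∘ (K.c i).symm) (K.c i (K.g x))).comp
          (lpE n : EuclideanSpace ℂ (Fin n) →L[ℂ] Cs n))) (A.e i x) := by
  have h1 : (fun z => A.e j ((A.e i).symm z)) =ᶠ[𝓝 (A.e i x)]
      fun z => (lpE n).symm ((K.ρ : ℂ)⁻¹ • ((K.c j ∘ (K.c i).symm) (K.ps i z) - K.b j)) := by
    have ho : IsOpen {z | z ∈ (A.e i).target ∧ (A.e i).symm z ∈ (A.e j).source} :=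
      (A.e i).isOpen_inter_preimage_symm (A.e j).open_source
    filter_upwards [ho.mem_nhds (show A.e i x ∈ _ from
      ⟨(A.e i).map_source hi, by rw [(A.e i).left_inv hi]; exact hj⟩)] with z hz
    have h2 := K.ap j _ hz.2
    rw [K.g_symm hz.1] at h2
    rw [Function.comp_apply, h2, add_sub_cancel_right, smul_smul, inv_mul_cancel₀ K.ρ_ne, one_smul,
      ContinuousLinearEquiv.symm_apply_apply]
  have h3 : HasFDerivAt (K.c j ∘ (K.c i).symm)
      (fderiv ℂ (K.c j ∘ (K.c i).symm) (K.c i (K.g x))) (K.ps i (A.e i x)) := by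
    rw [K.ps_e hi]
    exact (diffAt_trans (K.mem i) (K.mem j) (K.src i x hi) (K.src j x hj)).hasFDerivAt
  have h4 := h3.comp (A.e i x) (K.hasFDerivAt_ps i (A.e i x))
  have h5 := (((lpE n).symm : Cs n →L[ℂ] EuclideanSpace ℂ (Fin n)).hasFDerivAt).comp (A.e i x)
    (((h4.sub_const (K.b j)).const_smul (K.ρ : ℂ)⁻¹))
  have h6 := h5.congr_of_eventuallyEq h1
  refine h6.congr_fderiv ?_
  ext v
  simp [lin_apply, K.ρ_ne]

theorem det_Jm [IsManifold 𝓘(ℂ, Cs n) ω X] {i j : A.ι} {x : M}
    (hi : x ∈ (A.e i).source) (hj : x ∈ (A.e j).source) :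
    (Jm A i j x).det = transitionDet n X (K.c i) (K.c j) (K.g x) := by
  rw [transitionDet, ← LinearMap.det_toMatrix']
  congr 1
  ext b a
  rw [Jm_apply, Atl.J, (K.hasFDerivAt_tr hi hj).fderiv, LinearMap.toMatrix'_apply]
  simp only [lpE, ContinuousLinearMap.coe_comp, ContinuousLinearEquiv.coe_coe, Function.comp_apply,
    ContinuousLinearMap.coe_coe]
  have h1 : (EuclideanSpace.equiv (Fin n) ℂ) (EuclideanSpace.single a 1) = Pi.single a 1 := rfl
  rw [h1]
  rfl

theorem transitionDet_mul [IsManifold 𝓘(ℂ, Cs n) ω X] {e e' e'' : OpenPartialHomeomorph X (Cs n)}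
    (he : e ∈ atlas (Cs n) X) (he' : e' ∈ atlas (Cs n) X) (he'' : e'' ∈ atlas (Cs n) X) {x : X}
    (hx : x ∈ e.source) (hx' : x ∈ e'.source) (hx'' : x ∈ e''.source) :
    transitionDet n X e' e'' x * transitionDet n X e e' x = transitionDet n X e e'' x := by
  unfold transitionDet
  rw [← LinearMap.det_comp]
  have h1 : (e'' ∘ e.symm) =ᶠ[𝓝 (e x)] (e'' ∘ e'.symm) ∘ (e' ∘ e.symm) := by
    filter_upwards [(e.symm ≫ₕ e').open_source.mem_nhds (show e x ∈ (e.symm ≫ₕ e').source by
      simp [e.map_source hx, e.left_inv hx, hx'])] with z hz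
    have hz2 : e.symm z ∈ e'.source := by simpa using hz.2
    simp [e'.left_inv hz2]
  have h2 : (e' ∘ e.symm) (e x) = e' x := by simp [e.left_inv hx]
  rw [h1.fderiv_eq, fderiv_comp _ (by rw [h2]; exact diffAt_trans he' he'' hx' hx'')
    (diffAt_trans he he' hx hx'), h2]
  rfl

theorem transitionDet_self {e : OpenPartialHomeomorph X (Cs n)} {x : X} (hx : x ∈ e.source) :
    transitionDet n X e e x = 1 := by
  unfold transitionDet
  have h1 : (e ∘ e.symm) =ᶠ[𝓝 (e x)] id := by
    filter_upwards [e.open_target.mem_nhds (e.map_source hx)] with z hz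
    simp [e.right_inv hz]
  rw [h1.fderiv_eq, fderiv_id]
  simp


/-- second derivative of a composition with the affine map -/
theorem iteratedFDeriv_ps {u : Cs n → ℝ} {i : A.ι} {z : EuclideanSpace ℂ (Fin n)}
    (hu : ContDiffAt ℝ 2 u (K.ps i z)) (v w : EuclideanSpace ℂ (Fin n)) :
    iteratedFDeriv ℝ 2 (fun z => u (K.ps i z)) z ![v, w] =
      iteratedFDeriv ℝ 2 u (K.ps i z) ![K.lin v, K.lin w] := by
  rw [iteratedFDeriv_two_apply, iteratedFDeriv_two_apply]
  have h1 : fderiv ℝ (fun z => u (K.ps i z)) =ᶠ[𝓝 z]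
      fun z => (fderiv ℝ u (K.ps i z)).comp (K.lin.restrictScalars ℝ) := by
    have h2 : ∀ᶠ y in 𝓝 (K.ps i z), DifferentiableAt ℝ u y := by
      filter_upwards [hu.eventually (by simp)] with y hy
      exact hy.differentiableAt (by norm_num)
    filter_upwards [((K.continuous_ps i).tendsto z).eventually h2] with y hy
    exact (hy.hasFDerivAt.comp y (K.hasFDerivAt_ps_real i y)).fderiv
  have h3 : HasFDerivAt (fderiv ℝ u) (fderiv ℝ (fderiv ℝ u) (K.ps i z)) (K.ps i z) := by
    have h4 : ContDiffAt ℝ 1 (fderiv ℝ u) (K.ps i z) := hu.fderiv_right (by norm_num)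
    exact (h4.differentiableAt (by norm_num)).hasFDerivAt
  have h5 := h3.comp z (K.hasFDerivAt_ps_real i z)
  have h6 := h5.clm_comp (hasFDerivAt_const (K.lin.restrictScalars ℝ) z)
  rw [h1.fderiv_eq]
  have h7 : fderiv ℝ (fun z => (fderiv ℝ u (K.ps i z)).comp (K.lin.restrictScalars ℝ)) z = _ :=
    h6.fderiv
  rw [h7]
  simp

theorem lev_ps {u : Cs n → ℝ} {i : A.ι} {z : EuclideanSpace ℂ (Fin n)}
    (hu : ContDiffAt ℝ 2 u (K.ps i z)) (v : EuclideanSpace ℂ (Fin n)) :
    lev (fun z => u (K.ps i z)) z v = leviForm n u (K.ps i z) (K.lin v) := by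
  unfold lev leviForm
  rw [K.iteratedFDeriv_ps hu, K.iteratedFDeriv_ps hu, map_smul]

end Lk

end

end Crest.Agent.R273.RedB_333
end

-- ▼ part R273/RedC_333
section

/-!
# R273 (S0416), Part E (helper333): transfer of metrics, projective data and sections
-/

set_option autoImplicit false
set_option linter.unusedSectionVars false

open Set Filter Topology Complex
open scoped ContDiff Manifold

namespace Crest.Agent.R273.RedC_333

open Crest.Agent.R275.Geo Crest.Agent.R275.Core144 Crest.Agent.R275.GC293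
open Crest.Agent.R273.Defs_333 Crest.Agent.R273.RedA_333 Crest.Agent.R273.RedB_333
open Crest.AlgGeometry.Anticanonical

noncomputable section

universe u

variable {n : ℕ} {M : Type} [TopologicalSpace M]
  {A : Atl n M} {X : Type u} [TopologicalSpace X] [ChartedSpace (Cs n) X]

theorem diffAt_prod {E ι : Type*} [NormedAddCommGroup E] [NormedSpace ℂ E] (s : Finset ι)
    {f : ι → E → ℂ} {x : E} (h : ∀ i ∈ s, DifferentiableAt ℂ (f i) x) :
    DifferentiableAt ℂ (fun y => ∏ i ∈ s, f i y) x := by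
  classical
  induction s using Finset.induction_on with
  | empty => simp
  | insert k s hk ih =>
    simp only [Finset.prod_insert hk]
    exact (h k (by simp)).fun_mul (ih fun l hl => h l (by simp [hl]))

/-! ### the metric -/

/-- the metric on `K⁻¹` -/
def met [IsManifold 𝓘(ℂ, Cs n) ω X] (K : Lk A X) (h : AnticanonicalMetric n X) :
    HM (KB A)⁻¹ where
  w i x := h.dens (K.c i) (K.c i (K.g x))
  pos i x hx := h.pos _ (K.mem i) _ ((K.c i).map_source (K.src i x hx))
  sm i := by
    have h1 : ContDiffOn ℝ ∞ (fun z => h.dens (K.c i) (K.ps i z)) (A.e i).target :=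
      (h.smooth _ (K.mem i)).comp (K.contDiff_ps i).contDiffOn fun z hz => K.ps_mem hz
    refine h1.congr fun z hz => ?_
    simp only [K.c_symm hz]
  tr i j x hx := by
    have h1 := h.transform _ (K.mem j) _ (K.mem i) (K.g x) ⟨K.src j x hx.2, K.src i x hx.1⟩
    rw [h1, LB.inv_g, KB_g hx, K.det_Jm hx.1 hx.2]
    have h2 := Lk.transitionDet_mul (K.mem i) (K.mem j) (K.mem i) (K.src i x hx.1)
      (K.src j x hx.2) (K.src i x hx.1)
    rw [Lk.transitionDet_self (K.src i x hx.1)] at h2
    rw [eq_inv_of_mul_eq_one_left h2]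

theorem met_wt [IsManifold 𝓘(ℂ, Cs n) ω X] (K : Lk A X) (h : AnticanonicalMetric n X) (i : A.ι)
    {z : EuclideanSpace ℂ (Fin n)} (hz : z ∈ (A.e i).target) :
    (met K h).wt i z = (fun w => - Real.log (h.dens (K.c i) w)) (K.ps i z) := by
  simp only [HM.wt, met, K.c_symm hz]

theorem met_semipos [IsManifold 𝓘(ℂ, Cs n) ω X] (K : Lk A X) (h : AnticanonicalMetric n X)
    (hpos : h.IsSemipositive) : (met K h).Semipos := by
  intro i z hz v
  have h1 : (met K h).wt i =ᶠ[𝓝 z] fun z => (fun w => - Real.log (h.dens (K.c i) w)) (K.ps i z) := by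
    filter_upwards [(A.e i).open_target.mem_nhds hz] with y hy
    exact met_wt K h i hy
  have h2 : lev ((met K h).wt i) z v =
      lev (fun z => (fun w => - Real.log (h.dens (K.c i) w)) (K.ps i z)) z v := by
    unfold lev
    rw [(Filter.EventuallyEq.iteratedFDeriv ℝ h1 2).eq_of_nhds]
  have h3 : ContDiffAt ℝ 2 (fun w => - Real.log (h.dens (K.c i) w)) (K.ps i z) := by
    have h4 : ContDiffAt ℝ ∞ (h.dens (K.c i)) (K.ps i z) :=
      (h.smooth _ (K.mem i)).contDiffAt ((K.c i).open_target.mem_nhds (K.ps_mem hz))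
    have h5 := (h4.log (h.pos _ (K.mem i) _ (K.ps_mem hz)).ne').neg
    exact h5.of_le (WithTop.coe_le_coe.2 le_top)
  rw [h2, K.lev_ps h3]
  exact hpos _ (K.mem i) _ (K.ps_mem hz) _

/-! ### projective data -/

theorem exists_proj [IsManifold 𝓘(ℂ, Cs n) ω X] (K : Lk A X) (hp : IsProjective n X) :
    Nonempty (ProjD A) := by
  obtain ⟨N, F, h1, h2, h3, h4⟩ := hp
  refine ⟨⟨N, fun i x => F (K.c i) (K.c i (K.g x)), ?_, ?_, ?_, ?_, ?_⟩⟩
  · intro i k
    have h5 : DifferentiableOn ℂ (fun z => F (K.c i) (K.ps i z) k) (A.e i).target := by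
      have h6 : DifferentiableOn ℂ (fun z => F (K.c i) (K.ps i z)) (A.e i).target :=
        (h1 _ (K.mem i)).1.comp (K.differentiable_ps i).differentiableOn fun z hz => K.ps_mem hz
      exact differentiableOn_pi.1 h6 k
    refine (h5.mono inter_subset_left).congr fun z hz => ?_
    simp only [K.c_symm hz.1]
  · intro i x hx
    exact (h1 _ (K.mem i)).2 _ ((K.c i).map_source (K.src i x hx))
  · intro i j x hx
    exact h2 _ (K.mem i) _ (K.mem j) _ ⟨K.src i x hx.1, K.src j x hx.2⟩
  · intro i j x hx y hy hxy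
    exact K.g.injective (h3 _ (K.mem i) _ (K.mem j) _ (K.src i x hx) _ (K.src j y hy) hxy)
  · intro i z hz v ⟨c, hc⟩
    have h6 : (fun w => F (K.c i) (K.c i (K.g ((A.e i).symm w)))) =ᶠ[𝓝 z]
        fun w => F (K.c i) (K.ps i w) := by
      filter_upwards [(A.e i).open_target.mem_nhds hz] with w hw
      rw [K.c_symm hw]
    have h7 : HasFDerivAt (F (K.c i)) (fderiv ℂ (F (K.c i)) (K.ps i z)) (K.ps i z) :=
      ((h1 _ (K.mem i)).1.differentiableAt
        ((K.c i).open_target.mem_nhds (K.ps_mem hz))).hasFDerivAt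
    have h8 := (h7.comp z (K.hasFDerivAt_ps i z)).fderiv
    have h9 : fderiv ℂ (fun w => F (K.c i) (K.ps i w)) z =
      (fderiv ℂ (F (K.c i)) (K.ps i z)).comp K.lin := h8
    have h10 := h4 _ (K.mem i) _ (K.ps_mem hz) (K.lin v) ⟨c, by
      rw [h6.fderiv_eq, h9, K.c_symm hz] at hc
      exact hc⟩
    rw [Lk.lin_apply] at h10
    have h11 := (smul_eq_zero.1 h10).resolve_left K.ρ_ne
    exact (lpE n).map_eq_zero_iff.1 h11

/-! ### sections -/

section Sections

variable [IsManifold 𝓘(ℂ, Cs n) ω X] (K : Lk A X)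

/-- a chart of `A` around a point of `X` -/
def ki (y : X) : A.ι := (A.cover (K.g.symm y)).choose

theorem ki_mem (y : X) : K.g.symm y ∈ (A.e (ki K y)).source :=
  (A.cover (K.g.symm y)).choose_spec

variable {m : ℕ} {s : A.ι → M → ℂ}

theorem KBinv_pow_g {i j : A.ι} {x : M} (hx : x ∈ (A.e i).source ∩ (A.e j).source) :
    ((KB A)⁻¹ ^ m : LB A).g i j x = (transitionDet n X (K.c j) (K.c i) (K.g x)) ^ m := by
  have h0 : ∀ k : ℕ, ((KB A)⁻¹ ^ k : LB A).g i j x = ((KB A)⁻¹ : LB A).g i j x ^ k := by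
    intro k
    induction k with
    | zero => simp
    | succ k ih => rw [pow_succ, pow_succ, LB.mul_g, ih]
  rw [h0, LB.inv_g, LB.inv_eq, KB_g ⟨hx.2, hx.1⟩, K.det_Jm hx.2 hx.1]

/-- the value of the coefficient in a chart `e` computed with the chart `i` -/
def val (m : ℕ) (s : A.ι → M → ℂ) (e : OpenPartialHomeomorph X (Cs n)) (i : A.ι) (y : X) : ℂ :=
  transitionDet n X (K.c i) e y ^ m * s i (K.g.symm y)

theorem val_indep (hs : IsHS ((KB A)⁻¹ ^ m) univ s) {e : OpenPartialHomeomorph X (Cs n)}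
    (he : e ∈ atlas (Cs n) X) {i j : A.ι} {y : X} (hy : y ∈ e.source)
    (hi : K.g.symm y ∈ (A.e i).source) (hj : K.g.symm y ∈ (A.e j).source) :
    val K m s e i y = val K m s e j y := by
  unfold val
  have h1 := K.src i _ hi
  have h2 := K.src j _ hj
  rw [K.g.apply_symm_apply] at h1 h2
  rw [hs.tr i j _ ⟨hi, hj⟩ (mem_univ _), KBinv_pow_g K ⟨hi, hj⟩, K.g.apply_symm_apply, ← mul_assoc,
    ← mul_pow, Lk.transitionDet_mul (K.mem j) (K.mem i) he h2 h1 hy]

/-- the section -/
def back (hs : IsHS ((KB A)⁻¹ ^ m) univ s) : PluriAnticanonicalForm n X m where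
  coeff e z := val K m s e (ki K (e.symm z)) (e.symm z)
  holomorphic e he := by
    intro z0 hz0
    apply DifferentiableAt.differentiableWithinAt
    set y0 : X := e.symm z0 with hy0
    have hy0e : y0 ∈ e.source := e.map_target hz0
    set i := ki K y0 with hi
    have hi0 : K.g.symm y0 ∈ (A.e i).source := ki_mem K y0
    have hc0 : y0 ∈ (K.c i).source := by
      have := K.src i _ hi0
      rwa [K.g.apply_symm_apply] at this
    -- the coefficient near `z0`
    have h1 : (fun z => val K m s e (ki K (e.symm z)) (e.symm z)) =ᶠ[𝓝 z0]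
        fun z => val K m s e i (e.symm z) := by
      have h2 : ∀ᶠ z in 𝓝 z0, K.g.symm (e.symm z) ∈ (A.e i).source := by
        have hc : ContinuousAt (fun z => K.g.symm (e.symm z)) z0 :=
          K.g.symm.continuous.continuousAt.comp (e.continuousAt_symm hz0)
        exact hc.eventually ((A.e i).open_source.mem_nhds hi0)
      filter_upwards [h2, e.open_target.mem_nhds hz0] with z hz hzt
      exact val_indep K hs he (e.map_target hzt) (ki_mem K _) hz
    refine DifferentiableAt.congr_of_eventuallyEq ?_ h1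
    unfold val
    -- first factor
    have h3 : DifferentiableAt ℂ (fun z => transitionDet n X (K.c i) e (e.symm z)) z0 := by
      have h4 : AnalyticOnNhd ℂ (e ∘ (K.c i).symm) ((K.c i).symm ≫ₕ e).source :=
        Crest.Agent.R266.SCV.analyticOnNhd_of_differentiableOn ((K.c i).symm ≫ₕ e).open_source
          (Lk.diff_trans (K.mem i) he)
      have h5 : DifferentiableOn ℂ (fderiv ℂ (e ∘ (K.c i).symm)) ((K.c i).symm ≫ₕ e).source :=
        h4.fderiv.differentiableOn
      have h6 : K.c i y0 ∈ ((K.c i).symm ≫ₕ e).source := by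
        simp [(K.c i).map_source hc0, (K.c i).left_inv hc0, hy0e]
      have h7 := h5.differentiableAt (((K.c i).symm ≫ₕ e).open_source.mem_nhds h6)
      have h8 : DifferentiableAt ℂ (K.c i ∘ e.symm) z0 := by
        have := Lk.diffAt_trans he (K.mem i) hy0e hc0
        rwa [hy0, e.right_inv hz0] at this
      have h9 : DifferentiableAt ℂ (fun z => fderiv ℂ (e ∘ (K.c i).symm) ((K.c i ∘ e.symm) z)) z0 :=
        DifferentiableAt.comp z0 (by simpa [hy0] using h7) h8
      have h10 : (fun z => transitionDet n X (K.c i) e (e.symm z)) =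
          fun z => ((LinearMap.toMatrix' (fderiv ℂ (e ∘ (K.c i).symm)
            ((K.c i ∘ e.symm) z)).toLinearMap)).det := by
        funext z
        rw [LinearMap.det_toMatrix']
        rfl
      rw [h10]
      simp only [Matrix.det_apply]
      refine DifferentiableAt.fun_sum fun σ _ => ?_
      refine DifferentiableAt.fun_const_smul ?_ _
      refine diffAt_prod _ fun b _ => ?_
      simp only [LinearMap.toMatrix'_apply]
      have h11 : DifferentiableAt ℂ (fun z => fderiv ℂ (e ∘ (K.c i).symm) ((K.c i ∘ e.symm) z)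
        (Pi.single b 1)) z0 := h9.clm_apply (differentiableAt_const _)
      exact differentiableAt_pi.1 h11 (σ b)
    -- second factor
    have h12 : DifferentiableAt ℂ (fun z => s i (K.g.symm (e.symm z))) z0 := by
      have h13 : DifferentiableOn ℂ (fun z => s i ((A.e i).symm z)) (A.e i).target := by
        have := hs.hol i
        unfold HolAt at this
        simpa using this
      have h14 : (fun z => s i (K.g.symm (e.symm z))) =ᶠ[𝓝 z0] fun z =>
          (fun z => s i ((A.e i).symm z)) ((lpE n).symm ((K.ρ : ℂ)⁻¹ • ((K.c i ∘ e.symm) z - K.b i))) := by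
        have hc : ContinuousAt (fun z => K.g.symm (e.symm z)) z0 :=
          K.g.symm.continuous.continuousAt.comp (e.continuousAt_symm hz0)
        filter_upwards [hc.eventually ((A.e i).open_source.mem_nhds hi0)] with z hz
        have h15 := K.ap i _ hz
        rw [K.g.apply_symm_apply] at h15
        simp only [Function.comp_apply, h15, add_sub_cancel_right, smul_smul,
          inv_mul_cancel₀ K.ρ_ne, one_smul, ContinuousLinearEquiv.symm_apply_apply,
          (A.e i).left_inv hz]
      refine DifferentiableAt.congr_of_eventuallyEq ?_ h14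
      have h16 : (lpE n).symm ((K.ρ : ℂ)⁻¹ • ((K.c i ∘ e.symm) z0 - K.b i)) =
          A.e i (K.g.symm y0) := by
        have h15 := K.ap i _ hi0
        rw [K.g.apply_symm_apply] at h15
        simp only [Function.comp_apply, ← hy0, h15, add_sub_cancel_right, smul_smul,
          inv_mul_cancel₀ K.ρ_ne, one_smul, ContinuousLinearEquiv.symm_apply_apply]
      have h8 : DifferentiableAt ℂ (K.c i ∘ e.symm) z0 := by
        have := Lk.diffAt_trans he (K.mem i) hy0e hc0
        rwa [hy0, e.right_inv hz0] at this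
      have h17 : DifferentiableAt ℂ (fun z => (lpE n).symm
          ((K.ρ : ℂ)⁻¹ • ((K.c i ∘ e.symm) z - K.b i))) z0 :=
        (lpE n).symm.differentiableAt.comp z0 (DifferentiableAt.fun_const_smul (h8.sub_const _) _)
      have h18 : DifferentiableAt ℂ (fun z => s i ((A.e i).symm z))
          ((lpE n).symm ((K.ρ : ℂ)⁻¹ • ((K.c i ∘ e.symm) z0 - K.b i))) := by
        rw [h16]
        exact h13.differentiableAt ((A.e i).open_target.mem_nhds ((A.e i).map_source hi0))
      exact DifferentiableAt.comp (g := fun z => s i ((A.e i).symm z)) z0 h18 h17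
    exact (h3.pow m).mul h12
  transform e he e' he' y hy := by
    have h1 := ki_mem K y
    have h2 := K.src _ _ h1
    rw [K.g.apply_symm_apply] at h2
    rw [e.left_inv hy.1, e'.left_inv hy.2]
    unfold val
    rw [← mul_assoc, ← mul_pow, Lk.transitionDet_mul (K.mem _) he he' h2 hy.1 hy.2]

theorem back_ne (hs : IsHS ((KB A)⁻¹ ^ m) univ s) {i : A.ι} {x : M} (hx : x ∈ (A.e i).source)
    (hne : s i x ≠ 0) :
    ∃ e ∈ atlas (Cs n) X, ∃ y ∈ e.source, (back K hs).coeff e (e y) ≠ 0 := by
  refine ⟨K.c i, K.mem i, K.g x, K.src i x hx, ?_⟩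
  have hx' : K.g.symm (K.g x) ∈ (A.e i).source := by rwa [K.g.symm_apply_apply]
  have h1 : (back K hs).coeff (K.c i) (K.c i (K.g x)) =
      val K m s (K.c i) (ki K (K.g x)) (K.g x) := by
    change val K m s (K.c i) (ki K ((K.c i).symm (K.c i (K.g x)))) _ = _
    rw [(K.c i).left_inv (K.src i x hx)]
  rw [h1, val_indep K hs (K.mem i) (K.src i x hx) (ki_mem K _) hx']
  unfold val
  rw [K.g.symm_apply_apply, Lk.transitionDet_self (K.src i x hx), one_pow, one_mul]
  exact hne

end Sections

end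

end Crest.Agent.R273.RedC_333
end

-- ▼ part R273/Red_333

/-!
# R273 (S0416), Part E (helper333): the reduction `Main → S0416`
-/

set_option autoImplicit false
set_option linter.unusedSectionVars false

open Set Filter Topology Complex
open scoped ContDiff Manifold

namespace Crest.Agent.R273.Red_333

open Crest.Agent.R275.Geo Crest.Agent.R275.Core144 Crest.Agent.R275.GC293
open Crest.Agent.R273.Defs_333 Crest.Agent.R273.RedA_333 Crest.Agent.R273.RedB_333
open Crest.Agent.R273.RedC_333
open Crest.AlgGeometry.Anticanonical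

noncomputable section

universe u

theorem exists_lk (n : ℕ) {X : Type u} [TopologicalSpace X] [ChartedSpace (Cs n) X]
    [IsManifold 𝓘(ℂ, Cs n) ω X] {M : Type} [TopologicalSpace M] [T2Space M] [CompactSpace M]
    (g : M ≃ₜ X) :
    ∃ A : Atl n M, Finite A.ι ∧ GoodA A ∧ Nonempty (Part A) ∧ Nonempty (Lk A X) := by
  let _ := chartedM (n := n) g
  have : IsManifold 𝓘(ℂ, EuclideanSpace ℂ (Fin n)) 1 M := isManifold_chartedM g
  obtain ⟨G, hG, hP, hF, -⟩ := exists_goodAtl (m := n) (M := M) (κ := Unit) (fun _ => univ)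
    (fun _ => isOpen_univ) (fun x => ⟨(), mem_univ x⟩)
  refine ⟨goodAtl G, hF, hG, hP, ?_⟩
  choose c hc hce using fun i => G.e_mem i
  have key : ∀ (i : Fin G.n) (x : M), x ∈ ((goodAtl G).e i).source → x ∈ (G.e i).source := by
    intro i x hx
    have h0 : x ∈ G.B i := (goodAtl_source G i) ▸ hx
    exact cball_subset_source _ _ _ h0
  refine ⟨⟨g, c, hc, 2 * G.r, by have := G.r_pos; positivity,
    fun i => lpE n (G.e i (G.c i) - ((2 * G.r : ℝ) : ℂ) • ctr n), ?_, ?_⟩⟩
  · intro i x hx
    have h1 := key i x hx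
    rw [← hce i, tc_source] at h1
    exact h1
  · intro i x hx
    have h1 : (goodAtl G).e i x = aff (G.e i (G.c i)) G.r G.r_pos (G.e i x) := rfl
    have h2 : G.e i x = (aff (G.e i (G.c i)) G.r G.r_pos).symm ((goodAtl G).e i x) := by
      rw [h1, Homeomorph.symm_apply_apply]
    have h3 : c i (g x) = lpE n (G.e i x) := by
      rw [← hce i, tc_apply, ContinuousLinearEquiv.apply_symm_apply]
    rw [h3, h2, aff_symm_apply, smul_sub, map_add, map_sub, map_sub, map_smul, map_smul]
    abel

/-- **the reduction** -/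
theorem of_main (hM : Main) (n : ℕ) (X : Type u) [TopologicalSpace X] [T2Space X] [CompactSpace X]
    [ConnectedSpace X] [ChartedSpace (Cs n) X] [IsManifold 𝓘(ℂ, Cs n) ω X]
    (hproj : IsProjective n X) (h : AnticanonicalMetric n X) (hpos : h.IsSemipositive) :
    ∃ m : ℕ, 0 < m ∧ ∃ s : PluriAnticanonicalForm n X m,
      ∃ e ∈ atlas (Cs n) X, ∃ x ∈ e.source, s.coeff e (e x) ≠ 0 := by
  obtain ⟨M, _, ⟨g⟩⟩ := exists_model n X
  have : T2Space M := g.symm.t2Space
  have : CompactSpace M := g.symm.compactSpace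
  have : ConnectedSpace M := g.symm.surjective.connectedSpace g.symm.continuous
  obtain ⟨A, hF, hG, hP, ⟨K⟩⟩ := exists_lk n g
  obtain ⟨P⟩ := exists_proj K hproj
  obtain ⟨m, hm, s, hs, i, x, hx, hne⟩ := hM n M A hG hP P (met K h) (met_semipos K h hpos)
  exact ⟨m, hm, back K hs, back_ne K hs hx hne⟩

end

end Crest.Agent.R273.Red_333
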