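import Crest.Agent.R273.Lio_333
import Crest.Agent.R273.HFlowC_376
import Crest.Agent.R273.PartA_61
import Crest.Agent.R273.PCovB_835
import Crest.Agent.R273.D13_505
import Crest.Agent.R273.UpV_914
import Crest.Agent.R273.AsmB_534
import Crest.Agent.R273.LiftS_522_Mg
import Crest.Agent.R273.D2U_505
import Crest.Agent.R273.Act_836
import Crest.Agent.R273.NoVF_534
import Crest.Agent.R273.NoHVF_376
import Crest.Agent.R273.SerE_945
import Crest.Agent.R273.Red_333

-- ▼ part R273/SusSub_333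
section

/-!
# R273 (S0416), helper333: subgroups of the normal form; the black box on the fibre

* `Sus.sub`     : `Sus D K B` restricted to `H ≤ G`, over the covering `D.cov (G ⧸ H)`
* `UPV`         : the polyvector half of the bridge (helper914)
* `bb_of_partAt`: Part A on `M` gives the black box `BB (volK S.KY) G` of the torus step
-/

set_option autoImplicit false
set_option linter.unusedSectionVars false

open Set Filter Topology Complex
open scoped ContDiff Matrix ComplexConjugate Manifold ComplexOrder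

namespace Crest.Agent.R273.SusSub_333

open Crest.Agent.R275.Geo Crest.Agent.R275.Core144 Crest.Agent.R275.GC293
open Crest.Agent.R275.Prod363
open Crest.Agent.R273.Defs_333 Crest.Agent.R273.Kah_333 Crest.Agent.R273.Vol_333
open Crest.Agent.R273.Map_835 Crest.Agent.R273.PB_835 Crest.Agent.R273.EA_333
open Crest.Agent.R273.UCov_914 Crest.Agent.R273.Prd_835 Crest.Agent.R273.Sus_333
open Crest.Agent.R273.HM_333 Crest.Agent.R273.TorDefs_422 Crest.Agent.R273.Dsc_333
open Crest.Agent.R273.Lio_333 Crest.Agent.R273.PartA_61 Crest.Agent.R273.NV_578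
open Crest.Agent.R273.Fock_243 (FI Gam)
open Crest.Agent.R273.HFlowC_376 (pullK)

noncomputable section

variable {g d : ℕ} {M : Type} [TopologicalSpace M] {A : Atl (g + d) M} {G : Type} [CommGroup G]
variable {D : MonD A G} {K : Kah A} {Y : Type} [TopologicalSpace Y] [MulAction G Y]
  {B : Atl d Y}

/-- restriction to a subgroup, for any metric `K'` which is the pull-back of `K` -/
def sub' (S : Sus D K B) (H : Subgroup G) (K' : Kah (D.atl (G ⧸ H)))
    (hK : ∀ p e, K'.g p e = K.g p.1 (D.pr e)) : Sus (D.sub H) K' B where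
  lam := S.lam.comp H.subtype
  Ψ := S.Ψ.trans (D.homeo H)
  lb := (D.lBih_toSub H).comp S.lb
  eqv γ z y := by
    change γ • D.toSub H (S.Ψ (z, y)) =
      D.toSub H (S.Ψ (z + Multiplicative.toAdd (S.lam (γ : G)), (γ : G) • y))
    rw [← D.toSub_deck, S.eqv]
  G0 := S.G0
  G0pos := S.G0pos
  KY := S.KY
  met i j a z y hz hy ha := by
    have h1 := S.met i j a.1 z y hz hy ha.1
    rw [hK]
    exact h1

/-- restriction to a subgroup -/
def sub (S : Sus D K B) (H : Subgroup G) : Sus (D.sub H) (pullK D K : Kah (D.atl (G ⧸ H))) B :=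
  sub' S H (pullK D K) fun _ _ => rfl

theorem sub_KY (S : Sus D K B) (H : Subgroup G) : (sub S H).KY = S.KY := rfl




/-! ### the black box -/

/-- the polyvector half of the bridge -/
def UPV (S : Sus D K B) : Prop :=
  ∀ (k q : ℕ) (v : G →* Circle) (w : B.ι → Y → FI d → ℂ), w ∈ NV ((KB B)⁻¹ ^ k) (volK S.KY) q →
    w ≠ 0 → SemiV k (v ^ k) w → NV (((KB A)⁻¹ * D.fl v) ^ k) (volK K) q ≠ ⊥

/-- **bridge** -/
theorem bb_of_partAt [CompactSpace M] (S : Sus D K B) (hU : UPV S) (hA : PartAt A (volK K)) :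
    BB (volK S.KY) G := by
  rintro v ⟨q, hq⟩
  have h1 : {k : ℕ | NV (((KB A)⁻¹ * D.fl v) ^ k) (volK K) q ≠ ⊥}.Infinite := by
    rw [Set.infinite_iff_exists_gt]
    intro k0
    obtain ⟨k, hk, w, hw, h0, hv⟩ := hq (k0 + 1)
    exact ⟨k, hU k q v w hw h0 hv, hk⟩
  obtain ⟨m, hm, h2⟩ := hA (D.fl v) (D.flHM v) (fun i x _ => D.cur_flHM v i x) q h1
  exact Gd_of_hasSec S hm h2

end

end Crest.Agent.R273.SusSub_333
end

-- ▼ part R273/BBsub_333
section

/-!
# R273 (S0416), helper333: Part A gives the black box for finite index subgroups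

`bb_sub` : `PartA` (all manifolds) and the normal form `S : Sus D K B` of a projective `M` give
`BB (volK S.KY) H` for every subgroup `H` of finite index.
-/

set_option autoImplicit false
set_option linter.unusedSectionVars false

open Set Filter Topology Complex
open scoped ContDiff Matrix ComplexConjugate Manifold ComplexOrder

namespace Crest.Agent.R273.BBsub_333

open Crest.Agent.R275.Geo Crest.Agent.R275.Core144 Crest.Agent.R275.GC293
open Crest.Agent.R273.Defs_333 Crest.Agent.R273.Kah_333 Crest.Agent.R273.Vol_333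
open Crest.Agent.R273.UCov_914 Crest.Agent.R273.Sus_333
open Crest.Agent.R273.TorDefs_422 Crest.Agent.R273.SusSub_333
open Crest.Agent.R273.PartA_61 Crest.Agent.R273.TD3_733
open Crest.Agent.R273.HFlowC_376 (pullK)

noncomputable section

section cov

variable {n : ℕ} {M : Type} [TopologicalSpace M] [T2Space M] [CompactSpace M] {A : Atl n M}
  [Finite A.ι] {G : Type} [Group G] (D : MonD A G)

/-- Theorem D2 on the coverings -/
theorem d2_cov (PM : Part A) (K : Kah A) (F : Type) [MulAction G F] [Finite F] :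
    D2 (D.atl F) := by
  have : Finite (D.atl F).ι := inferInstanceAs (Finite (A.ι × F))
  exact D13_505.d2 (D.pullPart F PM) (pullK D K)

/-- finite coverings of projective manifolds are projective -/
theorem projD_cov (PM : Part A) (K : Kah A) (P : ProjD A) (F : Type) [MulAction G F] [Finite F] :
    Nonempty (ProjD (D.atl F)) := by
  obtain ⟨m0, h⟩ := PCov_835.pcov_cov D F (D.pullPart F PM) (d2_cov D PM K F) P
  exact ⟨(h m0 le_rfl).choose⟩

/-- Part A on a finite covering -/
theorem partAt_cov (HA : PartA) (hA : GoodA A) (PM : Part A) {K : Kah A}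
    (hs : (volK K).Semipos) (P : ProjD A) (F : Type) [MulAction G F] [Finite F]
    [ConnectedSpace (D.cov F)] : PartAt (D.atl F) (volK (pullK D K : Kah (D.atl F))) := by
  have : Finite (D.atl F).ι := inferInstanceAs (Finite (A.ι × F))
  obtain ⟨P'⟩ := projD_cov D PM K P F
  exact HA n (D.cov F) (D.atl F) (D.goodA hA) ⟨D.pullPart F PM⟩ P' _ fun p z hz v => hs p.1 z hz v

end cov

variable {g d : ℕ} {M : Type} [TopologicalSpace M] [T2Space M] [CompactSpace M]
  {A : Atl (g + d) M} [Finite A.ι] {G : Type} [CommGroup G] {D : MonD A G} {K : Kah A}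
  {Y : Type} [TopologicalSpace Y] [MulAction G Y] {B : Atl d Y}

/-- **the black box for finite index subgroups** -/
theorem bb_sub (HA : PartA) (hA : GoodA A) (PM : Part A) (P : ProjD A) (hs : (volK K).Semipos)
    (S : Sus D K B) [ConnectedSpace (D.cov G)] (H : Subgroup G) [H.FiniteIndex]
    (hU : UPV (sub S H)) : BB (volK S.KY) H := by
  have h1 : PartAt (D.atl (G ⧸ H)) (volK (pullK D K : Kah (D.atl (G ⧸ H)))) :=
    partAt_cov D HA hA PM hs P (G ⧸ H)
  have h2 := bb_of_partAt (sub S H) hU h1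
  rwa [sub_KY] at h2

end

end Crest.Agent.R273.BBsub_333
end

-- ▼ part R273/UpVb_914
section

/-!
# R273 (S0416), leaf UPV (helper914): the bridge, in the form of `SusSub_333` / `BBsub_333`
-/

set_option autoImplicit false
set_option linter.unusedSectionVars false

open Set Filter Topology Complex
open scoped ContDiff Matrix ComplexConjugate Manifold ComplexOrder

namespace Crest.Agent.R273.UpV_914

open Crest.Agent.R275.Geo Crest.Agent.R275.Core144 Crest.Agent.R275.GC293
open Crest.Agent.R273.Defs_333 Crest.Agent.R273.Kah_333 Crest.Agent.R273.Vol_333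
open Crest.Agent.R273.UCov_914 Crest.Agent.R273.Sus_333
open Crest.Agent.R273.TorDefs_422 Crest.Agent.R273.SusSub_333
open Crest.Agent.R273.PartA_61

variable {g d : ℕ} {M : Type} [TopologicalSpace M] {A : Atl (g + d) M} {G : Type} [CommGroup G]
  {D : MonD A G} {K : Kah A} {Y : Type} [TopologicalSpace Y] [MulAction G Y] {B : Atl d Y}

/-- the polyvector half of the bridge -/
theorem upv (S : Sus D K B) : UPV S := fun _ _ _ _ hw hne hv => NV_ne_bot S hw hne hv


/-- **Part A gives the black box for finite index subgroups** -/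
theorem bb_sub [T2Space M] [CompactSpace M] [Finite A.ι] (HA : PartA) (hA : GoodA A) (PM : Part A)
    (P : ProjD A) (hs : (volK K).Semipos) (S : Sus D K B) [ConnectedSpace (D.cov G)]
    (H : Subgroup G) [H.FiniteIndex] : BB (volK S.KY) H :=
  BBsub_333.bb_sub HA hA PM P hs S H (upv _)

end Crest.Agent.R273.UpV_914
end

-- ▼ part R273/AsmC_534
section

/-!
# R273 (S0416), Part B, global assembly (helper534), II

* `exists_om`   : a nonzero holomorphic form of positive degree if `H^q(O) ≠ 0` for some `q ≥ 1`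
* `gd_of_flat`  : the trivial action on a simply connected Ricci flat manifold has an invariant
                  section of the anticanonical bundle
* `fin_kernel`  : a group of holomorphic isometries of a compact simply connected Ricci flat
                  manifold acts through a finite group
* `main_flat`   : the induction step if the fibre is Ricci flat
-/

set_option autoImplicit false
set_option linter.unusedSectionVars false

open Set Metric Filter Topology Complex Function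
open scoped ContDiff Matrix ComplexConjugate

namespace Crest.Agent.R273.AsmC_534

open Crest.Agent.R275.Geo Crest.Agent.R275.Core144 Crest.Agent.R275.GC293
open Crest.Agent.R275.SerG398
open Crest.Agent.R273.Defs_333 Crest.Agent.R273.HM_333 Crest.Agent.R273.Hess_333
open Crest.Agent.R273.Kah_333 Crest.Agent.R273.Vol_333 Crest.Agent.R273.FS_333
open Crest.Agent.R273.Map_835 Crest.Agent.R273.PB_835 Crest.Agent.R273.Prd_835
open Crest.Agent.R273.UCov_914 Crest.Agent.R273.Sus_333 Crest.Agent.R273.TorDefs_422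
open Crest.Agent.R273.PartA_61 Crest.Agent.R273.LamN127 Crest.Agent.R273.TD3_733
open Crest.Agent.R273.HFlow3_376 Crest.Agent.R273.RMan4_798
open Crest.Agent.R273.Fock_243 (FI)
open Crest.Agent.R273.NV_578 (NV PV)
open Crest.Agent.R273.HolF_578 (Om)
open Crest.Agent.R273.HFlowC_376 (pullK)

noncomputable section

variable {n : ℕ} {M : Type} [TopologicalSpace M] {A : Atl n M}

/-! ### holomorphic forms -/

/-- a form of positive degree -/
theorem exists_om [T2Space M] [CompactSpace M] [ConnectedSpace M] [Finite A.ι] (P : Part A)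
    (K : Kah A) (hs : (volK K).Semipos) (h : ¬ ∀ q, 1 ≤ q → hB (BN (1 : LB A)) q = 0) :
    ∃ q, q ≠ 0 ∧ ∃ β ∈ Om A q, β ≠ 0 := by
  push Not at h
  obtain ⟨q, hq, hne⟩ := h
  rcases Nat.lt_or_ge n q with hlt | hle
  · exfalso
    have h1 := (HodgeP_578.d2_fin P (D13_505.d2Ex P K) (N := 1)
      (NV_578.hone (volK K)) (by
        exact NV_578.castH_semipos _ hs) q).2
    apply hne
    rw [← h1]
    have h2 : ∀ v : NV 1 (NV_578.hone (volK K)) q, v = 0 := fun v =>
      Subtype.ext (HodgeP_578.PV_eq_zero hlt v.2.1)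
    have : Subsingleton (NV 1 (NV_578.hone (volK K)) q) := ⟨fun a b => by rw [h2 a, h2 b]⟩
    exact Module.finrank_zero_of_subsingleton
  · have h1 := (HodgeP_578.finrank_Om P (D13_505.d2Ex P K) hle).2
    refine ⟨q, by omega, ?_⟩
    by_contra hno
    push Not at hno
    have h2 : ∀ v : Om A q, v = 0 := fun v => Subtype.ext (hno v.1 v.2)
    have : Subsingleton (Om A q) := ⟨fun a b => by rw [h2 a, h2 b]⟩
    rw [← h1] at hne
    exact hne Module.finrank_zero_of_subsingleton

/-! ### the flat case -/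

theorem Ja_trivial {H : Type} [CommGroup H] [MulAction H M] {γ : H} (hγ : ∀ x : M, γ • x = x)
    (i j : A.ι) (x : M) : Ja A γ i j x = Jm A i j x := by
  have h1 : (fun y : M => γ • y) = fun y => y := funext hγ
  unfold Ja
  rw [h1]
  rfl

/-- an invariant section for the trivial action -/
theorem gd_of_flat [SimplyConnectedSpace M] (hA : GoodA A) {h : HM (KB A)⁻¹}
    (hc : ∀ i, ∀ x ∈ (A.e i).source, cur h i x = 0) {H : Type} [CommGroup H] [MulAction H M]
    (hH : ∀ (γ : H) (x : M), γ • x = x) : Gd A (1 : H →* Circle) := by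
  obtain ⟨s, hs, hn⟩ := FlatSec_534.flatSec hA h hc
  refine ⟨1, one_pos, s, by rwa [pow_one], ?_, ?_⟩
  · obtain ⟨x⟩ : Nonempty M := inferInstance
    obtain ⟨i, hi⟩ := A.cover x
    refine ⟨i, x, hi, fun h0 => ?_⟩
    have h1 := hn i x hi
    rw [h0, norm_zero] at h1
    norm_num at h1
  · intro γ i j x hi hj
    rw [hH γ x] at hj ⊢
    have h1 := hs.tr i j x ⟨hi, hj⟩ (mem_univ x)
    have h2 : (KB A).g i j x ≠ 0 := (KB A).ne_zero i j x
    rw [LB.inv_g] at h1
    have h3 : (((1 : H →* Circle) ^ 1) γ : ℂ) = 1 := by rw [one_pow]; rfl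
    rw [h3, Ja_trivial (hH γ), ← KB_g ⟨hi, hj⟩, h1, pow_one, one_mul, ← mul_assoc,
      mul_inv_cancel₀ h2, one_mul]

/-- finite kernel -/
theorem fin_kernel [T2Space M] [CompactSpace M] [SimplyConnectedSpace M] [Finite A.ι]
    (hA : GoodA A) (P : Part A) (K : Kah A)
    (hric : ∀ i, ∀ x ∈ (A.e i).source, cur (volK K) i x = 0) {G : Type} [Group G]
    [MulAction G M] (hG : ∀ g : G, HolMap A A (fun x : M => g • x))
    (hI : ∀ g : G, ∀ i j, ∀ x ∈ (A.e i).source, g • x ∈ (A.e j).source →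
      K.g i x = (Jp A A (fun x : M => g • x) i j x)ᵀ * K.g j (g • x) *
        (Jp A A (fun x : M => g • x) i j x).map conj) :
    (MulAction.toPermHom G M).ker.FiniteIndex := by
  have : PathConnectedSpace M := inferInstance
  have : ConnectedSpace M := inferInstance
  let _ : UniformSpace M := uniformSpaceOfCompactR1
  exact NoVF_534.finite_of_equicont (NoHVF_376.nohvf hA P K hric)
    (fun g => HFlowC_376.holM_of_holMap (hG g)) (Equi_798.equi_smul_jp K hG hI)

/-! ### the induction step, flat fibre -/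

variable {g d : ℕ} {A : Atl (g + d) M} {K : Kah A} {G : Type} [CommGroup G] {D : MonD A G}
  {Y : Type} [TopologicalSpace Y] [MulAction G Y] {B : Atl d Y}

/-- a finite index subgroup with an invariant section -/
theorem main_of_Gd_sub (S : Sus D K B) [ConnectedSpace (D.cov G)] (H : Subgroup G)
    [H.FiniteIndex]
    (h : Gd B (1 : H →* Circle)) : ∃ m : ℕ, 0 < m ∧ HasSec ((KB A)⁻¹ ^ m) := by
  have _ : Finite (G ⧸ H) := H.finite_quotient_of_finiteIndex
  exact D.main_of_cov (Dsc_333.main_of_Gd (SusSub_333.sub S H) h)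

/-- **flat fibre** -/
theorem main_flat (S : Sus D K B) [ConnectedSpace (D.cov G)] [T2Space Y] [CompactSpace Y] [SimplyConnectedSpace Y]
    [Finite B.ι] (hB : GoodA B) (PB : Part B)
    (hf : ∀ j, ∀ y ∈ (B.e j).source, cur (volK S.KY) j y = 0) :
    ∃ m : ℕ, 0 < m ∧ HasSec ((KB A)⁻¹ ^ m) := by
  have h1 := fin_kernel hB PB S.KY hf (fun γ => S.holMap_smul γ)
    (fun γ i j y hy hy' => S.KY_inv γ hy hy')
  refine main_of_Gd_sub S (MulAction.toPermHom G Y).ker (gd_of_flat hB hf fun γ y => ?_)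
  have h2 : MulAction.toPermHom G Y γ.1 = 1 := γ.2
  exact congrArg (fun f : Equiv.Perm Y => f y) h2

end

end Crest.Agent.R273.AsmC_534
end

-- ▼ part R273/FinZ_836
section

/-!
# R273 (S0416), Part B, leaf FINZ (helper836)

`liftV D W` : a holomorphic vector field `W` of the first factor `D.Y₁` of a decomposition (tangent
space = image of the projection), extended by zero to `M`.
`no_vf₁`    : if the image of the projection is null for the Ricci form, then `D.Y₁` has no
holomorphic vector fields.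
`fin_ker₁`  : a group acting equicontinuously on `M`, preserving the splitting, acts on `D.Y₁`
through a finite group.
`fin_ker_flat` : the same for `M` itself if the Ricci form vanishes.
-/

set_option autoImplicit false
set_option linter.unusedSectionVars false

open Set Filter Topology Complex
open scoped Matrix ComplexConjugate Uniformity

namespace Crest.Agent.R273.FinZ_836

open Crest.Agent.R275.Geo Crest.Agent.R275.Core144 Crest.Agent.R275.GC293
open Crest.Agent.R275.Prod363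
open Crest.Agent.R273.Defs_333 Crest.Agent.R273.Map_835 Crest.Agent.R273.PB_835
open Crest.Agent.R273.Fam_835 Crest.Agent.R273.Prd_835
open Crest.Agent.R273.Kah_333 Crest.Agent.R273.Vol_333 Crest.Agent.R273.SplA_836
open Crest.Agent.R273.HFlow3_376 Crest.Agent.R273.HFlow7_376 Crest.Agent.R273.NoHVF_376
open Crest.Agent.R273.NoVF_534

noncomputable section

section lift

variable {n : ℕ} {M : Type} [TopologicalSpace M] {A : Atl n M} {S : Spl A} {r s : ℕ}
  (D : Dec S r s) (W : HVF D.B₁)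

/-- `v` is the lift of the field `W` at `x` -/
def IsLft (i : A.ι) (x : M) (v : Cn n) : Prop :=
  (∀ j, (D.Φ x).1 ∈ (D.B₁.e j).source →
    dr A D.B₁ (fun x => (D.Φ x).1) i j x v = W.X j (D.Φ x).1) ∧ toC (S.P i x) v = v

variable {D W}

theorem IsLft.unique {i : A.ι} {x : M} (hx : x ∈ (A.e i).source) {v v' : Cn n}
    (h : IsLft D W i x v) (h' : IsLft D W i x v') : v = v' := by
  obtain ⟨j₁, hj₁⟩ := D.B₁.cover (D.Φ x).1
  obtain ⟨j₂, hj₂⟩ := D.B₂.cover (D.Φ x).2
  refine sub_eq_zero.1 (D.eq_zero hx hj₁ hj₂ ?_ (D.tan₂ hx hj₂ _ ?_))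
  · rw [map_sub, h.1 j₁ hj₁, h'.1 j₁ hj₁, sub_self]
  · rw [map_sub, h.2, h'.2]

/-- change of the target chart -/
theorem dr_chg {m : ℕ} {N : Type} [TopologicalSpace N] {B : Atl m N} {p : M → N}
    (h : HolMap A B p) {i : A.ι} {j j' : B.ι} {x : M} (hx : x ∈ (A.e i).source)
    (hj : p x ∈ (B.e j).source) (hj' : p x ∈ (B.e j').source) (v : Cn n) :
    dr A B p i j' x v =
      fderiv ℂ (fun z => B.e j' ((B.e j).symm z)) (B.e j (p x)) (dr A B p i j x v) := by
  have h1 := dr_comp (holMap_id B) h (x := x) (i := i) (j := j) (l := j') hx hj hj' v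
  exact h1

theorem isLft_of_one {i : A.ι} {x : M} (hx : x ∈ (A.e i).source) {j : D.B₁.ι}
    (hj : (D.Φ x).1 ∈ (D.B₁.e j).source) {v : Cn n}
    (h1 : dr A D.B₁ (fun x => (D.Φ x).1) i j x v = W.X j (D.Φ x).1)
    (h2 : toC (S.P i x) v = v) : IsLft D W i x v := by
  refine ⟨fun j' hj' => ?_, h2⟩
  rw [dr_chg D.hol₁ hx hj hj', h1]
  exact (W.tr j j' _ ⟨hj, hj'⟩).symm

/-- the lift in product charts -/
def lftv (D : Dec S r s) (W : HVF D.B₁) (i : A.ι) (j₁ : D.B₁.ι) (j₂ : D.B₂.ι) (x : M) : Cn n :=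
  dr (D.B₁.prod D.B₂) A D.Φ.symm (j₁, j₂) i (D.Φ x) (appL r s (W.X j₁ (D.Φ x).1, 0))

theorem dr_fst {j₁ : D.B₁.ι} {j₂ : D.B₂.ι} {q : D.Y₁ × D.Y₂} (h₁ : q.1 ∈ (D.B₁.e j₁).source)
    (w : Cn (r + s)) :
    dr (D.B₁.prod D.B₂) D.B₁ Prod.fst (j₁, j₂) j₁ q w = fstL r s w := by
  unfold dr
  have h1 : rd (D.B₁.prod D.B₂) D.B₁ Prod.fst (j₁, j₂) j₁ =ᶠ[𝓝 ((D.B₁.prod D.B₂).e (j₁, j₂) q)]
      fstL r s := by
    have h2 : fstL r s ((D.B₁.prod D.B₂).e (j₁, j₂) q) ∈ (D.B₁.e j₁).target := by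
      have : (D.B₁.prod D.B₂).e (j₁, j₂) q = app (D.B₁.e j₁ q.1) (D.B₂.e j₂ q.2) := rfl
      rw [this, fstL_app]
      exact (D.B₁.e j₁).map_source h₁
    filter_upwards [(fstL r s).continuous.continuousAt.preimage_mem_nhds
      ((D.B₁.e j₁).open_target.mem_nhds h2)] with z hz
    exact (D.B₁.e j₁).right_inv hz
  rw [h1.fderiv_eq]
  exact congrArg (fun T : Cn (r + s) →L[ℂ] Cn r => T w) (fstL r s).fderiv

theorem dr_snd {j₁ : D.B₁.ι} {j₂ : D.B₂.ι} {q : D.Y₁ × D.Y₂} (h₂ : q.2 ∈ (D.B₂.e j₂).source)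
    (w : Cn (r + s)) :
    dr (D.B₁.prod D.B₂) D.B₂ Prod.snd (j₁, j₂) j₂ q w = sndL r s w := by
  unfold dr
  have h1 : rd (D.B₁.prod D.B₂) D.B₂ Prod.snd (j₁, j₂) j₂ =ᶠ[𝓝 ((D.B₁.prod D.B₂).e (j₁, j₂) q)]
      sndL r s := by
    have h2 : sndL r s ((D.B₁.prod D.B₂).e (j₁, j₂) q) ∈ (D.B₂.e j₂).target := by
      have : (D.B₁.prod D.B₂).e (j₁, j₂) q = app (D.B₁.e j₁ q.1) (D.B₂.e j₂ q.2) := rfl
      rw [this, sndL_app]
      exact (D.B₂.e j₂).map_source h₂
    filter_upwards [(sndL r s).continuous.continuousAt.preimage_mem_nhds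
      ((D.B₂.e j₂).open_target.mem_nhds h2)] with z hz
    exact (D.B₂.e j₂).right_inv hz
  rw [h1.fderiv_eq]
  exact congrArg (fun T : Cn (r + s) →L[ℂ] Cn s => T w) (sndL r s).fderiv

theorem isLft_lftv {i : A.ι} {j₁ : D.B₁.ι} {j₂ : D.B₂.ι} {x : M} (hx : x ∈ (A.e i).source)
    (h₁ : (D.Φ x).1 ∈ (D.B₁.e j₁).source) (h₂ : (D.Φ x).2 ∈ (D.B₂.e j₂).source) :
    IsLft D W i x (lftv D W i j₁ j₂ x) := by
  have hs : D.Φ.symm (D.Φ x) = x := D.Φ.symm_apply_apply x
  have hx' : D.Φ.symm (D.Φ x) ∈ (A.e i).source := by rw [hs]; exact hx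
  have hq : D.Φ x ∈ ((D.B₁.prod D.B₂).e (j₁, j₂)).source := ⟨h₁, h₂⟩
  have k₁ := dr_comp D.hol₁ D.hol' (x := D.Φ x) (i := (j₁, j₂)) (j := i) (l := j₁) hq hx'
    (by rw [hs]; exact h₁) (appL r s (W.X j₁ (D.Φ x).1, 0))
  have k₂ := dr_comp D.hol₂ D.hol' (x := D.Φ x) (i := (j₁, j₂)) (j := i) (l := j₂) hq hx'
    (by rw [hs]; exact h₂) (appL r s (W.X j₁ (D.Φ x).1, 0))
  have e₁ : (fun q => (D.Φ (D.Φ.symm q)).1) = Prod.fst := by
    funext q; rw [D.Φ.apply_symm_apply]
  have e₂ : (fun q => (D.Φ (D.Φ.symm q)).2) = Prod.snd := by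
    funext q; rw [D.Φ.apply_symm_apply]
  rw [e₁, dr_fst h₁, appL_apply, fstL_app, hs] at k₁
  rw [e₂, dr_snd h₂, appL_apply, sndL_app, hs] at k₂
  exact isLft_of_one hx h₁ k₁.symm ((D.tan₂_iff hx h₂ _).1 k₂.symm)

variable (D W)

/-- the lift of a vector field of the first factor -/
def liftX (i : A.ι) (x : M) : Cn n :=
  lftv D W i (PB.ch D.B₁ (D.Φ x).1) (PB.ch D.B₂ (D.Φ x).2) x

theorem isLft_liftX {i : A.ι} {x : M} (hx : x ∈ (A.e i).source) :
    IsLft D W i x (liftX D W i x) :=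
  isLft_lftv hx (PB.ch_mem D.B₁ _) (PB.ch_mem D.B₂ _)

theorem liftX_eq {i : A.ι} {j₁ : D.B₁.ι} {j₂ : D.B₂.ι} {x : M} (hx : x ∈ (A.e i).source)
    (h₁ : (D.Φ x).1 ∈ (D.B₁.e j₁).source) (h₂ : (D.Φ x).2 ∈ (D.B₂.e j₂).source) :
    liftX D W i x = lftv D W i j₁ j₂ x :=
  (isLft_liftX D W hx).unique hx (isLft_lftv hx h₁ h₂)

theorem lftv_diff {i : A.ι} {j₁ : D.B₁.ι} {j₂ : D.B₂.ι} {z : Cn n} (hz : z ∈ (A.e i).target)
    (h₁ : (D.Φ ((A.e i).symm z)).1 ∈ (D.B₁.e j₁).source)
    (h₂ : (D.Φ ((A.e i).symm z)).2 ∈ (D.B₂.e j₂).source) :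
    DifferentiableAt ℂ (fun z => lftv D W i j₁ j₂ ((A.e i).symm z)) z := by
  have hx := (A.e i).map_target hz
  set x := (A.e i).symm z with hxd
  have hzx : A.e i x = z := (A.e i).right_inv hz
  have hq : D.Φ x ∈ ((D.B₁.prod D.B₂).e (j₁, j₂)).source := ⟨h₁, h₂⟩
  have d1 : DifferentiableAt ℂ (rd A (D.B₁.prod D.B₂) D.Φ i (j₁, j₂)) z :=
    D.hol.diffAt (i := i) (j := (j₁, j₂)) ⟨hz, hq⟩
  have e1 : rd A (D.B₁.prod D.B₂) D.Φ i (j₁, j₂) z = (D.B₁.prod D.B₂).e (j₁, j₂) (D.Φ x) := rfl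
  have d2 : DifferentiableAt ℂ (fderiv ℂ (rd (D.B₁.prod D.B₂) A D.Φ.symm (j₁, j₂) i))
      (rd A (D.B₁.prod D.B₂) D.Φ i (j₁, j₂) z) := by
    rw [e1]
    refine (D.hol'.analyticAt (i := (j₁, j₂)) (j := i) (mem_dm hq ?_)).fderiv.differentiableAt
    rw [D.Φ.symm_apply_apply]
    exact hx
  have d3 : DifferentiableAt ℂ (W.loc j₁) (fstL r s (rd A (D.B₁.prod D.B₂) D.Φ i (j₁, j₂) z)) := by
    have : fstL r s (rd A (D.B₁.prod D.B₂) D.Φ i (j₁, j₂) z) = D.B₁.e j₁ (D.Φ x).1 := by
      rw [e1]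
      exact fstL_app _ _
    rw [this]
    exact (W.hol j₁).differentiableAt ((D.B₁.e j₁).open_target.mem_nhds
      ((D.B₁.e j₁).map_source h₁))
  have d4 : DifferentiableAt ℂ (fun z => W.loc j₁
      (fstL r s (rd A (D.B₁.prod D.B₂) D.Φ i (j₁, j₂) z))) z :=
    DifferentiableAt.comp z (g := W.loc j₁)
      (f := fun z => fstL r s (rd A (D.B₁.prod D.B₂) D.Φ i (j₁, j₂) z)) d3
      ((fstL r s).differentiableAt.comp z d1)
  have d5 := (DifferentiableAt.comp z (g := fderiv ℂ (rd (D.B₁.prod D.B₂) A D.Φ.symm (j₁, j₂) i))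
    (f := rd A (D.B₁.prod D.B₂) D.Φ i (j₁, j₂)) d2 d1).clm_apply
    ((appL r s).differentiableAt.comp z (d4.prodMk (differentiableAt_const (0 : Cn s))))
  refine d5.congr_of_eventuallyEq ?_
  filter_upwards [(D.hol.isOpen_dm i (j₁, j₂)).mem_nhds ⟨hz, hq⟩] with w hw
  have hw1 : (D.Φ ((A.e i).symm w)).1 ∈ (D.B₁.e j₁).source := hw.2.1
  have e2 : fstL r s (rd A (D.B₁.prod D.B₂) D.Φ i (j₁, j₂) w) =
      D.B₁.e j₁ (D.Φ ((A.e i).symm w)).1 := fstL_app _ _
  show lftv D W i j₁ j₂ ((A.e i).symm w) =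
    fderiv ℂ (rd (D.B₁.prod D.B₂) A D.Φ.symm (j₁, j₂) i)
      (rd A (D.B₁.prod D.B₂) D.Φ i (j₁, j₂) w)
      (appL r s (W.loc j₁ (fstL r s (rd A (D.B₁.prod D.B₂) D.Φ i (j₁, j₂) w)), 0))
  rw [e2, W.loc_e hw1]
  rfl

/-- the lift of a vector field of the first factor -/
def liftV : HVF A where
  X := liftX D W
  hol i := by
    intro z hz
    obtain ⟨j₁, hj₁⟩ := D.B₁.cover (D.Φ ((A.e i).symm z)).1
    obtain ⟨j₂, hj₂⟩ := D.B₂.cover (D.Φ ((A.e i).symm z)).2
    refine ((lftv_diff D W hz hj₁ hj₂).congr_of_eventuallyEq ?_).differentiableWithinAt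
    have hq : D.Φ ((A.e i).symm z) ∈ ((D.B₁.prod D.B₂).e (j₁, j₂)).source := ⟨hj₁, hj₂⟩
    filter_upwards [(D.hol.isOpen_dm i (j₁, j₂)).mem_nhds ⟨hz, hq⟩] with w hw
    exact liftX_eq D W ((A.e i).map_target hw.1) hw.2.1 hw.2.2
  tr i j x hx := by
    have h0 := isLft_liftX D W hx.1
    refine (isLft_liftX D W hx.2).unique hx.2 ?_
    have h1 : ∀ v, fderiv ℂ (fun z => A.e j ((A.e i).symm z)) (A.e i x) v =
        toC (Jm A i j x) v := by
      intro v
      rw [Jm_eq, toC_mt]
    rw [h1]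
    refine ⟨fun j₁ hj₁ => ?_, ?_⟩
    · rw [← dr_left D.hol₁ hx.1 hx.2 hj₁, h0.1 j₁ hj₁]
    · rw [P_tr S hx.1 hx.2, h0.2]

theorem liftV_zero (h : ∀ i, ∀ x ∈ (A.e i).source, (liftV D W).X i x = 0) :
    ∀ j, ∀ y ∈ (D.B₁.e j).source, W.X j y = 0 := by
  intro j y hy
  obtain ⟨y₂⟩ : Nonempty D.Y₂ := inferInstance
  obtain ⟨i, hi⟩ := A.cover (D.in₁ y₂ y)
  have h1 := (isLft_liftX D W hi).1 j (by rw [D.fst_in₁]; exact hy)
  have h2 : liftX D W i (D.in₁ y₂ y) = 0 := h i _ hi
  rw [h2, map_zero, D.fst_in₁] at h1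
  exact h1.symm

theorem ricV_lift {K : Kah A}
    (hn : ∀ i, ∀ x ∈ (A.e i).source, (cur (volK K) i x)ᵀ * S.P i x = 0) {i : A.ι} {x : M}
    (hx : x ∈ (A.e i).source) : ricV K (liftV D W) i x = 0 := by
  have h1 : toC (S.P i x) ((liftV D W).X i x) = (liftV D W).X i x := (isLft_liftX D W hx).2
  have h2 : ∀ d, ∑ c, cur (volK K) i x c d * (liftV D W).X i x c = 0 := by
    intro d
    have h3 : ∀ c, (liftV D W).X i x c = ∑ a, S.P i x c a * (liftV D W).X i x a := by
      intro c
      rw [← toC_apply, h1]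
    calc ∑ c, cur (volK K) i x c d * (liftV D W).X i x c
        = ∑ c, ∑ a, (cur (volK K) i x c d * S.P i x c a) * (liftV D W).X i x a := by
          refine Finset.sum_congr rfl fun c _ => ?_
          rw [h3 c, Finset.mul_sum]
          exact Finset.sum_congr rfl fun a _ => by rw [mul_assoc]
      _ = ∑ a, (∑ c, cur (volK K) i x c d * S.P i x c a) * (liftV D W).X i x a := by
          rw [Finset.sum_comm]
          exact Finset.sum_congr rfl fun a _ => by rw [Finset.sum_mul]
      _ = 0 := by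
          refine Finset.sum_eq_zero fun a _ => ?_
          have h4 := congrFun (congrFun (hn i x hx) d) a
          rw [Matrix.mul_apply] at h4
          simp only [Matrix.transpose_apply, Matrix.zero_apply] at h4
          rw [h4, zero_mul]
  unfold ricV
  rw [Finset.sum_comm]
  refine Finset.sum_eq_zero fun d _ => ?_
  rw [← Finset.sum_mul, h2 d, zero_mul]

variable {W}

/-- the first factor has no holomorphic vector fields -/
theorem no_vf₁ [T2Space M] [CompactSpace M] [SimplyConnectedSpace M] [Finite A.ι]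
    (hA : GoodA A) (P : Part A) {K : Kah A}
    (hn : ∀ i, ∀ x ∈ (A.e i).source, (cur (volK K) i x)ᵀ * S.P i x = 0) (W : HVF D.B₁) :
    ∀ j, ∀ y ∈ (D.B₁.e j).source, W.X j y = 0 :=
  liftV_zero D W (eq_zero_of_par (K := K) hA (par_of_null P fun i x hx => by
    rw [ricV_lift D W hn hx]
    exact le_of_eq rfl))

end lift

/-! ### equicontinuity -/

/-- the action of `G` on the compact space `M` is uniformly equicontinuous -/
def EquiC (M G : Type) [TopologicalSpace M] [Group G] [MulAction G M] : Prop :=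
  ∀ U ∈ 𝓝ˢ (diagonal M), ∃ V ∈ 𝓝ˢ (diagonal M), ∀ (g : G) (x y : M), (x, y) ∈ V →
    (g • x, g • y) ∈ U

theorem holM_of_holMap {n m : ℕ} {M N : Type} [TopologicalSpace M] [TopologicalSpace N]
    {A : Atl n M} {B : Atl m N} {f : M → N} (h : HolMap A B f) : HolM A B f := fun x => by
  obtain ⟨i, hi⟩ := A.cover x
  obtain ⟨j, hj⟩ := B.cover (f x)
  exact ⟨h.cont.continuousAt, i, j, hi, hj, h.diffAt (mem_dm hi hj)⟩

/-- 534's finiteness theorem for compact Hausdorff spaces -/
theorem fin_of_equi {n : ℕ} {M : Type} [TopologicalSpace M] [T2Space M] [CompactSpace M]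
    {A : Atl n M} [Finite A.ι] (hV : ∀ V : HVF A, ∀ i, ∀ x ∈ (A.e i).source, V.X i x = 0)
    {G : Type} [Group G] [MulAction G M] (hG : ∀ g : G, HolMap A A (fun x => g • x))
    (heq : EquiC M G) : (MulAction.toPermHom G M).ker.FiniteIndex := by
  let _ : UniformSpace M := uniformSpaceOfCompactR1
  exact finite_of_equicont hV (fun g => holM_of_holMap (hG g)) heq


section fin

variable {n : ℕ} {M : Type} [TopologicalSpace M] {A : Atl n M} {S : Spl A} {r s : ℕ}
  (D : Dec S r s) {G : Type} [Group G] [MulAction G M]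

theorem equi₁ (hG : PresG S G) (heq : EquiC M G) : letI := D.act₁ hG; EquiC D.Y₁ G := by
  let _ := D.act₁ hG
  intro U hU
  obtain ⟨y₂⟩ : Nonempty D.Y₂ := inferInstance
  have c1 : Continuous fun p : M × M => ((D.Φ p.1).1, (D.Φ p.2).1) := by
    have := D.Φ.continuous
    fun_prop
  have c2 : Continuous fun p : D.Y₁ × D.Y₁ => (D.in₁ y₂ p.1, D.in₁ y₂ p.2) := by
    have := (D.holIn₁ y₂).cont
    fun_prop
  have m1 : MapsTo (fun p : M × M => ((D.Φ p.1).1, (D.Φ p.2).1)) (diagonal M)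
      (diagonal D.Y₁) := by
    rintro ⟨x, y⟩ h
    have h' : x = y := h
    rw [h']
    exact mem_diagonal _
  have m2 : MapsTo (fun p : D.Y₁ × D.Y₁ => (D.in₁ y₂ p.1, D.in₁ y₂ p.2)) (diagonal D.Y₁)
      (diagonal M) := by
    rintro ⟨x, y⟩ h
    have h' : x = y := h
    rw [h']
    exact mem_diagonal _
  obtain ⟨V, hV, hVG⟩ := heq _ (c1.tendsto_nhdsSet m1 hU)
  refine ⟨_, c2.tendsto_nhdsSet m2 hV, fun g x y hxy => ?_⟩
  have h1 := hVG g _ _ hxy
  have h2 : ∀ x : D.Y₁, (D.Φ (g • D.in₁ y₂ x)).1 = g • x := by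
    intro x
    rw [D.act_eq hG g (D.in₁ y₂ x), D.fst_in₁]
  have h3 : ((D.Φ (g • D.in₁ y₂ x)).1, (D.Φ (g • D.in₁ y₂ y)).1) ∈ U := h1
  rwa [h2, h2] at h3

/-- **FINZ** : the group acts on the first factor through a finite group -/
theorem fin_ker₁ [T2Space M] [CompactSpace M] [SimplyConnectedSpace M] [Finite A.ι]
    (hA : GoodA A) (P : Part A) {K : Kah A}
    (hn : ∀ i, ∀ x ∈ (A.e i).source, (cur (volK K) i x)ᵀ * S.P i x = 0)
    (hG : PresG S G) (heq : EquiC M G) :
    letI := D.act₁ hG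
    (MulAction.toPermHom G D.Y₁).ker.FiniteIndex := by
  let _ := D.act₁ hG
  exact fin_of_equi (no_vf₁ D hA P hn) (D.hol_act₁ hG) (equi₁ D hG heq)

end fin

end

end Crest.Agent.R273.FinZ_836
end

-- ▼ part R273/AsmD_534
section

/-!
# R273 (S0416), Part B, global assembly (helper534), III

* `main_tor`   : the induction step if `H^q(O) = 0` on the fibre for `q ≥ 1`
* `main_split` : the induction step if the fibre splits
* `main_sus`   : the induction step for a manifold in normal form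
-/

set_option autoImplicit false
set_option linter.unusedSectionVars false

open Set Metric Filter Topology Complex Function
open scoped ContDiff Matrix ComplexConjugate ComplexOrder

namespace Crest.Agent.R273.AsmD_534

open Crest.Agent.R275.Geo Crest.Agent.R275.Core144 Crest.Agent.R275.GC293
open Crest.Agent.R275.SerG398
open Crest.Agent.R273.Defs_333 Crest.Agent.R273.HM_333 Crest.Agent.R273.Hess_333
open Crest.Agent.R273.Kah_333 Crest.Agent.R273.Vol_333 Crest.Agent.R273.FS_333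
open Crest.Agent.R273.Map_835 Crest.Agent.R273.PB_835 Crest.Agent.R273.Prd_835
open Crest.Agent.R273.UCov_914 Crest.Agent.R273.Sus_333 Crest.Agent.R273.TorDefs_422
open Crest.Agent.R273.PartA_61 Crest.Agent.R273.LamN127 Crest.Agent.R273.TD3_733
open Crest.Agent.R273.HFlow3_376 Crest.Agent.R273.RMan4_798
open Crest.Agent.R273.Slc_333 Crest.Agent.R273.AsmB_534 Crest.Agent.R273.AsmC_534
open Crest.Agent.R273.SplA_836 Crest.Agent.R273.ParI_880
open Crest.Agent.R273.Fock_243 (FI)
open Crest.Agent.R273.NV_578 (NV PV)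
open Crest.Agent.R273.HolF_578 (Om)
open Crest.Agent.R273.HFlowC_376 (pullK)

noncomputable section

variable {g d : ℕ} {M : Type} [TopologicalSpace M] {A : Atl (g + d) M} {K : Kah A} {G : Type}
  [CommGroup G] {D : MonD A G} {Y : Type} [TopologicalSpace Y] [MulAction G Y] {B : Atl d Y}

/-! ### the torus case -/

theorem cur_hmY' (S : Sus D K B) (R : Ref B A (S.sl 0)) {P : ProjD A} (H : HM (lb P)) {c : ℂ}
    (hH : ∀ i, ∀ x ∈ (A.e i).source, cur H i x = c • K.g i x) {j : B.ι} {y : Y}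
    (hy : y ∈ (B.e j).source) : cur (hmY S R H) j y = c • S.KY.g j y := by
  have ha := R.sub j y hy
  rw [hmY, LiftB_522.cur_pull _ (S.holMap_sl 0) H hy ha, hH _ _ ha, Matrix.mul_smul,
    Matrix.smul_mul]
  exact congrArg _ (met_sl S 0 hy ha)

/-- **lifts** of the action to homogeneous coordinates -/
theorem lifts_Y' (S : Sus D K B) [CompactSpace Y] [T2Space Y] [SimplyConnectedSpace Y]
    (hl : Function.Injective S.lam) (R : Ref B A (S.sl 0)) (P : ProjD A) (H : HM (lb P)) {c : ℂ}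
    (hH : ∀ i, ∀ x ∈ (A.e i).source, cur H i x = c • K.g i x)
    [FiniteDimensional ℂ (HS (LY S R P) (univ : Set Y))] :
    ∃ N : ℕ, 0 < N ∧ ∃ (P : ProjD B)
      (χ : Fin (P.N + 1) → ((powMonoidHom N : G →* G).range →* Circle)),
      (∀ (γ : (powMonoidHom N : G →* G).range) i j, ∀ x ∈ (B.e i).source,
        γ • x ∈ (B.e j).source →
        ∃ c : ℂ, ∀ k, P.F j (γ • x) k = c * ((χ k γ : ℂ) * P.F i x k)) ∧
      (∀ w ∈ Subgroup.closure {w : (powMonoidHom N : G →* G).range →* Circle |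
        ∃ k l, w = χ k / χ l}, ∀ m : ℕ, m ≠ 0 → w ^ m = 1 → w = 1) ∧
      (∀ k, ∃ i, ∃ x ∈ (B.e i).source, P.F i x k ≠ 0) := by
  obtain ⟨N, hN, P', χ, h1, h2, h3, _⟩ := LiftC_522.lifts (projY S hl R P)
    (isHS_projY S hl R P) (hmY S R H) G (fun γ => S.holMap_smul γ) fun γ i j x hx hj => by
      rw [cur_hmY' S R H hH hx, cur_hmY' S R H hH hj, Matrix.mul_smul, Matrix.smul_mul]
      exact congrArg _ (S.KY_inv γ hx hj)
  exact ⟨N, hN, P', χ, h1, h2, h3⟩

/-- **torus case** -/
theorem main_tor (hT : TorMain) (HA : PartA) [T2Space M] [CompactSpace M] [Finite A.ι]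
    (hA : GoodA A) (PM : Part A) (X : Pol A K) (hs : (volK K).Semipos) (S : Sus D K B)
    [ConnectedSpace (D.cov G)] [Group.FG G] (hl : Function.Injective S.lam)
    (R : Ref B A (S.sl 0)) [T2Space Y] [CompactSpace Y] [SimplyConnectedSpace Y] [Finite B.ι]
    (gB : GoodA B) (PB : Part B) (hc : ∀ q, 1 ≤ q → hB (BN (1 : LB B)) q = 0) :
    ∃ m : ℕ, 0 < m ∧ HasSec ((KB A)⁻¹ ^ m) := by
  have _ : FiniteDimensional ℂ (HS (LY S R X.P) (univ : Set Y)) :=
    SerE_945.fd_HS PB (LY S R X.P)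
  obtain ⟨N, hN, P', χ, h1, h2, h3⟩ := lifts_Y' S hl R X.P X.H X.cur
  have hfi := LiftA_522.finiteIndex_range_pow G hN
  have hfg : Group.FG (powMonoidHom N : G →* G).range := inferInstance
  let T : TorD B (powMonoidHom N : G →* G).range :=
    { P := P'
      nz := h3
      χ := χ
      hol := fun γ => S.holMap_smul γ.1
      diag := h1
      tf := h2
      h := volK S.KY
      semi := S.volKY_semipos hs
      h_inv := fun γ i j x hx hj => Dsc_333.volKY_inv S γ.1 hx hj
      K := S.KY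
      K_inv := fun γ i j x hx hj => S.KY_inv γ.1 hx hj
      coh := hc }
  have hBB : BB (volK S.KY) (powMonoidHom N : G →* G).range :=
    UpV_914.bb_sub HA hA PM X.P hs S (powMonoidHom N : G →* G).range
  exact main_of_Gd_sub S (powMonoidHom N : G →* G).range
    (hT d Y B gB ⟨PB⟩ (powMonoidHom N : G →* G).range T hBB)

/-! ### the case of a splitting -/

/-- **splitting case** -/
theorem main_split [T2Space M] [CompactSpace M] [Finite A.ι] (PM : Part A) (P : ProjD A)
    (hs : (volK K).Semipos) (S : Sus D K B) [ConnectedSpace (D.cov G)]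
    [T2Space Y] [CompactSpace Y] [SimplyConnectedSpace Y] [Finite B.ι] (gB : GoodA B)
    (PB : Part B) (IH : ∀ m < g + d, MainN m) (C : CanS S.KY) {r : ℕ} (hr : C.S.IsRk r)
    (h0 : 0 < r) (h1 : r < d) : ∃ m : ℕ, 0 < m ∧ HasSec ((KB A)⁻¹ ^ m) := by
  obtain ⟨Dc⟩ := exists_dec S.KY C.S hr
  have hG : PresG C.S G := C.presG (fun γ => S.holMap_smul γ) fun γ i j x hx hj =>
    S.KY_inv γ hx hj
  have heq : FinZ_836.EquiC Y G := by
    have : ConnectedSpace Y := inferInstance
    intro U hU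
    exact Equi_798.equi_smul_nhdsSet S.KY (G := G) (fun γ => Equi_798.isom_of_jp
      (S.holMap_smul γ) fun i j x hx hj => S.KY_inv γ hx hj) U hU
  have hfi := FinZ_836.fin_ker₁ Dc gB PB C.null hG heq
  let _ := Dc.act₁ hG
  have _ : Finite (G ⧸ (MulAction.toPermHom G Dc.Y₁).ker) :=
    (MulAction.toPermHom G Dc.Y₁).ker.finite_quotient_of_finiteIndex
  obtain ⟨Pj⟩ := BBsub_333.projD_cov D PM K P (G ⧸ (MulAction.toPermHom G Dc.Y₁).ker)
  refine XTwo_836.main_dec₁ S Dc hG (MulAction.toPermHom G Dc.Y₁).ker (fun γ hγ z => ?_)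
    (by omega) (IH _ (by omega)) (IH _ (by omega)) Pj hs
  have h2 : MulAction.toPermHom G Dc.Y₁ γ = 1 := hγ
  exact congrArg (fun f : Equiv.Perm Dc.Y₁ => f z) h2

/-- **the induction step for a manifold in normal form** -/
theorem main_sus (hT : TorMain) (HA : PartA) [T2Space M] [CompactSpace M] [Finite A.ι]
    (hA : GoodA A) (PM : Part A) (X : Pol A K) (hs : (volK K).Semipos) (S : Sus D K B)
    [ConnectedSpace (D.cov G)] [Group.FG G] (hl : Function.Injective S.lam)
    (R : Ref B A (S.sl 0)) [T2Space Y] [CompactSpace Y] [SimplyConnectedSpace Y] [Finite B.ι]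
    (gB : GoodA B) (PB : Part B) (IH : ∀ m < g + d, MainN m) :
    ∃ m : ℕ, 0 < m ∧ HasSec ((KB A)⁻¹ ^ m) := by
  have _ : ConnectedSpace Y := inferInstance
  by_cases hc : ∀ q, 1 ≤ q → hB (BN (1 : LB B)) q = 0
  · exact main_tor hT HA hA PM X hs S hl R gB PB hc
  have hsY : (volK S.KY).Semipos := S.volKY_semipos hs
  have ric : ∀ i, ∀ x ∈ (B.e i).source, (cur (volK S.KY) i x).PosSemidef := fun i x hx =>
    cur_posSemidef hsY i hx
  obtain ⟨q, hq, β, hβ, hne⟩ := exists_om PB S.KY hsY hc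
  obtain ⟨C⟩ := exists_canS PB S.KY ric
  obtain ⟨y⟩ : Nonempty Y := inferInstance
  obtain ⟨j, hj⟩ := B.cover y
  have hr := isRk_of_point (S := C.S) hj
  have h0 := C.pos_rank PB ric hr hq hβ hne
  have hle := IsRk.le C.S hr y
  rcases Nat.lt_or_ge (rkA C.S j y) d with hlt | hge
  · exact main_split PM X.P hs S gB PB IH C hr h0 hlt
  · have he : rkA C.S j y = d := le_antisymm hle hge
    rw [he] at hr
    exact main_flat S gB PB fun i x hx => C.flat hr hx

end

end Crest.Agent.R273.AsmD_534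
end

-- ▼ part R273/AsmE_534

/-!
# R273 (S0416), Part B, global assembly (helper534), IV

* `main_hasSus` : the induction step for manifolds with the normal form
* `main_of`     : `YauStmt`, `NFStmt`, `PartA`, `TorMain` imply `Main`
-/

set_option autoImplicit false
set_option linter.unusedSectionVars false

open Set Metric Filter Topology Complex Function
open scoped ContDiff Matrix ComplexConjugate ComplexOrder

namespace Crest.Agent.R273.AsmE_534

open Crest.Agent.R275.Geo Crest.Agent.R275.Core144 Crest.Agent.R275.GC293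
open Crest.Agent.R275.SerG398
open Crest.Agent.R273.Defs_333 Crest.Agent.R273.HM_333 Crest.Agent.R273.Hess_333
open Crest.Agent.R273.Kah_333 Crest.Agent.R273.Vol_333 Crest.Agent.R273.FS_333
open Crest.Agent.R273.Map_835 Crest.Agent.R273.PB_835 Crest.Agent.R273.Prd_835
open Crest.Agent.R273.UCov_914 Crest.Agent.R273.Sus_333 Crest.Agent.R273.TorDefs_422
open Crest.Agent.R273.PartA_61 Crest.Agent.R273.LamN127 Crest.Agent.R273.TD3_733
open Crest.Agent.R273.HFlow3_376 Crest.Agent.R273.RMan4_798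
open Crest.Agent.R273.AsmB_534 Crest.Agent.R273.AsmC_534 Crest.Agent.R273.AsmD_534
open Crest.Agent.R273.YauDefs_635 (YauStmt)

noncomputable section

/-- the induction step for a manifold in normal form, any atlas of the fibre -/
theorem main_sus' {g d : ℕ} {M : Type} [TopologicalSpace M] {A : Atl (g + d) M} {K : Kah A}
    {G : Type} [CommGroup G] {D : MonD A G} {Y : Type} [TopologicalSpace Y] [MulAction G Y]
    {B : Atl d Y} (hT : TorMain) (HA : PartA) [T2Space M] [CompactSpace M] [Finite A.ι]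
    (hA : GoodA A) (PM : Part A) (X : Pol A K) (hs : (volK K).Semipos) (S : Sus D K B)
    [ConnectedSpace (D.cov G)] [Group.FG G] (hl : Function.Injective S.lam)
    [T2Space Y] [CompactSpace Y] [SimplyConnectedSpace Y] (IH : ∀ m < g + d, MainN m) :
    ∃ m : ℕ, 0 < m ∧ HasSec ((KB A)⁻¹ ^ m) := by
  obtain ⟨B', hfin, gB', ⟨PB'⟩, -, -, S', ⟨R⟩, hlam, -, -⟩ := LiftS_522.exists_chg S X.hL X.curL
  exact main_sus hT HA hA PM X hs S' (by rw [hlam]; exact hl) R gB' PB' IH

/-- the induction step for a manifold with the normal form -/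
theorem main_hasSus (hT : TorMain) (HA : PartA) {n : ℕ} {M : Type} [t : TopologicalSpace M]
    {A : Atl n M} {K : Kah A} (h : HasSus K) [T2Space M] [CompactSpace M] [Finite A.ι]
    (hA : GoodA A) (PM : Part A) (X : Pol A K) (hs : (volK K).Semipos)
    (IH : ∀ m < n, MainN m) : ∃ m : ℕ, 0 < m ∧ HasSec ((KB A)⁻¹ ^ m) := by
  cases h with
  | mk K G D Y B hB pB S hl => exact main_sus' hT HA hA PM X hs S hl IH

/-- the polarisation of a Kaehler metric in the class of `O(1)` -/
def polKah {n : ℕ} {M : Type} [TopologicalSpace M] {A : Atl n M} (P : ProjD A) {H : HM (lb P)}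
    (hp : H.Pos) : Pol A (kah H hp) where
  P := P
  H := H
  c := 1
  cpos := one_pos
  cur i x _ := by
    rw [ofReal_one, one_smul]
    rfl
  L := lb P
  hL := H
  curL _ _ _ := rfl

/-- **`Main` in all dimensions** -/
theorem mainN_of (hY : YauStmt) (hNF : NFStmt) (HA : PartA) (hT : TorMain) (n : ℕ) :
    MainN n := by
  induction n using Nat.strong_induction_on with
  | _ n IH =>
    intro M _ _ _ _ A _ hA hP P h hs
    obtain ⟨PA⟩ := hP
    obtain ⟨u, hu, hp, c, -, h2⟩ := ClassC_945.exists_kah hY hA ⟨PA⟩ P h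
    have hsK : (volK (kah (tw (fs P) u hu) hp)).Semipos := by
      refine semipos_of_cur fun i x hx => ?_
      rw [h2 i x hx]
      exact cur_posSemidef hs i hx
    obtain ⟨G, _, D, F, _, hF, hF', hc, hS⟩ := hNF n M A hA PA _ hsK
    have hfin : Finite (D.atl F).ι := inferInstanceAs (Finite (A.ι × F))
    obtain ⟨X⟩ := Pol.cov D (D.pullPart F PA) (polKah P hp)
    exact D.main_of_cov (F := F) (main_hasSus hT HA hS (D.goodA hA) (D.pullPart F PA) X
      (volK_pull_semipos D F hsK) IH)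

/-- **`Main`** -/
theorem main_of (hY : YauStmt) (hNF : NFStmt) (HA : PartA) (hT : TorMain) : Main :=
  main_iff.2 (mainN_of hY hNF HA hT)

end

end Crest.Agent.R273.AsmE_534
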