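import Crest.Agent.R273.Pos_243
import Crest.Agent.R273.Bkn_243
import Crest.Agent.R273.FS_333

-- ▼ part R273/BochA_101
section

/-!
# R273 (S0416), LEMMA FI leaf (b) (helper101): matrix calculus for the local Bochner inequality

* `dM_conjTranspose`, `dM_congr`, `Sm`/`SmM` for conjugate transposes, traces, inverses;
* `dS_det`   : Jacobi's formula `∂ det M = tr (adj M ∂M)`;
* `dM_inv`   : `∂ M⁻¹ = - M⁻¹ ∂M M⁻¹`;
* `dM_Gam`   : `∂ Γ(m) = ∑_{pq} (∂m)_{pq} e_p Γ(m) i_q`, and the second derivative.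
-/

set_option autoImplicit false
set_option linter.unusedSectionVars false

open Finset Matrix Complex Filter Topology
open scoped ContDiff ComplexConjugate Kronecker ComplexOrder

namespace Crest.Agent.R273.BochA_101

open Crest.Agent.R275.Geo Crest.Agent.R273.Fock_243 Crest.Agent.R273.Calc_243
open Crest.Agent.R273.Bkn_243

noncomputable section

variable {n : ℕ} {ι κ σ ρ : Type} [Fintype ι] [Fintype κ] [Fintype σ] [Fintype ρ]
  [DecidableEq ι] [DecidableEq κ] [DecidableEq σ] [DecidableEq ρ]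

/-! ### generalities -/

theorem dM_congr {ι κ : Type} {s : ℂ} {a : Fin n} {m m' : Cn n → Matrix ι κ ℂ} {z : Cn n}
    (h : m =ᶠ[𝓝 z] m') : dM s a m z = dM s a m' z := by
  ext S T
  exact dS_congr (h.mono fun y hy => by simp only [hy])

theorem dM_apply {ι κ : Type} (s : ℂ) (a : Fin n) (m : Cn n → Matrix ι κ ℂ) (z : Cn n) (S : ι)
    (T : κ) : dM s a m z S T = dS s a (fun y => m y S T) z := rfl

theorem dM_conjTranspose {ι κ : Type} {s : ℂ} {a : Fin n} {m : Cn n → Matrix ι κ ℂ} {z : Cn n}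
    (hm : SmM z m) : dM s a (fun y => (m y)ᴴ) z = (dM (conj s) a m z)ᴴ := by
  ext S T
  rw [Matrix.conjTranspose_apply]
  exact dS_conj (hm T S).diff

theorem SmM.conjTranspose {ι κ : Type} {m : Cn n → Matrix ι κ ℂ} {z : Cn n}
    (hm : SmM z m) : SmM z (fun y => (m y)ᴴ) := fun S T => Sm.conj (hm T S)

theorem dM_add {ι κ : Type} {s : ℂ} {a : Fin n} {m m' : Cn n → Matrix ι κ ℂ} {z : Cn n}
    (hm : SmM z m) (hm' : SmM z m') :
    dM s a (fun y => m y + m' y) z = dM s a m z + dM s a m' z := by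
  ext S T
  exact dS_add (hm S T).diff (hm' S T).diff

theorem dM_neg {ι κ : Type} {s : ℂ} {a : Fin n} {m : Cn n → Matrix ι κ ℂ} {z : Cn n} :
    dM s a (fun y => - m y) z = - dM s a m z := by
  ext S T
  exact dS_neg

theorem SmM.eventually {ι κ : Type} [Finite ι] [Finite κ] {m : Cn n → Matrix ι κ ℂ} {z : Cn n}
    (hm : SmM z m) : ∀ᶠ y in 𝓝 z, ∀ S T, DifferentiableAt ℝ (fun w => m w S T) y := by
  rw [eventually_all]
  intro S
  rw [eventually_all]
  intro T
  have := ((hm S T).of_le (m := 1) (by exact_mod_cast le_top)).eventually (by simp)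
  filter_upwards [this] with y hy
  exact hy.differentiableAt (by simp)

theorem Sm.trace {m : Cn n → Matrix κ κ ℂ} {z : Cn n} (hm : SmM z m) :
    Sm z (fun y => (m y).trace) := by
  simp only [Matrix.trace, Matrix.diag]
  exact ContDiffAt.sum fun i _ => hm i i

theorem dS_trace {s : ℂ} {a : Fin n} {m : Cn n → Matrix κ κ ℂ} {z : Cn n} (hm : SmM z m) :
    dS s a (fun y => (m y).trace) z = (dM s a m z).trace := by
  simp only [Matrix.trace, Matrix.diag]
  exact dS_sum _ fun i _ => (hm i i).diff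

/-! ### Jacobi's formula -/

theorem diff_prod {ι : Type*} [DecidableEq ι] (t : Finset ι) {f : ι → Cn n → ℂ}
    {z : Cn n} (hf : ∀ i ∈ t, DifferentiableAt ℝ (f i) z) :
    DifferentiableAt ℝ (fun y => ∏ i ∈ t, f i y) z := by
  induction t using Finset.induction_on with
  | empty => simp
  | insert i t hi ih =>
    have h1 : (fun y => ∏ i ∈ insert i t, f i y) = fun y => f i y * ∏ i ∈ t, f i y := by
      funext y; rw [Finset.prod_insert hi]
    rw [h1]
    exact (hf i (Finset.mem_insert_self i t)).mul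
      (ih fun j hj => hf j (Finset.mem_insert_of_mem hj))

theorem dS_prod {ι : Type*} [DecidableEq ι] {s : ℂ} {a : Fin n} (t : Finset ι) {f : ι → Cn n → ℂ}
    {z : Cn n} (hf : ∀ i ∈ t, DifferentiableAt ℝ (f i) z) :
    dS s a (fun y => ∏ i ∈ t, f i y) z = ∑ i ∈ t, dS s a (f i) z * ∏ j ∈ t.erase i, f j z := by
  induction t using Finset.induction_on with
  | empty => simp
  | insert i t hi ih =>
    have h1 : (fun y => ∏ i ∈ insert i t, f i y) = fun y => f i y * ∏ i ∈ t, f i y := by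
      funext y; rw [Finset.prod_insert hi]
    have hd : DifferentiableAt ℝ (fun y => ∏ i ∈ t, f i y) z :=
      diff_prod _ fun j hj => hf j (Finset.mem_insert_of_mem hj)
    rw [h1, dS_mul (hf i (Finset.mem_insert_self i t)) hd,
      ih fun j hj => hf j (Finset.mem_insert_of_mem hj), Finset.sum_insert hi,
      Finset.erase_insert hi]
    congr 1
    rw [Finset.mul_sum]
    refine Finset.sum_congr rfl fun j hj => ?_
    have hne : j ≠ i := fun h => hi (h ▸ hj)
    rw [Finset.erase_insert_of_ne hne.symm, Finset.prod_insert (fun h => hi (Finset.mem_of_mem_erase h))]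
    ring

theorem dS_det' {s : ℂ} {a : Fin n} {m : Cn n → Matrix κ κ ℂ} {z : Cn n}
    (hm : ∀ S T, DifferentiableAt ℝ (fun y => m y S T) z) :
    dS s a (fun y => (m y).det) z = ((m z).adjugate * dM s a m z).trace := by
  have h1 : (fun y => (m y).det) = fun y => ∑ τ : Equiv.Perm κ, ((Equiv.Perm.sign τ : ℤ) : ℂ) *
      ∏ i, m y (τ i) i := by
    funext y; rw [Matrix.det_apply']
  have hd : ∀ τ ∈ (univ : Finset (Equiv.Perm κ)), DifferentiableAt ℝ
      (fun y => ((Equiv.Perm.sign τ : ℤ) : ℂ) * ∏ i, m y (τ i) i) z := fun τ _ =>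
    (diff_prod _ fun i _ => hm _ _).const_mul _
  rw [h1, dS_sum _ hd]
  have h2 : ∀ τ : Equiv.Perm κ, dS s a (fun y => ((Equiv.Perm.sign τ : ℤ) : ℂ) *
      ∏ i, m y (τ i) i) z = ∑ i, ((Equiv.Perm.sign τ : ℤ) : ℂ) *
        (dM s a m z (τ i) i * ∏ j ∈ univ.erase i, m z (τ j) j) := by
    intro τ
    rw [dS_const_mul _ (diff_prod _ fun i _ => hm _ _),
      dS_prod _ fun i _ => hm _ _, Finset.mul_sum]
    rfl
  simp_rw [h2]
  rw [Finset.sum_comm]
  have h3 : ∀ i, ∑ τ : Equiv.Perm κ, ((Equiv.Perm.sign τ : ℤ) : ℂ) *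
      (dM s a m z (τ i) i * ∏ j ∈ univ.erase i, m z (τ j) j)
      = ((m z).adjugate * dM s a m z) i i := by
    intro i
    have h4 : ((m z).adjugate * dM s a m z) i i
        = ((m z).adjugate *ᵥ fun k => dM s a m z k i) i := rfl
    rw [h4, ← Matrix.cramer_eq_adjugate_mulVec, Matrix.cramer_apply, Matrix.det_apply']
    refine Finset.sum_congr rfl fun τ _ => ?_
    congr 1
    rw [← Finset.mul_prod_erase _ _ (Finset.mem_univ i), Matrix.updateCol_self]
    congr 1
    refine Finset.prod_congr rfl fun j hj => ?_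
    rw [Matrix.updateCol_ne (Finset.ne_of_mem_erase hj)]
  simp_rw [h3]
  rfl

theorem dS_det {s : ℂ} {a : Fin n} {m : Cn n → Matrix κ κ ℂ} {z : Cn n}
    (hm : SmM z m) :
    dS s a (fun y => (m y).det) z = ((m z).adjugate * dM s a m z).trace :=
  dS_det' fun S T => (hm S T).diff

/-! ### inverses -/

theorem SmM.adjugate {m : Cn n → Matrix κ κ ℂ} {z : Cn n} (hm : SmM z m) :
    SmM z (fun y => (m y).adjugate) := by
  intro S T
  have h1 : (fun y => (m y).adjugate S T) = fun y => ((m y).updateRow T (Pi.single S 1)).det := by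
    funext y; rw [Matrix.adjugate_apply]
  rw [h1]
  refine SmM.det fun i j => ?_
  by_cases h : i = T
  · subst h
    simp only [Matrix.updateRow_self]
    exact contDiffAt_const
  · simp only [Matrix.updateRow_ne h]
    exact hm i j

theorem SmM.inv {m : Cn n → Matrix κ κ ℂ} {z : Cn n} (hm : SmM z m) (h0 : (m z).det ≠ 0) :
    SmM z (fun y => (m y)⁻¹) := by
  intro S T
  have h1 : (fun y => (m y)⁻¹ S T) = fun y => ((m y).det)⁻¹ * (m y).adjugate S T := by
    funext y
    rw [Matrix.inv_def, Ring.inverse_eq_inv', Matrix.smul_apply, smul_eq_mul]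
  rw [h1]
  exact ((SmM.det hm).inv h0).mul (SmM.adjugate hm S T)

theorem eventually_det_ne {m : Cn n → Matrix κ κ ℂ} {z : Cn n} (hm : SmM z m)
    (h0 : (m z).det ≠ 0) : ∀ᶠ y in 𝓝 z, (m y).det ≠ 0 :=
  (SmM.det hm).continuousAt.eventually_ne h0

theorem eventually_mul_inv {m : Cn n → Matrix κ κ ℂ} {z : Cn n} (hm : SmM z m)
    (h0 : (m z).det ≠ 0) : ∀ᶠ y in 𝓝 z, m y * (m y)⁻¹ = 1 := by
  filter_upwards [eventually_det_ne hm h0] with y hy
  exact Matrix.mul_nonsing_inv _ (isUnit_iff_ne_zero.2 hy)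

theorem dM_const {ι κ : Type} {s : ℂ} {a : Fin n} (c : Matrix ι κ ℂ) (z : Cn n) :
    dM s a (fun _ => c) z = 0 := by
  ext S T
  exact dS_const

theorem dM_inv {s : ℂ} {a : Fin n} {m : Cn n → Matrix κ κ ℂ} {z : Cn n} (hm : SmM z m)
    (h0 : (m z).det ≠ 0) :
    dM s a (fun y => (m y)⁻¹) z = - ((m z)⁻¹ * dM s a m z * (m z)⁻¹) := by
  have h1 := dM_congr (s := s) (a := a) (eventually_mul_inv hm h0)
  rw [dM_mul (fun S T => (hm S T).diff) (fun S T => (SmM.inv hm h0 S T).diff), dM_const] at h1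
  have hi : (m z)⁻¹ * m z = 1 := Matrix.nonsing_inv_mul _ (isUnit_iff_ne_zero.2 h0)
  have h2 := congrArg (fun X => (m z)⁻¹ * X) h1
  simp only [mul_zero, mul_add] at h2
  rw [← mul_assoc, ← mul_assoc, hi, one_mul] at h2
  exact eq_neg_of_add_eq_zero_right h2

end

end Crest.Agent.R273.BochA_101
end

-- ▼ part R273/BochB_101
section

/-!
# R273 (S0416), LEMMA FI leaf (b) (helper101): curvature of `Γ(K)`

* `so B A = ∑_{pq} B_{pq} e_p Γ(A) i_q` : second quantisation with a twist;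
* `dM_Gam`  : `∂ Γ(m) = so (∂m) m`;
* `rm K c d` : `- ∂_c ∂_{d̄} K + (∂_{d̄} K) K⁻¹ (∂_c K)` (lowered curvature in the frame);
* `rm_Gam`   : `rm (Γ∘K) c d = so (rm K c d) K`;
* `tr_rm`    : `∑_{cd} (K⁻¹)_{cd} (rm K c d)_{ba} = ric K a b` for Kähler `K`, with
  `ric K a b = - ∂_a ∂_{b̄} log det K`.
-/

set_option autoImplicit false
set_option linter.unusedSectionVars false

open Finset Matrix Complex Filter Topology
open scoped ContDiff ComplexConjugate Kronecker ComplexOrder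

namespace Crest.Agent.R273.BochB_101

open Crest.Agent.R275.Geo Crest.Agent.R273.Fock_243 Crest.Agent.R273.Calc_243
open Crest.Agent.R273.Bkn_243 Crest.Agent.R273.BochA_101

noncomputable section

variable {n : ℕ}

/-- `∑_{pq} B_{pq} e_p Γ(A) i_q` -/
def so (B A : Matrix (Fin n) (Fin n) ℂ) : Matrix (FI n) (FI n) ℂ :=
  ∑ p, ∑ q, B p q • (eW (ep p) * Gam A * iW (ep q))

theorem so_add (B B' A : Matrix (Fin n) (Fin n) ℂ) : so (B + B') A = so B A + so B' A := by
  simp only [so, Matrix.add_apply, add_smul, Finset.sum_add_distrib]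

theorem so_neg (B A : Matrix (Fin n) (Fin n) ℂ) : so (-B) A = - so B A := by
  simp only [so, Matrix.neg_apply, neg_smul, Finset.sum_neg_distrib]

theorem so_smul (c : ℂ) (B A : Matrix (Fin n) (Fin n) ℂ) : so (c • B) A = c • so B A := by
  simp only [so, Matrix.smul_apply, smul_eq_mul, mul_smul, Finset.smul_sum]

theorem so_sum {τ : Type*} (t : Finset τ) (B : τ → Matrix (Fin n) (Fin n) ℂ)
    (A : Matrix (Fin n) (Fin n) ℂ) : so (∑ i ∈ t, B i) A = ∑ i ∈ t, so (B i) A := by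
  classical
  induction t using Finset.induction_on with
  | empty => simp [so]
  | insert i t hi ih => rw [Finset.sum_insert hi, Finset.sum_insert hi, so_add, ih]

theorem eW_col (B : Matrix (Fin n) (Fin n) ℂ) (j : Fin n) :
    (eW (fun b => B b j) : Matrix (FI n) (FI n) ℂ) = ∑ p, B p j • eW (ep p) := eW_eq_sum _

theorem iW_eW_ep (q j : Fin n) : (iW (ep q) * eW (ep j) : Matrix (FI n) (FI n) ℂ)
    = (if j = q then 1 else 0 : ℂ) • 1 - eW (ep j) * iW (ep q) := by
  have h := iW_eW (R := ℂ) (ep q) (ep j)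
  rw [eq_sub_iff_add_eq, h]
  congr 1
  rw [Finset.sum_eq_single j]
  · simp [ep, Pi.single_apply]
  · intro k _ hk
    simp [ep, Pi.single_apply, hk]
  · simp

/-- right multiplication by a creation operator -/
theorem so_mul_eW (B A : Matrix (Fin n) (Fin n) ℂ) (j : Fin n) :
    so B A * eW (ep j) = eW (fun b => B b j) * Gam A + eW (fun b => A b j) * so B A := by
  have h3 : ∀ p q, (eW (ep p) * Gam A * iW (ep q)) * eW (ep j)
      = (if j = q then 1 else 0 : ℂ) • (eW (ep p) * Gam A)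
        + eW (fun b => A b j) * (eW (ep p) * Gam A * iW (ep q)) := by
    intro p q
    rw [mul_assoc, iW_eW_ep, mul_sub, mul_smul_comm, mul_one, sub_eq_add_neg]
    congr 1
    rw [← mul_assoc, mul_assoc (eW (ep p)), Gam_eW_ep, ← mul_assoc (eW (ep p)),
      eq_neg_of_add_eq_zero_left (eW_anti (ep p) (fun b => A b j))]
    simp only [Matrix.neg_mul, neg_neg, mul_assoc]
  unfold so
  rw [Finset.sum_mul]
  simp only [Finset.sum_mul, smul_mul_assoc, h3, smul_add, Finset.sum_add_distrib,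
    Finset.mul_sum, mul_smul_comm]
  congr 1
  rw [eW_col, Finset.sum_mul]
  refine Finset.sum_congr rfl fun p _ => ?_
  rw [Finset.sum_eq_single j]
  · simp
  · intro q _ hq
    simp [Ne.symm hq]
  · simp

theorem iW_vac (w : Fin n → ℂ) (T : FI n) : (iW w : Matrix (FI n) (FI n) ℂ) T ∅ = 0 := by
  show Crest.Agent.R275.Kos798.K 0 w T ∅ = 0
  unfold Crest.Agent.R275.Kos798.K
  refine Finset.sum_eq_zero fun j _ => ?_
  by_cases h : Crest.Agent.R275.Kos798.tog T j = ∅
  · rw [if_pos h]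
    have hj : j ∈ T := by
      by_contra hj
      unfold Crest.Agent.R275.Kos798.tog at h
      rw [if_neg hj] at h
      exact Finset.insert_ne_empty _ _ h
    unfold Crest.Agent.R275.Kos798.cf
    rw [if_pos hj]
    simp
  · rw [if_neg h]

theorem so_vac (B A : Matrix (Fin n) (Fin n) ℂ) (S : FI n) : so B A S ∅ = 0 := by
  unfold so
  rw [Matrix.sum_apply]
  refine Finset.sum_eq_zero fun p _ => ?_
  rw [Matrix.sum_apply]
  refine Finset.sum_eq_zero fun q _ => ?_
  rw [Matrix.smul_apply, Matrix.mul_apply, Finset.sum_eq_zero, smul_zero]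
  intro T _
  rw [iW_vac, mul_zero]

/-- **derivative of the functor `Γ`** -/
theorem dM_Gam {s : ℂ} {a : Fin n} {m : Cn n → Matrix (Fin n) (Fin n) ℂ} {z : Cn n}
    (hm : SmM z m) : dM s a (fun y => Gam (m y)) z = so (dM s a m z) (m z) := by
  rw [← sub_eq_zero]
  refine ext_of_eW (fun j => eW (fun b => m z b j)) (fun j => ?_) (fun j => by simp) fun S => ?_
  · rw [Matrix.sub_mul, dM_Gam_eW hm, so_mul_eW]
    rw [Matrix.mul_sub]
    abel
  · rw [Matrix.sub_apply, dM_Gam_vac, so_vac]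
    simp

/-- `so C A = dΓ(C A⁻¹) Γ(A)` -/
theorem so_eq {A Ai : Matrix (Fin n) (Fin n) ℂ} (h : Ai * A = 1) (C : Matrix (Fin n) (Fin n) ℂ) :
    so C A = so (C * Ai) 1 * Gam A := by
  have h1 : ∀ q, Gam A * iW (ep q) = ∑ r, Ai q r • (iW (ep r) * Gam A) := by
    intro q
    have h2 : iW (Aiᵀ *ᵥ ep q) * Gam A = Gam A * iW (ep q) := by
      rw [iW_Gam, Matrix.mulVec_mulVec, ← Matrix.transpose_mul, h, Matrix.transpose_one,
        Matrix.one_mulVec]
    rw [← h2, iW_eq_sum, Finset.sum_mul]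
    refine Finset.sum_congr rfl fun r _ => ?_
    rw [smul_mul_assoc]
    congr 1
    simp [Matrix.mulVec, dotProduct, ep, Pi.single_apply]
  unfold so
  rw [Gam_one, Finset.sum_mul]
  refine Finset.sum_congr rfl fun p _ => ?_
  have h3 : ∀ q, C p q • (eW (ep p) * Gam A * iW (ep q))
      = ∑ r, (C p q * Ai q r) • (eW (ep p) * iW (ep r) * Gam A) := by
    intro q
    rw [mul_assoc, h1, Finset.mul_sum, Finset.smul_sum]
    refine Finset.sum_congr rfl fun r _ => ?_
    rw [mul_smul_comm, smul_smul, mul_assoc]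
  simp_rw [h3]
  rw [Finset.sum_comm, Finset.sum_mul]
  refine Finset.sum_congr rfl fun r _ => ?_
  rw [Matrix.mul_apply, mul_one, ← Finset.sum_smul, smul_mul_assoc]

/-- commutation of `dΓ(X)` with a creation operator -/
theorem so_one_mul_eW (X : Matrix (Fin n) (Fin n) ℂ) (p : Fin n) :
    so X 1 * eW (ep p) = eW (fun b => X b p) + eW (ep p) * so X 1 := by
  rw [so_mul_eW, Gam_one, mul_one]
  congr 2
  have : (fun b => (1 : Matrix (Fin n) (Fin n) ℂ) b p) = ep p := by
    funext b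
    by_cases h : b = p
    · subst h; simp [ep]
    · simp [ep, h]
  rw [this]

theorem so_comp {A Ai : Matrix (Fin n) (Fin n) ℂ} (h : Ai * A = 1)
    (B C : Matrix (Fin n) (Fin n) ℂ) :
    ∑ p, ∑ q, C p q • (eW (ep p) * so B A * iW (ep q))
      = so B A * Gam Ai * so C A - so (B * Ai * C) A := by
  have hG : Gam A * Gam Ai = 1 := by rw [← Gam_mul, mul_eq_one_comm.1 h, Gam_one]
  have h1 : so B A * Gam Ai * so C A = so (B * Ai) 1 * so C A := by
    rw [so_eq h B, mul_assoc (so (B * Ai) 1), hG, mul_one]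
  have h2 : so (B * Ai) 1 * so C A
      = ∑ p, ∑ q, C p q • (so (B * Ai) 1 * eW (ep p) * Gam A * iW (ep q)) := by
    conv_lhs => rw [so.eq_def C A]
    simp only [Finset.mul_sum, mul_smul_comm, mul_assoc]
  have h3 : ∀ p q, C p q • (so (B * Ai) 1 * eW (ep p) * Gam A * iW (ep q))
      = C p q • (eW (fun b => (B * Ai) b p) * Gam A * iW (ep q))
        + C p q • (eW (ep p) * so B A * iW (ep q)) := by
    intro p q
    rw [so_one_mul_eW, Matrix.add_mul, Matrix.add_mul, smul_add]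
    congr 3
    rw [so_eq h B, mul_assoc]
  have h4 : ∑ p, ∑ q, C p q • (eW (fun b => (B * Ai) b p) * Gam A * iW (ep q))
      = so (B * Ai * C) A := by
    have h5 : ∀ p q, C p q • (eW (fun b => (B * Ai) b p) * Gam A * iW (ep q))
        = ∑ r, ((B * Ai) r p * C p q) • (eW (ep r) * Gam A * iW (ep q)) := by
      intro p q
      rw [eW_col (B * Ai), Finset.sum_mul, Finset.sum_mul, Finset.smul_sum]
      refine Finset.sum_congr rfl fun r _ => ?_
      rw [smul_mul_assoc, smul_mul_assoc, smul_smul, mul_comm]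
    simp_rw [h5]
    have h6 : so (B * Ai * C) A = ∑ r, ∑ q, ∑ p, ((B * Ai) r p * C p q) •
        (eW (ep r) * Gam A * iW (ep q)) := by
      unfold so
      refine Finset.sum_congr rfl fun r _ => Finset.sum_congr rfl fun q _ => ?_
      rw [Matrix.mul_apply (M := B * Ai), Finset.sum_smul]
    rw [h6, Finset.sum_comm]
    rw [Finset.sum_congr rfl fun q _ => Finset.sum_comm]
    rw [Finset.sum_comm]
  rw [h1, h2]
  simp_rw [h3, Finset.sum_add_distrib]
  rw [h4]
  abel

/-- lowered curvature of the Hermitian matrix field `K` in its frame -/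
def rm {κ : Type} [Fintype κ] [DecidableEq κ] (K : Cn n → Matrix κ κ ℂ) (z : Cn n)
    (c d : Fin n) : Matrix κ κ ℂ :=
  - dM (-I) c (dM I d K) z + dM I d K z * (K z)⁻¹ * dM (-I) c K z

theorem dM_comm {κ : Type} {s t : ℂ} {a b : Fin n} {m : Cn n → Matrix κ κ ℂ} {z : Cn n}
    (hm : SmM z m) : dM s a (dM t b m) z = dM t b (dM s a m) z := by
  ext S T
  exact dS_comm (hm S T)


theorem SmM.mulc {ι κ σ τ : Type} [Fintype κ] [Fintype σ] {m : Cn n → Matrix κ σ ℂ} {z : Cn n}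
    (hm : SmM z m) (c : Matrix ι κ ℂ) (c' : Matrix σ τ ℂ) : SmM z (fun y => c * m y * c') := by
  intro S T
  simp only [Matrix.mul_apply]
  exact ContDiffAt.sum fun i _ => (ContDiffAt.sum fun j _ => contDiffAt_const.mul (hm _ _)).mul
    contDiffAt_const

theorem dM_so {s : ℂ} {a : Fin n} {B K : Cn n → Matrix (Fin n) (Fin n) ℂ} {z : Cn n}
    (hB : SmM z B) (hK : SmM z K) :
    dM s a (fun y => so (B y) (K y)) z = so (dM s a B z) (K z)
      + ∑ p, ∑ q, B z p q • (eW (ep p) * so (dM s a K z) (K z) * iW (ep q)) := by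
  have hG : ∀ p q : Fin n, SmM z (fun y => (eW (ep p) * Gam (K y) * iW (ep q) :
      Matrix (FI n) (FI n) ℂ)) := fun p q => SmM.mulc (SmM.Gam hK) _ _
  ext S T
  rw [dM_apply]
  have h1 : (fun y => so (B y) (K y) S T) = fun y => ∑ p, ∑ q, B y p q *
      (eW (ep p) * Gam (K y) * iW (ep q) : Matrix (FI n) (FI n) ℂ) S T := by
    funext y
    simp only [so, Matrix.sum_apply, Matrix.smul_apply, smul_eq_mul]
  have hd : ∀ p q, DifferentiableAt ℝ (fun y => B y p q *
      (eW (ep p) * Gam (K y) * iW (ep q) : Matrix (FI n) (FI n) ℂ) S T) z := fun p q =>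
    (hB p q).diff.mul (hG p q S T).diff
  rw [h1, dS_sum _ fun p _ => DifferentiableAt.fun_sum fun q _ => hd p q]
  have h2 : ∀ p, dS s a (fun y => ∑ q, B y p q *
      (eW (ep p) * Gam (K y) * iW (ep q) : Matrix (FI n) (FI n) ℂ) S T) z
      = ∑ q, (dM s a B z p q * (eW (ep p) * Gam (K z) * iW (ep q) : Matrix (FI n) (FI n) ℂ) S T
        + B z p q * (eW (ep p) * so (dM s a K z) (K z) * iW (ep q) :
            Matrix (FI n) (FI n) ℂ) S T) := by
    intro p
    rw [dS_sum _ fun q _ => hd p q]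
    refine Finset.sum_congr rfl fun q _ => ?_
    rw [dS_mul (hB p q).diff (hG p q S T).diff, ← dM_Gam hK]
    have h3 : dM s a (fun y => (eW (ep p) * Gam (K y) * iW (ep q) : Matrix (FI n) (FI n) ℂ)) z
        = eW (ep p) * dM s a (fun y => Gam (K y)) z * iW (ep q) := by
      have h4 : SmM z (fun y => (eW (ep p) * Gam (K y) : Matrix (FI n) (FI n) ℂ)) := by
        have := SmM.mulc (SmM.Gam hK) (eW (ep p) : Matrix (FI n) (FI n) ℂ)
          (1 : Matrix (FI n) (FI n) ℂ)
        simpa using this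
      rw [dM_mul_const _ (fun S T => (h4 S T).diff),
        dM_const_mul _ (fun S T => (SmM.Gam hK S T).diff)]
    rw [← h3]
    rfl
  simp_rw [h2]
  rw [Matrix.add_apply]
  simp only [so, Matrix.sum_apply, Matrix.smul_apply, smul_eq_mul, Finset.sum_add_distrib]

theorem rm_Gam {K : Cn n → Matrix (Fin n) (Fin n) ℂ} {z : Cn n}
    (hK : ∀ᶠ y in 𝓝 z, SmM y K) (h0 : (K z).det ≠ 0) (c d : Fin n) :
    rm (fun y => Gam (K y)) z c d = so (rm K z c d) (K z) := by
  have hKz : SmM z K := hK.self_of_nhds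
  have hi : (K z)⁻¹ * K z = 1 := Matrix.nonsing_inv_mul _ (isUnit_iff_ne_zero.2 h0)
  have hG : (Gam (K z))⁻¹ = Gam (K z)⁻¹ := by
    refine Matrix.inv_eq_right_inv ?_
    rw [← Gam_mul, mul_eq_one_comm.1 hi, Gam_one]
  unfold rm
  rw [dM_comm (SmM.Gam hKz), hG, dM_Gam hKz, dM_Gam hKz]
  have h1 : dM (-I) c (fun y => Gam (K y)) =ᶠ[𝓝 z] fun y => so (dM (-I) c K y) (K y) := by
    filter_upwards [hK] with y hy
    exact dM_Gam hy
  rw [dM_congr h1]
  have h2 : dM I d (fun y => so (dM (-I) c K y) (K y)) z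
      = so (dM I d (dM (-I) c K) z) (K z)
        + ∑ p, ∑ q, dM (-I) c K z p q • (eW (ep p) * so (dM I d K z) (K z) * iW (ep q)) :=
    dM_so (SmM.dM hKz _ _) hKz
  rw [h2, so_comp hi, so_add, so_neg, dM_comm hKz]
  abel

/-! ### the Ricci matrix -/

/-- `tr (K⁻¹ rm K a b)`, which is `- ∂_a ∂_{b̄} log det K` -/
def ric {κ : Type} [Fintype κ] [DecidableEq κ] (K : Cn n → Matrix κ κ ℂ) (z : Cn n)
    (a b : Fin n) : ℂ := ((K z)⁻¹ * rm K z a b).trace

/-- Kähler symmetry of the curvature in the two holomorphic indices and in the two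
antiholomorphic indices (`K b a = g_{a b̄}`) -/
theorem rm_symm {K : Cn n → Matrix (Fin n) (Fin n) ℂ} {z : Cn n}
    (hK : SmM z K) (hk : ∀ᶠ y in 𝓝 z, KahAt K y) (a b c d : Fin n) :
    rm K z c d b a = rm K z a b d c := by
  have hkz := hk.self_of_nhds
  -- second derivatives
  have h1 : dM (-I) c (dM I d K) z b a = dM (-I) a (dM I b K) z d c := by
    have e1 : dM (-I) c (dM I d K) z b a = dM (-I) c (dM I b K) z d a := by
      refine dS_congr ?_
      filter_upwards [hk] with y hy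
      exact hy.bar d b a
    have e2 : dM (-I) c (dM I b K) z d a = dM (-I) a (dM I b K) z d c := by
      rw [dM_comm (s := -I) (t := I) (a := c) (b := b) hK,
        dM_comm (s := -I) (t := I) (a := a) (b := b) hK]
      refine dS_congr ?_
      filter_upwards [hk] with y hy
      exact hy.hol c a d
    rw [e1, e2]
  -- first derivatives
  have h2 : (dM I d K z * (K z)⁻¹ * dM (-I) c K z) b a
      = (dM I b K z * (K z)⁻¹ * dM (-I) a K z) d c := by
    simp only [Matrix.mul_apply]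
    refine Finset.sum_congr rfl fun f _ => ?_
    rw [hkz.hol c a f]
    congr 1
    refine Finset.sum_congr rfl fun e _ => ?_
    rw [hkz.bar d b e]
  unfold rm
  rw [Matrix.add_apply, Matrix.neg_apply, h1, h2, Matrix.add_apply, Matrix.neg_apply]

/-- the contracted curvature is the Ricci matrix -/
theorem tr_rm {K : Cn n → Matrix (Fin n) (Fin n) ℂ} {z : Cn n}
    (hK : SmM z K) (hk : ∀ᶠ y in 𝓝 z, KahAt K y) (a b : Fin n) :
    ∑ c, ∑ d, (K z)⁻¹ c d * rm K z c d b a = ric K z a b := by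
  unfold ric Matrix.trace
  refine Finset.sum_congr rfl fun c _ => ?_
  rw [Matrix.diag_apply, Matrix.mul_apply]
  exact Finset.sum_congr rfl fun d _ => by rw [rm_symm hK hk]

end

end Crest.Agent.R273.BochB_101
end

-- ▼ part R273/BochC_101
section

/-!
# R273 (S0416), LEMMA FI leaf (b) (helper101): Gram matrices of holomorphic sections

At a point: `G` positive, `V : κ × ρ` matrix, `M = Vᴴ G V` invertible.
* `gram_alg` : the algebraic identity
  `tr (M⁻¹ M_{cd̄}) - tr (M⁻¹ M_c M⁻¹ M_d̄) = tr (M⁻¹ W_dᴴ G W_c) - tr (M⁻¹ Vᴴ R_{cd̄} V)`;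
* `gram_pos` : `∑_{cd} N_{cd} tr (M⁻¹ W_dᴴ G W_c) ≥ 0` for `N ≥ 0`;
* `dM_gram`, `dM2_gram`: the derivatives of `Vᴴ G V` for holomorphic `V`.
-/

set_option autoImplicit false
set_option linter.unusedSectionVars false

open Finset Matrix Complex Filter Topology
open scoped ContDiff ComplexConjugate Kronecker ComplexOrder

namespace Crest.Agent.R273.BochC_101

open Crest.Agent.R275.Geo Crest.Agent.R273.Fock_243 Crest.Agent.R273.Calc_243
open Crest.Agent.R273.Bkn_243 Crest.Agent.R273.BochA_101 Crest.Agent.R273.BochB_101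

noncomputable section

variable {n : ℕ} {κ ρ : Type} [Fintype κ] [Fintype ρ] [DecidableEq κ] [DecidableEq ρ]

/-! ### algebra at a point -/

/-- the covariant derivative projected to the orthogonal complement of the span of `V` -/
def WW (G Gi : Matrix κ κ ℂ) (V : Matrix κ ρ ℂ) (Mi : Matrix ρ ρ ℂ) (Vc : Matrix κ ρ ℂ)
    (Gc : Matrix κ κ ℂ) : Matrix κ ρ ℂ :=
  (1 - V * Mi * Vᴴ * G) * (Vc + Gi * Gc * V)

theorem gram_alg {G Gi : Matrix κ κ ℂ} {V : Matrix κ ρ ℂ} {Mi : Matrix ρ ρ ℂ}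
    {Vc Vd : Matrix κ ρ ℂ} {Gc Gd Gdb Gcd : Matrix κ κ ℂ}
    (hG : G.IsHermitian) (hGi : G * Gi = 1) (hM : (Vᴴ * G * V) * Mi = 1)
    (hGd : Gdᴴ = Gdb) :
    (Mi * (Vdᴴ * (Gc * V + G * Vc) + Vᴴ * (Gcd * V + Gdb * Vc))).trace
      - (Mi * (Vᴴ * (Gc * V + G * Vc)) * Mi * ((Vdᴴ * G + Vᴴ * Gdb) * V)).trace
      = (Mi * ((WW G Gi V Mi Vd Gd)ᴴ * G * WW G Gi V Mi Vc Gc)).trace
        - (Mi * (Vᴴ * (-Gcd + Gdb * Gi * Gc) * V)).trace := by
  have hGi' : Gi * G = 1 := mul_eq_one_comm.1 hGi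
  have hGiH : Giᴴ = Gi := by
    have h1 : Giᴴ * G = 1 := by
      have := congrArg Matrix.conjTranspose hGi
      rwa [Matrix.conjTranspose_mul, hG.eq, Matrix.conjTranspose_one] at this
    calc Giᴴ = Giᴴ * (G * Gi) := by rw [hGi, mul_one]
      _ = Gi := by rw [← mul_assoc, h1, one_mul]
  have hMH : (Vᴴ * G * V)ᴴ = Vᴴ * G * V := by
    rw [Matrix.conjTranspose_mul, Matrix.conjTranspose_mul, Matrix.conjTranspose_conjTranspose,
      hG.eq, Matrix.mul_assoc]
  have hM' : Mi * (Vᴴ * G * V) = 1 := mul_eq_one_comm.1 hM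
  have hMiH : Miᴴ = Mi := by
    have h1 : Miᴴ * (Vᴴ * G * V) = 1 := by
      have := congrArg Matrix.conjTranspose hM
      rwa [Matrix.conjTranspose_mul, hMH, Matrix.conjTranspose_one] at this
    calc Miᴴ = Miᴴ * ((Vᴴ * G * V) * Mi) := by rw [hM, mul_one]
      _ = Mi := by rw [← mul_assoc, h1, one_mul]
  set Dc : Matrix κ ρ ℂ := Vc + Gi * Gc * V with hDc
  set Dd : Matrix κ ρ ℂ := Vd + Gi * Gd * V with hDd
  set P : Matrix κ κ ℂ := 1 - V * Mi * Vᴴ * G with hP
  -- `P` is self adjoint with respect to `G`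
  have hPG : Pᴴ * G = G - G * V * Mi * Vᴴ * G := by
    rw [hP, Matrix.conjTranspose_sub, Matrix.conjTranspose_one, Matrix.conjTranspose_mul,
      Matrix.conjTranspose_mul, Matrix.conjTranspose_mul, Matrix.conjTranspose_conjTranspose,
      hG.eq, hMiH, Matrix.sub_mul, one_mul]
    simp only [Matrix.mul_assoc]
  have hPGP : Pᴴ * G * P = G - G * V * Mi * Vᴴ * G := by
    rw [hPG, hP, Matrix.mul_sub, mul_one, Matrix.sub_mul]
    have h1 : G * V * Mi * Vᴴ * G * (V * Mi * Vᴴ * G) = G * V * Mi * Vᴴ * G := by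
      calc G * V * Mi * Vᴴ * G * (V * Mi * Vᴴ * G)
          = G * V * (Mi * (Vᴴ * G * V)) * Mi * Vᴴ * G := by simp only [Matrix.mul_assoc]
        _ = G * V * Mi * Vᴴ * G := by rw [hM', Matrix.mul_one]
    rw [h1]
    simp only [Matrix.mul_assoc]
    abel
  have hGD : Gc * V + G * Vc = G * Dc := by
    rw [hDc, Matrix.mul_add, ← Matrix.mul_assoc, ← Matrix.mul_assoc, hGi, Matrix.one_mul, add_comm]
  have hDG : (Vdᴴ * G + Vᴴ * Gdb) = Ddᴴ * G := by
    rw [hDd, Matrix.conjTranspose_add, Matrix.conjTranspose_mul, Matrix.conjTranspose_mul, hGiH,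
      hGd, Matrix.add_mul, Matrix.mul_assoc, Matrix.mul_assoc, hGi', Matrix.mul_one]
  have h2 : Vdᴴ * (Gc * V + G * Vc) + Vᴴ * (Gcd * V + Gdb * Vc)
      = Ddᴴ * G * Dc - Vᴴ * (-Gcd + Gdb * Gi * Gc) * V := by
    have h3 : Ddᴴ * G * Dc = Vdᴴ * (G * Dc) + Vᴴ * (Gdb * Dc) := by
      rw [← hDG, Matrix.add_mul, Matrix.mul_assoc, Matrix.mul_assoc]
    rw [h3, hGD, hDc]
    simp only [Matrix.mul_add, Matrix.add_mul, Matrix.mul_neg, Matrix.neg_mul, Matrix.mul_assoc]
    abel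
  have h4 : (Mi * (Vᴴ * (G * Dc)) * Mi * (Ddᴴ * G * V)).trace
      = (Mi * (Ddᴴ * (G * V * Mi * Vᴴ * G) * Dc)).trace := by
    rw [Matrix.mul_assoc (Mi * (Vᴴ * (G * Dc))), Matrix.trace_mul_comm]
    simp only [Matrix.mul_assoc]
  have h5 : (P * Dd)ᴴ * G * (P * Dc) = Ddᴴ * G * Dc - Ddᴴ * (G * V * Mi * Vᴴ * G) * Dc := by
    calc (P * Dd)ᴴ * G * (P * Dc) = Ddᴴ * (Pᴴ * G * P) * Dc := by
          rw [Matrix.conjTranspose_mul]; simp only [Matrix.mul_assoc]
      _ = _ := by rw [hPGP, Matrix.mul_sub, Matrix.sub_mul, Matrix.mul_assoc Ddᴴ]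
  unfold WW
  rw [h2, hGD, hDG, h4, h5, Matrix.mul_sub, Matrix.mul_sub, Matrix.trace_sub, Matrix.trace_sub]
  ring

theorem pos_gen {τ κ : Type} [Fintype τ] [Fintype κ] {Q : Matrix τ τ ℂ} {G : Matrix κ κ ℂ}
    (hQ : Q.PosSemidef) (hG : G.PosSemidef) (a : τ → κ → ℂ) :
    0 ≤ ∑ x, ∑ y, Q x y * (star (a y) ⬝ᵥ (G *ᵥ a x)) := by
  classical
  have h1 : ∑ x, ∑ y, Q x y * (star (a y) ⬝ᵥ (G *ᵥ a x))
      = star (fun p : τ × κ => a p.1 p.2) ⬝ᵥ
        ((Qᵀ ⊗ₖ G) *ᵥ fun p : τ × κ => a p.1 p.2) := by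
    simp only [dotProduct, Matrix.mulVec, Fintype.sum_prod_type, Matrix.kroneckerMap_apply,
      Pi.star_apply, Finset.mul_sum, Matrix.transpose_apply]
    rw [Finset.sum_comm]
    refine Finset.sum_congr rfl fun l _ => ?_
    rw [Finset.sum_comm]
    refine Finset.sum_congr rfl fun S _ => Finset.sum_congr rfl fun k _ =>
      Finset.sum_congr rfl fun T _ => ?_
    ring
  rw [h1]
  exact (hQ.transpose.kronecker hG).dotProduct_mulVec_nonneg _

/-- positivity of the contracted Gram term -/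
theorem gram_pos {G : Matrix κ κ ℂ} {Mi : Matrix ρ ρ ℂ} {N : Matrix (Fin n) (Fin n) ℂ}
    (hG : G.PosSemidef) (hM : Mi.PosSemidef) (hN : N.PosSemidef) (W : Fin n → Matrix κ ρ ℂ) :
    0 ≤ ∑ c, ∑ d, N c d * (Mi * ((W d)ᴴ * G * W c)).trace := by
  have h1 : ∑ c, ∑ d, N c d * (Mi * ((W d)ᴴ * G * W c)).trace
      = ∑ x : Fin n × ρ, ∑ y : Fin n × ρ, (N ⊗ₖ Mi) x y *
        (star (fun S => W y.1 S y.2) ⬝ᵥ (G *ᵥ fun S => W x.1 S x.2)) := by
    simp only [Fintype.sum_prod_type, Matrix.kroneckerMap_apply]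
    refine Finset.sum_congr rfl fun c _ => ?_
    rw [Finset.sum_comm]
    refine Finset.sum_congr rfl fun d _ => ?_
    simp only [Matrix.trace, Matrix.diag_apply, Matrix.mul_apply (M := Mi), Finset.mul_sum]
    refine Finset.sum_congr rfl fun j _ => Finset.sum_congr rfl fun k _ => ?_
    rw [mul_assoc]
    congr 2
    simp only [Matrix.mul_apply, dotProduct, Matrix.mulVec, Pi.star_apply,
      Matrix.conjTranspose_apply, Finset.mul_sum, Finset.sum_mul]
    rw [Finset.sum_comm]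
    refine Finset.sum_congr rfl fun T _ => Finset.sum_congr rfl fun S _ => ?_
    ring
  rw [h1]
  exact pos_gen (hN.kronecker hM) hG _

end

end Crest.Agent.R273.BochC_101
end

-- ▼ part R273/BochD_101

/-!
# R273 (S0416), LEMMA FI leaf (b) (helper101): Hessian of the logarithm of a Gram determinant

* `hess_log_det`  : `∂_c ∂_{d̄} log det M = tr (M⁻¹ M_{cd̄}) - tr (M⁻¹ M_c M⁻¹ M_{d̄})`;
* `hess_neg_log_det` : `hess (- log det K) = ric K`;
* `hess_gram`     : for `V` holomorphic,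
  `∂_c∂_{d̄} log det (Vᴴ G V) = tr (M⁻¹ W_dᴴ G W_c) - tr (M⁻¹ Vᴴ (rm G c d) V)`;
* `bochner_gram`  : contraction with `K⁻¹`, `G = Γ(K)`, `K` Kähler:
  `∑_{cd} (K⁻¹)_{cd} ∂_c∂_{d̄} log det (Vᴴ Γ(K) V) + tr (M⁻¹ Vᴴ (so (ric K)ᵀ K) V) ≥ 0`.
-/

set_option autoImplicit false
set_option linter.unusedSectionVars false

open Finset Matrix Complex Filter Topology
open scoped ContDiff ComplexConjugate Kronecker ComplexOrder

namespace Crest.Agent.R273.BochD_101

open Crest.Agent.R275.Geo Crest.Agent.R275.EDR890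
open Crest.Agent.R273.Fock_243 Crest.Agent.R273.Calc_243
open Crest.Agent.R273.Bkn_243 Crest.Agent.R273.Pos_243 Crest.Agent.R273.BochA_101
open Crest.Agent.R273.BochB_101
open Crest.Agent.R273.BochC_101 Crest.Agent.R273.Hess_333 Crest.Agent.R273.HessB_333

noncomputable section

variable {n : ℕ} {κ ρ : Type} [Fintype κ] [Fintype ρ] [DecidableEq κ] [DecidableEq ρ]

theorem wd_false (a : Fin n) (f : Cn n → ℂ) (z : Cn n) : wd (false, a) f z = dS (-I) a f z := rfl

theorem wd_tr (a : Fin n) (f : Cn n → ℂ) (z : Cn n) : wd (true, a) f z = dS I a f z := rfl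

theorem hess_eq (u : Cn n → ℝ) (z : Cn n) (a b : Fin n) :
    hess u z a b = dS (-I) a (dS I b (cu u)) z := rfl

theorem herm_det_im {M : Matrix ρ ρ ℂ} (h : M.IsHermitian) : ((M.det.re : ℝ) : ℂ) = M.det := by
  have h1 : conj M.det = M.det := by
    have := Matrix.det_conjTranspose M
    rw [h.eq] at this
    exact this.symm
  exact Complex.conj_eq_iff_re.1 h1

theorem dS_congr' {s : ℂ} {a : Fin n} {f g : Cn n → ℂ} {z : Cn n} (h : f =ᶠ[𝓝 z] g) :
    dS s a f =ᶠ[𝓝 z] dS s a g := by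
  filter_upwards [h.eventually_nhds] with y hy
  exact dS_congr hy

theorem adj_eq {m : Matrix ρ ρ ℂ} (h : m.det ≠ 0) : m.adjugate = m.det • m⁻¹ := by
  rw [Matrix.inv_def, Ring.inverse_eq_inv', smul_smul, mul_inv_cancel₀ h, one_smul]

/-- second derivative of `det` -/
theorem dS2_det {m : Cn n → Matrix ρ ρ ℂ} {z : Cn n} (hm : SmM z m) (h0 : (m z).det ≠ 0)
    {s t : ℂ} (c d : Fin n) :
    dS s c (dS t d (fun y => (m y).det)) z = (m z).det * (((m z)⁻¹ * dM s c m z).trace *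
        ((m z)⁻¹ * dM t d m z).trace + ((m z)⁻¹ * dM s c (dM t d m) z).trace
        - ((m z)⁻¹ * dM s c m z * (m z)⁻¹ * dM t d m z).trace) := by
  have h1 : dS t d (fun y => (m y).det) =ᶠ[𝓝 z] fun y =>
      (m y).det * ((m y)⁻¹ * dM t d m y).trace := by
    filter_upwards [SmM.eventually hm, eventually_det_ne hm h0] with y hy hy0
    rw [dS_det' hy, adj_eq hy0, Matrix.smul_mul, Matrix.trace_smul, smul_eq_mul]
  have hP : SmM z (fun y => (m y)⁻¹ * dM t d m y) := SmM.mul (SmM.inv hm h0) (SmM.dM hm _ _)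
  rw [dS_congr h1, dS_mul (SmM.det hm).diff (Sm.trace hP).diff, dS_trace hP,
    dM_mul (fun S T => (SmM.inv hm h0 S T).diff) (fun S T => (SmM.dM hm t d S T).diff),
    dM_inv hm h0, dS_det hm, adj_eq h0, Matrix.smul_mul, Matrix.trace_smul, smul_eq_mul,
    Matrix.trace_add, Matrix.neg_mul, Matrix.trace_neg]
  ring

theorem hess_log_det {m : Cn n → Matrix ρ ρ ℂ} {z : Cn n} (hm : SmM z m)
    (hh : ∀ᶠ y in 𝓝 z, (m y).IsHermitian) (h0 : 0 < (m z).det.re) (c d : Fin n) :
    hess (fun y => Real.log (m y).det.re) z c d = ((m z)⁻¹ * dM (-I) c (dM I d m) z).trace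
      - ((m z)⁻¹ * dM (-I) c m z * (m z)⁻¹ * dM I d m z).trace := by
  have hne : (m z).det ≠ 0 := by
    intro h
    rw [h] at h0
    simp at h0
  have hu : ContDiffAt ℝ ∞ (fun y => (m y).det.re) z :=
    Complex.reCLM.contDiff.contDiffAt.comp z (SmM.det hm)
  have hc : cu (fun y => (m y).det.re) =ᶠ[𝓝 z] fun y => (m y).det := by
    filter_upwards [hh] with y hy
    exact herm_det_im hy
  have hz : (((m z).det.re : ℝ) : ℂ) = (m z).det := herm_det_im hh.self_of_nhds
  rw [Crest.Agent.R273.FS_333.hess_log hu h0, hess_eq, wd_false, wd_tr,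
    dS_congr (dS_congr' hc), dS_congr hc, dS_congr hc, dS2_det hm hne, dS_det hm, dS_det hm,
    adj_eq hne, hz, Matrix.smul_mul, Matrix.smul_mul, Matrix.trace_smul, Matrix.trace_smul,
    smul_eq_mul, smul_eq_mul]
  field_simp
  ring

/-- the Ricci matrix is the Hessian of `- log det K` -/
theorem hess_neg_log_det {K : Cn n → Matrix κ κ ℂ} {z : Cn n} (hK : SmM z K)
    (hh : ∀ᶠ y in 𝓝 z, (K y).IsHermitian) (h0 : 0 < (K z).det.re) (a b : Fin n) :
    hess (fun y => - Real.log (K y).det.re) z a b = ric K z a b := by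
  have hu : ContDiffAt ℝ ∞ (fun y => Real.log (K y).det.re) z :=
    (Complex.reCLM.contDiff.contDiffAt.comp z (SmM.det hK)).log h0.ne'
  rw [hess_neg hu, Matrix.neg_apply, hess_log_det hK hh h0]
  unfold ric rm
  rw [Matrix.mul_add, Matrix.mul_neg, Matrix.trace_add, Matrix.trace_neg]
  have h1 : ((K z)⁻¹ * (dM I b K z * (K z)⁻¹ * dM (-I) a K z)).trace
      = ((K z)⁻¹ * dM (-I) a K z * (K z)⁻¹ * dM I b K z).trace := by
    rw [Matrix.mul_assoc (dM I b K z), ← Matrix.mul_assoc (K z)⁻¹ (dM I b K z),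
      Matrix.trace_mul_comm]
    simp only [Matrix.mul_assoc]
  rw [h1]
  ring

/-! ### holomorphic matrices -/

/-- entries holomorphic near `z` -/
def HolM (z : Cn n) (V : Cn n → Matrix κ ρ ℂ) : Prop :=
  ∀ S T, ∀ᶠ y in 𝓝 z, DifferentiableAt ℂ (fun w => V w S T) y

theorem sm_of_hol {f : Cn n → ℂ} {z : Cn n} (hf : ∀ᶠ w in 𝓝 z, DifferentiableAt ℂ f w) :
    Sm z f := by
  obtain ⟨U, hU, hUo, hUz⟩ := eventually_nhds_iff.1 hf
  have hdo : DifferentiableOn ℂ f U := fun w hw => (hU w hw).differentiableWithinAt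
  exact (((Crest.Agent.R266.SCV.contDiffOn_omega_of_differentiableOn hUo hdo).restrict_scalars
      ℝ).of_le le_top).contDiffAt (hUo.mem_nhds hUz)

theorem HolM.sm {V : Cn n → Matrix κ ρ ℂ} {z : Cn n} (h : HolM z V) : SmM z V :=
  fun S T => sm_of_hol (h S T)

theorem HolM.dbar {V : Cn n → Matrix κ ρ ℂ} {z : Cn n} (h : HolM z V) (a : Fin n) :
    dM I a V =ᶠ[𝓝 z] fun _ => 0 := by
  have h1 : ∀ᶠ y in 𝓝 z, ∀ S T, DifferentiableAt ℂ (fun w => V w S T) y := by
    rw [eventually_all]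
    intro S
    rw [eventually_all]
    exact h S
  filter_upwards [h1] with y hy
  ext S T
  exact wd_hol (hy S T) a

theorem dM_congr' {s : ℂ} {a : Fin n} {m m' : Cn n → Matrix κ ρ ℂ} {z : Cn n}
    (h : m =ᶠ[𝓝 z] m') : dM s a m =ᶠ[𝓝 z] dM s a m' := by
  filter_upwards [h.eventually_nhds] with y hy
  exact dM_congr hy

theorem HolM.dbar2 {V : Cn n → Matrix κ ρ ℂ} {z : Cn n} (h : HolM z V) (a c : Fin n) :
    dM I c (dM (-I) a V) z = 0 := by
  have h1 : dM I c (dM (-I) a V) z = dM (-I) a (dM I c V) z := by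
    ext S T
    exact dS_comm (h.sm S T)
  rw [h1, dM_congr (h.dbar c), dM_const]


theorem HolM.smE {V : Cn n → Matrix κ ρ ℂ} {z : Cn n} (h : HolM z V) :
    ∀ᶠ y in 𝓝 z, HolM y V := by
  have h1 : ∀ᶠ y in 𝓝 z, ∀ S T, ∀ᶠ w in 𝓝 y, DifferentiableAt ℂ (fun w => V w S T) w := by
    rw [eventually_all]
    intro S
    rw [eventually_all]
    intro T
    exact (h S T).eventually_nhds
  exact h1

theorem conjI : conj I = -I := Complex.conj_I
theorem conjnI : conj (-I) = I := by rw [map_neg, Complex.conj_I, neg_neg]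

/-- first antiholomorphic derivative of `Vᴴ G V` -/
theorem dbar_gram {G : Cn n → Matrix κ κ ℂ} {V : Cn n → Matrix κ ρ ℂ} {z : Cn n}
    (hG : SmM z G) (hV : HolM z V) (d : Fin n) :
    dM I d (fun y => (V y)ᴴ * G y * V y) z
      = ((dM (-I) d V z)ᴴ * G z + (V z)ᴴ * dM I d G z) * V z := by
  have hVs := hV.sm
  have hVH : SmM z (fun y => (V y)ᴴ) := SmM.conjTranspose hVs
  rw [dM_mul (fun S T => (SmM.mul hVH hG S T).diff) (fun S T => (hVs S T).diff),
    dM_mul (fun S T => (hVH S T).diff) (fun S T => (hG S T).diff), dM_conjTranspose hVs, conjI,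
    (hV.dbar d).self_of_nhds, Matrix.mul_zero, add_zero]

theorem del_gram {G : Cn n → Matrix κ κ ℂ} {V : Cn n → Matrix κ ρ ℂ} {z : Cn n}
    (hG : SmM z G) (hV : HolM z V) (c : Fin n) :
    dM (-I) c (fun y => (V y)ᴴ * G y * V y) z
      = (V z)ᴴ * (dM (-I) c G z * V z + G z * dM (-I) c V z) := by
  have hVs := hV.sm
  have hVH : SmM z (fun y => (V y)ᴴ) := SmM.conjTranspose hVs
  rw [dM_mul (fun S T => (SmM.mul hVH hG S T).diff) (fun S T => (hVs S T).diff),
    dM_mul (fun S T => (hVH S T).diff) (fun S T => (hG S T).diff), dM_conjTranspose hVs, conjnI,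
    (hV.dbar c).self_of_nhds, Matrix.conjTranspose_zero, Matrix.zero_mul, zero_add,
    Matrix.mul_add]
  simp only [Matrix.mul_assoc]

theorem ddbar_gram {G : Cn n → Matrix κ κ ℂ} {V : Cn n → Matrix κ ρ ℂ} {z : Cn n}
    (hG : ∀ᶠ y in 𝓝 z, SmM y G) (hV : HolM z V) (c d : Fin n) :
    dM (-I) c (dM I d (fun y => (V y)ᴴ * G y * V y)) z
      = (dM (-I) d V z)ᴴ * (dM (-I) c G z * V z + G z * dM (-I) c V z)
        + (V z)ᴴ * (dM (-I) c (dM I d G) z * V z + dM I d G z * dM (-I) c V z) := by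
  have hVs := hV.sm
  have hGz : SmM z G := hG.self_of_nhds
  have h1 : dM I d (fun y => (V y)ᴴ * G y * V y) =ᶠ[𝓝 z] fun y =>
      ((dM (-I) d V y)ᴴ * G y + (V y)ᴴ * dM I d G y) * V y := by
    filter_upwards [hG, hV.smE] with y hy hy'
    exact dbar_gram hy hy' d
  have hVH : SmM z (fun y => (V y)ᴴ) := SmM.conjTranspose hVs
  have hdV : SmM z (dM (-I) d V) := SmM.dM hVs _ _
  have hdVH : SmM z (fun y => (dM (-I) d V y)ᴴ) := SmM.conjTranspose hdV
  have hdG : SmM z (dM I d G) := SmM.dM hGz _ _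
  have hA : SmM z (fun y => (dM (-I) d V y)ᴴ * G y) := SmM.mul hdVH hGz
  have hB : SmM z (fun y => (V y)ᴴ * dM I d G y) := SmM.mul hVH hdG
  have hAB : SmM z (fun y => (dM (-I) d V y)ᴴ * G y + (V y)ᴴ * dM I d G y) :=
    fun S T => (hA S T).add (hB S T)
  rw [dM_congr h1, dM_mul (fun S T => (hAB S T).diff) (fun S T => (hVs S T).diff),
    dM_add hA hB, dM_mul (fun S T => (hdVH S T).diff) (fun S T => (hGz S T).diff),
    dM_mul (fun S T => (hVH S T).diff) (fun S T => (hdG S T).diff), dM_conjTranspose hdV,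
    dM_conjTranspose hVs, conjnI, hV.dbar2, (hV.dbar c).self_of_nhds, Matrix.conjTranspose_zero,
    Matrix.zero_mul, Matrix.zero_mul, zero_add, zero_add]
  simp only [Matrix.mul_add, Matrix.add_mul, Matrix.mul_assoc]
  abel

/-- **the Hessian of `log det (Vᴴ G V)`** -/
theorem hess_gram {G : Cn n → Matrix κ κ ℂ} {V : Cn n → Matrix κ ρ ℂ} {z : Cn n}
    (hG : ∀ᶠ y in 𝓝 z, SmM y G) (hh : ∀ᶠ y in 𝓝 z, (G y).IsHermitian)
    (hG0 : (G z).det ≠ 0) (hV : HolM z V)
    (h0 : 0 < ((V z)ᴴ * G z * V z).det.re) (c d : Fin n) :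
    hess (fun y => Real.log ((V y)ᴴ * G y * V y).det.re) z c d
      = (((V z)ᴴ * G z * V z)⁻¹ *
          ((WW (G z) (G z)⁻¹ (V z) ((V z)ᴴ * G z * V z)⁻¹ (dM (-I) d V z) (dM (-I) d G z))ᴴ * G z *
          WW (G z) (G z)⁻¹ (V z) ((V z)ᴴ * G z * V z)⁻¹ (dM (-I) c V z) (dM (-I) c G z))).trace
        - (((V z)ᴴ * G z * V z)⁻¹ * ((V z)ᴴ * rm G z c d * V z)).trace := by
  have hGz : SmM z G := hG.self_of_nhds
  have hhz := hh.self_of_nhds
  have hM : SmM z (fun y => (V y)ᴴ * G y * V y) :=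
    SmM.mul (SmM.mul (SmM.conjTranspose hV.sm) hGz) hV.sm
  have hMh : ∀ᶠ y in 𝓝 z, ((V y)ᴴ * G y * V y).IsHermitian := by
    filter_upwards [hh] with y hy
    unfold Matrix.IsHermitian
    rw [Matrix.conjTranspose_mul, Matrix.conjTranspose_mul, Matrix.conjTranspose_conjTranspose,
      hy.eq, Matrix.mul_assoc]
  have hne : ((V z)ᴴ * G z * V z).det ≠ 0 := by
    intro h
    rw [h] at h0
    simp at h0
  have hMi : ((V z)ᴴ * G z * V z) * ((V z)ᴴ * G z * V z)⁻¹ = 1 :=
    Matrix.mul_nonsing_inv _ (isUnit_iff_ne_zero.2 hne)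
  have hGi : G z * (G z)⁻¹ = 1 := Matrix.mul_nonsing_inv _ (isUnit_iff_ne_zero.2 hG0)
  have hGd : (dM (-I) d G z)ᴴ = dM I d G z := by
    have h1 := dM_conjTranspose (s := I) (a := d) hGz
    rw [conjI] at h1
    rw [← h1]
    refine dM_congr ?_
    filter_upwards [hh] with y hy
    exact hy.eq
  rw [hess_log_det hM hMh h0, ddbar_gram hG hV, del_gram hGz hV, dbar_gram hGz hV,
    gram_alg hhz hGi hMi hGd]
  rfl


end

end Crest.Agent.R273.BochD_101
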