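import Crest.Agent.R273.Cram_747
import Crest.Agent.R273.Pos_243
import Crest.Agent.R273.BochD_101
import Crest.Agent.R273.BKNa_37
import Crest.Agent.R273.FIb0_597
import Crest.Agent.R273.FIlin_332

-- ▼ part R273/BochE_101
section

/-!
# R273 (S0416), LEMMA FI leaf (b) (helper101): norms of tensors, Cauchy–Binet

* `nrm G τ = star τ ⬝ᵥ (KP ρ G *ᵥ τ)` : Hermitian norm (squared) of `τ ∈ (Λ^* T)^{⊗ ρ}`;
* `nrm_mn`  : `nrm G (mn v) = (card ρ)! * det (Vᴴ G V)`;
* `nrm_tns` : multiplicativity; `nrm_prp` : proportional tensors; `nrm_tr` : change of basis;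
* `nrm_nonneg`, `nrm_pos`.
-/

set_option autoImplicit false
set_option linter.unusedSectionVars false

open Finset Matrix Complex Filter Topology
open scoped ContDiff ComplexConjugate Kronecker ComplexOrder MatrixOrder Matrix.Norms.L2Operator

namespace Crest.Agent.R273.BochE_101

open Crest.Agent.R273.Fock_243 Crest.Agent.R273.Cram_747 Crest.Agent.R273.Pos_243

noncomputable section

section alg

variable {κ ρ : Type} [Fintype κ] [Fintype ρ] [DecidableEq ρ]



/-- the Hermitian square of the norm of a tensor -/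
def nrm (G : Matrix κ κ ℂ) (τ : (ρ → κ) → ℂ) : ℂ := star τ ⬝ᵥ (KP ρ G *ᵥ τ)




theorem nrm_smul (G : Matrix κ κ ℂ) (c : ℂ) (τ : (ρ → κ) → ℂ) :
    nrm G (c • τ) = ((‖c‖ ^ 2 : ℝ) : ℂ) * nrm G τ := by
  unfold nrm
  have h1 : ((‖c‖ ^ 2 : ℝ) : ℂ) = star c * c := by
    rw [← Complex.normSq_eq_norm_sq, Complex.normSq_eq_conj_mul_self]
    rfl
  rw [h1, Matrix.mulVec_smul, star_smul, smul_dotProduct, dotProduct_smul, smul_eq_mul, smul_eq_mul]
  ring

theorem KP_conjTranspose (G : Matrix κ κ ℂ) : (KP ρ G)ᴴ = KP ρ Gᴴ := by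
  ext f h
  simp only [KP, Matrix.conjTranspose_apply, Matrix.of_apply, star_prod]

theorem nrm_basis (G P : Matrix κ κ ℂ) (τ : (ρ → κ) → ℂ) :
    nrm G (KP ρ P *ᵥ τ) = nrm (Pᴴ * G * P) τ := by
  unfold nrm
  rw [Matrix.star_mulVec, ← Matrix.dotProduct_mulVec, Matrix.mulVec_mulVec, Matrix.mulVec_mulVec,
    KP_conjTranspose, ← KP_mul, ← KP_mul, Matrix.mul_assoc]

theorem KP_posSemidef [DecidableEq κ] {G : Matrix κ κ ℂ} (hG : G.PosSemidef) :
    (KP ρ G).PosSemidef := by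
  obtain ⟨B, rfl⟩ := CStarAlgebra.nonneg_iff_eq_star_mul_self.1 hG.nonneg
  rw [KP_mul]
  have : KP ρ (star B) = (KP ρ B)ᴴ := (KP_conjTranspose B).symm
  rw [this]
  exact Matrix.posSemidef_conjTranspose_mul_self _

theorem nrm_nonneg [DecidableEq κ] {G : Matrix κ κ ℂ} (hG : G.PosSemidef) (τ : (ρ → κ) → ℂ) :
    0 ≤ nrm G τ := (KP_posSemidef hG).dotProduct_mulVec_nonneg _

theorem nrm_pos [DecidableEq κ] {G : Matrix κ κ ℂ} (hG : G.PosDef) {τ : (ρ → κ) → ℂ}
    (h : τ ≠ 0) : 0 < nrm G τ := by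
  have h1 : (KP ρ G).PosDef := by
    refine (KP_posSemidef hG.posSemidef).posDef_iff_isUnit.2 ?_
    have h2 : KP ρ G * KP ρ G⁻¹ = 1 := by
      rw [← KP_mul, Matrix.mul_nonsing_inv _ ((Matrix.isUnit_iff_isUnit_det _).1 hG.isUnit), KP_one]
    exact IsUnit.of_mul_eq_one _ h2
  exact h1.dotProduct_mulVec_pos h

theorem nrm_zero (G : Matrix κ κ ℂ) : nrm (ρ := ρ) G 0 = 0 := by
  unfold nrm
  rw [Matrix.mulVec_zero, dotProduct_zero]



end alg

end

end Crest.Agent.R273.BochE_101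
end

-- ▼ part R273/BochF_101
section

/-!
# R273 (S0416), LEMMA FI leaf (b) (helper101): norm functions of tensors and log-Bochner

`K : Kah A`, `hN : HM N`, `τ` a holomorphic section of `(Λ^* T)^{⊗ ρ} ⊗ N`.
* `tN K hN τ : M → ℝ` : the norm function; `sm_tN`, `tN_nonneg`, `tN_pos`, `tN_prp`, `tN_tns`;
* `ric_eq`  : `cur (volK K)` is the Ricci matrix;
* `LBo K h U C` : `tr_K ∂∂̄ log U ≥ - C tr_K (cur h)` where `U > 0`; `LBo.mul`, `LBo.prod`;
* `bochner` : `LBo K h (tN K hN (mnr v)) m` for null `v b`, `cur hN = m • cur h`, `Ric K = cur h`.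
-/

set_option autoImplicit false
set_option linter.unusedSectionVars false

open Set Filter Topology Complex Matrix
open scoped ContDiff Matrix ComplexConjugate Manifold ComplexOrder

namespace Crest.Agent.R273.BochF_101

open Crest.Agent.R275 Crest.Agent.R275.Geo Crest.Agent.R275.Core144
open Crest.Agent.R275.EDR890 (wd wd_comm wd_const wd_congr)
open Crest.Agent.R273.Defs_333 Crest.Agent.R273.HM_333 Crest.Agent.R273.Kah_333
open Crest.Agent.R273.Hess_333 Crest.Agent.R273.HessB_333 Crest.Agent.R273.Vol_333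
open Crest.Agent.R273.Fock_243 Crest.Agent.R273.Calc_243 Crest.Agent.R273.Bkn_243
open Crest.Agent.R273.Pos_243 Crest.Agent.R273.BKNa_37 Crest.Agent.R273.NV_578
open Crest.Agent.R273.Cram_747 Crest.Agent.R273.FIb0_597 Crest.Agent.R273.FIa0_597
open Crest.Agent.R273.BochA_101 Crest.Agent.R273.BochB_101 Crest.Agent.R273.BochC_101
open Crest.Agent.R273.BochD_101 Crest.Agent.R273.BochE_101

noncomputable section

variable {n : ℕ} {M : Type} [TopologicalSpace M] {A : Atl n M} {N L L' : LB A}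
  {ρ : Type} [Fintype ρ] [DecidableEq ρ]

/-! ### the norm function -/

/-- norm in the chart `i` -/
def tU (K : Kah A) (hN : HM N) (τ : A.ι → M → (ρ → FI n) → ℂ) (i : A.ι) (x : M) : ℝ :=
  (nrm (Gam (K.g i x)ᵀ) (τ i x)).re * hN.w i x

theorem Gam_g_posDef (K : Kah A) {i : A.ι} {x : M} (hx : x ∈ (A.e i).source) :
    (Gam (K.g i x)ᵀ).PosDef := Gam_posDef (K.pos i x hx).transpose


theorem tU_nonneg (K : Kah A) (hN : HM N) (τ : A.ι → M → (ρ → FI n) → ℂ) {i : A.ι} {x : M}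
    (hx : x ∈ (A.e i).source) : 0 ≤ tU K hN τ i x :=
  mul_nonneg (Complex.le_def.1 (nrm_nonneg (Gam_g_posDef K hx).posSemidef _)).1 (hN.pos i x hx).le

theorem tU_pos (K : Kah A) (hN : HM N) {τ : A.ι → M → (ρ → FI n) → ℂ} {i : A.ι} {x : M}
    (hx : x ∈ (A.e i).source) (h : τ i x ≠ 0) : 0 < tU K hN τ i x :=
  mul_pos (Complex.lt_def.1 (nrm_pos (Gam_g_posDef K hx) h)).1 (hN.pos i x hx)

theorem g_tr (K : Kah A) {i j : A.ι} {x : M} (hx : x ∈ (A.e i).source ∩ (A.e j).source) :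
    (K.g i x)ᵀ = (Jm A i j x)ᴴ * (K.g j x)ᵀ * Jm A i j x := by
  rw [K.tr i j x hx, Matrix.transpose_mul, Matrix.transpose_mul, Matrix.transpose_transpose,
    Matrix.mul_assoc]
  rfl

theorem tU_tr (K : Kah A) (hN : HM N) {τ : A.ι → M → (ρ → FI n) → ℂ} (hτ : TS ρ N τ)
    {i j : A.ι} {x : M} (hx : x ∈ (A.e i).source ∩ (A.e j).source) :
    tU K hN τ i x = tU K hN τ j x := by
  have h1 : nrm (Gam (K.g i x)ᵀ) (τ i x)
      = ((‖N.g i j x‖ ^ 2 : ℝ) : ℂ) * nrm (Gam (K.g j x)ᵀ) (τ j x) := by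
    rw [hτ.tr i j x hx, nrm_smul, nrm_basis, Gam_conjTranspose, ← Gam_mul, ← Gam_mul, g_tr K hx]
    have h2 : (Jm A j i x)ᴴ * ((Jm A i j x)ᴴ * (K.g j x)ᵀ * Jm A i j x) * Jm A j i x
        = (K.g j x)ᵀ := by
      have h3 : Jm A i j x * Jm A j i x = 1 := J_J ⟨hx.2, hx.1⟩
      have h4 : (Jm A j i x)ᴴ * (Jm A i j x)ᴴ = 1 := by
        rw [← Matrix.conjTranspose_mul, h3, Matrix.conjTranspose_one]
      calc (Jm A j i x)ᴴ * ((Jm A i j x)ᴴ * (K.g j x)ᵀ * Jm A i j x) * Jm A j i x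
          = ((Jm A j i x)ᴴ * (Jm A i j x)ᴴ) * (K.g j x)ᵀ * (Jm A i j x * Jm A j i x) := by
            simp only [Matrix.mul_assoc]
        _ = _ := by rw [h3, h4, Matrix.one_mul, Matrix.mul_one]
    rw [h2]
  unfold tU
  rw [h1, Complex.re_ofReal_mul, hN.tr i j x hx]
  ring

/-- the norm function -/
def tN (K : Kah A) (hN : HM N) (τ : A.ι → M → (ρ → FI n) → ℂ) (x : M) : ℝ :=
  tU K hN τ (ch A x) x

theorem tN_eq (K : Kah A) (hN : HM N) {τ : A.ι → M → (ρ → FI n) → ℂ} (hτ : TS ρ N τ)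
    {i : A.ι} {x : M} (hx : x ∈ (A.e i).source) : tN K hN τ x = tU K hN τ i x :=
  tU_tr K hN hτ ⟨mem_ch A x, hx⟩

theorem tN_nonneg (K : Kah A) (hN : HM N) (τ : A.ι → M → (ρ → FI n) → ℂ) (x : M) :
    0 ≤ tN K hN τ x := tU_nonneg K hN τ (mem_ch A x)

theorem tN_pos (K : Kah A) (hN : HM N) {τ : A.ι → M → (ρ → FI n) → ℂ} (hτ : TS ρ N τ)
    {i : A.ι} {x : M} (hx : x ∈ (A.e i).source) (h : τ i x ≠ 0) : 0 < tN K hN τ x := by
  rw [tN_eq K hN hτ hx]
  exact tU_pos K hN hx h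



theorem holAt_sm {i : A.ι} {f : M → ℂ} (h : HolAt A i univ f) {z : Cn n}
    (hz : z ∈ (A.e i).target) : ∀ᶠ y in 𝓝 z, DifferentiableAt ℂ (fun w => f ((A.e i).symm w)) y := by
  have hd : DifferentiableOn ℂ (fun z => f ((A.e i).symm z)) (A.e i).target := by
    unfold HolAt at h
    simpa using h
  filter_upwards [(A.e i).open_target.mem_nhds hz] with y hy
  exact hd.differentiableAt ((A.e i).open_target.mem_nhds hy)

theorem SmM.KP {m : Cn n → Matrix (FI n) (FI n) ℂ} {z : Cn n} (hm : SmM z m) :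
    SmM z (fun y => Cram_747.KP ρ (m y)) := by
  intro F H
  simp only [Cram_747.KP, Matrix.of_apply]
  exact contDiffAt_prod fun a _ => hm _ _

theorem sm_nrm {m : Cn n → Matrix (FI n) (FI n) ℂ} {t : Cn n → (ρ → FI n) → ℂ} {z : Cn n}
    (hm : SmM z m) (ht : SmV z t) : Sm z (fun y => nrm (m y) (t y)) := by
  unfold nrm
  exact SmV.dot (SmV.star ht) (SmM.mulVec (SmM.KP hm) ht)

theorem sm_tN (K : Kah A) (hN : HM N) {τ : A.ι → M → (ρ → FI n) → ℂ} (hτ : TS ρ N τ) :
    A.Sm (tN K hN τ) := by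
  intro i
  refine ContDiffOn.congr (f := fun z => tU K hN τ i ((A.e i).symm z)) (fun z hz => ?_)
    fun z hz => tN_eq K hN hτ ((A.e i).map_target hz)
  refine ContDiffAt.contDiffWithinAt ?_
  have h1 : Sm z (fun y => nrm (Gam (Kr K i y)) (τ i ((A.e i).symm y))) :=
    sm_nrm (SmM.Gam (smM_Kr K i hz)) fun F => sm_of_hol (holAt_sm (hτ.hol i F) hz)
  have h2 : ContDiffAt ℝ ∞ (fun y => (nrm (Gam (Kr K i y)) (τ i ((A.e i).symm y))).re) z :=
    Complex.reCLM.contDiff.contDiffAt.comp z h1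
  have h3 : ContDiffAt ℝ ∞ (fun y => hN.w i ((A.e i).symm y)) z :=
    (hN.sm i).contDiffAt ((A.e i).open_target.mem_nhds hz)
  exact h2.mul h3

/-! ### the Ricci form -/

theorem Kr_posDef (K : Kah A) (i : A.ι) {z : Cn n} (hz : z ∈ (A.e i).target) :
    (Kr K i z).PosDef := (K.pos i _ ((A.e i).map_target hz)).transpose

theorem det_re_pos' {κ : Type} [Fintype κ] [DecidableEq κ] {m : Matrix κ κ ℂ} (h : m.PosDef) :
    0 < m.det.re := (Complex.lt_def.1 h.det_pos).1

theorem ric_eq (K : Kah A) (i : A.ι) {x : M} (hx : x ∈ (A.e i).source) :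
    Matrix.of (ric (Kr K i) (A.e i x)) = cur (volK K) i x := by
  have hz := (A.e i).map_source hx
  have hnt : ∀ᶠ y in 𝓝 (A.e i x), y ∈ (A.e i).target := (A.e i).open_target.mem_nhds hz
  ext a b
  rw [Matrix.of_apply, ← hess_neg_log_det (smM_Kr K i hz)
    (hnt.mono fun y hy => (Kr_posDef K i hy).isHermitian) (det_re_pos' (Kr_posDef K i hz)) a b]
  unfold cur
  congr 1
  funext y
  show -Real.log ((K.g i ((A.e i).symm y))ᵀ).det.re = _
  rw [Matrix.det_transpose]
  rfl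

/-! ### log-Bochner -/

/-- `tr_K ∂∂̄ log U ≥ - C tr_K (cur h)` where `U > 0` -/
def LBo (K : Kah A) (h : HM L') (U : M → ℝ) (C : ℝ) : Prop :=
  ∀ i, ∀ x ∈ (A.e i).source, 0 < U x →
    -C * (trC K (cur h) i x).re ≤ (trC K (hsf A fun y => Real.log (U y)) i x).re

theorem tr_cur_nonneg (K : Kah A) {h : HM L'} (hs : h.Semipos) {i : A.ι} {x : M}
    (hx : x ∈ (A.e i).source) : 0 ≤ (trC K (cur h) i x).re :=
  tr_re_nonneg (K.pos i x hx) (cur_posSemidef hs i hx)

theorem LBo.mono {K : Kah A} {h : HM L'} (hs : h.Semipos) {U : M → ℝ} {C C' : ℝ}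
    (hU : LBo K h U C) (hC : C ≤ C') : LBo K h U C' := by
  intro i x hx h0
  have h1 := hU i x hx h0
  have h2 := tr_cur_nonneg K hs hx
  nlinarith

theorem sm_log_at {U : M → ℝ} (hU : A.Sm U) (i : A.ι) {x : M} (hx : x ∈ (A.e i).source)
    (h0 : 0 < U x) : ContDiffAt ℝ ∞ (fun z => Real.log (U ((A.e i).symm z))) (A.e i x) := by
  have h1 := sm_contDiffAt hU i ((A.e i).map_source hx)
  refine h1.log ?_
  show U ((A.e i).symm (A.e i x)) ≠ 0
  rw [(A.e i).left_inv hx]
  exact h0.ne'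


theorem pos_near {U : M → ℝ} (hU : A.Sm U) (i : A.ι) {x : M} (hx : x ∈ (A.e i).source)
    (h0 : 0 < U x) : ∀ᶠ z in 𝓝 (A.e i x), 0 < U ((A.e i).symm z) := by
  have h1 := (sm_contDiffAt hU i ((A.e i).map_source hx)).continuousAt
  refine h1.eventually (lt_mem_nhds ?_)
  show 0 < U ((A.e i).symm (A.e i x))
  rw [(A.e i).left_inv hx]
  exact h0

theorem LBo.mul {K : Kah A} {h : HM L'} {U V : M → ℝ} {C C' : ℝ} (sU : A.Sm U) (sV : A.Sm V)
    (hU0 : ∀ x, 0 ≤ U x) (hV0 : ∀ x, 0 ≤ V x) (hU : LBo K h U C) (hV : LBo K h V C') :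
    LBo K h (fun x => U x * V x) (C + C') := by
  intro i x hx h0
  have hUx : 0 < U x := lt_of_le_of_ne (hU0 x) fun h => by
    simp only [← h, zero_mul, lt_irrefl] at h0
  have hVx : 0 < V x := lt_of_le_of_ne (hV0 x) fun h => by
    simp only [← h, mul_zero, lt_irrefl] at h0
  have e1 : hsf A (fun y => Real.log (U y * V y)) i x
      = hsf A (fun y => Real.log (U y)) i x + hsf A (fun y => Real.log (V y)) i x := by
    have e2 : (fun z => Real.log (U ((A.e i).symm z) * V ((A.e i).symm z))) =ᶠ[𝓝 (A.e i x)]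
        fun z => Real.log (U ((A.e i).symm z)) + Real.log (V ((A.e i).symm z)) := by
      filter_upwards [pos_near sU i hx hUx, pos_near sV i hx hVx] with z hz hz'
      exact Real.log_mul hz.ne' hz'.ne'
    unfold hsf
    rw [hess_congr e2]
    exact hess_add (sm_log_at sU i hx hUx) (sm_log_at sV i hx hVx)
  have e3 : trC K (hsf A fun y => Real.log (U y * V y)) i x
      = trC K (hsf A fun y => Real.log (U y)) i x + trC K (hsf A fun y => Real.log (V y)) i x := by
    unfold trC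
    rw [e1, Matrix.mul_add, Matrix.trace_add]
  show _ ≤ (trC K (hsf A fun y => Real.log (U y * V y)) i x).re
  rw [e3, Complex.add_re]
  have h1 := hU i x hx hUx
  have h2 := hV i x hx hVx
  linarith

theorem hess_const (c : ℝ) (z : Cn n) : hess (fun _ => c) z = 0 := by
  ext a b
  rw [hess_apply]
  have h4 : wd (true, b) (cu fun _ : Cn n => c) = fun _ => 0 := by
    funext w
    exact wd_const _ _ _
  rw [h4, wd_const]
  rfl

theorem LBo.one (K : Kah A) (h : HM L') : LBo K h (fun _ => 1) 0 := by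
  intro i x _ _
  have h1 : hsf A (fun _ => Real.log 1) i x = 0 := hess_const _ _
  unfold trC
  rw [h1, Matrix.mul_zero, Matrix.trace_zero]
  simp

theorem sm_mul {U V : M → ℝ} (sU : A.Sm U) (sV : A.Sm V) : A.Sm (fun x => U x * V x) :=
  fun i => (sU i).mul (sV i)

theorem LBo.prod {σ : Type} {K : Kah A} {h : HM L'} (s : Finset σ) {U : σ → M → ℝ} {C : σ → ℝ}
    (sU : ∀ t ∈ s, A.Sm (U t)) (hU0 : ∀ t ∈ s, ∀ x, 0 ≤ U t x)
    (hU : ∀ t ∈ s, LBo K h (U t) (C t)) :
    A.Sm (fun x => ∏ t ∈ s, U t x) ∧ (∀ x, 0 ≤ ∏ t ∈ s, U t x) ∧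
      LBo K h (fun x => ∏ t ∈ s, U t x) (∑ t ∈ s, C t) := by
  classical
  induction s using Finset.induction_on with
  | empty =>
    simp only [Finset.prod_empty, Finset.sum_empty]
    exact ⟨fun i => contDiffOn_const, fun _ => zero_le_one, LBo.one K h⟩
  | insert a s ha ih =>
    obtain ⟨i1, i2, i3⟩ := ih (fun t ht => sU t (Finset.mem_insert_of_mem ht))
      (fun t ht => hU0 t (Finset.mem_insert_of_mem ht))
      (fun t ht => hU t (Finset.mem_insert_of_mem ht))
    have ha' := Finset.mem_insert_self a s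
    simp only [Finset.prod_insert ha, Finset.sum_insert ha]
    exact ⟨sm_mul (sU a ha') i1, fun x => mul_nonneg (hU0 a ha' x) (i2 x),
      LBo.mul (sU a ha') i1 (hU0 a ha') i2 (hU a ha') i3⟩

/-- the trace against `K⁻¹` -/
theorem trC_sum (K : Kah A) (S : A.ι → M → Matrix (Fin n) (Fin n) ℂ) {i : A.ι} {x : M}
    (hx : x ∈ (A.e i).source) :
    trC K S i x = ∑ c, ∑ d, (Kr K i (A.e i x))⁻¹ c d * S i x c d := by
  unfold trC Kr
  rw [(A.e i).left_inv hx, ← Matrix.transpose_nonsing_inv]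
  simp only [Matrix.trace, Matrix.diag_apply, Matrix.mul_apply, Matrix.transpose_apply]
  rw [Finset.sum_comm]



end

end Crest.Agent.R273.BochF_101
end

-- ▼ part R273/BochH_101
section

/-!
# R273 (S0416), LEMMA FI leaf (b) (helper101): curvature of Kronecker powers

* `prodM W`, `slot b G X` : Kronecker products; `slot` is linear in `X`;
* `rm_KP`  : `rm (KP ρ ∘ G) c d = ∑ b, slot b G (rm G c d)`;
* `so_le`  : `tr (K⁻¹ R) • Γ(K) - so R K ≥ 0` for `R ≥ 0`;
* `slot_psd`, `slot_le`.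
-/

set_option autoImplicit false
set_option linter.unusedSectionVars false

open Finset Matrix Complex Filter Topology
open scoped ContDiff ComplexConjugate Kronecker ComplexOrder MatrixOrder

namespace Crest.Agent.R273.BochH_101

open Crest.Agent.R275.Geo Crest.Agent.R273.Fock_243 Crest.Agent.R273.Calc_243
open Crest.Agent.R273.Bkn_243 Crest.Agent.R273.Pos_243 Crest.Agent.R273.Cram_747
open Crest.Agent.R273.BochA_101 Crest.Agent.R273.BochB_101 Crest.Agent.R273.BochE_101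

noncomputable section

variable {n : ℕ} {κ ρ : Type} [Fintype κ] [Fintype ρ] [DecidableEq κ] [DecidableEq ρ]

/-! ### Kronecker products -/

/-- Kronecker product of a family of matrices -/
def prodM (W : ρ → Matrix κ κ ℂ) : Matrix (ρ → κ) (ρ → κ) ℂ :=
  Matrix.of fun f h => ∏ a, W a (f a) (h a)

theorem KP_eq (G : Matrix κ κ ℂ) : KP ρ G = prodM (fun _ => G) := rfl

theorem prodM_mul (W W' : ρ → Matrix κ κ ℂ) :
    prodM (fun a => W a * W' a) = prodM W * prodM W' := by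
  ext f h
  simp only [prodM, Matrix.of_apply, Matrix.mul_apply]
  rw [Finset.prod_univ_sum]
  simp only [Fintype.piFinset_univ, Finset.prod_mul_distrib]

theorem prodM_conjTranspose (W : ρ → Matrix κ κ ℂ) :
    (prodM W)ᴴ = prodM (fun a => (W a)ᴴ) := by
  ext f h
  simp only [prodM, Matrix.conjTranspose_apply, Matrix.of_apply, star_prod]

theorem prodM_psd {W : ρ → Matrix κ κ ℂ} (h : ∀ a, (W a).PosSemidef) : (prodM W).PosSemidef := by
  have h1 : ∀ a, ∃ B : Matrix κ κ ℂ, W a = Bᴴ * B := fun a =>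
    CStarAlgebra.nonneg_iff_eq_star_mul_self.mp (h a).nonneg
  choose B hB using h1
  have h2 : W = fun a => (B a)ᴴ * B a := funext hB
  rw [h2, prodM_mul, ← prodM_conjTranspose]
  exact Matrix.posSemidef_conjTranspose_mul_self _

/-- `G ⊗ … ⊗ X ⊗ … ⊗ G`, `X` in the slot `b` -/
def slot (b : ρ) (G X : Matrix κ κ ℂ) : Matrix (ρ → κ) (ρ → κ) ℂ :=
  prodM (Function.update (fun _ => G) b X)

theorem slot_apply (b : ρ) (G X : Matrix κ κ ℂ) (f h : ρ → κ) :
    slot b G X f h = X (f b) (h b) * ∏ a ∈ univ.erase b, G (f a) (h a) := by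
  unfold slot prodM
  rw [Matrix.of_apply, ← Finset.mul_prod_erase _ _ (Finset.mem_univ b), Function.update_self]
  congr 1
  refine Finset.prod_congr rfl fun a ha => ?_
  rw [Function.update_of_ne (Finset.ne_of_mem_erase ha)]

theorem slot_self (b : ρ) (G : Matrix κ κ ℂ) : slot b G G = KP ρ G := by
  unfold slot
  rw [KP_eq]
  congr 1
  exact Function.update_eq_self b _

theorem slot_mul (b : ρ) (G G' X X' : Matrix κ κ ℂ) :
    slot b (G * G') (X * X') = slot b G X * slot b G' X' := by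
  unfold slot
  rw [← prodM_mul]
  congr 1
  funext a
  by_cases h : a = b
  · subst h; simp
  · simp [Function.update_of_ne h]

theorem slot_add (b : ρ) (G X X' : Matrix κ κ ℂ) :
    slot b G (X + X') = slot b G X + slot b G X' := by
  ext f h
  simp only [Matrix.add_apply, slot_apply]
  ring

theorem slot_smul (b : ρ) (G : Matrix κ κ ℂ) (c : ℂ) (X : Matrix κ κ ℂ) :
    slot b G (c • X) = c • slot b G X := by
  ext f h
  simp only [Matrix.smul_apply, slot_apply, smul_eq_mul]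
  ring

theorem slot_neg (b : ρ) (G X : Matrix κ κ ℂ) : slot b G (-X) = - slot b G X := by
  ext f h
  simp only [Matrix.neg_apply, slot_apply]
  ring

theorem slot_sub (b : ρ) (G X X' : Matrix κ κ ℂ) :
    slot b G (X - X') = slot b G X - slot b G X' := by
  rw [sub_eq_add_neg, slot_add, slot_neg, ← sub_eq_add_neg]

theorem slot_sum {τ : Type*} (t : Finset τ) (b : ρ) (G : Matrix κ κ ℂ) (X : τ → Matrix κ κ ℂ) :
    slot b G (∑ i ∈ t, X i) = ∑ i ∈ t, slot b G (X i) := by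
  classical
  induction t using Finset.induction_on with
  | empty =>
    rw [Finset.sum_empty, Finset.sum_empty]
    ext f h
    simp [slot_apply]
  | insert i t hi ih => rw [Finset.sum_insert hi, Finset.sum_insert hi, slot_add, ih]

theorem slot_psd (b : ρ) {G X : Matrix κ κ ℂ} (hG : G.PosSemidef) (hX : X.PosSemidef) :
    (slot b G X).PosSemidef := by
  refine prodM_psd fun a => ?_
  by_cases h : a = b
  · subst h; simpa using hX
  · rw [Function.update_of_ne h]; exact hG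

/-! ### derivatives -/

theorem dM_KP {s : ℂ} {a : Fin n} {G : Cn n → Matrix κ κ ℂ} {z : Cn n}
    (hG : ∀ S T, DifferentiableAt ℝ (fun y => G y S T) z) :
    dM s a (fun y => KP ρ (G y)) z = ∑ b, slot b (G z) (dM s a G z) := by
  ext f h
  rw [Matrix.sum_apply, dM_apply]
  have h1 : (fun y => KP ρ (G y) f h) = fun y => ∏ b ∈ univ, G y (f b) (h b) := by
    funext y; rfl
  rw [h1, dS_prod _ fun b _ => hG _ _]
  refine Finset.sum_congr rfl fun b _ => ?_
  rw [slot_apply]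
  rfl

theorem dM_slot_one {s : ℂ} {a : Fin n} {X : Cn n → Matrix κ κ ℂ} {z : Cn n} (b : ρ)
    (hX : ∀ S T, DifferentiableAt ℝ (fun y => X y S T) z) :
    dM s a (fun y => slot b 1 (X y)) z = slot b 1 (dM s a X z) := by
  ext f h
  rw [dM_apply, slot_apply]
  have h1 : (fun y => slot b (1 : Matrix κ κ ℂ) (X y) f h) = fun y =>
      (∏ a ∈ univ.erase b, (1 : Matrix κ κ ℂ) (f a) (h a)) * X y (f b) (h b) := by
    funext y; rw [slot_apply, mul_comm]
  rw [h1, dS_const_mul _ (hX _ _), mul_comm]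
  rfl

theorem SmM.slot_one {X : Cn n → Matrix κ κ ℂ} {z : Cn n} (b : ρ) (hX : SmM z X) :
    SmM z (fun y => slot b (1 : Matrix κ κ ℂ) (X y)) := by
  intro f h
  simp only [slot_apply]
  exact (hX _ _).mul contDiffAt_const

theorem dM_sum {ι κ τ : Type} {s : ℂ} {a : Fin n} (t : Finset τ)
    {X : τ → Cn n → Matrix ι κ ℂ} {z : Cn n} (hX : ∀ i ∈ t, SmM z (X i)) :
    dM s a (fun y => ∑ i ∈ t, X i y) z = ∑ i ∈ t, dM s a (X i) z := by
  ext S T
  rw [dM_apply, Matrix.sum_apply]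
  have h1 : (fun y => (∑ i ∈ t, X i y) S T) = fun y => ∑ i ∈ t, X i y S T := by
    funext y; rw [Matrix.sum_apply]
  rw [h1, dS_sum _ fun i hi => (hX i hi S T).diff]
  rfl

/-- the lowered curvature as the derivative of the connection form -/
theorem rm_eq {σ : Type} [Fintype σ] [DecidableEq σ] {G : Cn n → Matrix σ σ ℂ} {z : Cn n}
    (hG : SmM z G) (h0 : (G z).det ≠ 0) (c d : Fin n) :
    rm G z c d = - (G z * dM I d (fun y => (G y)⁻¹ * dM (-I) c G y) z) := by
  have hi : G z * (G z)⁻¹ = 1 := Matrix.mul_nonsing_inv _ (isUnit_iff_ne_zero.2 h0)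
  rw [dM_mul (fun S T => (SmM.inv hG h0 S T).diff) (fun S T => (SmM.dM hG (-I) c S T).diff),
    dM_inv hG h0, Matrix.mul_add, ← Matrix.mul_assoc (G z) (G z)⁻¹, hi, Matrix.one_mul]
  have h1 : G z * (-((G z)⁻¹ * dM I d G z * (G z)⁻¹) * dM (-I) c G z)
      = - (dM I d G z * (G z)⁻¹ * dM (-I) c G z) := by
    rw [Matrix.neg_mul, Matrix.mul_neg, ← Matrix.mul_assoc, ← Matrix.mul_assoc,
      ← Matrix.mul_assoc, hi, Matrix.one_mul]
  rw [h1]
  unfold rm
  rw [dM_comm hG]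
  abel

theorem KP_inv {G : Matrix κ κ ℂ} (h0 : G.det ≠ 0) : (KP ρ G)⁻¹ = KP ρ G⁻¹ := by
  refine Matrix.inv_eq_right_inv ?_
  rw [← KP_mul, Matrix.mul_nonsing_inv _ (isUnit_iff_ne_zero.2 h0), KP_one]

theorem KP_det_ne {G : Matrix κ κ ℂ} (h0 : G.det ≠ 0) : (KP ρ G).det ≠ 0 := by
  have h1 : KP ρ G * KP ρ G⁻¹ = 1 := by
    rw [← KP_mul, Matrix.mul_nonsing_inv _ (isUnit_iff_ne_zero.2 h0), KP_one]
  have h2 := congrArg Matrix.det h1
  rw [Matrix.det_mul, Matrix.det_one] at h2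
  exact left_ne_zero_of_mul_eq_one h2

theorem SmM.KP' {G : Cn n → Matrix κ κ ℂ} {z : Cn n} (hG : SmM z G) :
    SmM z (fun y => KP ρ (G y)) := by
  intro F H
  simp only [Cram_747.KP, Matrix.of_apply]
  exact contDiffAt_prod fun a _ => hG _ _

/-- **curvature of a Kronecker power** -/
theorem rm_KP {G : Cn n → Matrix κ κ ℂ} {z : Cn n} (hG : SmM z G) (h0 : (G z).det ≠ 0)
    (c d : Fin n) :
    rm (fun y => KP ρ (G y)) z c d = ∑ b, slot b (G z) (rm G z c d) := by
  rw [rm_eq (SmM.KP' hG) (KP_det_ne h0), rm_eq hG h0]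
  set θ : Cn n → Matrix κ κ ℂ := fun y => (G y)⁻¹ * dM (-I) c G y with hθ
  have hθs : SmM z θ := SmM.mul (SmM.inv hG h0) (SmM.dM hG _ _)
  have h1 : (fun y => (KP ρ (G y))⁻¹ * dM (-I) c (fun y => KP ρ (G y)) y) =ᶠ[𝓝 z]
      fun y => ∑ b, slot b 1 (θ y) := by
    filter_upwards [SmM.eventually hG, eventually_det_ne hG h0] with y hy hy0
    have hi : (G y)⁻¹ * G y = 1 := Matrix.nonsing_inv_mul _ (isUnit_iff_ne_zero.2 hy0)
    rw [KP_inv hy0, dM_KP hy, Matrix.mul_sum]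
    refine Finset.sum_congr rfl fun b _ => ?_
    rw [← slot_self b (G y)⁻¹, ← slot_mul, hi]
  rw [dM_congr h1, dM_sum _ fun b _ => SmM.slot_one b hθs, Matrix.mul_sum,
    ← Finset.sum_neg_distrib]
  refine Finset.sum_congr rfl fun b _ => ?_
  rw [dM_slot_one b fun S T => (hθs S T).diff, slot_neg, ← slot_self b (G z), ← slot_mul,
    Matrix.mul_one]

/-! ### the bound for `so` -/

theorem so_basis (P Q D : Matrix (Fin n) (Fin n) ℂ) :
    so (P * D * Q) (P * Q) = Gam P * so D 1 * Gam Q := by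
  unfold so
  rw [Matrix.mul_sum, Matrix.sum_mul]
  have h1 : ∀ r, Gam P * (∑ s, D r s • (eW (ep r) * Gam 1 * iW (ep s))) * Gam Q
      = ∑ s, D r s • (eW (fun p => P p r) * Gam (P * Q) * iW (fun q => Q s q)) := by
    intro r
    rw [Matrix.mul_sum, Matrix.sum_mul]
    refine Finset.sum_congr rfl fun s _ => ?_
    rw [Matrix.mul_smul, Matrix.smul_mul, Gam_one, Matrix.mul_one, ← Matrix.mul_assoc, Gam_eW_ep,
      Matrix.mul_assoc _ (iW (ep s)), iW_Gam, Gam_mul]
    have h2 : (Qᵀ *ᵥ ep s) = fun q => Q s q := by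
      funext q
      simp [Matrix.mulVec, dotProduct, ep, Pi.single_apply]
    rw [h2]
    simp only [Matrix.mul_assoc]
  simp_rw [h1]
  have h3 : ∀ r s, D r s • (eW (fun p => P p r) * Gam (P * Q) * iW (fun q => Q s q))
      = ∑ p, ∑ q, (P p r * D r s * Q s q) • (eW (ep p) * Gam (P * Q) * iW (ep q)) := by
    intro r s
    rw [eW_eq_sum, iW_eq_sum, Finset.sum_mul, Finset.sum_mul, Finset.smul_sum]
    refine Finset.sum_congr rfl fun p _ => ?_
    rw [Finset.mul_sum, Finset.smul_sum]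
    refine Finset.sum_congr rfl fun q _ => ?_
    rw [Matrix.mul_smul, Matrix.smul_mul, Matrix.smul_mul, smul_smul, smul_smul]
    congr 1
    ring
  simp_rw [h3]
  have h4 : ∀ p q, (P * D * Q) p q = ∑ r, ∑ s, P p r * D r s * Q s q := by
    intro p q
    rw [Matrix.mul_apply]
    simp only [Matrix.mul_apply, Finset.sum_mul]
    rw [Finset.sum_comm]
  simp_rw [h4, Finset.sum_smul]
  rw [Finset.sum_congr rfl fun p _ => Finset.sum_comm]
  rw [Finset.sum_comm]
  refine Finset.sum_congr rfl fun r _ => ?_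
  rw [Finset.sum_congr rfl fun p _ => Finset.sum_congr rfl fun q _ => rfl]
  rw [Finset.sum_congr rfl fun p _ => Finset.sum_comm]
  rw [Finset.sum_comm]

theorem so_diag (d : Fin n → ℂ) :
    so (Matrix.diagonal d) 1 = ∑ p, d p • (eW (ep p) * iW (ep p)) := by
  unfold so
  refine Finset.sum_congr rfl fun p _ => ?_
  rw [Finset.sum_eq_single p]
  · rw [Matrix.diagonal_apply_eq, Gam_one, Matrix.mul_one]
  · intro q _ hq
    rw [Matrix.diagonal_apply_ne _ (Ne.symm hq), zero_smul]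
  · simp

theorem real_ep (j : Fin n) : (eW (ep j) : Matrix (FI n) (FI n) ℂ)ᴴ = iW (ep j) := by
  ext S T
  rw [Matrix.conjTranspose_apply]
  have h1 := congrFun (congrFun (eW_transpose (R := ℂ) (ep j : Fin n → ℂ)) S) T
  rw [Matrix.transpose_apply] at h1
  rw [h1]
  have h2 := star_iW j (Pi.single T (1 : ℂ))
  have h3 := congrFun h2 S
  rw [Pi.star_apply] at h3
  have h4 : star (Pi.single T (1 : ℂ) : FI n → ℂ) = Pi.single T 1 := by
    funext U
    rw [Pi.star_apply]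
    by_cases hU : U = T
    · subst hU; simp
    · simp [Pi.single_eq_of_ne hU]
  rw [h4, Matrix.mulVec_single_one, Matrix.col_apply] at h3
  exact h3

theorem one_sub_ei (p : Fin n) :
    (1 - eW (ep p) * iW (ep p) : Matrix (FI n) (FI n) ℂ).PosSemidef := by
  have h1 : (1 - eW (ep p) * iW (ep p) : Matrix (FI n) (FI n) ℂ)
      = (eW (ep p))ᴴ * eW (ep p) := by
    rw [real_ep, iW_eW_ep]
    simp
  rw [h1]
  exact Matrix.posSemidef_conjTranspose_mul_self _

theorem so_le {K R : Matrix (Fin n) (Fin n) ℂ} (hK : K.PosDef) (hR : R.PosSemidef) :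
    ((K⁻¹ * R).trace • Gam K - so R K).PosSemidef := by
  obtain ⟨B, d, hB, hd, hKB, hRB⟩ := FIlin_332.simd hK hR
  have h1 : (K⁻¹ * R).trace = ∑ p, (d p : ℂ) := by
    have hB' : B * B⁻¹ = 1 := Matrix.mul_nonsing_inv _ hB
    have hBH : IsUnit (Bᴴ).det := by
      rw [Matrix.det_conjTranspose]; exact hB.star
    rw [hKB, hRB, Matrix.mul_inv_rev]
    have h2 : B⁻¹ * (Bᴴ)⁻¹ * (Bᴴ * Matrix.diagonal (fun i => (d i : ℂ)) * B)
        = B⁻¹ * (Matrix.diagonal (fun i => (d i : ℂ)) * B) := by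
      rw [Matrix.mul_assoc, ← Matrix.mul_assoc (Bᴴ)⁻¹, ← Matrix.mul_assoc (Bᴴ)⁻¹,
        Matrix.nonsing_inv_mul _ hBH, Matrix.one_mul]
    rw [h2, Matrix.trace_mul_comm, Matrix.mul_assoc, hB', Matrix.mul_one, Matrix.trace_diagonal]
  have h3 : so R K = (Gam B)ᴴ * so (Matrix.diagonal fun i => (d i : ℂ)) 1 * Gam B := by
    rw [hKB, hRB, so_basis, Gam_conjTranspose]
  have h4 : (K⁻¹ * R).trace • Gam K - so R K = (Gam B)ᴴ *
      (∑ p, (d p : ℂ) • (1 - eW (ep p) * iW (ep p))) * Gam B := by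
    rw [h3, h1, so_diag]
    have h5 : Gam K = (Gam B)ᴴ * Gam B := by rw [hKB, Gam_mul, Gam_conjTranspose]
    rw [h5]
    simp only [smul_sub, Finset.sum_sub_distrib, ← Finset.sum_smul, Matrix.mul_sub, Matrix.sub_mul,
      Matrix.mul_smul, Matrix.smul_mul, Matrix.mul_one]
  rw [h4]
  refine Matrix.PosSemidef.conjTranspose_mul_mul_same ?_ _
  refine Matrix.posSemidef_sum _ fun p _ => ?_
  refine (one_sub_ei p).smul ?_
  exact_mod_cast hd p

/-- the slots of `so` are bounded by the Kronecker power -/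
theorem slot_so_le (b : ρ) {K R : Matrix (Fin n) (Fin n) ℂ} (hK : K.PosDef)
    (hR : R.PosSemidef) :
    ((K⁻¹ * R).trace • KP ρ (Gam K) - slot b (Gam K) (so R K)).PosSemidef := by
  rw [← slot_self b (Gam K), ← slot_smul, ← slot_sub]
  exact slot_psd b (Gam_posDef hK).posSemidef (so_le hK hR)

end

end Crest.Agent.R273.BochH_101
end

-- ▼ part R273/BochI_101

/-!
# R273 (S0416), LEMMA FI leaf (b) (helper101): log-Bochner for arbitrary holomorphic tensors

* `boch_TS` : `K : Kah A`, `cur (volK K) = cur h` semipositive, `cur hN = m • cur h`,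
  `τ : TS ρ N` : `LBo K h (tN K hN τ) (card ρ + m)`.
-/

set_option autoImplicit false
set_option linter.unusedSectionVars false

open Set Filter Topology Complex Matrix
open scoped ContDiff Matrix ComplexConjugate Manifold ComplexOrder

namespace Crest.Agent.R273.BochI_101

open Crest.Agent.R275 Crest.Agent.R275.Geo Crest.Agent.R275.Core144
open Crest.Agent.R273.Defs_333 Crest.Agent.R273.HM_333 Crest.Agent.R273.Kah_333
open Crest.Agent.R273.Hess_333 Crest.Agent.R273.HessB_333 Crest.Agent.R273.Vol_333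
open Crest.Agent.R273.Fock_243 Crest.Agent.R273.Calc_243 Crest.Agent.R273.Bkn_243
open Crest.Agent.R273.Pos_243 Crest.Agent.R273.BKNa_37 Crest.Agent.R273.NV_578
open Crest.Agent.R273.Cram_747 Crest.Agent.R273.FIb0_597 Crest.Agent.R273.FIa0_597
open Crest.Agent.R273.BochA_101 Crest.Agent.R273.BochB_101 Crest.Agent.R273.BochC_101
open Crest.Agent.R273.BochD_101 Crest.Agent.R273.BochE_101 Crest.Agent.R273.BochF_101
open Crest.Agent.R273.BochH_101

noncomputable section

variable {n : ℕ} {M : Type} [TopologicalSpace M] {A : Atl n M} {N L L' : LB A}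
  {ρ : Type} [Fintype ρ] [DecidableEq ρ]

/-- a vector as a matrix with one column -/
def uc {κ : Type} (t : κ → ℂ) : Matrix κ Unit ℂ := Matrix.of fun F _ => t F

theorem uc_mul {κ : Type} [Fintype κ] (t : κ → ℂ) (G : Matrix κ κ ℂ) :
    (uc t)ᴴ * G * uc t = Matrix.of fun _ _ => star t ⬝ᵥ (G *ᵥ t) := by
  ext a b
  rw [Matrix.mul_assoc, Matrix.mul_apply]
  rfl

theorem tr_inv_nonneg {σ : Type} [Fintype σ] [DecidableEq σ] {M' X : Matrix σ σ ℂ}
    (hM : M'.PosDef) (hX : X.PosSemidef) : 0 ≤ (M'⁻¹ * X).trace := by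
  obtain ⟨B, hB⟩ : ∃ B : Matrix σ σ ℂ, M'⁻¹ = Bᴴ * B := by
    open scoped MatrixOrder in
    exact CStarAlgebra.nonneg_iff_eq_star_mul_self.mp hM.inv.posSemidef.nonneg
  rw [hB, Matrix.mul_assoc, Matrix.trace_mul_comm]
  exact (hX.mul_mul_conjTranspose_same B).trace_nonneg

/-- local form: `t` holomorphic, `K` Kähler with Ricci matrix `T ≥ 0` -/
theorem boch_loc {K : Cn n → Matrix (Fin n) (Fin n) ℂ} {t : Cn n → (ρ → FI n) → ℂ} {z : Cn n}
    (hK : ∀ᶠ y in 𝓝 z, SmM y K) (hp : ∀ᶠ y in 𝓝 z, (K y).PosDef)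
    (hk : ∀ᶠ y in 𝓝 z, KahAt K y)
    (ht : ∀ F, ∀ᶠ y in 𝓝 z, DifferentiableAt ℂ (fun w => t w F) y)
    (hR : (Matrix.of (ric K z)).PosSemidef)
    (h0 : 0 < (nrm (Gam (K z)) (t z)).re) :
    0 ≤ ∑ c, ∑ d, (K z)⁻¹ c d * hess (fun y => Real.log (nrm (Gam (K y)) (t y)).re) z c d
      + (Fintype.card ρ : ℂ) * ((K z)⁻¹ * (Matrix.of (ric K z))ᵀ).trace := by
  have hKz : SmM z K := hK.self_of_nhds
  have hpz := hp.self_of_nhds
  set G : Cn n → Matrix (ρ → FI n) (ρ → FI n) ℂ := fun y => KP ρ (Gam (K y)) with hGdef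
  have hGam : SmM z (fun y => Gam (K y)) := SmM.Gam hKz
  have hG : ∀ᶠ y in 𝓝 z, SmM y G := by
    filter_upwards [hK] with y hy
    exact SmM.KP' (SmM.Gam hy)
  have hGp' : ∀ y, (K y).PosDef → (G y).PosDef := by
    intro y hy
    refine (KP_posSemidef (Gam_posDef hy).posSemidef).posDef_iff_isUnit.2 ?_
    rw [Matrix.isUnit_iff_isUnit_det]
    exact isUnit_iff_ne_zero.2 (KP_det_ne (Gam_posDef hy).det_pos.ne')
  have hGh : ∀ᶠ y in 𝓝 z, (G y).IsHermitian := by
    filter_upwards [hp] with y hy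
    exact (hGp' y hy).isHermitian
  have hGp : (G z).PosDef := hGp' z hpz
  have hK0 : (K z).det ≠ 0 := hpz.det_pos.ne'
  have hGa0 : (Gam (K z)).det ≠ 0 := (Gam_posDef hpz).det_pos.ne'
  have hG0 : (G z).det ≠ 0 := hGp.det_pos.ne'
  set V : Cn n → Matrix (ρ → FI n) Unit ℂ := fun y => uc (t y) with hV
  have hVh : HolM z V := fun S _ => ht S
  -- the determinant is the norm
  have hdet : ∀ y, ((V y)ᴴ * G y * V y).det = nrm (Gam (K y)) (t y) := by
    intro y
    rw [uc_mul, Matrix.det_unique]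
    rfl
  have h0' : 0 < ((V z)ᴴ * G z * V z).det.re := by rw [hdet]; exact h0
  set M' : Matrix Unit Unit ℂ := (V z)ᴴ * G z * V z with hM'def
  have hMne : M'.det ≠ 0 := by
    intro h
    rw [h] at h0'
    simp at h0'
  have hMp : M'.PosDef := by
    refine (hGp.posSemidef.conjTranspose_mul_mul_same (V z)).posDef_iff_isUnit.2 ?_
    rw [Matrix.isUnit_iff_isUnit_det]
    exact isUnit_iff_ne_zero.2 hMne
  have h1 := gram_pos hGp.posSemidef hMp.inv.posSemidef hpz.inv.posSemidef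
    (fun c => WW (G z) (G z)⁻¹ (V z) M'⁻¹ (dM (-I) c V z) (dM (-I) c G z))
  -- the contracted curvature
  set R : Matrix (Fin n) (Fin n) ℂ := (Matrix.of (ric K z))ᵀ with hRdef
  have h2 : ∑ c, ∑ d, (K z)⁻¹ c d * (M'⁻¹ * ((V z)ᴴ * rm G z c d * V z)).trace
      = (M'⁻¹ * ((V z)ᴴ * (∑ b : ρ, slot b (Gam (K z)) (so R (K z))) * V z)).trace := by
    have h3 : R = ∑ c, ∑ d, (K z)⁻¹ c d • rm K z c d := by
      ext b a
      rw [hRdef, Matrix.transpose_apply, Matrix.of_apply, ← tr_rm hKz hk, Matrix.sum_apply]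
      refine Finset.sum_congr rfl fun c _ => ?_
      rw [Matrix.sum_apply]
      rfl
    have h4 : ∑ b : ρ, slot b (Gam (K z)) (so R (K z))
        = ∑ c, ∑ d, (K z)⁻¹ c d • rm G z c d := by
      have h5 : ∀ c d, rm G z c d = ∑ b : ρ, slot b (Gam (K z)) (so (rm K z c d) (K z)) := by
        intro c d
        rw [hGdef, rm_KP hGam hGa0]
        refine Finset.sum_congr rfl fun b _ => ?_
        rw [rm_Gam hK hK0]
      simp_rw [h5, Finset.smul_sum, ← slot_smul, ← so_smul]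
      rw [h3]
      have h6 : ∀ b : ρ, slot b (Gam (K z)) (so (∑ c, ∑ d, (K z)⁻¹ c d • rm K z c d) (K z))
          = ∑ c, ∑ d, slot b (Gam (K z)) (so ((K z)⁻¹ c d • rm K z c d) (K z)) := by
        intro b
        rw [so_sum, slot_sum]
        refine Finset.sum_congr rfl fun c _ => ?_
        rw [so_sum, slot_sum]
      simp_rw [h6]
      rw [Finset.sum_comm]
      exact Finset.sum_congr rfl fun c _ => Finset.sum_comm
    rw [h4, Matrix.mul_sum, Matrix.sum_mul, Matrix.mul_sum, Matrix.trace_sum]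
    refine Finset.sum_congr rfl fun c _ => ?_
    rw [Matrix.mul_sum, Matrix.sum_mul, Matrix.mul_sum, Matrix.trace_sum]
    refine Finset.sum_congr rfl fun d _ => ?_
    rw [Matrix.mul_smul, Matrix.smul_mul, Matrix.mul_smul, Matrix.trace_smul, smul_eq_mul]
  -- the bound
  have hRp : R.PosSemidef := hR.transpose
  have h7 : (((Fintype.card ρ : ℂ) * ((K z)⁻¹ * R).trace) • G z
      - ∑ b : ρ, slot b (Gam (K z)) (so R (K z))).PosSemidef := by
    have h8 : ((Fintype.card ρ : ℂ) * ((K z)⁻¹ * R).trace) • G z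
        - ∑ b : ρ, slot b (Gam (K z)) (so R (K z))
        = ∑ b : ρ, (((K z)⁻¹ * R).trace • KP ρ (Gam (K z))
          - slot b (Gam (K z)) (so R (K z))) := by
      rw [Finset.sum_sub_distrib, Finset.sum_const, Finset.card_univ, ← smul_assoc, nsmul_eq_mul]
    rw [h8]
    exact Matrix.posSemidef_sum _ fun b _ => slot_so_le b hpz hRp
  have h9 := tr_inv_nonneg hMp (h7.conjTranspose_mul_mul_same (V z))
  have h10 : (M'⁻¹ * ((V z)ᴴ * (((Fintype.card ρ : ℂ) * ((K z)⁻¹ * R).trace) • G z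
      - ∑ b : ρ, slot b (Gam (K z)) (so R (K z))) * V z)).trace
      = (Fintype.card ρ : ℂ) * ((K z)⁻¹ * R).trace
        - (M'⁻¹ * ((V z)ᴴ * (∑ b : ρ, slot b (Gam (K z)) (so R (K z))) * V z)).trace := by
    rw [Matrix.mul_sub, Matrix.sub_mul, Matrix.mul_sub, Matrix.trace_sub, Matrix.mul_smul,
      Matrix.smul_mul, Matrix.mul_smul, Matrix.trace_smul, ← hM'def,
      Matrix.nonsing_inv_mul _ (isUnit_iff_ne_zero.2 hMne), Matrix.trace_one]
    simp
  rw [h10] at h9
  have h11 : ∑ c, ∑ d, (K z)⁻¹ c d * hess (fun y => Real.log (nrm (Gam (K y)) (t y)).re) z c d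
      = ∑ c, ∑ d, (K z)⁻¹ c d * (M'⁻¹ * ((WW (G z) (G z)⁻¹ (V z) M'⁻¹ (dM (-I) d V z)
          (dM (-I) d G z))ᴴ * G z * WW (G z) (G z)⁻¹ (V z) M'⁻¹ (dM (-I) c V z)
          (dM (-I) c G z))).trace
        - ∑ c, ∑ d, (K z)⁻¹ c d * (M'⁻¹ * ((V z)ᴴ * rm G z c d * V z)).trace := by
    rw [← Finset.sum_sub_distrib]
    refine Finset.sum_congr rfl fun c _ => ?_
    rw [← Finset.sum_sub_distrib]
    refine Finset.sum_congr rfl fun d _ => ?_
    have h12 := hess_gram hG hGh hG0 hVh h0' c d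
    simp_rw [hdet] at h12
    rw [h12, mul_sub]
  rw [h11, h2]
  have h13 := add_nonneg h1 h9
  refine h13.trans (le_of_eq ?_)
  ring

/-- **log-Bochner for arbitrary holomorphic tensors** -/
theorem boch_TS {K : Kah A} {h : HM L'} {hN : HM N} {m : ℝ} (hs : h.Semipos)
    (hc : ∀ i, ∀ x ∈ (A.e i).source, cur (volK K) i x = cur h i x)
    (hm : ∀ i, ∀ x ∈ (A.e i).source, cur hN i x = (m : ℂ) • cur h i x)
    {τ : A.ι → M → (ρ → FI n) → ℂ} (hτ : TS ρ N τ) :
    LBo K h (tN K hN τ) (Fintype.card ρ + m) := by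
  intro i x hx h0
  have hz := (A.e i).map_source hx
  have hxx := (A.e i).left_inv hx
  have hnt : ∀ᶠ y in 𝓝 (A.e i x), y ∈ (A.e i).target := (A.e i).open_target.mem_nhds hz
  set t : Cn n → (ρ → FI n) → ℂ := fun y => τ i ((A.e i).symm y) with htd
  have ht : ∀ F, ∀ᶠ y in 𝓝 (A.e i x), DifferentiableAt ℂ (fun w => t w F) y :=
    fun F => holAt_sm (hτ.hol i F) hz
  have e1 : ∀ y ∈ (A.e i).target, tN K hN τ ((A.e i).symm y)
      = (nrm (Gam (Kr K i y)) (t y)).re * hN.w i ((A.e i).symm y) := fun y hy =>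
    tN_eq K hN hτ ((A.e i).map_target hy)
  have h0' : 0 < (nrm (Gam (Kr K i (A.e i x))) (t (A.e i x))).re := by
    rw [← hxx, e1 _ hz] at h0
    have hw := hN.pos i _ ((A.e i).map_target hz)
    by_contra hcon
    push Not at hcon
    exact absurd h0 (not_lt.2 (mul_nonpos_of_nonpos_of_nonneg hcon hw.le))
  have hGs : ∀ᶠ y in 𝓝 (A.e i x), SmM y (Kr K i) := hnt.mono fun y hy => smM_Kr K i hy
  have hDs : Sm (A.e i x) (fun y => nrm (Gam (Kr K i y)) (t y)) :=
    sm_nrm (SmM.Gam hGs.self_of_nhds) fun F => sm_of_hol (ht F)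
  have hDr : ContDiffAt ℝ ∞ (fun y => (nrm (Gam (Kr K i y)) (t y)).re) (A.e i x) :=
    Complex.reCLM.contDiff.contDiffAt.comp _ hDs
  have hDl : ContDiffAt ℝ ∞ (fun y => Real.log (nrm (Gam (Kr K i y)) (t y)).re)
      (A.e i x) := hDr.log h0'.ne'
  have hwt := wt_contDiffAt hN i hz
  have e2 : (fun y => Real.log (tN K hN τ ((A.e i).symm y))) =ᶠ[𝓝 (A.e i x)]
      fun y => Real.log (nrm (Gam (Kr K i y)) (t y)).re - hN.wt i y := by
    filter_upwards [hnt, hDr.continuousAt.eventually (lt_mem_nhds h0')] with y hy hy'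
    have hw := hN.pos i _ ((A.e i).map_target hy)
    rw [e1 y hy, Real.log_mul (ne_of_gt hy') hw.ne']
    unfold HM.wt
    ring
  have e3 : hsf A (fun y => Real.log (tN K hN τ y)) i x
      = hess (fun y => Real.log (nrm (Gam (Kr K i y)) (t y)).re) (A.e i x)
        - (m : ℂ) • cur h i x := by
    unfold hsf
    rw [hess_congr e2, hess_sub hDl hwt, ← hm i x hx]
    rfl
  have e4 : trC K (hsf A fun y => Real.log (tN K hN τ y)) i x
      = ∑ c, ∑ d, (Kr K i (A.e i x))⁻¹ c d *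
        hess (fun y => Real.log (nrm (Gam (Kr K i y)) (t y)).re) (A.e i x) c d
        - (m : ℂ) * trC K (cur h) i x := by
    rw [← trC_sum K (fun _ _ => hess (fun y => Real.log (nrm (Gam (Kr K i y)) (t y)).re)
      (A.e i x)) hx]
    unfold trC
    rw [e3, Matrix.mul_sub, Matrix.trace_sub, Matrix.mul_smul, Matrix.trace_smul, smul_eq_mul]
  have hric : Matrix.of (ric (Kr K i) (A.e i x)) = cur h i x := by
    rw [ric_eq K i hx, hc i x hx]
  have key := boch_loc hGs (hnt.mono fun y hy => Kr_posDef K i hy)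
    (hnt.mono fun y hy => kahAt K i hy) ht
    (by rw [hric]; exact cur_posSemidef hs i hx) h0'
  have e5 : ((Kr K i (A.e i x))⁻¹ * (Matrix.of (ric (Kr K i) (A.e i x)))ᵀ).trace
      = trC K (cur h) i x := by
    rw [hric]
    unfold trC Kr
    rw [hxx, ← Matrix.transpose_nonsing_inv, ← Matrix.transpose_mul, Matrix.trace_transpose,
      Matrix.trace_mul_comm]
  rw [e5] at key
  have key2 := (Complex.le_def.1 key).1
  have e6 : ((Fintype.card ρ : ℂ) * trC K (cur h) i x).re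
      = (Fintype.card ρ : ℝ) * (trC K (cur h) i x).re := by
    rw [← Complex.ofReal_natCast, Complex.re_ofReal_mul]
  rw [Complex.add_re, e6, Complex.zero_re] at key2
  rw [e4, Complex.sub_re, Complex.re_ofReal_mul]
  linarith

end

end Crest.Agent.R273.BochI_101
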