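import Mathlib

/-!
# R273 (S0416), Part C (Yau), C0-a: the Alexandrov-Bakelman-Pucci / Blocki argument in one ball
(helper390)

`abp_real` : `u` of class `C²` near the closed ball `B = closedBall z0 r`, `u ≥ u z0 + a` on the
sphere.  The gradients at the contact points cover the ball of radius `a / (2 r)`.
-/

set_option autoImplicit false
set_option linter.unusedSectionVars false

open MeasureTheory Set Metric Filter Topology

namespace Crest.Agent.R273.C0a_390

noncomputable section

section real

variable {E : Type*} [NormedAddCommGroup E] [InnerProductSpace ℝ E]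

/-- second order necessary condition at a local minimum, one variable. -/
theorem deriv2_nonneg {h : ℝ → ℝ} {t : ℝ} (hm : IsLocalMin h t) (hc : ContinuousAt h t) :
    0 ≤ deriv (deriv h) t := by
  by_contra hneg
  push Not at hneg
  have hd : deriv h t = 0 := hm.deriv_eq_zero
  have hmax := isLocalMax_of_deriv_deriv_neg hneg hd hc
  have hev : h =ᶠ[𝓝 t] fun _ => h t := by
    filter_upwards [hm, hmax] with s hs1 hs2
    exact le_antisymm hs2 hs1
  have h1 : deriv h =ᶠ[𝓝 t] deriv (fun _ => h t) := hev.deriv
  have h2 : deriv (deriv h) t = deriv (deriv (fun _ : ℝ => h t)) t := h1.deriv_eq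
  rw [h2] at hneg
  simp at hneg

theorem fderiv2_nonneg {h : E → ℝ} {x : E} (hh : ContDiffAt ℝ 2 h x) (hm : IsLocalMin h x)
    (v : E) : 0 ≤ fderiv ℝ (fderiv ℝ h) x v v := by
  set l : ℝ → E := fun t => x + t • v with hl
  have hld : ∀ t, HasDerivAt l v t := by
    intro t
    have := ((hasDerivAt_id t).smul_const v).const_add x
    simpa only [id, one_smul, hl] using this
  have hl0 : l 0 = x := by simp [hl]
  have hcont : ContinuousAt l 0 := (hld 0).continuousAt
  have htend : Tendsto l (𝓝 0) (𝓝 x) := by
    have := hcont.tendsto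
    rwa [hl0] at this
  have h1 : ∀ᶠ y in 𝓝 x, DifferentiableAt ℝ h y := by
    filter_upwards [hh.eventually (by simp)] with y hy
    exact hy.differentiableAt (by norm_num)
  have h2 : DifferentiableAt ℝ (fderiv ℝ h) x :=
    (hh.fderiv_right (m := 1) (by norm_num)).differentiableAt (by norm_num)
  have e1 : deriv (fun t => h (l t)) =ᶠ[𝓝 0] fun t => fderiv ℝ h (l t) v := by
    filter_upwards [htend.eventually h1] with t ht
    exact (ht.hasFDerivAt.comp_hasDerivAt t (hld t)).deriv
  have e2 : deriv (fun t => fderiv ℝ h (l t) v) 0 = fderiv ℝ (fderiv ℝ h) (l 0) v v := by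
    have h2' : DifferentiableAt ℝ (fderiv ℝ h) (l 0) := by rw [hl0]; exact h2
    have hA : HasDerivAt (fun t => fderiv ℝ h (l t)) (fderiv ℝ (fderiv ℝ h) (l 0) v) 0 :=
      h2'.hasFDerivAt.comp_hasDerivAt 0 (hld 0)
    have hB := hA.clm_apply (hasDerivAt_const (0:ℝ) v)
    simpa using hB.deriv
  have hmin : IsLocalMin (fun t => h (l t)) 0 := by
    have := htend.eventually hm
    refine this.mono ?_
    intro t ht
    simpa [hl0] using ht
  have hc : ContinuousAt (fun t => h (l t)) 0 := by
    have : ContinuousAt h (l 0) := by rw [hl0]; exact hh.continuousAt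
    exact this.comp hcont
  have := deriv2_nonneg hmin hc
  rw [e1.deriv_eq, e2, hl0] at this
  exact this

variable [CompleteSpace E]

/-- the Riesz map -/
def dR : (E →L[ℝ] ℝ) →L[ℝ] E where
  toFun l := (InnerProductSpace.toDual ℝ E).symm l
  map_add' := map_add _
  map_smul' := by intro c l; simp
  cont := (InnerProductSpace.toDual ℝ E).symm.continuous

/-- the gradient -/
def gr (u : E → ℝ) (x : E) : E := dR (fderiv ℝ u x)

/-- the Hessian, as an operator -/
def hs (u : E → ℝ) (x : E) : E →L[ℝ] E := dR ∘L fderiv ℝ (fderiv ℝ u) x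





/-- the contact set -/
def ct (u : E → ℝ) (z0 : E) (r a : ℝ) : Set E :=
  {x | x ∈ ball z0 r ∧ u x ≤ u z0 + a / 2 ∧ ∀ v, 0 ≤ fderiv ℝ (fderiv ℝ u) x v v}

variable [FiniteDimensional ℝ E]


variable [MeasurableSpace E] [BorelSpace E]



end real

end

end Crest.Agent.R273.C0a_390
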