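import Crest.Agent.R273.Fock_243
import Crest.Agent.R275.Geo_509

/-!
# R273 (S0416), D0 (helper243): first order calculus on `Cn n` in components

* `dS s a f z = ½ (∂_{x_a} + s ∂_{y_a}) f`; `s = I` is `∂̄_a` (`dbj`), `s = -I` is `∂_a` (`dj`);
* `dV`, `dM` : the same for vectors and matrices, componentwise; Leibniz rules; conjugation;
  `dS_comm` : second derivatives commute; smoothness;
* `Sm z f` : `f` is smooth (over `ℝ`) at `z`.
-/

set_option autoImplicit false
set_option linter.unusedSectionVars false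

open Finset Matrix Complex
open scoped ContDiff ComplexConjugate

namespace Crest.Agent.R273.Calc_243

open Crest.Agent.R275.Geo Crest.Agent.R273.Fock_243

noncomputable section

variable {n : ℕ}

/-- `½ (∂_{x_a} + s ∂_{y_a})` -/
def dS (s : ℂ) (a : Fin n) (f : Cn n → ℂ) (z : Cn n) : ℂ :=
  (1 / 2 : ℂ) * (fderiv ℝ f z (EuclideanSpace.single a 1) +
    s * fderiv ℝ f z (EuclideanSpace.single a I))

/-- `∂/∂z_a` -/
abbrev dj (a : Fin n) (f : Cn n → ℂ) (z : Cn n) : ℂ := dS (-I) a f z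

theorem dbj_eq (a : Fin n) (f : Cn n → ℂ) (z : Cn n) : dbj a f z = dS I a f z := rfl

/-- smooth at `z` -/
abbrev Sm (z : Cn n) (f : Cn n → ℂ) : Prop := ContDiffAt ℝ ∞ f z

/-- smooth vectors -/
abbrev SmV {ι : Type} (z : Cn n) (v : Cn n → ι → ℂ) : Prop := ∀ S, Sm z (fun y => v y S)

/-- smooth matrices -/
abbrev SmM {ι κ : Type} (z : Cn n) (v : Cn n → Matrix ι κ ℂ) : Prop :=
  ∀ S T, Sm z (fun y => v y S T)

theorem Sm.diff {z : Cn n} {f : Cn n → ℂ} (h : Sm z f) : DifferentiableAt ℝ f z :=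
  h.differentiableAt (by simp)

theorem dS_congr {s : ℂ} {a : Fin n} {f g : Cn n → ℂ} {z : Cn n}
    (h : f =ᶠ[nhds z] g) : dS s a f z = dS s a g z := by
  unfold dS; rw [h.fderiv_eq]

theorem dS_add {s : ℂ} {a : Fin n} {f g : Cn n → ℂ} {z : Cn n} (hf : DifferentiableAt ℝ f z)
    (hg : DifferentiableAt ℝ g z) :
    dS s a (fun y => f y + g y) z = dS s a f z + dS s a g z := by
  have h : fderiv ℝ (fun y => f y + g y) z = fderiv ℝ f z + fderiv ℝ g z := fderiv_add hf hg
  simp only [dS, h, _root_.add_apply]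
  ring

theorem dS_neg {s : ℂ} {a : Fin n} {f : Cn n → ℂ} {z : Cn n} :
    dS s a (fun y => - f y) z = - dS s a f z := by
  have h : fderiv ℝ (fun y => - f y) z = - fderiv ℝ f z := fderiv_neg
  simp only [dS, h, _root_.neg_apply]
  ring

theorem dS_mul {s : ℂ} {a : Fin n} {f g : Cn n → ℂ} {z : Cn n} (hf : DifferentiableAt ℝ f z)
    (hg : DifferentiableAt ℝ g z) :
    dS s a (fun y => f y * g y) z = dS s a f z * g z + f z * dS s a g z := by
  have h : fderiv ℝ (fun y => f y * g y) z = f z • fderiv ℝ g z + g z • fderiv ℝ f z :=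
    fderiv_mul hf hg
  simp only [dS, h, _root_.add_apply, _root_.smul_apply, smul_eq_mul]
  ring

@[simp] theorem dS_const {s : ℂ} {a : Fin n} {c : ℂ} {z : Cn n} :
    dS s a (fun _ => c) z = 0 := by
  simp [dS]

theorem dS_const_mul {s : ℂ} {a : Fin n} {f : Cn n → ℂ} {z : Cn n} (c : ℂ)
    (hf : DifferentiableAt ℝ f z) : dS s a (fun y => c * f y) z = c * dS s a f z := by
  rw [dS_mul (differentiableAt_const c) hf, dS_const, zero_mul, zero_add]

theorem dS_sum {ι : Type*} {s : ℂ} {a : Fin n} (t : Finset ι) {f : ι → Cn n → ℂ} {z : Cn n}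
    (hf : ∀ i ∈ t, DifferentiableAt ℝ (f i) z) :
    dS s a (fun y => ∑ i ∈ t, f i y) z = ∑ i ∈ t, dS s a (f i) z := by
  classical
  induction t using Finset.induction_on with
  | empty => simp
  | insert i t hi ih =>
    have h1 : (fun y => ∑ i ∈ insert i t, f i y) = fun y => f i y + ∑ i ∈ t, f i y := by
      funext y; rw [Finset.sum_insert hi]
    rw [h1, dS_add (hf i (Finset.mem_insert_self i t))
      (DifferentiableAt.fun_sum fun j hj => hf j (Finset.mem_insert_of_mem hj)),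
      Finset.sum_insert hi, ih fun j hj => hf j (Finset.mem_insert_of_mem hj)]

theorem dS_conj {s : ℂ} {a : Fin n} {f : Cn n → ℂ} {z : Cn n} (hf : DifferentiableAt ℝ f z) :
    dS s a (fun y => conj (f y)) z = conj (dS (conj s) a f z) := by
  have h : fderiv ℝ (fun y => conj (f y)) z
      = (Complex.conjCLE : ℂ →L[ℝ] ℂ).comp (fderiv ℝ f z) :=
    ((Complex.conjCLE : ℂ →L[ℝ] ℂ).hasFDerivAt.comp z hf.hasFDerivAt).fderiv
  simp only [dS, h, map_mul, map_add, Complex.conj_conj, map_div₀, map_one, map_ofNat]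
  rfl

/-- composition with a real function -/
theorem dS_exp {s : ℂ} {a : Fin n} {f : Cn n → ℂ} {z : Cn n} (hf : DifferentiableAt ℝ f z) :
    dS s a (fun y => Complex.exp (f y)) z = Complex.exp (f z) * dS s a f z := by
  have h : fderiv ℝ (fun y => Complex.exp (f y)) z = Complex.exp (f z) • fderiv ℝ f z :=
    hf.hasFDerivAt.cexp.fderiv
  simp only [dS, h, _root_.smul_apply, smul_eq_mul]
  ring

theorem Sm.dS {z : Cn n} {f : Cn n → ℂ} (h : Sm z f) (s : ℂ) (a : Fin n) : Sm z (dS s a f) := by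
  have h1 : ContDiffAt ℝ ∞ (fderiv ℝ f) z := h.fderiv_right (by simp)
  have h2 : ∀ v : Cn n, ContDiffAt ℝ ∞ (fun y => fderiv ℝ f y v) z :=
    fun v => h1.clm_apply contDiffAt_const
  unfold Calc_243.dS
  exact contDiffAt_const.mul ((h2 _).add (contDiffAt_const.mul (h2 _)))

theorem dS_comm {s t : ℂ} {a b : Fin n} {f : Cn n → ℂ} {z : Cn n} (h : Sm z f) :
    dS s a (dS t b f) z = dS t b (dS s a f) z := by
  have h1 : ContDiffAt ℝ ∞ (fderiv ℝ f) z := h.fderiv_right (by simp)
  have hd : DifferentiableAt ℝ (fderiv ℝ f) z := h1.differentiableAt (by simp)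
  have h2 : ∀ v : Cn n, DifferentiableAt ℝ (fun y => fderiv ℝ f y v) z :=
    fun v => hd.clm_apply (differentiableAt_const v)
  have h3 : ∀ v w : Cn n, fderiv ℝ (fun y => fderiv ℝ f y v) z w = fderiv ℝ (fderiv ℝ f) z w v := by
    intro v w
    rw [fderiv_clm_apply hd (differentiableAt_const v)]
    simp
  have hsymm : ∀ v w : Cn n, fderiv ℝ (fderiv ℝ f) z w v = fderiv ℝ (fderiv ℝ f) z v w :=
    fun v w => (h.isSymmSndFDerivAt (by
      simp only [minSmoothness_of_isRCLikeNormedField]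
      exact WithTop.coe_le_coe.2 (le_top : (2 : ℕ∞) ≤ ⊤))).eq w v
  have h4 : ∀ (t' : ℂ) (b' : Fin n) (w : Cn n), fderiv ℝ (dS t' b' f) z w
      = (1 / 2 : ℂ) * (fderiv ℝ (fderiv ℝ f) z w (EuclideanSpace.single b' 1) +
        t' * fderiv ℝ (fderiv ℝ f) z w (EuclideanSpace.single b' I)) := by
    intro t' b' w
    have e1 : fderiv ℝ (fun y => t' * fderiv ℝ f y (EuclideanSpace.single b' I)) z
        = t' • fderiv ℝ (fun y => fderiv ℝ f y (EuclideanSpace.single b' I)) z :=
      fderiv_const_mul (h2 _) t'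
    have e2 : fderiv ℝ (fun y => fderiv ℝ f y (EuclideanSpace.single b' 1) +
        t' * fderiv ℝ f y (EuclideanSpace.single b' I)) z
        = fderiv ℝ (fun y => fderiv ℝ f y (EuclideanSpace.single b' 1)) z +
          fderiv ℝ (fun y => t' * fderiv ℝ f y (EuclideanSpace.single b' I)) z :=
      fderiv_add (h2 _) ((h2 _).const_mul t')
    have e3 : fderiv ℝ (dS t' b' f) z = (1 / 2 : ℂ) •
        fderiv ℝ (fun y => fderiv ℝ f y (EuclideanSpace.single b' 1) +
          t' * fderiv ℝ f y (EuclideanSpace.single b' I)) z :=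
      fderiv_const_mul ((h2 _).add ((h2 _).const_mul t')) (1 / 2 : ℂ)
    rw [e3, e2, e1]
    simp only [_root_.add_apply, _root_.smul_apply, smul_eq_mul, h3]
  show (1 / 2 : ℂ) * (fderiv ℝ (dS t b f) z _ + s * fderiv ℝ (dS t b f) z _)
    = (1 / 2 : ℂ) * (fderiv ℝ (dS s a f) z _ + t * fderiv ℝ (dS s a f) z _)
  rw [h4, h4, h4, h4, hsymm (EuclideanSpace.single b 1) (EuclideanSpace.single a 1),
    hsymm (EuclideanSpace.single b 1) (EuclideanSpace.single a I),
    hsymm (EuclideanSpace.single b I) (EuclideanSpace.single a 1),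
    hsymm (EuclideanSpace.single b I) (EuclideanSpace.single a I)]
  ring

/-! ### vectors and matrices -/

variable {ι κ σ : Type} [Fintype ι] [Fintype κ] [Fintype σ]

/-- derivative of a vector -/
def dV {ι : Type} (s : ℂ) (a : Fin n) (v : Cn n → ι → ℂ) (z : Cn n) : ι → ℂ :=
  fun S => dS s a (fun y => v y S) z

/-- derivative of a matrix -/
def dM {ι κ : Type} (s : ℂ) (a : Fin n) (v : Cn n → Matrix ι κ ℂ) (z : Cn n) : Matrix ι κ ℂ :=
  fun S T => dS s a (fun y => v y S T) z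

theorem dS_dot {s : ℂ} {a : Fin n} {p q : Cn n → ι → ℂ} {z : Cn n}
    (hp : ∀ i, DifferentiableAt ℝ (fun y => p y i) z)
    (hq : ∀ i, DifferentiableAt ℝ (fun y => q y i) z) :
    dS s a (fun y => p y ⬝ᵥ q y) z = dV s a p z ⬝ᵥ q z + p z ⬝ᵥ dV s a q z := by
  unfold dotProduct dV
  rw [dS_sum (f := fun i y => p y i * q y i) _ fun i _ => (hp i).mul (hq i),
    ← Finset.sum_add_distrib]
  exact Finset.sum_congr rfl fun i _ => dS_mul (hp i) (hq i)

theorem dV_mulVec {s : ℂ} {a : Fin n} {m : Cn n → Matrix ι κ ℂ} {v : Cn n → κ → ℂ} {z : Cn n}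
    (hm : ∀ i j, DifferentiableAt ℝ (fun y => m y i j) z)
    (hv : ∀ i, DifferentiableAt ℝ (fun y => v y i) z) :
    dV s a (fun y => m y *ᵥ v y) z = dM s a m z *ᵥ v z + m z *ᵥ dV s a v z := by
  funext S
  exact dS_dot (p := fun y => m y S) (hm S) hv

theorem dV_const_mulVec {s : ℂ} {a : Fin n} (m : Matrix ι κ ℂ) {v : Cn n → κ → ℂ} {z : Cn n}
    (hv : ∀ i, DifferentiableAt ℝ (fun y => v y i) z) :
    dV s a (fun y => m *ᵥ v y) z = m *ᵥ dV s a v z := by
  rw [dV_mulVec (m := fun _ => m) (fun _ _ => differentiableAt_const _) hv]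
  have : dM s a (fun _ : Cn n => m) z = 0 := by
    ext i j; exact dS_const
  rw [this, Matrix.zero_mulVec, zero_add]

theorem dM_mul {s : ℂ} {a : Fin n} {m : Cn n → Matrix ι κ ℂ} {m' : Cn n → Matrix κ σ ℂ}
    {z : Cn n} (hm : ∀ i j, DifferentiableAt ℝ (fun y => m y i j) z)
    (hm' : ∀ i j, DifferentiableAt ℝ (fun y => m' y i j) z) :
    dM s a (fun y => m y * m' y) z = dM s a m z * m' z + m z * dM s a m' z := by
  ext S T
  exact dS_dot (p := fun y => m y S) (q := fun y i => m' y i T) (hm S) (fun i => hm' i T)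

theorem dM_mul_const {s : ℂ} {a : Fin n} {m : Cn n → Matrix ι κ ℂ} (c : Matrix κ σ ℂ)
    {z : Cn n} (hm : ∀ i j, DifferentiableAt ℝ (fun y => m y i j) z) :
    dM s a (fun y => m y * c) z = dM s a m z * c := by
  rw [dM_mul (m' := fun _ => c) hm (fun _ _ => differentiableAt_const _)]
  have : dM s a (fun _ : Cn n => c) z = 0 := by
    ext i j; exact dS_const
  rw [this, Matrix.mul_zero, add_zero]

theorem dM_const_mul {s : ℂ} {a : Fin n} {m : Cn n → Matrix κ σ ℂ} (c : Matrix ι κ ℂ)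
    {z : Cn n} (hm : ∀ i j, DifferentiableAt ℝ (fun y => m y i j) z) :
    dM s a (fun y => c * m y) z = c * dM s a m z := by
  rw [dM_mul (m := fun _ => c) (fun _ _ => differentiableAt_const _) hm]
  have : dM s a (fun _ : Cn n => c) z = 0 := by
    ext i j; exact dS_const
  rw [this, Matrix.zero_mul, zero_add]

theorem dV_add {ι : Type} {s : ℂ} {a : Fin n} {p q : Cn n → ι → ℂ} {z : Cn n}
    (hp : ∀ i, DifferentiableAt ℝ (fun y => p y i) z)
    (hq : ∀ i, DifferentiableAt ℝ (fun y => q y i) z) :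
    dV s a (fun y => p y + q y) z = dV s a p z + dV s a q z := by
  funext S
  exact dS_add (hp S) (hq S)

theorem dV_smul {ι : Type} {s : ℂ} {a : Fin n} {c : Cn n → ℂ} {q : Cn n → ι → ℂ} {z : Cn n}
    (hc : DifferentiableAt ℝ c z) (hq : ∀ i, DifferentiableAt ℝ (fun y => q y i) z) :
    dV s a (fun y => c y • q y) z = dS s a c z • q z + c z • dV s a q z := by
  funext S
  exact dS_mul hc (hq S)

theorem dV_sum {ι τ : Type} {s : ℂ} {a : Fin n} (t : Finset τ) {f : τ → Cn n → ι → ℂ} {z : Cn n}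
    (hf : ∀ i ∈ t, ∀ j, DifferentiableAt ℝ (fun y => f i y j) z) :
    dV s a (fun y => ∑ i ∈ t, f i y) z = ∑ i ∈ t, dV s a (f i) z := by
  funext S
  have h1 : dV s a (fun y => ∑ i ∈ t, f i y) z S = dS s a (fun y => ∑ i ∈ t, f i y S) z := by
    unfold dV
    congr 1
    funext y
    exact Finset.sum_apply S t _
  rw [h1, dS_sum t fun i hi => hf i hi S, Finset.sum_apply]
  rfl

theorem dV_conj {ι : Type} {s : ℂ} {a : Fin n} {v : Cn n → ι → ℂ} {z : Cn n}
    (hv : ∀ i, DifferentiableAt ℝ (fun y => v y i) z) :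
    dV s a (fun y => star (v y)) z = star (dV (conj s) a v z) := by
  funext S
  exact dS_conj (hv S)

theorem SmV.diff {ι : Type} {z : Cn n} {v : Cn n → ι → ℂ} (h : SmV z v) (i : ι) :
    DifferentiableAt ℝ (fun y => v y i) z := (h i).diff

theorem SmM.diff {ι κ : Type} {z : Cn n} {v : Cn n → Matrix ι κ ℂ} (h : SmM z v) (i : ι)
    (j : κ) : DifferentiableAt ℝ (fun y => v y i j) z := (h i j).diff

theorem SmV.dV {ι : Type} {z : Cn n} {v : Cn n → ι → ℂ} (h : SmV z v) (s : ℂ) (a : Fin n) :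
    SmV z (dV s a v) := fun S => (h S).dS s a

theorem SmM.dM {ι κ : Type} {z : Cn n} {v : Cn n → Matrix ι κ ℂ} (h : SmM z v) (s : ℂ)
    (a : Fin n) : SmM z (dM s a v) := fun S T => (h S T).dS s a

theorem Sm.conj {z : Cn n} {f : Cn n → ℂ} (h : Sm z f) : Sm z (fun y => conj (f y)) :=
  (Complex.conjCLE.contDiff (n := ∞)).contDiffAt.comp z h

theorem SmV.star {ι : Type} {z : Cn n} {v : Cn n → ι → ℂ} (h : SmV z v) :
    SmV z (fun y => star (v y)) := fun S => (h S).conj

theorem Sm.sum {τ : Type*} {z : Cn n} (t : Finset τ) {f : τ → Cn n → ℂ}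
    (h : ∀ i ∈ t, Sm z (f i)) : Sm z (fun y => ∑ i ∈ t, f i y) := ContDiffAt.sum h

theorem SmV.dot {z : Cn n} {p q : Cn n → ι → ℂ} (hp : SmV z p) (hq : SmV z q) :
    Sm z (fun y => p y ⬝ᵥ q y) := ContDiffAt.sum fun i _ => (hp i).mul (hq i)

theorem SmM.mulVec {z : Cn n} {m : Cn n → Matrix ι κ ℂ} {v : Cn n → κ → ℂ} (hm : SmM z m)
    (hv : SmV z v) : SmV z (fun y => m y *ᵥ v y) := fun S => SmV.dot (fun j => hm S j) hv

theorem SmV.const_mulVec {z : Cn n} (m : Matrix ι κ ℂ) {v : Cn n → κ → ℂ}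
    (hv : SmV z v) : SmV z (fun y => m *ᵥ v y) :=
  SmM.mulVec (fun _ _ => contDiffAt_const) hv

theorem SmM.mul {z : Cn n} {m : Cn n → Matrix ι κ ℂ} {m' : Cn n → Matrix κ σ ℂ} (hm : SmM z m)
    (hm' : SmM z m') : SmM z (fun y => m y * m' y) :=
  fun S T => SmV.dot (p := fun y => m y S) (q := fun y i => m' y i T) (fun j => hm S j)
    (fun j => hm' j T)

theorem SmM.det {k : Type} [Fintype k] [DecidableEq k] {z : Cn n} {m : Cn n → Matrix k k ℂ}
    (hm : SmM z m) : Sm z (fun y => (m y).det) := by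
  simp only [Matrix.det_apply']
  exact ContDiffAt.sum fun σ _ => contDiffAt_const.mul (contDiffAt_prod fun i _ => hm _ _)

theorem SmM.Gam {z : Cn n} {m : Cn n → Matrix (Fin n) (Fin n) ℂ} (hm : SmM z m) :
    SmM z (fun y => Gam (m y)) := by
  intro S T
  by_cases h : S.card = T.card
  · have h1 : (fun y => Fock_243.Gam (m y) S T) = fun y =>
        ((m y).submatrix (S.orderEmbOfFin rfl) (T.orderEmbOfFin h.symm)).det := by
      funext y; exact Gam_eq _ _ _
    rw [h1]
    exact SmM.det fun i j => hm _ _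
  · have h1 : (fun y => Fock_243.Gam (m y) S T) = fun _ => 0 := by
      funext y; exact Gam_of_ne _ h
    rw [h1]
    exact contDiffAt_const

theorem dM_eW {s : ℂ} {a : Fin n} {v : Cn n → Fin n → ℂ} {z : Cn n}
    (hv : ∀ i, DifferentiableAt ℝ (fun y => v y i) z) :
    dM s a (fun y => eW (v y)) z = eW (dV s a v z) := by
  have h1 : (fun y => eW (v y)) = fun y => ∑ j, v y j • eW (ep j) := by
    funext y; exact eW_eq_sum _
  rw [h1, eW_eq_sum (dV s a v z)]
  ext S T
  have h2 : (fun y => (∑ j, v y j • eW (ep j) : Matrix (FI n) (FI n) ℂ) S T)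
      = fun y => ∑ j, v y j * (eW (ep j) : Matrix (FI n) (FI n) ℂ) S T := by
    funext y
    rw [Matrix.sum_apply]
    rfl
  show dS s a (fun y => (∑ j, v y j • eW (ep j) : Matrix (FI n) (FI n) ℂ) S T) z = _
  rw [h2, dS_sum _ fun j _ => (hv j).mul_const _, Matrix.sum_apply]
  refine Finset.sum_congr rfl fun j _ => ?_
  rw [dS_mul (hv j) (differentiableAt_const _), dS_const, mul_zero, add_zero]
  rfl


/-- derivative of the functor `Gam` -/
theorem dM_Gam_eW {s : ℂ} {a : Fin n} {m : Cn n → Matrix (Fin n) (Fin n) ℂ} {z : Cn n}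
    (hm : SmM z m) (j : Fin n) :
    dM s a (fun y => Gam (m y)) z * eW (ep j)
      = eW (fun b => dM s a m z b j) * Gam (m z)
        + eW (fun b => m z b j) * dM s a (fun y => Gam (m y)) z := by
  rw [← dM_mul_const _ (fun S T => (SmM.Gam hm S T).diff)]
  have h1 : (fun y => Gam (m y) * eW (ep j)) = fun y => eW (fun b => m y b j) * Gam (m y) := by
    funext y; exact Gam_eW_ep _ _
  have h2 : SmM z (fun y => (eW (fun b => m y b j) : Matrix (FI n) (FI n) ℂ)) := by
    intro S T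
    have h3 : (fun y => (eW (fun b => m y b j) : Matrix (FI n) (FI n) ℂ) S T)
        = fun y => ∑ b, m y b j * (eW (ep b) : Matrix (FI n) (FI n) ℂ) S T := by
      funext y
      rw [eW_eq_sum, Matrix.sum_apply]
      rfl
    rw [h3]
    exact ContDiffAt.sum fun b _ => (hm b j).mul contDiffAt_const
  rw [h1, dM_mul (fun S T => (h2 S T).diff) (fun S T => (SmM.Gam hm S T).diff),
    dM_eW (fun b => (hm b j).diff)]
  rfl

theorem iW_dM_Gam {s : ℂ} {a : Fin n} {m : Cn n → Matrix (Fin n) (Fin n) ℂ} {z : Cn n}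
    (hm : SmM z m) (j : Fin n) :
    iW (ep j) * dM s a (fun y => Gam (m y)) z
      = Gam (m z) * iW (fun b => dM s a m z j b)
        + dM s a (fun y => Gam (m y)) z * iW (fun b => m z j b) := by
  have h := congrArg Matrix.transpose (dM_Gam_eW (s := s) (a := a) (z := z)
    (m := fun y => (m y)ᵀ) (fun i j => hm j i) j)
  rw [Matrix.transpose_mul, Matrix.transpose_add, Matrix.transpose_mul, Matrix.transpose_mul,
    eW_transpose, eW_transpose, eW_transpose, Gam_transpose, Matrix.transpose_transpose] at h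
  have h1 : (dM s a (fun y => Gam ((m y)ᵀ)) z)ᵀ = dM s a (fun y => Gam (m y)) z := by
    ext S T
    show dS s a (fun y => Gam ((m y)ᵀ) T S) z = dS s a (fun y => Gam (m y) S T) z
    have : ∀ y, Gam ((m y)ᵀ) T S = Gam (m y) S T := fun y => by
      rw [← Gam_transpose, Matrix.transpose_apply]
    simp only [this]
  rw [h1] at h
  exact h

theorem dM_Gam_vac {s : ℂ} {a : Fin n} {m : Cn n → Matrix (Fin n) (Fin n) ℂ} {z : Cn n}
    (S : FI n) : dM s a (fun y => Gam (m y)) z S ∅ = 0 := by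
  show dS s a (fun y => Gam (m y) S ∅) z = 0
  simp only [Gam_vac]
  exact dS_const

theorem dM_Gam_vac' {s : ℂ} {a : Fin n} {m : Cn n → Matrix (Fin n) (Fin n) ℂ} {z : Cn n}
    (S : FI n) : dM s a (fun y => Gam (m y)) z ∅ S = 0 := by
  show dS s a (fun y => Gam (m y) ∅ S) z = 0
  have : ∀ y, Gam (m y) ∅ S = if S = ∅ then 1 else 0 := fun y => by
    rw [← Matrix.transpose_apply (Gam (m y)), Gam_transpose, Gam_vac]
  simp only [this]
  exact dS_const

end

end Crest.Agent.R273.Calc_243
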