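import Crest.Agent.R273.Map_835
import Crest.Agent.R273.PFlow_522
import Crest.Agent.R273.RetD_155
import Crest.Agent.R273.Vol_333
import Crest.Agent.R273.Levi_145

-- ▼ part R273/TorMin_422
section

/-!
# R273 (S0416), torus step (helper422): minors of the 1-jets of homogeneous coordinates

`jt P i x`   : matrix with rows `F_i, ∂_1 F_i, …, ∂_n F_i` at `x`
`GS P S i x` : its minor with the columns `S`
* `exists_GS_ne` : some minor does not vanish (immersion)
* `GS_map`       : `det (J φ) G_S(φ x) = c^{n+1} Δ_S G_S(x)` if `F ∘ φ = c Δ F`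
* `GS_tr`        : change of charts
-/

set_option autoImplicit false
set_option linter.unusedSectionVars false

open Set Filter Topology Complex
open scoped ContDiff Matrix ComplexConjugate Manifold

namespace Crest.Agent.R273.TorMin_422

open Crest.Agent.R275.Geo Crest.Agent.R275.Core144
open Crest.Agent.R273.Defs_333 Crest.Agent.R273.Map_835

noncomputable section

/-- a matrix with linearly independent rows has a nonvanishing minor -/
theorem exists_minor {r m : Type} [Fintype r] [DecidableEq r] [Fintype m]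
    (B : Matrix r m ℂ) (h : LinearIndependent ℂ B.row) : ∃ S : r → m, (B.submatrix id S).det ≠ 0 := by
  classical
  obtain ⟨κ, a, hinj, hspan, hli⟩ := exists_linearIndependent' ℂ (B.col)
  have h1 : Module.finrank ℂ (Submodule.span ℂ (range B.col)) = Fintype.card r := by
    rw [← Matrix.rank_eq_finrank_span_cols]
    exact h.rank_matrix
  have : Finite κ := Finite.of_injective a hinj
  have : Fintype κ := Fintype.ofFinite κ
  have h2 : Module.finrank ℂ (Submodule.span ℂ (range (B.col ∘ a))) = Fintype.card κ :=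
    finrank_span_eq_card hli
  have hcard : Fintype.card r = Fintype.card κ := by rw [← h1, ← h2, hspan]
  let e : r ≃ κ := Fintype.equivOfCardEq hcard
  refine ⟨fun i => a (e i), ?_⟩
  have h3 : LinearIndependent ℂ (B.submatrix id (fun i => a (e i))).col := by
    have := hli.comp e e.injective
    exact this
  have h4 := Matrix.linearIndependent_cols_iff_isUnit.1 h3
  exact ((Matrix.isUnit_iff_isUnit_det _).1 h4).ne_zero

variable {n : ℕ} {M : Type} [TopologicalSpace M] {A : Atl n M}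

/-- the homogeneous coordinates read in the chart `i` -/
def Fr (P : ProjD A) (i : A.ι) (z : Cn n) : Fin (P.N + 1) → ℂ := P.F i ((A.e i).symm z)

theorem Fr_at (P : ProjD A) {i : A.ι} {x : M} (hx : x ∈ (A.e i).source) :
    Fr P i (A.e i x) = P.F i x := by
  simp only [Fr, (A.e i).left_inv hx]

theorem Fr_diff (P : ProjD A) (i : A.ι) : DifferentiableOn ℂ (Fr P i) (A.e i).target := by
  rw [differentiableOn_pi]
  intro k
  have := P.hol i k
  unfold HolAt at this
  rw [preimage_univ, inter_univ] at this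
  exact this

theorem Fr_diffAt (P : ProjD A) {i : A.ι} {z : Cn n} (hz : z ∈ (A.e i).target) :
    DifferentiableAt ℂ (Fr P i) z :=
  (Fr_diff P i).differentiableAt ((A.e i).open_target.mem_nhds hz)

/-- the 1-jet of the homogeneous coordinates -/
def jt (P : ProjD A) (i : A.ι) (x : M) : Matrix (Unit ⊕ Fin n) (Fin (P.N + 1)) ℂ :=
  Matrix.of fun r k => Sum.elim (fun _ => P.F i x k)
    (fun a => fderiv ℂ (Fr P i) (A.e i x) (EuclideanSpace.single a 1) k) r

@[simp] theorem jt_inl (P : ProjD A) (i : A.ι) (x : M) (u : Unit) (k : Fin (P.N + 1)) :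
    jt P i x (Sum.inl u) k = P.F i x k := rfl

@[simp] theorem jt_inr (P : ProjD A) (i : A.ι) (x : M) (a : Fin n) (k : Fin (P.N + 1)) :
    jt P i x (Sum.inr a) k = fderiv ℂ (Fr P i) (A.e i x) (EuclideanSpace.single a 1) k := rfl

/-- the minors -/
def GS (P : ProjD A) (S : Unit ⊕ Fin n → Fin (P.N + 1)) (i : A.ι) (x : M) : ℂ :=
  ((jt P i x).submatrix id S).det

theorem sum_single' (v : Cn n) : ∑ a, v a • (EuclideanSpace.single a (1 : ℂ) : Cn n) = v := by
  ext b
  simp [Finset.sum_apply, Pi.single_apply]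

theorem jt_rows (P : ProjD A) {i : A.ι} {x : M} (hx : x ∈ (A.e i).source) :
    LinearIndependent ℂ (jt P i x).row := by
  rw [Fintype.linearIndependent_iff]
  intro c hc
  have h1 : ∀ k, c (Sum.inl ()) * P.F i x k +
      ∑ a, c (Sum.inr a) * fderiv ℂ (Fr P i) (A.e i x) (EuclideanSpace.single a 1) k = 0 := by
    intro k
    have := congrFun hc k
    simpa [Fintype.sum_sum_type, Matrix.row, Finset.sum_apply] using this
  set v : Cn n := ∑ a, c (Sum.inr a) • (EuclideanSpace.single a (1 : ℂ) : Cn n) with hv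
  have h2 : fderiv ℂ (Fr P i) (A.e i x) v = (-(c (Sum.inl ()))) • P.F i x := by
    ext k
    rw [hv, map_sum]
    have := h1 k
    simp only [map_smul, Finset.sum_apply, Pi.smul_apply, smul_eq_mul]
    linear_combination this
  have h3 : v = 0 := by
    refine P.imm i (A.e i x) ((A.e i).map_source hx) v ⟨-(c (Sum.inl ())), ?_⟩
    rw [(A.e i).left_inv hx]
    exact h2
  have h4 : ∀ a, c (Sum.inr a) = 0 := by
    intro a
    have := congrArg (fun w : Cn n => w a) h3
    simpa [hv, Finset.sum_apply, Pi.single_apply] using this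
  have h5 : c (Sum.inl ()) = 0 := by
    obtain ⟨k, hk⟩ := Function.ne_iff.1 (P.ne i x hx)
    have := h1 k
    simp only [h4, zero_mul, Finset.sum_const_zero, add_zero] at this
    exact (mul_eq_zero.1 this).resolve_right hk
  rintro (u | a)
  · exact h5
  · exact h4 a

/-- some minor does not vanish -/
theorem exists_GS_ne (P : ProjD A) {i : A.ι} {x : M} (hx : x ∈ (A.e i).source) :
    ∃ S, GS P S i x ≠ 0 := exists_minor _ (jt_rows P hx)

theorem hol_GS (P : ProjD A) (S : Unit ⊕ Fin n → Fin (P.N + 1)) (i : A.ι) :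
    HolAt A i univ (GS P S i) := by
  have h0 : DifferentiableOn ℂ (fderiv ℂ (Fr P i)) (A.e i).target :=
    ((Crest.Agent.R266.SCV.analyticOnNhd_of_differentiableOn (A.e i).open_target
      (Fr_diff P i)).fderiv).differentiableOn
  have key : ∀ r k, HolAt A i univ (fun x => jt P i x r k) := by
    rintro (u | a) k
    · exact P.hol i k
    · have h1 : DifferentiableOn ℂ (fun z => fderiv ℂ (Fr P i) z (EuclideanSpace.single a 1))
          (A.e i).target := h0.clm_apply (differentiableOn_const _)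
      have h2 := (differentiableOn_pi.1 h1) k
      unfold HolAt
      rw [preimage_univ, inter_univ]
      refine h2.congr fun z hz => ?_
      simp only [jt_inr, (A.e i).right_inv hz]
  unfold GS
  simp only [Matrix.det_apply]
  refine HolAt.sum _ fun σ _ => ?_
  have h2 : HolAt A i univ fun x => ∏ b, (jt P i x).submatrix id S (σ b) b :=
    HolAt.prod _ fun b _ => key (σ b) (S b)
  simp only [Units.smul_def, zsmul_eq_mul]
  exact h2.const_mul _

/-- **transformation of the minors**: `φ : M → M` holomorphic near `x` (charts `i` at `x`, `j` at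
`φ x`) and `F ∘ φ = c Δ F` near `x` -/
theorem GS_map (P : ProjD A) {φ : M → M} {i j : A.ι} {x : M} (hx : x ∈ (A.e i).source)
    (hj : φ x ∈ (A.e j).source) (hφ : DifferentiableAt ℂ (rd A A φ i j) (A.e i x))
    (Δ : Fin (P.N + 1) → ℂ) (hΔ : ∀ k, Δ k ≠ 0) {c : ℂ}
    (hc : ∀ k, P.F j (φ x) k = c * (Δ k * P.F i x k))
    (hev : ∀ᶠ z in 𝓝 (A.e i x), φ ((A.e i).symm z) ∈ (A.e j).source ∧
      ∃ c : ℂ, ∀ k, P.F j (φ ((A.e i).symm z)) k = c * (Δ k * P.F i ((A.e i).symm z) k))
    (S : Unit ⊕ Fin n → Fin (P.N + 1)) :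
    (Jp A A φ i j x).det * GS P S j (φ x) = c ^ (n + 1) * (∏ r, Δ (S r)) * GS P S i x := by
  classical
  set z0 := A.e i x with hz0
  have hz0t : z0 ∈ (A.e i).target := (A.e i).map_source hx
  have hxz : (A.e i).symm z0 = x := (A.e i).left_inv hx
  obtain ⟨k0, hk0⟩ := Function.ne_iff.1 (P.ne i x hx)
  have hF0 : Fr P i z0 k0 ≠ 0 := by rw [hz0, Fr_at P hx]; exact hk0
  have hFd : DifferentiableAt ℂ (Fr P i) z0 := Fr_diffAt P hz0t
  have hval : rd A A φ i j z0 = A.e j (φ x) := by simp only [rd, hxz]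
  have hjt : A.e j (φ x) ∈ (A.e j).target := (A.e j).map_source hj
  have hGd : DifferentiableAt ℂ (Fr P j) (rd A A φ i j z0) := by
    rw [hval]; exact Fr_diffAt P hjt
  have hcomp : DifferentiableAt ℂ (fun z => Fr P j (rd A A φ i j z)) z0 :=
    DifferentiableAt.comp z0 (f := rd A A φ i j) hGd hφ
  -- the factor as a function
  set C : Cn n → ℂ := fun z => Fr P j (rd A A φ i j z) k0 / (Δ k0 * Fr P i z k0) with hC
  have hCd : DifferentiableAt ℂ C z0 := by
    have e1 : DifferentiableAt ℂ (fun z => Fr P j (rd A A φ i j z) k0) z0 :=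
      (differentiableAt_pi.1 hcomp) k0
    have e2 : DifferentiableAt ℂ (fun z => Δ k0 * Fr P i z k0) z0 :=
      ((differentiableAt_pi.1 hFd) k0).const_mul _
    have e3 := e1.mul (e2.inv (mul_ne_zero (hΔ k0) hF0))
    exact e3
  have hne : ∀ᶠ z in 𝓝 z0, Fr P i z k0 ≠ 0 := by
    have := ((differentiableAt_pi.1 hFd) k0).continuousAt
    exact this.eventually_ne hF0
  have hEq : ∀ᶠ z in 𝓝 z0, ∀ k, Fr P j (rd A A φ i j z) k = C z * (Δ k * Fr P i z k) := by
    filter_upwards [hev, hne, (A.e i).open_target.mem_nhds hz0t] with z h1 h2 h3 k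
    obtain ⟨h1, c', hc'⟩ := h1
    have h4 : ∀ k, Fr P j (rd A A φ i j z) k = c' * (Δ k * Fr P i z k) := by
      intro k
      simp only [Fr, rd, (A.e j).left_inv h1]
      exact hc' k
    have h5 : C z = c' := by
      rw [hC]
      simp only
      rw [h4 k0, mul_div_assoc, div_self (mul_ne_zero (hΔ k0) h2), mul_one]
    rw [h5, h4 k]
  have hC0 : C z0 = c := by
    rw [hC]
    simp only
    have h1 : Fr P j (rd A A φ i j z0) k0 = P.F j (φ x) k0 := by
      simp only [Fr, rd, hxz, (A.e j).left_inv hj]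
    have h2 : Fr P i z0 k0 = P.F i x k0 := by simp only [Fr, hxz]
    rw [h1, h2, hc k0, mul_div_assoc, div_self, mul_one]
    rw [h2] at hF0
    exact mul_ne_zero (hΔ k0) hF0
  -- derivative of both sides
  have hder : ∀ (a : Fin n) (k : Fin (P.N + 1)),
      ∑ b, (Jp A A φ i j x) b a * jt P j (φ x) (Sum.inr b) k =
        fderiv ℂ C z0 (EuclideanSpace.single a 1) * (Δ k * P.F i x k) +
          c * (Δ k * jt P i x (Sum.inr a) k) := by
    intro a k
    have h1 : HasFDerivAt (fun z => Fr P j (rd A A φ i j z))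
        ((fderiv ℂ (Fr P j) (rd A A φ i j z0)).comp (fderiv ℂ (rd A A φ i j) z0)) z0 :=
      HasFDerivAt.comp z0 (f := rd A A φ i j) hGd.hasFDerivAt hφ.hasFDerivAt
    have h2 : HasFDerivAt (fun z => Fr P j (rd A A φ i j z) k)
        ((ContinuousLinearMap.proj (R := ℂ) k).comp
          ((fderiv ℂ (Fr P j) (rd A A φ i j z0)).comp (fderiv ℂ (rd A A φ i j) z0))) z0 :=
      (ContinuousLinearMap.proj (R := ℂ) (φ := fun _ : Fin (P.N + 1) => ℂ)
        k).hasFDerivAt.comp z0 h1
    have h3 : HasFDerivAt (fun z => C z * (Δ k * Fr P i z k))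
        (C z0 • (Δ k • ((ContinuousLinearMap.proj (R := ℂ) k).comp (fderiv ℂ (Fr P i) z0))) +
          (Δ k * Fr P i z0 k) • fderiv ℂ C z0) z0 := by
      have h4 : HasFDerivAt (fun z => Fr P i z k)
          ((ContinuousLinearMap.proj (R := ℂ) k).comp (fderiv ℂ (Fr P i) z0)) z0 :=
        (ContinuousLinearMap.proj (R := ℂ) (φ := fun _ : Fin (P.N + 1) => ℂ)
          k).hasFDerivAt.comp z0 hFd.hasFDerivAt
      exact hCd.hasFDerivAt.mul (h4.const_mul (Δ k))
    have h5 : (fun z => Fr P j (rd A A φ i j z) k) =ᶠ[𝓝 z0] fun z => C z * (Δ k * Fr P i z k) := by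
      filter_upwards [hEq] with z hz using hz k
    have h6 := (h3.congr_of_eventuallyEq h5).unique h2
    have h7 := congrArg (fun T : Cn n →L[ℂ] ℂ => T (EuclideanSpace.single a 1)) h6
    simp only [add_apply, smul_apply,
      ContinuousLinearMap.comp_apply, ContinuousLinearMap.proj_apply, smul_eq_mul] at h7
    have h8 : fderiv ℂ (rd A A φ i j) z0 (EuclideanSpace.single a 1) =
        ∑ b, (Jp A A φ i j x) b a • (EuclideanSpace.single b (1 : ℂ) : Cn n) := by
      rw [← sum_single' (fderiv ℂ (rd A A φ i j) z0 (EuclideanSpace.single a 1))]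
      rfl
    rw [h8, map_sum, hval] at h7
    simp only [map_smul, Finset.sum_apply, Pi.smul_apply, smul_eq_mul] at h7
    have h9 : Fr P i z0 k = P.F i x k := by simp only [Fr, hxz]
    rw [h9, hC0] at h7
    simp only [jt_inr]
    rw [← h7, ← hz0]
    ring
  -- matrix identity
  set L1 : Matrix (Unit ⊕ Fin n) (Unit ⊕ Fin n) ℂ :=
    Matrix.fromBlocks (1 : Matrix Unit Unit ℂ) 0 0 (Jp A A φ i j x)ᵀ with hL1
  set L2 : Matrix (Unit ⊕ Fin n) (Unit ⊕ Fin n) ℂ :=
    Matrix.fromBlocks (c • (1 : Matrix Unit Unit ℂ)) 0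
      (Matrix.of fun a _ => fderiv ℂ C z0 (EuclideanSpace.single a 1))
      (c • (1 : Matrix (Fin n) (Fin n) ℂ)) with hL2
  have hmat : L1 * (jt P j (φ x)).submatrix id S =
      L2 * ((jt P i x).submatrix id S * Matrix.diagonal (fun r => Δ (S r))) := by
    ext r s
    rw [Matrix.mul_apply, Matrix.mul_apply]
    simp only [Matrix.mul_diagonal, Matrix.submatrix_apply, id_eq, Fintype.sum_sum_type]
    rcases r with u | a
    · simp only [hL1, hL2, Matrix.fromBlocks_apply₁₁, Matrix.fromBlocks_apply₁₂,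
        Matrix.zero_apply, zero_mul, Finset.sum_const_zero, add_zero, Matrix.smul_apply,
        Finset.univ_unique, Finset.sum_singleton, smul_eq_mul]
      have e : ∀ u : Unit, (1 : Matrix Unit Unit ℂ) u default = 1 := fun u => by
        rw [Subsingleton.elim u default, Matrix.one_apply_eq]
      rw [e, jt_inl, jt_inl, hc (S s)]
      ring
    · simp only [hL1, hL2, Matrix.fromBlocks_apply₂₁, Matrix.fromBlocks_apply₂₂,
        Matrix.zero_apply, zero_mul, Finset.sum_const_zero, zero_add,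
        Finset.univ_unique, Finset.sum_singleton, Matrix.transpose_apply, Matrix.of_apply,
        Matrix.smul_apply, smul_eq_mul, Matrix.one_apply, mul_ite, mul_one, mul_zero,
        ite_mul, zero_mul, Finset.sum_ite_eq, Finset.mem_univ, if_true]
      rw [hder a (S s), jt_inl]
      ring
  have hdet := congrArg Matrix.det hmat
  rw [Matrix.det_mul, Matrix.det_mul, Matrix.det_mul, Matrix.det_diagonal, hL1, hL2,
    Matrix.det_fromBlocks_zero₁₂, Matrix.det_fromBlocks_zero₁₂, Matrix.det_one, one_mul,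
    Matrix.det_transpose, Matrix.det_smul, Matrix.det_smul, Matrix.det_one, Matrix.det_one,
    mul_one, mul_one, Fintype.card_fin, Fintype.card_unit, pow_one] at hdet
  unfold GS
  rw [hdet]
  ring

end

end Crest.Agent.R273.TorMin_422
end

-- ▼ part R273/TorFr_422
section

/-!
# R273 (S0416), torus step (helper422): the canonical frame comparison along the retraction

`RF P`    : flow `D z = diag(e^{z x_k})` and limit retraction `r`;
`bb`      : `F_i(y)|_{x = m} = bb i j y • F_j(r y)`;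
`eps`     : `eps i j y = (bb i j y)^{n+1} G_S(r y) / G_S(y)`, independent of `S`
* `eps_ne`, `eps_left`, `eps_right`, `eps_fix`, `eps_hol`
-/

set_option autoImplicit false
set_option linter.unusedSectionVars false

open Set Filter Topology Complex
open scoped ContDiff Matrix ComplexConjugate Manifold

namespace Crest.Agent.R273.TorFr_422

open Crest.Agent.R275.Geo Crest.Agent.R275.Core144
open Crest.Agent.R273.Defs_333 Crest.Agent.R273.Map_835
open Crest.Agent.R273.TorMin_422 Crest.Agent.R273.PFlow_522 Crest.Agent.R273.Ret_155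

noncomputable section

variable {n : ℕ} {M : Type} [TopologicalSpace M] {A : Atl n M}

/-- keep only the coordinates of weight `m` -/
def prm {N : ℕ} (x : Fin (N + 1) → ℝ) (m : ℝ) (v : Fin (N + 1) → ℂ) : Fin (N + 1) → ℂ :=
  fun k => if x k = m then v k else 0

theorem prm_smul {N : ℕ} (x : Fin (N + 1) → ℝ) (m : ℝ) (c : ℂ) (v : Fin (N + 1) → ℂ) :
    prm x m (c • v) = c • prm x m v := by
  funext k
  simp only [prm, Pi.smul_apply, smul_eq_mul]
  split_ifs <;> simp

/-- flow and limit retraction -/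
structure RF (P : ProjD A) where
  x : Fin (P.N + 1) → ℝ
  m : ℝ
  D : ℂ → M → M
  hol : ∀ z, HolMap A A (D z)
  spec : ∀ z y v, R P y v → R P (D z y) (Ez x z v)
  T : HRet A
  rspec : ∀ y ∈ T.U, ∀ v, R P y v → R P (T.r y) (prm x m v)
  lim : ∀ y ∈ T.U, Tendsto (fun t : ℝ => D (-(t : ℂ)) y) atTop (𝓝 (T.r y))

variable {P : ProjD A} (Q : RF P)

/-- the weight of a family of columns -/
def RF.wt (Q : RF P) (S : Unit ⊕ Fin n → Fin (P.N + 1)) : ℝ := ∑ r, Q.x (S r)

/-! ### change of charts -/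

/-- the minors in two charts -/
theorem GS_tr {i i' : A.ι} {y : M} (hy : y ∈ (A.e i).source ∩ (A.e i').source) {c : ℂ}
    (hc : P.F i' y = c • P.F i y) (S : Unit ⊕ Fin n → Fin (P.N + 1)) :
    (Jm A i i' y).det * GS P S i' y = c ^ (n + 1) * GS P S i y := by
  have h := GS_map P (φ := id) (i := i) (j := i') (x := y) hy.1 hy.2
    (by
      have := (holMap_id A).diffAt (i := i) (j := i') (z := A.e i y)
        (mem_dm (p := id) hy.1 hy.2)
      exact this) (fun _ => 1) (fun _ => one_ne_zero) (c := c)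
    (fun k => by rw [one_mul]; exact congrFun hc k)
    (by
      have h1 : A.ov i i' ∈ 𝓝 (A.e i y) := (isOpen_ov i i').mem_nhds (mem_ov hy)
      filter_upwards [h1] with z hz
      refine ⟨hz.2, ?_⟩
      obtain ⟨c', hc'⟩ := P.tr i' i ((A.e i).symm z) ⟨hz.2, (A.e i).map_target hz.1⟩
      exact ⟨c', fun k => by rw [one_mul]; exact congrFun hc' k⟩) S
  have hJ : Jp A A id i i' y = Jm A i i' y := rfl
  rw [hJ, Finset.prod_const_one, mul_one] at h
  exact h

theorem GS_zero_iff {i i' : A.ι} {y : M} (hi : y ∈ (A.e i).source) (hi' : y ∈ (A.e i').source)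
    (S : Unit ⊕ Fin n → Fin (P.N + 1)) : GS P S i y = 0 ↔ GS P S i' y = 0 := by
  obtain ⟨c, hc0, hc⟩ := tr_ne (P := P) hi' hi
  have h := GS_tr ⟨hi, hi'⟩ hc S
  have hJ : (Jm A i i' y).det ≠ 0 := by
    rw [← KB_g ⟨hi, hi'⟩]
    exact LB.ne_zero _ _ _ _
  constructor
  · intro h0
    rw [h0, mul_zero] at h
    exact (mul_eq_zero.1 h).resolve_left hJ
  · intro h0
    rw [h0, mul_zero] at h
    exact (mul_eq_zero.1 h.symm).resolve_left (pow_ne_zero _ hc0)

/-! ### the flow -/

/-- the factor `c` with `F_j(D z y) = c e^{z x} F_i(y)` and the transformation of the minors -/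
theorem GS_D (z : ℂ) {i j : A.ι} {y : M} (hi : y ∈ (A.e i).source)
    (hj : Q.D z y ∈ (A.e j).source) :
    ∃ c : ℂ, c ≠ 0 ∧ (P.F j (Q.D z y) = c • Ez Q.x z (P.F i y)) ∧
      ∀ S, (Jp A A (Q.D z) i j y).det * GS P S j (Q.D z y) =
        c ^ (n + 1) * Complex.exp (z * Q.wt S) * GS P S i y := by
  have key : ∀ {y' : M}, y' ∈ (A.e i).source → Q.D z y' ∈ (A.e j).source →
      ∃ c : ℂ, c ≠ 0 ∧ P.F j (Q.D z y') = c • Ez Q.x z (P.F i y') := by
    intro y' h1 h2
    exact (Q.spec z y' _ (R_F h1)).prop (R_F h2)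
  obtain ⟨c, hc0, hc⟩ := key hi hj
  refine ⟨c, hc0, hc, fun S => ?_⟩
  have h := GS_map P (φ := Q.D z) hi hj ((Q.hol z).diffAt (mem_dm hi hj))
    (fun k => Complex.exp (z * Q.x k)) (fun k => Complex.exp_ne_zero _) (c := c)
    (fun k => by have := congrFun hc k; simpa [Ez] using this)
    (by
      have h1 : dm A A (Q.D z) i j ∈ 𝓝 (A.e i y) :=
        ((Q.hol z).isOpen_dm i j).mem_nhds (mem_dm hi hj)
      filter_upwards [h1] with w hw
      refine ⟨hw.2, ?_⟩
      obtain ⟨c', -, hc'⟩ := key ((A.e i).map_target hw.1) hw.2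
      exact ⟨c', fun k => by have := congrFun hc' k; simpa [Ez] using this⟩) S
  rw [h, ← Complex.exp_sum]
  congr 3
  rw [RF.wt, Complex.ofReal_sum, Finset.mul_sum]

theorem D_zero_iff (z : ℂ) {i j : A.ι} {y : M} (hi : y ∈ (A.e i).source)
    (hj : Q.D z y ∈ (A.e j).source) (S : Unit ⊕ Fin n → Fin (P.N + 1))
    (h0 : GS P S j (Q.D z y) ≠ 0) : GS P S i y ≠ 0 := by
  obtain ⟨c, hc0, -, h⟩ := GS_D Q z hi hj
  intro h1
  have h2 := h S
  rw [h1, mul_zero] at h2
  rcases mul_eq_zero.1 h2 with h3 | h3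
  · -- the Jacobian of `D z` is not zero: some minor does not vanish at `y`
    obtain ⟨S', hS'⟩ := exists_GS_ne P hi
    have h4 := h S'
    rw [h3, zero_mul] at h4
    exact (mul_ne_zero (mul_ne_zero (pow_ne_zero _ hc0) (Complex.exp_ne_zero _)) hS') h4.symm
  · exact h0 h3

theorem cont_GS (S : Unit ⊕ Fin n → Fin (P.N + 1)) {i : A.ι} {y : M}
    (hi : y ∈ (A.e i).source) : ContinuousAt (GS P S i) y := by
  have h1 := (hol_GS P S i).diffAt isOpen_univ hi (mem_univ y)
  have h2 : ContinuousAt (fun x => GS P S i ((A.e i).symm (A.e i x))) y :=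
    ContinuousAt.comp (f := fun x => A.e i x) (g := fun z => GS P S i ((A.e i).symm z))
      h1.continuousAt ((A.e i).continuousAt hi)
  refine h2.congr ?_
  filter_upwards [(A.e i).open_source.mem_nhds hi] with x hx
  rw [(A.e i).left_inv hx]

/-- points of `U` whose limit has a nonvanishing minor -/
theorem GS_ne_of_r {i j : A.ι} {y : M} (hU : y ∈ Q.T.U) (hi : y ∈ (A.e i).source)
    (hj : Q.T.r y ∈ (A.e j).source) {S : Unit ⊕ Fin n → Fin (P.N + 1)}
    (h0 : GS P S j (Q.T.r y) ≠ 0) : GS P S i y ≠ 0 := by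
  have h1 : ∀ᶠ t : ℝ in atTop, Q.D (-(t : ℂ)) y ∈ (A.e j).source :=
    (Q.lim y hU) ((A.e j).open_source.mem_nhds hj)
  have h2 : ∀ᶠ t : ℝ in atTop, GS P S j (Q.D (-(t : ℂ)) y) ≠ 0 :=
    ((cont_GS S hj).tendsto.comp (Q.lim y hU)).eventually_ne h0
  obtain ⟨t, ht1, ht2⟩ := (h1.and h2).exists
  exact D_zero_iff Q _ hi ht1 S ht2

/-- the ratios of minors of the same weight are constant on the fibres of `r` -/
theorem ratio {i j : A.ι} {y : M} (hU : y ∈ Q.T.U) (hi : y ∈ (A.e i).source)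
    (hj : Q.T.r y ∈ (A.e j).source) {S S' : Unit ⊕ Fin n → Fin (P.N + 1)}
    (hw : Q.wt S = Q.wt S') :
    GS P S i y * GS P S' j (Q.T.r y) = GS P S' i y * GS P S j (Q.T.r y) := by
  have h1 : ∀ᶠ t : ℝ in atTop, Q.D (-(t : ℂ)) y ∈ (A.e j).source :=
    (Q.lim y hU) ((A.e j).open_source.mem_nhds hj)
  have h2 : ∀ᶠ t : ℝ in atTop, GS P S i y * GS P S' j (Q.D (-(t : ℂ)) y) =
      GS P S' i y * GS P S j (Q.D (-(t : ℂ)) y) := by
    filter_upwards [h1] with t ht
    obtain ⟨c, hc0, -, h⟩ := GS_D Q _ hi ht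
    have hJ : (Jp A A (Q.D (-(t : ℂ))) i j y).det ≠ 0 := by
      intro h3
      obtain ⟨S0, hS0⟩ := exists_GS_ne P hi
      have h4 := h S0
      rw [h3, zero_mul] at h4
      exact (mul_ne_zero (mul_ne_zero (pow_ne_zero _ hc0) (Complex.exp_ne_zero _)) hS0) h4.symm
    apply mul_left_cancel₀ hJ
    have e1 := h S
    have e2 := h S'
    rw [← hw] at e2
    linear_combination GS P S i y * e2 - GS P S' i y * e1
  have h3 : Tendsto (fun t : ℝ => GS P S i y * GS P S' j (Q.D (-(t : ℂ)) y)) atTop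
      (𝓝 (GS P S i y * GS P S' j (Q.T.r y))) :=
    (((cont_GS S' hj).tendsto.comp (Q.lim y hU))).const_mul _
  have h4 : Tendsto (fun t : ℝ => GS P S' i y * GS P S j (Q.D (-(t : ℂ)) y)) atTop
      (𝓝 (GS P S' i y * GS P S j (Q.T.r y))) :=
    (((cont_GS S hj).tendsto.comp (Q.lim y hU))).const_mul _
  exact tendsto_nhds_unique (h3.congr' h2) h4

/-! ### the fixed points -/

/-- at a fixed point all nonvanishing minors have the same weight -/
theorem wt_fix {i j : A.ι} {p : M} (hD : ∀ z, Q.D z p = p) (hi : p ∈ (A.e i).source)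
    (hj : p ∈ (A.e j).source) {S S' : Unit ⊕ Fin n → Fin (P.N + 1)} (hS : GS P S i p ≠ 0)
    (hS' : GS P S' j p ≠ 0) : Q.wt S = Q.wt S' := by
  have hS'i : GS P S' i p ≠ 0 := fun h => hS' ((GS_zero_iff hi hj S').1 h)
  have key : ∀ z : ℂ, Complex.exp (z * Q.wt S) = Complex.exp (z * Q.wt S') := by
    intro z
    obtain ⟨c, hc0, -, h⟩ := GS_D Q z (j := i) hi (by rw [hD z]; exact hi)
    rw [hD z] at h
    have e1 : (Jp A A (Q.D z) i i p).det = c ^ (n + 1) * Complex.exp (z * Q.wt S) :=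
      mul_right_cancel₀ hS (h S)
    have e2 : (Jp A A (Q.D z) i i p).det = c ^ (n + 1) * Complex.exp (z * Q.wt S') :=
      mul_right_cancel₀ hS'i (h S')
    exact mul_left_cancel₀ (pow_ne_zero (n + 1) hc0) (e1.symm.trans e2)
  have h1 := key 1
  rw [one_mul, one_mul, ← Complex.ofReal_exp, ← Complex.ofReal_exp, Complex.ofReal_inj] at h1
  exact Real.exp_injective h1

/-- the fixed points of the retraction are fixed by the flow -/
theorem D_fix {p : M} (hp : p ∈ Q.T.F) (z : ℂ) : Q.D z p = p := by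
  obtain ⟨v, hv⟩ := exists_R (P := P) p
  have h1 := Q.rspec p hp.1 v hv
  rw [hp.2] at h1
  obtain ⟨c, hc0, hc⟩ := hv.prop h1
  have h2 := Q.spec z p _ h1
  have h3 : Ez Q.x z (prm Q.x Q.m v) = Complex.exp (z * Q.m) • prm Q.x Q.m v := by
    funext k
    simp only [Ez, prm, Pi.smul_apply, smul_eq_mul]
    split_ifs with hk
    · rw [hk]
    · simp
  rw [h3] at h2
  exact (h2.of_smul (Complex.exp_ne_zero _)).uniq h1

/-- on the connected fixed locus the weight is constant -/
theorem wt_const (hconn : IsPreconnected Q.T.F) {i j : A.ι} {p q : M} (hp : p ∈ Q.T.F)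
    (hq : q ∈ Q.T.F) (hi : p ∈ (A.e i).source) (hj : q ∈ (A.e j).source)
    {S S' : Unit ⊕ Fin n → Fin (P.N + 1)} (hS : GS P S i p ≠ 0) (hS' : GS P S' j q ≠ 0) :
    Q.wt S = Q.wt S' := by
  classical
  -- the set of points where some minor of weight `w` does not vanish
  set W : ℝ → Set M := fun w => {y | ∃ l, y ∈ (A.e l).source ∧ ∃ S0, Q.wt S0 = w ∧
    GS P S0 l y ≠ 0} with hW
  have hopen : ∀ w, IsOpen (W w) := by
    intro w
    rw [isOpen_iff_mem_nhds]
    rintro y ⟨l, hl, S0, hw, h0⟩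
    filter_upwards [(A.e l).open_source.mem_nhds hl, (cont_GS S0 hl).eventually_ne h0] with y' h1 h2
    exact ⟨l, h1, S0, hw, h2⟩
  set V : Set M := ⋃ w ∈ {w : ℝ | w ≠ Q.wt S}, W w with hV
  have hVo : IsOpen V := isOpen_biUnion fun w _ => hopen w
  have hcov : Q.T.F ⊆ W (Q.wt S) ∪ V := by
    intro y hy
    obtain ⟨l, hl⟩ := A.cover y
    obtain ⟨S0, hS0⟩ := exists_GS_ne P hl
    by_cases hw : Q.wt S0 = Q.wt S
    · exact Or.inl ⟨l, hl, S0, hw, hS0⟩
    · refine Or.inr (mem_biUnion (x := Q.wt S0) hw ⟨l, hl, S0, rfl, hS0⟩)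
  have hp1 : (Q.T.F ∩ W (Q.wt S)).Nonempty := ⟨p, hp, i, hi, S, rfl, hS⟩
  by_contra hne
  have hq1 : (Q.T.F ∩ V).Nonempty :=
    ⟨q, hq, mem_biUnion (x := Q.wt S') (fun h => hne h.symm) ⟨j, hj, S', rfl, hS'⟩⟩
  obtain ⟨y, hyF, ⟨l, hl, S0, hw0, h0⟩, hyV⟩ := hconn _ _ (hopen _) hVo hcov hp1 hq1
  obtain ⟨w, hw, l', hl', S1, hw1, h1⟩ := mem_iUnion₂.1 hyV
  have h2 := wt_fix Q (D_fix Q hyF) hl hl' h0 h1
  exact hw (by rw [← hw1, ← h2, hw0])

/-! ### the frame comparison -/

open Classical in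
/-- `prm (F_i y) = bb i j y • F_j (r y)` -/
def bb (i j : A.ι) (y : M) : ℂ :=
  if h : ∃ c : ℂ, prm Q.x Q.m (P.F i y) = c • P.F j (Q.T.r y) then h.choose else 0

theorem bb_spec {i j : A.ι} {y : M} (hU : y ∈ Q.T.U) (hi : y ∈ (A.e i).source)
    (hj : Q.T.r y ∈ (A.e j).source) :
    bb Q i j y ≠ 0 ∧ prm Q.x Q.m (P.F i y) = bb Q i j y • P.F j (Q.T.r y) := by
  obtain ⟨c, hc0, hc⟩ := (Q.rspec y hU _ (R_F hi)).chart hj
  have h : ∃ c : ℂ, prm Q.x Q.m (P.F i y) = c • P.F j (Q.T.r y) := ⟨c, hc⟩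
  have h1 : bb Q i j y = h.choose := dif_pos h
  have h2 := h.choose_spec
  rw [← h1] at h2
  refine ⟨fun h0 => ?_, h2⟩
  rw [h0, zero_smul] at h2
  exact (Q.rspec y hU _ (R_F hi)).ne h2

theorem bb_unique {i j : A.ι} {y : M} (hU : y ∈ Q.T.U) (hi : y ∈ (A.e i).source)
    (hj : Q.T.r y ∈ (A.e j).source) {c : ℂ}
    (hc : prm Q.x Q.m (P.F i y) = c • P.F j (Q.T.r y)) : bb Q i j y = c := by
  have h := (bb_spec Q hU hi hj).2
  rw [h] at hc
  exact smul_left_injective ℂ (P.ne j _ hj) hc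

open Classical in
/-- the comparison of the frame of `K⁻¹` at `y` (chart `i`) with the frame at `r y` (chart `j`) -/
def eps (i j : A.ι) (y : M) : ℂ :=
  if h : ∃ S, GS P S j (Q.T.r y) ≠ 0 then
    bb Q i j y ^ (n + 1) * (GS P h.choose j (Q.T.r y) / GS P h.choose i y) else 0

theorem eps_eq {i j : A.ι} {y : M} (hU : y ∈ Q.T.U) (hi : y ∈ (A.e i).source)
    (hj : Q.T.r y ∈ (A.e j).source) {S : Unit ⊕ Fin n → Fin (P.N + 1)}
    (hS : GS P S j (Q.T.r y) ≠ 0) :
    eps Q i j y = bb Q i j y ^ (n + 1) * (GS P S j (Q.T.r y) / GS P S i y) := by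
  have h : ∃ S, GS P S j (Q.T.r y) ≠ 0 := ⟨S, hS⟩
  rw [eps, dif_pos h]
  congr 1
  have h1 := h.choose_spec
  set S' := h.choose
  have hf := Q.T.r_mem hU
  have hw : Q.wt S = Q.wt S' := wt_fix Q (D_fix Q hf) hj hj hS h1
  have h2 := ratio Q hU hi hj hw
  have h3 := GS_ne_of_r Q hU hi hj hS
  have h4 := GS_ne_of_r Q hU hi hj h1
  rw [div_eq_div_iff h4 h3]
  linear_combination h2

theorem eps_ne {i j : A.ι} {y : M} (hU : y ∈ Q.T.U) (hi : y ∈ (A.e i).source)
    (hj : Q.T.r y ∈ (A.e j).source) : eps Q i j y ≠ 0 := by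
  obtain ⟨S, hS⟩ := exists_GS_ne P hj
  rw [eps_eq Q hU hi hj hS]
  exact mul_ne_zero (pow_ne_zero _ (bb_spec Q hU hi hj).1)
    (div_ne_zero hS (GS_ne_of_r Q hU hi hj hS))

theorem aK_g {i i' : A.ι} {y : M} (hy : y ∈ (A.e i).source ∩ (A.e i').source) :
    ((KB A)⁻¹).g i i' y = ((Jm A i i' y).det)⁻¹ := by
  rw [LB.inv_g, KB_g hy]

theorem eps_left {i i' j : A.ι} {y : M} (hU : y ∈ Q.T.U)
    (hy : y ∈ (A.e i).source ∩ (A.e i').source) (hj : Q.T.r y ∈ (A.e j).source) :
    ((KB A)⁻¹).g i i' y * eps Q i' j y = eps Q i j y := by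
  obtain ⟨S, hS⟩ := exists_GS_ne P hj
  obtain ⟨c, hc0, hc⟩ := tr_ne (P := P) hy.2 hy.1
  have hb : bb Q i' j y = c * bb Q i j y := by
    refine bb_unique Q hU hy.2 hj ?_
    rw [hc, prm_smul, (bb_spec Q hU hy.1 hj).2, smul_smul]
  have hJ : (Jm A i i' y).det ≠ 0 := by
    rw [← KB_g hy]; exact LB.ne_zero _ _ _ _
  have hG := GS_tr hy hc S
  have h1 := GS_ne_of_r Q hU hy.1 hj hS
  have h2 := GS_ne_of_r Q hU hy.2 hj hS
  rw [aK_g hy, eps_eq Q hU hy.1 hj hS, eps_eq Q hU hy.2 hj hS, hb]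
  field_simp
  linear_combination (-(bb Q i j y ^ (n + 1))) * hG

theorem eps_right {i j j' : A.ι} {y : M} (hU : y ∈ Q.T.U) (hi : y ∈ (A.e i).source)
    (hj : Q.T.r y ∈ (A.e j).source ∩ (A.e j').source) :
    eps Q i j y * ((KB A)⁻¹).g j j' (Q.T.r y) = eps Q i j' y := by
  obtain ⟨S, hS⟩ := exists_GS_ne P hj.1
  have hS' : GS P S j' (Q.T.r y) ≠ 0 := fun h => hS ((GS_zero_iff hj.1 hj.2 S).2 h)
  obtain ⟨c, hc0, hc⟩ := tr_ne (P := P) hj.2 hj.1
  have hb : bb Q i j y = c * bb Q i j' y := by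
    refine bb_unique Q hU hi hj.1 ?_
    rw [(bb_spec Q hU hi hj.2).2, hc, smul_smul, mul_comm]
  have hJ : (Jm A j j' (Q.T.r y)).det ≠ 0 := by
    rw [← KB_g hj]; exact LB.ne_zero _ _ _ _
  have hG := GS_tr hj hc S
  have h1 := GS_ne_of_r Q hU hi hj.1 hS
  rw [aK_g hj, eps_eq Q hU hi hj.1 hS, eps_eq Q hU hi hj.2 hS', hb]
  field_simp
  linear_combination (-(bb Q i j' y ^ (n + 1))) * hG

/-- on the fixed locus `eps` is the transition function -/
theorem eps_fix {i j : A.ι} {p : M} (hp : p ∈ Q.T.F) (hi : p ∈ (A.e i).source)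
    (hj : p ∈ (A.e j).source) : eps Q i j p = ((KB A)⁻¹).g i j p := by
  have hr : Q.T.r p = p := hp.2
  have hj' : Q.T.r p ∈ (A.e j).source := by rw [hr]; exact hj
  obtain ⟨S, hS⟩ := exists_GS_ne P hj'
  have hS' : GS P S j p ≠ 0 := by rw [hr] at hS; exact hS
  -- `prm (F_i p) = F_i p` because `F_j (r p)` is proportional to `prm`
  have hprm : prm Q.x Q.m (P.F i p) = P.F i p := by
    obtain ⟨c, hc0, hc⟩ := (Q.rspec p hp.1 _ (R_F hi)).prop (by rw [hr]; exact R_F hi)
    have h1 : prm Q.x Q.m (prm Q.x Q.m (P.F i p)) = prm Q.x Q.m (P.F i p) := by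
      funext k
      simp only [prm]
      split_ifs <;> rfl
    have h2 : prm Q.x Q.m (P.F i p) = prm Q.x Q.m (c • prm Q.x Q.m (P.F i p)) := by rw [← hc]
    rw [prm_smul, h1, ← hc] at h2
    exact h2
  obtain ⟨c, hc0, hc⟩ := tr_ne (P := P) hj hi
  have hb : bb Q i j p = c⁻¹ := by
    refine bb_unique Q hp.1 hi hj' ?_
    rw [hprm, hr, hc, smul_smul, inv_mul_cancel₀ hc0, one_smul]
  have hG := GS_tr ⟨hi, hj⟩ hc S
  have hJ : (Jm A i j p).det ≠ 0 := by
    rw [← KB_g ⟨hi, hj⟩]; exact LB.ne_zero _ _ _ _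
  have h1 : GS P S i p ≠ 0 := fun h => hS' ((GS_zero_iff hi hj S).1 h)
  have h2 : GS P S j p / GS P S i p = c ^ (n + 1) / (Jm A i j p).det := by
    rw [div_eq_div_iff h1 hJ]
    linear_combination hG
  rw [aK_g ⟨hi, hj⟩, eps_eq Q hp.1 hi hj' hS, hb, hr, h2, inv_pow, ← mul_div_assoc,
    inv_mul_cancel₀ (pow_ne_zero _ hc0), one_div]

/-- local holomorphy of the comparison -/
theorem eps_hol (i j : A.ι) :
    HolAt A i (Q.T.U ∩ Q.T.r ⁻¹' (A.e j).source) (eps Q i j) := by
  refine holAt_of_local fun y hy hyU => ?_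
  obtain ⟨S, hS⟩ := exists_GS_ne P hyU.2
  obtain ⟨k, hk⟩ : ∃ k, P.F j (Q.T.r y) k ≠ 0 := Function.ne_iff.1 (P.ne j _ hyU.2)
  -- the open set where the two numbers do not vanish
  set V0 : Set M := {q | q ∈ (A.e j).source ∧ GS P S j q ≠ 0 ∧ P.F j q k ≠ 0} with hV0
  have hV0o : IsOpen V0 := by
    rw [isOpen_iff_mem_nhds]
    rintro q ⟨h1, h2, h3⟩
    have hc : ContinuousAt (fun q => P.F j q k) q :=
      (continuous_apply k).continuousAt.comp (continuousAt_F h1)
    filter_upwards [(A.e j).open_source.mem_nhds h1, (cont_GS S h1).eventually_ne h2,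
      hc.eventually_ne h3] with q' a1 a2 a3
    exact ⟨a1, a2, a3⟩
  set V : Set M := Q.T.U ∩ Q.T.r ⁻¹' V0 with hV
  have hVo : IsOpen V := Q.T.isOpen_pre hV0o
  refine ⟨V, hVo, ⟨hyU.1, hyU.2, hS, hk⟩, ?_⟩
  -- pull back of functions by `r`
  have hpull : ∀ f : M → ℂ, HolAt A j univ f → HolAt A i V (fun y => f (Q.T.r y)) := by
    intro f hf
    have h1 : DifferentiableOn ℂ (fun z => f ((A.e j).symm (A.e j (Q.T.r ((A.e i).symm z)))))
        ((A.e i).target ∩ (A.e i).symm ⁻¹' V) := by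
      refine DifferentiableOn.comp (t := (A.e j).target ∩ (A.e j).symm ⁻¹' univ)
        (g := fun z => f ((A.e j).symm z)) hf ((Q.T.hol i j).mono ?_) ?_
      · rintro z ⟨h1, h2⟩
        exact ⟨h1, h2.1, h2.2.1⟩
      · rintro z ⟨_, h2⟩
        exact ⟨(A.e j).map_source h2.2.1, mem_univ _⟩
    refine DifferentiableOn.congr h1 fun z hz => ?_
    show f (Q.T.r ((A.e i).symm z)) = _
    rw [(A.e j).left_inv hz.2.2.1]
  have hkx : Q.x k = Q.m := by
    by_contra hne
    have := congrFun (bb_spec Q hyU.1 hy hyU.2).2 k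
    simp only [prm, if_neg hne, Pi.smul_apply, smul_eq_mul] at this
    exact (mul_ne_zero (bb_spec Q hyU.1 hy hyU.2).1 hk) this.symm
  have h1 : HolAt A i V (fun y => (P.F i y k * (P.F j (Q.T.r y) k)⁻¹) ^ (n + 1) *
      (GS P S j (Q.T.r y) * (GS P S i y)⁻¹)) := by
    refine HolAt.mul (HolAt.pow (HolAt.mul ((P.hol i k).mono (subset_univ _)) ?_) _) ?_
    · exact (hpull _ (P.hol j k)).inv fun x _ hx => hx.2.2.2
    · refine (hpull _ (hol_GS P S j)).mul (((hol_GS P S i).mono (subset_univ _)).inv ?_)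
      intro x hx hxV
      exact GS_ne_of_r Q hxV.1 hx hxV.2.1 hxV.2.2.1
  refine h1.congr fun x hx hxV => ?_
  rw [eps_eq Q hxV.1 hx hxV.2.1 hxV.2.2.1]
  have h2 := congrFun (bb_spec Q hxV.1 hx hxV.2.1).2 k
  simp only [prm, if_pos hkx, Pi.smul_apply, smul_eq_mul] at h2
  rw [h2, mul_assoc, mul_inv_cancel₀ hxV.2.2.2, mul_one]
  rfl

end

end Crest.Agent.R273.TorFr_422
end

-- ▼ part R273/Conc_5

/-!
# R273 (S0416), BP-T leaf T5 (helper5): concavity along orbits

* `antitone_of_concave` : a concave function on `ℝ` which is bounded below near `-∞` is nonincreasing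
* `concave_of_lev` : if `f (re z_0)` is superharmonic then `f` is concave
* `orbit_antitone` : `h : HM L` semipositive, `γ : ℂ → M` holomorphic, `s` a holomorphic frame of `L`
  along `γ` whose norm depends only on `re z` and is bounded below near `-∞`: then it is nonincreasing.
-/

set_option autoImplicit false
set_option linter.unusedSectionVars false

open Set Filter Topology Complex
open scoped ContDiff Matrix ComplexConjugate

namespace Crest.Agent.R273.Conc_5

open Crest.Agent.R275.Geo Crest.Agent.R275.Core144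
open Crest.Agent.R273.Defs_333 Crest.Agent.R273.HM_333 Crest.Agent.R273.Kah_333

noncomputable section

/-- a concave function bounded below near `-∞` is nonincreasing -/
theorem antitone_of_concave {f : ℝ → ℝ} (hf : ConcaveOn ℝ univ f)
    (hb : ∃ c, ∀ᶠ a in atBot, c ≤ f a) : Antitone f := by
  intro a b hab
  by_contra hlt
  push Not at hlt
  have hne : a < b := lt_of_le_of_ne hab fun h => by rw [h] at hlt; exact lt_irrefl _ hlt
  obtain ⟨c, hc⟩ := hb
  set m : ℝ := (f b - f a) / (b - a) with hm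
  have hm0 : 0 < m := div_pos (sub_pos.2 hlt) (sub_pos.2 hne)
  have h1 : ∀ x < a, f x ≤ f a - m * (a - x) := by
    intro x hx
    have h2 := hf.slope_anti_adjacent (mem_univ x) (mem_univ b) hx hne
    have h3 : m * (a - x) ≤ f a - f x := by
      rw [← le_div_iff₀ (sub_pos.2 hx)]
      exact h2
    linarith
  have h4 : ∀ᶠ x in atBot, f a - m * (a - x) < c := by
    have h5 : Tendsto (fun x : ℝ => f a - m * (a - x)) atBot atBot := by
      have : (fun x : ℝ => f a - m * (a - x)) = fun x => (f a - m * a) + m * x := by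
        funext x; ring
      rw [this]
      exact tendsto_atBot_add_const_left _ _ (tendsto_id.const_mul_atBot hm0)
    exact h5.eventually_lt_atBot c
  obtain ⟨x, hx1, hx2, hx3⟩ := (hc.and (h4.and (eventually_lt_atBot a))).exists
  have := h1 x hx3
  linarith

variable {n : ℕ}

/-- second derivative along a line -/
theorem line_deriv2 {E : Type*} [NormedAddCommGroup E] [NormedSpace ℝ E] {F : E → ℝ} {z : E}
    (hF : ContDiffAt ℝ 2 F z) (v : E) :
    deriv (deriv fun s : ℝ => F (z + s • v)) 0 = fderiv ℝ (fderiv ℝ F) z v v := by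
  have hl : ∀ s : ℝ, HasDerivAt (fun s : ℝ => z + s • v) v s := by
    intro s
    have := ((hasDerivAt_id s).smul_const v).const_add z
    simpa using this
  have h0 : z + (0 : ℝ) • v = z := by simp
  have h1 : ∀ᶠ s : ℝ in 𝓝 0, deriv (fun s : ℝ => F (z + s • v)) s = fderiv ℝ F (z + s • v) v := by
    have h2 : ∀ᶠ w in 𝓝 z, DifferentiableAt ℝ F w := by
      have := (hF.of_le (m := 1) (by norm_num)).eventually (by simp)
      filter_upwards [this] with w hw
      exact hw.differentiableAt (by simp)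
    have h3 : Tendsto (fun s : ℝ => z + s • v) (𝓝 0) (𝓝 z) := by
      have := (hl 0).continuousAt.tendsto
      rwa [h0] at this
    filter_upwards [h3.eventually h2] with s hs
    exact (hs.hasFDerivAt.comp_hasDerivAt s (hl s)).deriv
  have h4 : deriv (fun s : ℝ => F (z + s • v)) =ᶠ[𝓝 0] fun s => fderiv ℝ F (z + s • v) v := h1
  rw [h4.deriv_eq]
  have h5 : DifferentiableAt ℝ (fderiv ℝ F) z :=
    (hF.fderiv_right (m := 1) (by norm_num)).differentiableAt (by simp)
  have h6 : HasDerivAt (fun s : ℝ => fderiv ℝ F (z + s • v)) (fderiv ℝ (fderiv ℝ F) z v) 0 := by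
    have h7 : HasFDerivAt (fderiv ℝ F) (fderiv ℝ (fderiv ℝ F) z) (z + (0 : ℝ) • v) := by
      rw [h0]; exact h5.hasFDerivAt
    exact h7.comp_hasDerivAt (0 : ℝ) (hl 0)
  have h8 := h6.clm_apply (hasDerivAt_const (0 : ℝ) v)
  rw [h8.deriv]
  simp

/-- the function `f (re z_0)` on `Cn 1` -/
theorem lev_re_comp {f : ℝ → ℝ} {z : Cn 1}
    (hF : ContDiffAt ℝ 2 (fun w : Cn 1 => f (w 0).re) z) :
    4 * Levi_145.lev (fun w : Cn 1 => f (w 0).re) z (EuclideanSpace.single 0 1) =
      deriv (deriv f) (z 0).re := by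
  have h1 : Levi_145.lev (fun w : Cn 1 => f (w 0).re) z (EuclideanSpace.single 0 1) =
      (fderiv ℝ (fderiv ℝ (fun w : Cn 1 => f (w 0).re)) z (EuclideanSpace.single 0 1)
        (EuclideanSpace.single 0 1) +
      fderiv ℝ (fderiv ℝ (fun w : Cn 1 => f (w 0).re)) z (I • EuclideanSpace.single 0 1)
        (I • EuclideanSpace.single 0 1)) / 4 := rfl
  rw [h1, ← line_deriv2 hF, ← line_deriv2 hF]
  have e1 : (fun s : ℝ => f ((z + s • (EuclideanSpace.single 0 1 : Cn 1)) 0).re) =
      fun s : ℝ => f ((z 0).re + s) := by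
    funext s
    simp
  have e2 : (fun s : ℝ => f ((z + s • (I • EuclideanSpace.single 0 1 : Cn 1)) 0).re) =
      fun _ : ℝ => f (z 0).re := by
    funext s
    simp
  rw [e1, e2]
  have e3 : deriv (fun s : ℝ => f ((z 0).re + s)) = fun s => deriv f ((z 0).re + s) := by
    funext s
    exact deriv_comp_const_add _ _ _
  rw [e3, deriv_comp_const_add]
  simp only [add_zero, deriv_const', deriv_const]
  ring

theorem two_le_infty : (2 : WithTop ℕ∞) ≤ ((⊤ : ℕ∞) : WithTop ℕ∞) := by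
  have : ((2 : ℕ∞) : WithTop ℕ∞) ≤ ((⊤ : ℕ∞) : WithTop ℕ∞) := WithTop.coe_le_coe.mpr le_top
  simpa using this

theorem concave_of_lev {f : ℝ → ℝ} (hF : ContDiff ℝ 2 (fun w : Cn 1 => f (w 0).re))
    (hl : ∀ z : Cn 1, Levi_145.lev (fun w : Cn 1 => f (w 0).re) z (EuclideanSpace.single 0 1) ≤ 0) :
    ConcaveOn ℝ univ f := by
  have hf : ContDiff ℝ 2 f := by
    have h1 : f = (fun w : Cn 1 => f (w 0).re) ∘ fun a : ℝ => (a • EuclideanSpace.single 0 1 : Cn 1) := by
      funext a
      simp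
    rw [h1]
    exact hF.comp (contDiff_id.smul contDiff_const)
  have hd : Differentiable ℝ f := hf.differentiable (by norm_num)
  have hd2 : Differentiable ℝ (deriv f) := by
    have h2 : ContDiff ℝ (1 + 1) f := by rwa [one_add_one_eq_two]
    exact ((contDiff_succ_iff_deriv.1 h2).2.2).differentiable (by norm_num)
  refine concaveOn_univ_of_deriv2_nonpos hd hd2 fun a => ?_
  have h3 := lev_re_comp (f := f) (z := (a • EuclideanSpace.single 0 1 : Cn 1)) hF.contDiffAt
  have h4 : ((a • EuclideanSpace.single 0 1 : Cn 1) 0).re = a := by simp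
  rw [h4] at h3
  have h5 : deriv^[2] f a = deriv (deriv f) a := rfl
  rw [h5, ← h3]
  have := hl (a • EuclideanSpace.single 0 1 : Cn 1)
  linarith

variable {M : Type} [TopologicalSpace M] {A : Atl n M} {L : LB A}

/-- **T5** -/
theorem orbit_antitone {h : HM L} (hh : h.Semipos) {γ : ℂ → M} (hγc : Continuous γ)
    (hγ : ∀ z i, γ z ∈ (A.e i).source → ∀ᶠ w in 𝓝 z, DifferentiableAt ℂ (fun w => A.e i (γ w)) w)
    {s : A.ι → ℂ → ℂ}
    (hs : ∀ z i, γ z ∈ (A.e i).source → (∀ᶠ w in 𝓝 z, DifferentiableAt ℂ (s i) w) ∧ s i z ≠ 0)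
    {f : ℝ → ℝ}
    (hf : ∀ z i, γ z ∈ (A.e i).source → f z.re = Real.log (‖s i z‖ ^ 2 * h.w i (γ z)))
    (hb : ∃ c, ∀ᶠ a in atBot, c ≤ f a) : Antitone f := by
  refine antitone_of_concave ?_ hb
  -- local description on `Cn 1`
  have key : ∀ z : Cn 1, ∃ i, ∃ T : Cn 1 → Cn n, ∃ S : Cn 1 → ℂ, AnalyticAt ℂ T z ∧
      AnalyticAt ℂ S z ∧ S z ≠ 0 ∧ T z ∈ (A.e i).target ∧
      (fun w : Cn 1 => f (w 0).re) =ᶠ[𝓝 z]
        fun w => Real.log (‖S w‖ ^ 2) - h.wt i (T w) := by
    intro z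
    obtain ⟨i, hi⟩ := A.cover (γ (z 0))
    have hp : Continuous fun w : Cn 1 => w 0 := by fun_prop
    have hpd : ∀ w : Cn 1, DifferentiableAt ℂ (fun w : Cn 1 => w 0) w := fun w =>
      (EuclideanSpace.proj (𝕜 := ℂ) (0 : Fin 1)).differentiableAt
    refine ⟨i, fun w => A.e i (γ (w 0)), fun w => s i (w 0), ?_, ?_, (hs _ i hi).2,
      (A.e i).map_source hi, ?_⟩
    · have h1 : AnalyticAt ℂ (fun w => A.e i (γ w)) (z 0) :=
        Complex.analyticAt_iff_eventually_differentiableAt.2 (hγ _ i hi)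
      have h2 : AnalyticAt ℂ (fun w : Cn 1 => w 0) z :=
        (EuclideanSpace.proj (𝕜 := ℂ) (0 : Fin 1) : Cn 1 →L[ℂ] ℂ).analyticAt z
      exact AnalyticAt.comp (g := fun w => A.e i (γ w)) (f := fun w : Cn 1 => w 0) h1 h2
    · apply Levi_145.anal_of_ev
      filter_upwards [hp.continuousAt.eventually (hs _ i hi).1] with w hw
      exact DifferentiableAt.comp (g := s i) w hw (hpd w)
    · have h1 : ∀ᶠ w : Cn 1 in 𝓝 z, γ (w 0) ∈ (A.e i).source :=
        (hγc.comp hp).continuousAt.eventually ((A.e i).open_source.mem_nhds hi)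
      filter_upwards [h1] with w hw
      have h2 := (hs _ i hw).2
      have h3 := h.pos i _ hw
      rw [hf _ i hw, Real.log_mul (by positivity) h3.ne']
      simp only [HM.wt, (A.e i).left_inv hw]
      ring
  have hc2 : ∀ z : Cn 1, ContDiffAt ℝ 2 (fun w : Cn 1 => f (w 0).re) z ∧
      Levi_145.lev (fun w : Cn 1 => f (w 0).re) z (EuclideanSpace.single 0 1) ≤ 0 := by
    intro z
    obtain ⟨i, T, S, hT, hS, hS0, hTz, he⟩ := key z
    have hu : ContDiffAt ℝ 2 (h.wt i) (T z) :=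
      (wt_contDiffAt h i hTz).of_le two_le_infty
    have hTc : ContDiffAt ℝ 2 T z := (hT.contDiffAt.restrict_scalars ℝ)
    have h1 : ContDiffAt ℝ 2 (fun w => Real.log (‖S w‖ ^ 2)) z :=
      Levi_145.c2_log_normSq hS hS0 2
    have h2 : ContDiffAt ℝ 2 (fun w => h.wt i (T w)) z := hu.comp z hTc
    refine ⟨(h1.sub h2).congr_of_eventuallyEq he, ?_⟩
    rw [Levi_145.lev_congr he, Levi_145.lev_sub h1 h2, Levi_145.lev_log_normSq hS hS0,
      Levi_145.lev_comp hT hu, zero_sub, neg_nonpos]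
    have h3 := hh i (T z) hTz (fderiv ℂ T z (EuclideanSpace.single 0 1))
    have h4 : Defs_333.lev (h.wt i) (T z) (fderiv ℂ T z (EuclideanSpace.single 0 1)) =
        4 * Levi_145.lev (h.wt i) (T z) (fderiv ℂ T z (EuclideanSpace.single 0 1)) := by
      unfold Defs_333.lev Levi_145.lev
      rw [iteratedFDeriv_two_apply, iteratedFDeriv_two_apply]
      simp only [Matrix.cons_val_zero, Matrix.cons_val_one]
      ring
    rw [h4] at h3
    linarith
  exact concave_of_lev (contDiff_iff_contDiffAt.2 fun z => (hc2 z).1) fun z => (hc2 z).2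

end

end Crest.Agent.R273.Conc_5
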