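import Crest.Agent.R273.Map_835
import Crest.Agent.R266.SCV

-- ▼ part R273/RetA_155
section

/-!
# R273 (S0416), torus step (helper155): straightening of a holomorphic retraction

`straight` : a holomorphic germ `R` with `R ∘ R = R` at a fixed point is linear in suitable
holomorphic coordinates.
-/

set_option autoImplicit false
set_option linter.unusedSectionVars false

open Set Filter Topology
open scoped ContDiff

namespace Crest.Agent.R273.Ret_155

section Straight

variable {E : Type*} [NormedAddCommGroup E] [NormedSpace ℂ E] [CompleteSpace E]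

/-- straightening of a holomorphic idempotent germ -/
theorem straight {R : E → E} {z0 : E} {W : Set E} (hW : IsOpen W) (hz0 : z0 ∈ W)
    (hR : AnalyticOnNhd ℂ R W) (hfix : R z0 = z0)
    (hid : ∀ z ∈ W, R (R z) = R z) :
    ∃ (e : OpenPartialHomeomorph E E) (P : E →L[ℂ] E), P.comp P = P ∧ z0 ∈ e.source ∧
      e.source ⊆ W ∧ e z0 = 0 ∧ AnalyticOnNhd ℂ e e.source ∧ AnalyticOnNhd ℂ e.symm e.target ∧
      MapsTo R e.source e.source ∧ (∀ z ∈ e.source, e (R z) = P (e z)) ∧
      P = fderiv ℂ R z0 := by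
  set P : E →L[ℂ] E := fderiv ℂ R z0 with hP
  have hRd : HasFDerivAt R P z0 := (hR z0 hz0).differentiableAt.hasFDerivAt
  have hPP : P.comp P = P := by
    have h1 : HasFDerivAt (fun z => R (R z)) (P.comp P) z0 := by
      have h2 : HasFDerivAt R P (R z0) := by rw [hfix]; exact hRd
      exact h2.comp z0 hRd
    have h3 : (fun z => R (R z)) =ᶠ[𝓝 z0] R := by
      filter_upwards [hW.mem_nhds hz0] with z hz
      exact hid z hz
    have h4 : HasFDerivAt R (P.comp P) z0 := h1.congr_of_eventuallyEq h3.symm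
    exact h4.unique hRd
  set ψ : E → E := fun z => P (R z - z0) + ((z - R z) - P (z - R z)) with hψ
  have hψa : AnalyticOnNhd ℂ ψ W := by
    intro z hz
    have h1 := hR z hz
    have h2 : AnalyticAt ℂ (fun z => P (R z - z0)) z :=
      (P.analyticAt _).comp (h1.sub analyticAt_const)
    have h3 : AnalyticAt ℂ (fun z => z - R z) z := analyticAt_id.sub h1
    have h4 : AnalyticAt ℂ (fun z => P (z - R z)) z := (P.analyticAt _).comp h3
    exact h2.add (h3.sub h4)
  have hψd : HasFDerivAt ψ ((ContinuousLinearEquiv.refl ℂ E : E ≃L[ℂ] E) : E →L[ℂ] E) z0 := by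
    have h1 : HasFDerivAt (fun z => P (R z - z0)) (P.comp P) z0 :=
      P.hasFDerivAt.comp z0 (hRd.sub_const z0)
    have h3 : HasFDerivAt (fun z => z - R z) (ContinuousLinearMap.id ℂ E - P) z0 :=
      (hasFDerivAt_id z0).sub hRd
    have h4 : HasFDerivAt (fun z => P (z - R z)) (P.comp (ContinuousLinearMap.id ℂ E - P)) z0 :=
      P.hasFDerivAt.comp z0 h3
    have h5 := h1.add (h3.sub h4)
    have h6 : P.comp P + (ContinuousLinearMap.id ℂ E - P -
        P.comp (ContinuousLinearMap.id ℂ E - P)) =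
        ((ContinuousLinearEquiv.refl ℂ E : E ≃L[ℂ] E) : E →L[ℂ] E) := by
      rw [ContinuousLinearMap.comp_sub, hPP]
      ext v
      simp
    rw [← h6]
    exact h5
  obtain ⟨e, he0, heW, hef, hea, hes⟩ :=
    Crest.Agent.R266.SCV.exists_analytic_openPartialHomeomorph (hψa z0 hz0)
      (ContinuousLinearEquiv.refl ℂ E) hψd (hW.mem_nhds hz0)
  have hPψ : ∀ z, R (R z) = R z → ψ (R z) = P (ψ z) := by
    intro z hz
    have h7 : ∀ v, P (P v) = P v := fun v => by
      have := congrArg (fun T : E →L[ℂ] E => T v) hPP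
      simpa using this
    simp only [hψ, hz, sub_self, add_zero, map_add, map_sub, h7]
  -- shrink so that `R` maps the source to itself
  have hopen : IsOpen (e.source ∩ R ⁻¹' e.source) := by
    have hc : ContinuousOn R e.source := fun z hz =>
      ((hR z (heW hz)).continuousAt).continuousWithinAt
    exact hc.isOpen_inter_preimage e.open_source e.open_source
  let e' := e.restrOpen (e.source ∩ R ⁻¹' e.source) hopen
  have hsrc : e'.source = e.source ∩ R ⁻¹' e.source := by
    show (e.restrOpen _ hopen).source = _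
    rw [OpenPartialHomeomorph.restrOpen_source]
    ext z
    simp only [mem_inter_iff, mem_preimage]
    tauto
  refine ⟨e', P, hPP, ?_, ?_, ?_, ?_, ?_, ?_, ?_, rfl⟩
  · rw [hsrc]
    exact ⟨he0, by rw [mem_preimage, hfix]; exact he0⟩
  · rw [hsrc]
    exact fun z hz => heW hz.1
  · show e z0 = 0
    rw [hef]
    simp [hψ, hfix]
  · intro z hz
    rw [hsrc] at hz
    exact hea z hz.1
  · intro z hz
    have h8 : z ∈ e.target := by
      have : e'.target ⊆ e.target := by
        intro w hw
        have h9 := e'.map_target hw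
        rw [hsrc] at h9
        have h10 : e (e'.symm w) = w := e'.right_inv hw
        rw [← h10]
        exact e.map_source h9.1
      exact this hz
    exact hes z h8
  · intro z hz
    rw [hsrc] at hz ⊢
    refine ⟨hz.2, ?_⟩
    rw [mem_preimage, hid z (heW hz.1)]
    exact hz.2
  · intro z hz
    rw [hsrc] at hz
    show e (R z) = P (e z)
    rw [hef, hef]
    exact hPψ z (hid z (heW hz.1))

end Straight

/-- linear coordinates on the range of a projection -/
theorem exists_coord {n : ℕ} (P : EuclideanSpace ℂ (Fin n) →L[ℂ] EuclideanSpace ℂ (Fin n))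
    (hP : P.comp P = P) :
    ∃ (d : ℕ) (L : EuclideanSpace ℂ (Fin n) →L[ℂ] EuclideanSpace ℂ (Fin d))
      (K : EuclideanSpace ℂ (Fin d) →L[ℂ] EuclideanSpace ℂ (Fin n)),
      L.comp K = ContinuousLinearMap.id ℂ _ ∧ K.comp L = P := by
  have h7 : ∀ v, P (P v) = P v := fun v => by
    have := congrArg (fun T : EuclideanSpace ℂ (Fin n) →L[ℂ] EuclideanSpace ℂ (Fin n) => T v) hP
    simpa using this
  let V : Submodule ℂ (EuclideanSpace ℂ (Fin n)) := LinearMap.range (P : EuclideanSpace ℂ (Fin n) →ₗ[ℂ] EuclideanSpace ℂ (Fin n))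
  let d := Module.finrank ℂ V
  have hd : Module.finrank ℂ V = Module.finrank ℂ (EuclideanSpace ℂ (Fin d)) := by
    rw [finrank_euclideanSpace_fin]
  let T : V ≃L[ℂ] EuclideanSpace ℂ (Fin d) := ContinuousLinearEquiv.ofFinrankEq hd
  have hmem : ∀ v, P v ∈ V := fun v => ⟨v, rfl⟩
  let Q : EuclideanSpace ℂ (Fin n) →L[ℂ] V := P.codRestrict V hmem
  refine ⟨d, (T : V →L[ℂ] EuclideanSpace ℂ (Fin d)).comp Q,
    V.subtypeL.comp (T.symm : EuclideanSpace ℂ (Fin d) →L[ℂ] V), ?_, ?_⟩
  · ext1 w
    show T (Q (T.symm w : EuclideanSpace ℂ (Fin n))) = w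
    have h8 : Q (T.symm w : EuclideanSpace ℂ (Fin n)) = T.symm w := by
      apply Subtype.ext
      show P (T.symm w : EuclideanSpace ℂ (Fin n)) = _
      obtain ⟨v, hv⟩ := (T.symm w).2
      rw [← hv]
      exact h7 v
    rw [h8, T.apply_symm_apply]
  · ext1 v
    show ((T.symm (T (Q v)) : V) : EuclideanSpace ℂ (Fin n)) = P v
    rw [T.symm_apply_apply]
    rfl

end Crest.Agent.R273.Ret_155
end

-- ▼ part R273/RetB_155
section

/-!
# R273 (S0416), torus step (helper155): adapted charts of a subset of a complex manifold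

`Adp A F d`  : an adapted chart of `F ⊆ M` : a chart `φ` of `M` (holomorphically compatible with
               `A`) and linear maps `L : Cn n → Cn d`, `K : Cn d → Cn n`, `L ∘ K = 1`, with
               `x ∈ F ↔ K (L (φ x)) = φ x` on the domain of `φ`;
`Adp.ch`     : the induced chart of the subtype `F`;
`Adp.holo`   : the changes of charts are holomorphic;
`Adp.dim_eq` : the dimension is well defined;
`csp`, `isManifold_csp` : the complex manifold `F`.
-/

set_option autoImplicit false
set_option linter.unusedSectionVars false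

open Set Filter Topology
open scoped ContDiff Manifold

namespace Crest.Agent.R273.Ret_155

open Crest.Agent.R275.Geo Crest.Agent.R275.Core144 Crest.Agent.R273.Map_835

noncomputable section

variable {n : ℕ} {M : Type} [TopologicalSpace M] {A : Atl n M} {F : Set M} {d d' : ℕ}

/-- an adapted chart of the subset `F` of `M` -/
structure Adp (A : Atl n M) (F : Set M) (d : ℕ) where
  φ : OpenPartialHomeomorph M (Cn n)
  hol : ∀ i, DifferentiableOn ℂ (fun z => φ ((A.e i).symm z))
    ((A.e i).target ∩ (A.e i).symm ⁻¹' φ.source)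
  hol' : ∀ i, DifferentiableOn ℂ (fun w => A.e i (φ.symm w))
    (φ.target ∩ φ.symm ⁻¹' (A.e i).source)
  L : Cn n →L[ℂ] Cn d
  K : Cn d →L[ℂ] Cn n
  LK : ∀ w, L (K w) = w
  mem_iff : ∀ x ∈ φ.source, x ∈ F ↔ K (L (φ x)) = φ x

namespace Adp

/-- change between two adapted charts of `M` -/
theorem hol_trans (a : Adp A F d) (b : Adp A F d') :
    DifferentiableOn ℂ (fun w => b.φ (a.φ.symm w)) (a.φ.target ∩ a.φ.symm ⁻¹' b.φ.source) := by
  intro w hw
  obtain ⟨i, hi⟩ := A.cover (a.φ.symm w)
  have h1 : DifferentiableAt ℂ (fun w => A.e i (a.φ.symm w)) w := by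
    refine (a.hol' i).differentiableAt ?_
    exact (a.φ.isOpen_inter_preimage_symm (A.e i).open_source).mem_nhds ⟨hw.1, hi⟩
  have h2 : DifferentiableAt ℂ (fun z => b.φ ((A.e i).symm z)) (A.e i (a.φ.symm w)) := by
    refine (b.hol i).differentiableAt ?_
    refine ((A.e i).isOpen_inter_preimage_symm b.φ.open_source).mem_nhds ?_
    refine ⟨(A.e i).map_source hi, ?_⟩
    rw [mem_preimage, (A.e i).left_inv hi]
    exact hw.2
  have h3 : DifferentiableAt ℂ ((fun z => b.φ ((A.e i).symm z)) ∘
      (fun w => A.e i (a.φ.symm w))) w := h2.comp w h1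
  refine (h3.congr_of_eventuallyEq ?_).differentiableWithinAt
  filter_upwards [(a.φ.isOpen_inter_preimage_symm (A.e i).open_source).mem_nhds ⟨hw.1, hi⟩]
    with v hv
  simp only [Function.comp]
  rw [(A.e i).left_inv hv.2]

open Classical in
/-- the inverse of the induced chart -/
def inv (a : Adp A F d) (p : F) (w : Cn d) : F :=
  if h : a.φ.symm (a.K w) ∈ F then ⟨_, h⟩ else p

theorem inv_mem (a : Adp A F d) {w : Cn d} (hw : a.K w ∈ a.φ.target) :
    a.φ.symm (a.K w) ∈ F := by
  rw [a.mem_iff _ (a.φ.map_target hw), a.φ.right_inv hw, a.LK]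

theorem inv_val (a : Adp A F d) (p : F) {w : Cn d} (hw : a.K w ∈ a.φ.target) :
    ((a.inv p w : F) : M) = a.φ.symm (a.K w) := by
  unfold inv
  rw [dif_pos (a.inv_mem hw)]

/-- the induced chart of `F` -/
def ch (a : Adp A F d) (p : F) : OpenPartialHomeomorph F (Cn d) where
  toFun x := a.L (a.φ x)
  invFun := a.inv p
  source := {x | (x : M) ∈ a.φ.source}
  target := {w | a.K w ∈ a.φ.target}
  map_source' := by
    intro x hx
    show a.K (a.L (a.φ x)) ∈ a.φ.target
    rw [(a.mem_iff x hx).1 x.2]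
    exact a.φ.map_source hx
  map_target' := by
    intro w hw
    show ((a.inv p w : F) : M) ∈ a.φ.source
    rw [a.inv_val p hw]
    exact a.φ.map_target hw
  left_inv' := by
    intro x hx
    apply Subtype.ext
    have h1 : a.K (a.L (a.φ x)) = a.φ x := (a.mem_iff x hx).1 x.2
    rw [a.inv_val p (by rw [h1]; exact a.φ.map_source hx), h1]
    exact a.φ.left_inv hx
  right_inv' := by
    intro w hw
    show a.L (a.φ ((a.inv p w : F) : M)) = w
    rw [a.inv_val p hw, a.φ.right_inv hw, a.LK]
  open_source := a.φ.open_source.preimage continuous_subtype_val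
  open_target := a.φ.open_target.preimage a.K.continuous
  continuousOn_toFun := by
    refine a.L.continuous.comp_continuousOn ?_
    exact a.φ.continuousOn.comp continuous_subtype_val.continuousOn (fun x hx => hx)
  continuousOn_invFun := by
    rw [Topology.IsInducing.subtypeVal.continuousOn_iff]
    have h1 : ContinuousOn (fun w => a.φ.symm (a.K w)) {w | a.K w ∈ a.φ.target} :=
      a.φ.symm.continuousOn.comp a.K.continuous.continuousOn (fun w hw => hw)
    refine h1.congr fun w hw => ?_
    exact a.inv_val p hw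

@[simp] theorem ch_apply (a : Adp A F d) (p : F) (x : F) : a.ch p x = a.L (a.φ x) := rfl

theorem mem_ch_source (a : Adp A F d) (p : F) {x : F} :
    x ∈ (a.ch p).source ↔ (x : M) ∈ a.φ.source := Iff.rfl


theorem ch_symm_val (a : Adp A F d) (p : F) {w : Cn d} (hw : w ∈ (a.ch p).target) :
    (((a.ch p).symm w : F) : M) = a.φ.symm (a.K w) := a.inv_val p hw

/-- the changes of charts are holomorphic -/
theorem holo (a : Adp A F d) (b : Adp A F d') (p q : F) :
    DifferentiableOn ℂ (fun w => b.ch q ((a.ch p).symm w))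
      ((a.ch p).target ∩ (a.ch p).symm ⁻¹' (b.ch q).source) := by
  have h1 : DifferentiableOn ℂ (fun w => b.L (b.φ (a.φ.symm (a.K w))))
      ((a.ch p).target ∩ (a.ch p).symm ⁻¹' (b.ch q).source) := by
    refine b.L.differentiable.comp_differentiableOn ?_
    refine DifferentiableOn.comp (g := fun v => b.φ (a.φ.symm v)) (f := fun w => a.K w)
      (a.hol_trans b) a.K.differentiable.differentiableOn ?_
    rintro w ⟨hw, hw'⟩
    refine ⟨hw, ?_⟩
    have h2 := a.ch_symm_val p hw
    rw [mem_preimage, mem_ch_source] at hw'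
    rw [h2] at hw'
    exact hw'
  refine h1.congr ?_
  rintro w ⟨hw, hw'⟩
  show b.L (b.φ (((a.ch p).symm w : F) : M)) = _
  rw [a.ch_symm_val p hw]

/-- the dimension is well defined -/
theorem dim_eq (a : Adp A F d) (b : Adp A F d') {x : M} (hx : x ∈ F) (ha : x ∈ a.φ.source)
    (hb : x ∈ b.φ.source) : d = d' := by
  set p : F := ⟨x, hx⟩ with hp
  -- the two changes of charts
  set T : Cn d → Cn d' := fun w => b.ch p ((a.ch p).symm w) with hT
  set S : Cn d' → Cn d := fun w => a.ch p ((b.ch p).symm w) with hS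
  set w0 : Cn d := a.ch p p with hw0
  have ha' : p ∈ (a.ch p).source := ha
  have hb' : p ∈ (b.ch p).source := hb
  have hsym : (a.ch p).symm w0 = p := (a.ch p).left_inv ha'
  have hTw : T w0 = b.ch p p := by
    simp only [hT, hsym]
  have hsym' : (b.ch p).symm (b.ch p p) = p := (b.ch p).left_inv hb'
  have o1 : (a.ch p).target ∩ (a.ch p).symm ⁻¹' (b.ch p).source ∈ 𝓝 w0 := by
    refine ((a.ch p).isOpen_inter_preimage_symm (b.ch p).open_source).mem_nhds ?_
    exact ⟨(a.ch p).map_source ha', by rw [mem_preimage, hsym]; exact hb'⟩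
  have o2 : (b.ch p).target ∩ (b.ch p).symm ⁻¹' (a.ch p).source ∈ 𝓝 (T w0) := by
    refine ((b.ch p).isOpen_inter_preimage_symm (a.ch p).open_source).mem_nhds ?_
    rw [hTw]
    exact ⟨(b.ch p).map_source hb', by rw [mem_preimage, hsym']; exact ha'⟩
  have dT : HasFDerivAt T (fderiv ℂ T w0) w0 :=
    ((a.holo b p p).differentiableAt o1).hasFDerivAt
  have dS : HasFDerivAt S (fderiv ℂ S (T w0)) (T w0) :=
    ((b.holo a p p).differentiableAt o2).hasFDerivAt
  have hST : (S ∘ T) =ᶠ[𝓝 w0] id := by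
    filter_upwards [o1] with w hw
    simp only [Function.comp, hS, hT, id]
    rw [(b.ch p).left_inv hw.2, (a.ch p).right_inv hw.1]
  have hST0 : S (T w0) = w0 := hST.self_of_nhds
  have hTS : (T ∘ S) =ᶠ[𝓝 (T w0)] id := by
    filter_upwards [o2] with w hw
    simp only [Function.comp, hS, hT, id]
    rw [(a.ch p).left_inv hw.2, (b.ch p).right_inv hw.1]
  have e1 : (fderiv ℂ S (T w0)).comp (fderiv ℂ T w0) = ContinuousLinearMap.id ℂ _ := by
    have h1 : HasFDerivAt (S ∘ T) ((fderiv ℂ S (T w0)).comp (fderiv ℂ T w0)) w0 := dS.comp w0 dT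
    have h2 : HasFDerivAt (S ∘ T) (ContinuousLinearMap.id ℂ _) w0 :=
      (hasFDerivAt_id w0).congr_of_eventuallyEq hST
    exact h1.unique h2
  have e2 : (fderiv ℂ T w0).comp (fderiv ℂ S (T w0)) = ContinuousLinearMap.id ℂ _ := by
    have h0 : HasFDerivAt T (fderiv ℂ T w0) (S (T w0)) := by rw [hST0]; exact dT
    have h1 : HasFDerivAt (T ∘ S) ((fderiv ℂ T w0).comp (fderiv ℂ S (T w0))) (T w0) :=
      h0.comp (T w0) dS
    have h2 : HasFDerivAt (T ∘ S) (ContinuousLinearMap.id ℂ _) (T w0) :=
      (hasFDerivAt_id (T w0)).congr_of_eventuallyEq hTS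
    exact h1.unique h2
  let eq : Cn d ≃ₗ[ℂ] Cn d' :=
    LinearEquiv.ofLinearMap (fderiv ℂ T w0 : Cn d →ₗ[ℂ] Cn d')
      (fderiv ℂ S (T w0) : Cn d' →ₗ[ℂ] Cn d)
      (by
        ext1 v
        exact congrArg (fun R : Cn d' →L[ℂ] Cn d' => R v) e2)
      (by
        ext1 v
        exact congrArg (fun R : Cn d →L[ℂ] Cn d => R v) e1)
  have h := eq.finrank_eq
  rwa [finrank_euclideanSpace_fin, finrank_euclideanSpace_fin] at h

end Adp

/-- a family of adapted charts, one around each point of `F` -/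
structure Fam (A : Atl n M) (F : Set M) (d : ℕ) where
  a : F → Adp A F d
  mem : ∀ x : F, (x : M) ∈ (a x).φ.source

/-- the charted space `F` -/
@[reducible] def Fam.csp (G : Fam A F d) : ChartedSpace (Cn d) F where
  atlas := range fun x => (G.a x).ch x
  chartAt x := (G.a x).ch x
  mem_chart_source x := G.mem x
  chart_mem_atlas x := ⟨x, rfl⟩

theorem Fam.isManifold (G : Fam A F d) :
    @IsManifold ℂ _ (Cn d) _ _ (Cn d) _ 𝓘(ℂ, Cn d) 1 F _ G.csp := by
  let _ := G.csp
  apply isManifold_of_contDiffOn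
  rintro e e' ⟨x, rfl⟩ ⟨y, rfl⟩
  simp only [modelWithCornersSelf_coe, modelWithCornersSelf_coe_symm, Function.id_comp,
    Function.comp_id, range_id, inter_univ, preimage_id_eq, id]
  have ho : IsOpen (((G.a x).ch x).symm ≫ₕ ((G.a y).ch y)).source :=
    (((G.a x).ch x).symm ≫ₕ ((G.a y).ch y)).open_source
  have h1 : DifferentiableOn ℂ (((G.a x).ch x).symm ≫ₕ ((G.a y).ch y))
      (((G.a x).ch x).symm ≫ₕ ((G.a y).ch y)).source := by
    refine DifferentiableOn.mono ((G.a x).holo (G.a y) x y) ?_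
    intro w hw
    rw [OpenPartialHomeomorph.trans_source] at hw
    exact hw
  exact (Crest.Agent.R266.SCV.analyticOnNhd_of_differentiableOn ho h1).contDiffOn
    (ho.uniqueDiffOn)

end

end Crest.Agent.R273.Ret_155
end

-- ▼ part R273/RetC_155

/-!
# R273 (S0416), torus step (helper155): the fixed locus of a holomorphic retraction

`HRet A`      : a holomorphic retraction `r : U → U`, `r ∘ r = r`, of an open subset of `M`;
`HRet.F`      : its image = fixed locus;
`HRet.exists_adp` : adapted charts around the points of `F` in which `r` is a linear projection;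
`HRet.exists_fam` : the same dimension everywhere if `F` is connected.
-/

set_option autoImplicit false
set_option linter.unusedSectionVars false

open Set Filter Topology
open scoped ContDiff Manifold

namespace Crest.Agent.R273.Ret_155

open Crest.Agent.R275.Geo Crest.Agent.R275.Core144 Crest.Agent.R273.Map_835

noncomputable section

variable {n : ℕ} {M : Type} [TopologicalSpace M] {A : Atl n M} {d d' : ℕ}

/-- a holomorphic retraction of the open set `U` -/
structure HRet (A : Atl n M) where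
  U : Set M
  isOpen_U : IsOpen U
  r : M → M
  maps : MapsTo r U U
  idem : ∀ x ∈ U, r (r x) = r x
  cont : ContinuousOn r U
  hol : ∀ i j, DifferentiableOn ℂ (fun z => A.e j (r ((A.e i).symm z)))
    ((A.e i).target ∩ (A.e i).symm ⁻¹' (U ∩ r ⁻¹' (A.e j).source))

namespace HRet

/-- the image = the fixed locus -/
def F (R : HRet A) : Set M := {x | x ∈ R.U ∧ R.r x = x}

theorem mem_F (R : HRet A) {x : M} : x ∈ R.F ↔ x ∈ R.U ∧ R.r x = x := Iff.rfl

theorem r_mem (R : HRet A) {x : M} (hx : x ∈ R.U) : R.r x ∈ R.F := ⟨R.maps hx, R.idem x hx⟩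

theorem F_sub (R : HRet A) : R.F ⊆ R.U := fun _ h => h.1

theorem F_eq (R : HRet A) : R.F = R.r '' R.U := by
  ext x
  constructor
  · rintro ⟨h1, h2⟩
    exact ⟨x, h1, h2⟩
  · rintro ⟨y, hy, rfl⟩
    exact R.r_mem hy

theorem isOpen_pre (R : HRet A) {S : Set M} (hS : IsOpen S) : IsOpen (R.U ∩ R.r ⁻¹' S) :=
  R.cont.isOpen_inter_preimage R.isOpen_U hS

/-- compatibility of an adapted chart with the retraction -/
structure Cmp (R : HRet A) (a : Adp A R.F d) : Prop where
  sub : a.φ.source ⊆ R.U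
  maps : MapsTo R.r a.φ.source a.φ.source
  lin : ∀ x ∈ a.φ.source, a.φ (R.r x) = a.K (a.L (a.φ x))
  dom : ∃ i, a.φ.source ⊆ (A.e i).source

/-- adapted charts around the points of `F` -/
theorem exists_adp (R : HRet A) {p : M} (hp : p ∈ R.F) {O : Set M} (hO : IsOpen O)
    (hpO : p ∈ O) : ∃ (d : ℕ) (a : Adp A R.F d), p ∈ a.φ.source ∧ a.φ.source ⊆ O ∧ R.Cmp a := by
  obtain ⟨i, hi⟩ := A.cover p
  set W : Set (Cn n) := (A.e i).target ∩ (A.e i).symm ⁻¹'
    ((R.U ∩ R.r ⁻¹' (A.e i).source) ∩ O) with hWdef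
  have hW : IsOpen W :=
    (A.e i).isOpen_inter_preimage_symm ((R.isOpen_pre (A.e i).open_source).inter hO)
  have hz0 : A.e i p ∈ W := by
    refine ⟨(A.e i).map_source hi, ?_⟩
    rw [mem_preimage, (A.e i).left_inv hi]
    exact ⟨⟨hp.1, by rw [mem_preimage, hp.2]; exact hi⟩, hpO⟩
  have hRd : DifferentiableOn ℂ (fun z => A.e i (R.r ((A.e i).symm z))) W := by
    refine (R.hol i i).mono ?_
    rintro z ⟨h1, h2⟩
    exact ⟨h1, h2.1⟩
  have hRa := Crest.Agent.R266.SCV.analyticOnNhd_of_differentiableOn hW hRd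
  have hid : ∀ z ∈ W, A.e i (R.r ((A.e i).symm (A.e i (R.r ((A.e i).symm z))))) =
      A.e i (R.r ((A.e i).symm z)) := by
    rintro z ⟨h1, h2⟩
    rw [(A.e i).left_inv h2.1.2, R.idem _ h2.1.1]
  obtain ⟨e, P, hPP, he0, heW, -, hea, hes, hmap, hlin, -⟩ :=
    straight (R := fun z => A.e i (R.r ((A.e i).symm z))) (z0 := A.e i p) hW hz0 hRa
      (by simp only [(A.e i).left_inv hi, hp.2]) hid
  obtain ⟨d, L, K, hLK, hKL⟩ := exists_coord P hPP
  have hLK' : ∀ w, L (K w) = w := fun w => congrArg (fun T : Cn d →L[ℂ] Cn d => T w) hLK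
  have hKL' : ∀ v, K (L v) = P v := fun v => congrArg (fun T : Cn n →L[ℂ] Cn n => T v) hKL
  set φ : OpenPartialHomeomorph M (Cn n) := (A.e i) ≫ₕ e with hφ
  have hsrc : ∀ x, x ∈ φ.source ↔ x ∈ (A.e i).source ∧ A.e i x ∈ e.source := by
    intro x
    rw [hφ, OpenPartialHomeomorph.trans_source]
    exact Iff.rfl
  have htgt : ∀ w, w ∈ φ.target → w ∈ e.target ∧ e.symm w ∈ (A.e i).target := by
    intro w hw
    rw [hφ, OpenPartialHomeomorph.trans_target] at hw
    exact hw
  have hφx : ∀ x, φ x = e (A.e i x) := fun x => rfl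
  have hφs : ∀ w, φ.symm w = (A.e i).symm (e.symm w) := fun w => rfl
  -- facts on the source
  have hfact : ∀ x ∈ φ.source, x ∈ R.U ∧ R.r x ∈ (A.e i).source ∧ x ∈ O ∧
      A.e i (R.r x) ∈ e.source := by
    intro x hx
    obtain ⟨h1, h2⟩ := (hsrc x).1 hx
    have h3 := heW h2
    have h4 := h3.2
    rw [mem_preimage, (A.e i).left_inv h1] at h4
    refine ⟨h4.1.1, h4.1.2, h4.2, ?_⟩
    have h5 := hmap h2
    simp only [(A.e i).left_inv h1] at h5
    exact h5
  have hlin' : ∀ x ∈ φ.source, φ (R.r x) = P (φ x) := by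
    intro x hx
    obtain ⟨h1, h2⟩ := (hsrc x).1 hx
    have h3 := hlin _ h2
    rw [(A.e i).left_inv h1] at h3
    rw [hφx, hφx, h3]
  let a : Adp A R.F d :=
    { φ := φ
      hol := by
        intro j
        refine DifferentiableOn.comp (g := fun v => e v) (f := fun z => A.e i ((A.e j).symm z))
          (t := e.source) hea.differentiableOn ((A.holo j i).mono ?_) ?_
        · rintro z ⟨h1, h2⟩
          exact ⟨h1, ((hsrc _).1 h2).1⟩
        · rintro z ⟨h1, h2⟩
          exact ((hsrc _).1 h2).2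
      hol' := by
        intro j
        refine DifferentiableOn.comp (g := fun v => A.e j ((A.e i).symm v))
          (f := fun w => e.symm w) (t := A.ov i j) (A.holo i j)
          (hes.differentiableOn.mono ?_) ?_
        · rintro w ⟨h1, h2⟩
          exact (htgt w h1).1
        · rintro w ⟨h1, h2⟩
          exact ⟨(htgt w h1).2, h2⟩
      L := L
      K := K
      LK := hLK'
      mem_iff := by
        intro x hx
        obtain ⟨h1, h2⟩ := (hsrc x).1 hx
        obtain ⟨f1, f2, f3, f4⟩ := hfact x hx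
        rw [hKL']
        constructor
        · intro h
          rw [← hlin' x hx, h.2]
        · intro h
          refine ⟨f1, ?_⟩
          rw [← hlin' x hx, hφx, hφx] at h
          have h5 : A.e i (R.r x) = A.e i x := e.injOn f4 h2 h
          exact (A.e i).injOn f2 h1 h5 }
  refine ⟨d, a, ?_, ?_, ?_, ?_, ?_, ?_⟩
  · exact (hsrc p).2 ⟨hi, he0⟩
  · exact fun x hx => (hfact x hx).2.2.1
  · exact fun x hx => (hfact x hx).1
  · intro x hx
    obtain ⟨f1, f2, f3, f4⟩ := hfact x hx
    exact (hsrc _).2 ⟨f2, f4⟩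
  · intro x hx
    show φ (R.r x) = K (L (φ x))
    rw [hKL', hlin' x hx]
  · exact ⟨i, fun x hx => ((hsrc x).1 hx).1⟩

/-- a family of adapted charts, all of the same dimension -/
theorem exists_fam (R : HRet A) (hc : IsConnected R.F) :
    ∃ (d : ℕ) (G : Fam A R.F d), ∀ x, R.Cmp (G.a x) := by
  have h1 : ∀ p : R.F, ∃ (d : ℕ) (a : Adp A R.F d), (p : M) ∈ a.φ.source ∧ R.Cmp a := by
    intro p
    obtain ⟨d, a, h1, _, h2⟩ := R.exists_adp p.2 isOpen_univ (mem_univ _)
    exact ⟨d, a, h1, h2⟩
  choose dd aa hmem hcmp using h1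
  have hloc : IsLocallyConstant dd := by
    rw [IsLocallyConstant.iff_eventually_eq]
    intro x
    have h2 : {y : R.F | (y : M) ∈ (aa x).φ.source} ∈ 𝓝 x :=
      ((aa x).φ.open_source.preimage continuous_subtype_val).mem_nhds (hmem x)
    filter_upwards [h2] with y hy
    exact (aa y).dim_eq (aa x) y.2 (hmem y) hy
  have hpc : PreconnectedSpace R.F := Subtype.preconnectedSpace hc.isPreconnected
  obtain ⟨x0, hx0⟩ := hc.nonempty
  have hconst : ∀ x, dd x = dd ⟨x0, hx0⟩ := fun x => hloc.apply_eq_of_preconnectedSpace _ _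
  refine ⟨dd ⟨x0, hx0⟩, ⟨fun x => hconst x ▸ aa x, fun x => ?_⟩, fun x => ?_⟩
  · have : ∀ (d : ℕ) (h : dd x = d), (x : M) ∈ ((h ▸ aa x : Adp A R.F d)).φ.source := by
      rintro d rfl
      exact hmem x
    exact this _ (hconst x)
  · have : ∀ (d : ℕ) (h : dd x = d), R.Cmp (h ▸ aa x : Adp A R.F d) := by
      rintro d rfl
      exact hcmp x
    exact this _ (hconst x)

end HRet

end

end Crest.Agent.R273.Ret_155
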