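import Crest.Agent.R273.PiEnd_836
import Crest.Agent.R273.UCovB_914
import Crest.Agent.R273.LamN_127
import Crest.Agent.R275.Dg1_199

-- ▼ part R273/PiEndG_836
section

/-!
# R273 (S0416), Part C, PI-END (E2) (helper836)

`D : MonD A G` (914), `H ≤ G`, `τ : H →* Multiplicative ℤ` nontrivial, `D.cov G` connected.
Then `hcoc D H τ : ZCoc (D.atl (G ⧸ H))` is not a coboundary.
-/

set_option autoImplicit false
set_option linter.unusedSectionVars false

open Set Filter Topology Complex
open scoped ContDiff Matrix ComplexConjugate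

namespace Crest.Agent.R273.PiEndG_836

open Crest.Agent.R275.Geo Crest.Agent.R275.OmT75 Crest.Agent.R275.Core144
open Crest.Agent.R273.PiEnd_836 Crest.Agent.R273.UCov_914 Crest.Agent.R275.ZC352

noncomputable section

variable {n : ℕ} {M : Type} [TopologicalSpace M] {A : Atl n M} {G : Type} [Group G]

section grp

variable (H : Subgroup G) (τ : H →* Multiplicative ℤ)

open Classical in
/-- `τ` as a real valued function on `G` (zero off `H`) -/
def tr (g : G) : ℝ := if h : g ∈ H then ((Multiplicative.toAdd (τ ⟨g, h⟩) : ℤ) : ℝ) else 0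

theorem tr_mul {a b : G} (ha : a ∈ H) (hb : b ∈ H) : tr H τ (a * b) = tr H τ a + tr H τ b := by
  unfold tr
  rw [dif_pos ha, dif_pos hb, dif_pos (H.mul_mem ha hb)]
  have : τ ⟨a * b, H.mul_mem ha hb⟩ = τ ⟨a, ha⟩ * τ ⟨b, hb⟩ := by
    rw [← map_mul]; rfl
  rw [this, toAdd_mul]
  push_cast
  ring

/-- representative of a coset -/
def rep (f : G ⧸ H) : G := Quotient.out f




end grp

variable (D : MonD A G) (H : Subgroup G) (τ : H →* Multiplicative ℤ)


/-- the equivariant map `G → G ⧸ H` -/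
def mkE : G →[G] (G ⧸ H) where
  toFun g := (g : G ⧸ H)
  map_smul' g g' := rfl


end

end Crest.Agent.R273.PiEndG_836
end

-- ▼ part R273/PiEndH_836

/-!
# R273 (S0416), Part C, PI-END corollary (helper836)

`ZCoc.hB_ne_zero` : a non-coboundary in `ZCoc A` (real valued, locally constant) on a compact
connected `M` gives `hB (BN (1 : LB A)) 1 ≠ 0`, i.e. `H¹(M, 𝓞) ≠ 0`.
-/

set_option autoImplicit false
set_option linter.unusedSectionVars false

open Set Filter Topology Complex
open scoped ContDiff Matrix ComplexConjugate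

namespace Crest.Agent.R273.PiEndH_836

open Crest.Agent.R275 Crest.Agent.R275.Geo Crest.Agent.R275.OmT75 Crest.Agent.R275.Core144
open Crest.Agent.R275.GeoHol912 Crest.Agent.R275.Dg199 Crest.Agent.R275.SerG398
open Crest.Agent.R273.PiEnd_836 Crest.Agent.R273.LamN127 Crest.Agent.R273.Fock_243

noncomputable section

variable {n : ℕ} {M : Type} [TopologicalSpace M] {A : Atl n M}

/-- the Dolbeault complex of the trivial bundle -/
abbrev B1 (A : Atl n M) : FBun A := BN (1 : LB A)

/-- the degree zero vector with value `c` -/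
def vc (A : Atl n M) (c : ℂ) : (B1 A).κ → ℂ := fun k => if (B1 A).deg k = 0 then c else 0


/-- the index of degree zero -/
def k0 (A : Atl n M) : (B1 A).κ := ((∅ : Finset (Fin n)), ())

theorem deg_k0 : (B1 A).deg (k0 A) = 0 := rfl

theorem eq_k0 {k : (B1 A).κ} (h : (B1 A).deg k = 0) : k = k0 A := by
  obtain ⟨S, u⟩ := k
  have h1 : Finset.card (α := Fin n) S = 0 := h
  have h2 : S = (∅ : Finset (Fin n)) := Finset.card_eq_zero.1 h1
  exact Prod.ext h2 rfl

@[simp] theorem vc_k0 (c : ℂ) : vc A c (k0 A) = c := if_pos deg_k0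

theorem vc_of_ne {c : ℂ} {k : (B1 A).κ} (h : (B1 A).deg k ≠ 0) : vc A c k = 0 := if_neg h

theorem vc_add (c d : ℂ) : vc A (c + d) = vc A c + vc A d := by
  funext k
  show (if (B1 A).deg k = 0 then c + d else 0) = (if (B1 A).deg k = 0 then c else 0)
    + (if (B1 A).deg k = 0 then d else 0)
  split_ifs <;> simp


theorem tau_k0 (i j : A.ι) (x : M) (k : (B1 A).κ) :
    (B1 A).τ i j x k (k0 A) = if (B1 A).deg k = 0 then 1 else 0 := by
  obtain ⟨S, u⟩ := k
  have h1 : (B1 A).τ i j x (S, u) (k0 A) = Gam (Jb A i j x) S ∅ * 1 := rfl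
  have h3 : (B1 A).deg (S, u) = Finset.card (α := Fin n) S := rfl
  by_cases hS : Finset.card (α := Fin n) S = 0
  · have h5 : S = (∅ : Finset (Fin n)) := Finset.card_eq_zero.1 hS
    rw [if_pos (h3.trans hS), h1, mul_one]
    exact (Gam_vac _ _).trans (if_pos h5)
  · have h5 : ¬ S = (∅ : Finset (Fin n)) := fun h => hS (Finset.card_eq_zero.2 h)
    rw [if_neg (fun h => hS (h3.symm.trans h)), h1, mul_one]
    exact (Gam_vac _ _).trans (if_neg h5)

theorem tau_vc (i j : A.ι) (x : M) (c : ℂ) : (B1 A).τ i j x *ᵥ vc A c = vc A c := by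
  funext k
  have h1 : ((B1 A).τ i j x *ᵥ vc A c) k = ∑ l, (B1 A).τ i j x k l * vc A c l := rfl
  rw [h1, Finset.sum_eq_single (k0 A)]
  · rw [tau_k0, vc_k0]
    show _ = (if (B1 A).deg k = 0 then c else 0)
    split_ifs <;> simp
  · intro l _ hl
    rw [vc_of_ne (fun h => hl (eq_k0 h)), mul_zero]
  · intro h
    exact absurd (Finset.mem_univ _) h

theorem alpha_zero {i : A.ι} {x : M} (hx : x ∈ (A.e i).source) : (B1 A).α i x = 0 :=
  BN_α 1 i x hx

/-- the section of degree zero given by a smooth function -/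
def sF (A : Atl n M) (F : M → ℂ) : A.ι → M → (B1 A).κ → ℂ :=
  open Classical in fun i x => if x ∈ (A.e i).source then vc A (F x) else 0

theorem sF_apply {F : M → ℂ} {i : A.ι} {x : M} (hx : x ∈ (A.e i).source) :
    sF A F i x = vc A (F x) := if_pos hx

theorem sF_off {F : M → ℂ} {i : A.ι} {x : M} (hx : x ∉ (A.e i).source) :
    sF A F i x = 0 := if_neg hx

theorem vc_smAt {i : A.ι} {F : M → ℂ} (hF : A.SmAt i F) (k : (B1 A).κ) :
    A.SmAt i (fun x => vc A (F x) k) := by
  by_cases hk : (B1 A).deg k = 0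
  · have : (fun x => vc A (F x) k) = F := by
      funext x; rw [eq_k0 hk, vc_k0]
    rw [this]; exact hF
  · have : (fun x => vc A (F x) k) = fun _ => 0 := by
      funext x; rw [vc_of_ne hk]
    rw [this]; exact contDiffOn_const

theorem sF_mem {F : M → ℂ} (hF : ∀ p, SmN A F p) : sF A F ∈ Sec (B1 A) := by
  refine ⟨fun i k => ?_, fun i x hx => sF_off hx, fun i j x hx => ?_⟩
  · have h1 : A.SmAt i (fun x => vc A (F x) k) := vc_smAt (smAt_of_smN fun p _ => hF p) k
    refine ContDiffOn.congr h1 fun z hz => ?_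
    simp only [sF_apply ((A.e i).map_target hz)]
  · rw [sF_apply hx.1, sF_apply hx.2, tau_vc]

theorem sF_deg {F : M → ℂ} : IsDeg (B1 A) 0 (sF A F) := by
  intro i x k hk
  by_cases hx : x ∈ (A.e i).source
  · rw [sF_apply hx] at hk
    by_contra h
    exact hk (vc_of_ne h)
  · exact absurd (by rw [sF_off hx]; rfl) hk

section main

variable [Finite A.ι] [T2Space M] (C : ZCoc A) (P : Part A)

/-- the complexified primitive -/
def pf (i : A.ι) (x : M) : ℂ := ((C.prim P i x : ℝ) : ℂ)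

theorem pf_smN {i : A.ι} {p : M} (hp : p ∈ (A.e i).source) : SmN A (pf C P i) p :=
  SmN.ofReal (SmAt.smN (C.prim_sm P i) hp)

/-- the `(0,1)`-form `∂̄ f i` -/
def uF : A.ι → M → (B1 A).κ → ℂ :=
  open Classical in fun i x => if x ∈ (A.e i).source then
    ∑ a, (B1 A).e a *ᵥ (A.db i a (fun y => vc A (pf C P i y)) x) else 0

theorem uF_apply {i : A.ι} {x : M} (hx : x ∈ (A.e i).source) :
    uF C P i x = ∑ a, (B1 A).e a *ᵥ (A.db i a (fun y => vc A (pf C P i y)) x) := by
  exact if_pos hx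

theorem uF_off {i : A.ι} {x : M} (hx : x ∉ (A.e i).source) : uF C P i x = 0 := if_neg hx

theorem dbj_add_const' {W : Type*} [NormedAddCommGroup W] [NormedSpace ℂ W] {f : Cn n → W}
    (c : W) (z : Cn n) (a : Fin n) : dbj a (fun w => f w + c) z = dbj a f z := by
  have h : fderiv ℝ (fun w => f w + c) z = fderiv ℝ f z := fderiv_add_const c
  simp only [dbj, h]

/-- near every point the form `uF` is `∇` of a global section of degree zero -/
theorem key (p : M) : ∃ F : M → ℂ, (∀ q, SmN A F q) ∧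
    (∀ j, p ∈ (A.e j).source → ∃ c : ℂ, ∀ᶠ x in 𝓝 p, F x = pf C P j x + c) := by
  obtain ⟨i, hi⟩ := A.cover p
  obtain ⟨φ, hφ, hφ1, hφs, -, -, -⟩ := exists_bump A ((A.e i).open_source.mem_nhds hi)
  refine ⟨fun x => (φ x : ℂ) * pf C P i x, fun q => ?_, fun j hj => ?_⟩
  · refine smN_mul_tsupport (φ := fun x => (φ x : ℂ)) (fun q => SmN.ofReal (hφ q)) ?_ q
    intro q hq
    refine pf_smN C P (hφs ?_)
    refine closure_mono ?_ hq
    intro y hy
    rw [Function.mem_support] at hy ⊢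
    intro h
    exact hy (by simp [h])
  · refine ⟨((C.c i j p : ℝ) : ℂ), ?_⟩
    have h1 := C.lc i j p ⟨hi, hj⟩
    filter_upwards [h1, hφ1, (A.e i).open_source.mem_nhds hi,
      (A.e j).open_source.mem_nhds hj] with x h1 h2 h3 h4
    have h5 := C.prim_sub P i j ⟨h3, h4⟩
    rw [h2, ← h1, ← h5]
    simp [pf]

omit [Finite A.ι] [T2Space M] in
theorem nab_sF {F : M → ℂ} {f : M → ℂ} {j : A.ι} {p : M} (hj : p ∈ (A.e j).source) {c : ℂ}
    (h : ∀ᶠ x in 𝓝 p, F x = f x + c) :
    nab (B1 A) (sF A F) j p = ∑ a, (B1 A).e a *ᵥ (A.db j a (fun y => vc A (f y)) p) := by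
  rw [nab_apply _ hj, alpha_zero hj, Matrix.zero_mulVec, add_zero]
  refine Finset.sum_congr rfl fun a _ => ?_
  congr 1
  unfold Atl.db
  rw [← dbj_add_const' (f := fun z => vc A (f ((A.e j).symm z))) (vc A c)]
  refine dbj_congr ?_
  have h1 : ∀ᶠ x in 𝓝 ((A.e j).symm (A.e j p)), F x = f x + c ∧ x ∈ (A.e j).source := by
    rw [(A.e j).left_inv hj]
    exact h.and ((A.e j).open_source.mem_nhds hj)
  have h2 := ((A.e j).continuousAt_symm ((A.e j).map_source hj)).eventually h1
  filter_upwards [h2] with z hz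
  rw [sF_apply hz.2, hz.1, vc_add]

theorem uF_ev {p : M} {F : M → ℂ}
    (hF : ∀ j, p ∈ (A.e j).source → ∃ c : ℂ, ∀ᶠ x in 𝓝 p, F x = pf C P j x + c) {j : A.ι}
    (hj : p ∈ (A.e j).source) : uF C P j =ᶠ[𝓝 p] nab (B1 A) (sF A F) j := by
  obtain ⟨c, hc⟩ := hF j hj
  filter_upwards [hc.eventually_nhds, (A.e j).open_source.mem_nhds hj] with x hx hx'
  rw [uF_apply C P hx', nab_sF hx' hx]

theorem uF_mem : uF C P ∈ Sec (B1 A) := by
  refine ⟨fun i k => ?_, fun i x hx => uF_off C P hx, fun i j x hx => ?_⟩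
  · refine smAt_of_smN fun p hp => ?_
    obtain ⟨F, hF, hF'⟩ := key C P p
    have h1 := uF_ev C P hF' hp
    have h2 : SmN A (fun x => nab (B1 A) (sF A F) i x k) p :=
      SmAt.smN ((nab_mem (B1 A) (sF_mem hF)).1 i k) hp
    refine h2.congr ?_
    filter_upwards [h1] with x hx
    rw [hx]
  · obtain ⟨F, hF, hF'⟩ := key C P x
    rw [(uF_ev C P hF' hx.1).self_of_nhds, (uF_ev C P hF' hx.2).self_of_nhds]
    exact Sec.tr (B1 A) (nab_mem (B1 A) (sF_mem hF)) hx

theorem nab_uF (x : M) (i : A.ι) : nab (B1 A) (uF C P) i x = 0 := by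
  by_cases hx : x ∈ (A.e i).source
  · obtain ⟨F, hF, hF'⟩ := key C P x
    rw [nab_congr (B1 A) (uF_ev C P hF' hx)]
    have h1 := nab_nab_BN (1 : LB A) ⟨sF A F, sF_mem hF⟩
    have h2 := congrFun (congrFun (congrArg Subtype.val h1) i) x
    exact h2
  · exact nab_off _ hx

theorem uF_deg : IsDeg (B1 A) 1 (uF C P) := by
  intro i x k hk
  by_cases hx : x ∈ (A.e i).source
  · obtain ⟨F, hF, hF'⟩ := key C P x
    rw [(uF_ev C P hF' hx).self_of_nhds] at hk
    exact nab_deg (B1 A) (sF_mem hF) sF_deg i x k hk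
  · exact absurd (by rw [uF_off C P hx]; rfl) hk

/-- the class of `∂̄ f i` -/
def uS : Sec (B1 A) := ⟨uF C P, uF_mem C P⟩

theorem uS_mem_Zd : uS C P ∈ Zd (B1 A) 1 := by
  rw [mem_Zd]
  refine ⟨Subtype.ext (funext fun i => funext fun x => nab_uF C P x i), ?_⟩
  refine Subtype.ext (funext fun i => funext fun x => funext fun k => ?_)
  show pq (B1 A) 1 (uF C P) i x k = uF C P i x k
  rw [pq_apply]
  split_ifs with h
  · rfl
  · by_contra h2
    exact h (uF_deg C P i x k fun h3 => h2 h3.symm)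



end main

end

end Crest.Agent.R273.PiEndH_836
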