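import Crest.Agent.R182.GromovMilnor
import Mathlib
import Crest.Agent.R182.GromovMain
import Crest.Agent.R273.LatFin_127
import Crest.Agent.R182.PolycVirt
import Crest.Agent.R247.Bgr3_546
import Crest.Agent.R247.GluM1_923
import Crest.Agent.R247.Ms10_322
import Crest.Prelude.Def_WordHyperbolic
import Crest.Agent.R273.RMan4_798
import Crest.Agent.R273.PiEndH_836
import Crest.Agent.R273.AlbG_645
import Crest.Agent.R273.EqvA_914
import Crest.Agent.R273.HFlow7_376
import Crest.Agent.R273.AsmB_534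
import Crest.Agent.R273.AlbH_645
import Crest.Agent.R273.DegOne_376
import Crest.Agent.R273.HodZ_376
import Crest.Agent.R273.HFlow9_376
import Crest.Agent.R273.HolF_578

-- ▼ part R273/MaxA_127
section

/-!
# R273 (S0416), Part B, leaf MAXQ (helper127), group part A

* `exists_pi` : a finitely generated group has a surjection `π` onto `ℤ^r` such that every element
  of `ker π` has a power in the commutator subgroup;
* `rank_le` : `r ≤ d` if the growth is polynomial of degree `d`;
* `HomR Γ` : the real vector space of homomorphisms `Γ → ℝ`, `finrank_le`;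
* `norm_le_one_of_growth` : Milnor's argument for eigenvalues;
* `root_of_unity` : Kronecker for integer matrices;
* `exists_common` : common eigenvector of commuting matrices.
-/

set_option autoImplicit false

open Multiplicative

namespace Crest.Agent.R273.Max127

open Crest.Agent.R182.Gromov Crest.Agent.R182.GromovMilnor

/-! ### the maximal free abelian quotient -/

section Pi

variable {Γ : Type*} [Group Γ]

/-- maximal free abelian quotient -/
theorem exists_pi (Γ : Type*) [Group Γ] [Group.FG Γ] :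
    ∃ (r : ℕ) (π : Γ →* Multiplicative (Fin r → ℤ)), Function.Surjective π ∧
      ∀ x, π x = 1 → ∃ n : ℕ, 0 < n ∧ x ^ n ∈ commutator Γ := by
  let M := Additive (Abelianization Γ)
  have hfg : Module.Finite ℤ M := by
    have h1 : Group.FG (Abelianization Γ) := Group.fg_of_surjective (f := Abelianization.of)
      (QuotientGroup.mk'_surjective _)
    exact Module.Finite.iff_addGroup_fg.2 (AddGroup.fg_iff_mul_fg.2 h1)
  obtain ⟨n, b⟩ : Σ n : ℕ, Module.Basis (Fin n) ℤ (M ⧸ Submodule.torsion ℤ M) :=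
    Module.basisOfFiniteTypeTorsionFree'
  let c : M →+ (Fin n → ℤ) :=
    (b.equivFun.toAddEquiv.toAddMonoidHom).comp
      (Submodule.mkQ (Submodule.torsion ℤ M)).toAddMonoidHom
  let π : Γ →* Multiplicative (Fin n → ℤ) :=
    (AddMonoidHom.toMultiplicativeRight (α := Abelianization Γ) c).comp Abelianization.of
  have hπ : ∀ x, toAdd (π x) = b.equivFun (Submodule.Quotient.mk
      (Additive.ofMul (Abelianization.of x) : M)) := fun x => rfl
  refine ⟨n, π, ?_, ?_⟩
  · intro v
    obtain ⟨m, hm⟩ := b.equivFun.surjective (toAdd v)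
    obtain ⟨m', rfl⟩ := Submodule.Quotient.mk_surjective _ m
    obtain ⟨x, hx⟩ := QuotientGroup.mk'_surjective (commutator Γ) (Additive.toMul m')
    refine ⟨x, ?_⟩
    apply toAdd.injective
    rw [hπ, ← hm]
    have : (Additive.ofMul (Abelianization.of x) : M) = m' := by
      apply Additive.toMul.injective
      exact hx
    rw [this]
  · intro x hx
    have h1 : b.equivFun (Submodule.Quotient.mk
        (Additive.ofMul (Abelianization.of x) : M)) = 0 := by
      rw [← hπ, hx]; rfl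
    have h2 : (Submodule.Quotient.mk (Additive.ofMul (Abelianization.of x) : M) :
        M ⧸ Submodule.torsion ℤ M) = 0 := by
      rwa [LinearEquiv.map_eq_zero_iff] at h1
    rw [Submodule.Quotient.mk_eq_zero] at h2
    obtain ⟨⟨a, ha⟩, h⟩ := h2
    have ha0 : a ≠ 0 := nonZeroDivisors.ne_zero ha
    have h3 : (Abelianization.of x) ^ a = 1 := h
    have h4 : (Abelianization.of x) ^ a.natAbs = 1 := by
      rcases Int.natAbs_eq a with h | h
      · rw [h, zpow_natCast] at h3; exact h3
      · rw [h, zpow_neg, zpow_natCast, inv_eq_one] at h3; exact h3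
    rw [← map_pow] at h4
    exact ⟨a.natAbs, Int.natAbs_pos.2 ha0, (QuotientGroup.eq_one_iff _).1 h4⟩

/-- a homomorphism to a torsion free commutative group kills the kernel of `π` -/
theorem kill {A : Type*} [CommGroup A] [IsMulTorsionFree A] (f : Γ →* A) {x : Γ} {n : ℕ}
    (hn : 0 < n) (hx : x ^ n ∈ commutator Γ) : f x = 1 := by
  have h1 : f (x ^ n) = 1 := (Abelianization.commutator_subset_ker f) hx
  rw [map_pow] at h1
  exact (pow_eq_one_iff_left hn.ne').1 h1

variable {r : ℕ} {π : Γ →* Multiplicative (Fin r → ℤ)}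

/-- coordinates of a homomorphism: `f x = Σ_i π(x)_i f(p_i)` -/
theorem expand {E : Type*} [AddCommGroup E] [IsAddTorsionFree E]
    (hπ : ∀ x, π x = 1 → ∃ n : ℕ, 0 < n ∧ x ^ n ∈ commutator Γ) {p : Fin r → Γ}
    (hp : ∀ i, toAdd (π (p i)) = Pi.single i 1) (f : Γ →* Multiplicative E) (x : Γ) :
    toAdd (f x) = ∑ i, toAdd (π x) i • toAdd (f (p i)) := by
  classical
  -- the element `y = ∏ p_i^{π(x)_i}` in the abelianisation
  let F : Abelianization Γ →* Multiplicative E := Abelianization.lift f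
  let Pi' : Abelianization Γ →* Multiplicative (Fin r → ℤ) := Abelianization.lift π
  let Y : Abelianization Γ := ∏ i, (Abelianization.of (p i)) ^ (toAdd (π x) i)
  obtain ⟨y, hy⟩ := QuotientGroup.mk'_surjective (commutator Γ) Y
  have hy' : Abelianization.of y = ∏ i, (Abelianization.of (p i)) ^ (toAdd (π x) i) := hy
  have h1 : π y = π x := by
    have h2 : π y = Pi' (Abelianization.of y) := (Abelianization.lift_apply_of π y).symm
    rw [h2, hy', map_prod]
    have h3 : ∀ i, Pi' ((Abelianization.of (p i)) ^ (toAdd (π x) i)) =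
        ofAdd (Pi.single i (toAdd (π x) i)) := by
      intro i
      rw [map_zpow]
      have h4 : Pi' (Abelianization.of (p i)) = π (p i) := Abelianization.lift_apply_of π _
      rw [h4]
      apply toAdd.injective
      rw [toAdd_zpow, hp i, toAdd_ofAdd]
      ext j
      simp [Pi.single_apply]
    rw [Finset.prod_congr rfl fun i _ => h3 i]
    apply toAdd.injective
    rw [toAdd_prod]
    ext j
    simp [Finset.sum_apply, Pi.single_apply]
  have h5 : f y = f x := by
    have h6 : π (x * y⁻¹) = 1 := by rw [map_mul, map_inv, h1, mul_inv_cancel]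
    obtain ⟨n, hn, hmem⟩ := hπ _ h6
    have h7 : f (x * y⁻¹) = 1 := kill f hn hmem
    rw [map_mul, map_inv, mul_inv_eq_one] at h7
    exact h7.symm
  have h8 : f y = F (Abelianization.of y) := (Abelianization.lift_apply_of f y).symm
  rw [← h5, h8, hy', map_prod, toAdd_prod]
  refine Finset.sum_congr rfl fun i _ => ?_
  rw [map_zpow, toAdd_zpow]
  have h9 : F (Abelianization.of (p i)) = f (p i) := Abelianization.lift_apply_of f _
  rw [h9]

theorem exists_basis (hs : Function.Surjective π) :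
    ∃ p : Fin r → Γ, ∀ i, toAdd (π (p i)) = Pi.single i 1 := by
  choose p hp using fun i : Fin r => hs (ofAdd (Pi.single i 1))
  exact ⟨p, fun i => by rw [hp i]; rfl⟩

/-! ### growth bound -/

theorem pow_le_imp (C L d r : ℕ) (h : ∀ k : ℕ, (k + 1) ^ r ≤ C * (k * L + 1) ^ d) : r ≤ d := by
  by_contra hlt
  push Not at hlt
  have h1 : ∀ k : ℕ, (k + 1) ≤ C * (L + 1) ^ d := by
    intro k
    have h2 := h k
    have h3 : k * L + 1 ≤ (k + 1) * (L + 1) := by nlinarith
    have h4 : (k * L + 1) ^ d ≤ ((k + 1) * (L + 1)) ^ d := Nat.pow_le_pow_left h3 d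
    have h5 : (k + 1) ^ (d + 1) ≤ (k + 1) ^ r := Nat.pow_le_pow_right (by omega) hlt
    have h6 : (k + 1) ^ (d + 1) ≤ C * ((k + 1) * (L + 1)) ^ d :=
      h5.trans (h2.trans (Nat.mul_le_mul_left C h4))
    rw [mul_pow, pow_succ] at h6
    have h7 : (k + 1) ^ d * (k + 1) ≤ (k + 1) ^ d * (C * (L + 1) ^ d) := by
      calc (k + 1) ^ d * (k + 1) ≤ C * ((k + 1) ^ d * (L + 1) ^ d) := h6
        _ = (k + 1) ^ d * (C * (L + 1) ^ d) := by ring
    exact Nat.le_of_mul_le_mul_left h7 (by positivity)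
  have := h1 (C * (L + 1) ^ d)
  omega

theorem rank_le {l : Γ → ℕ} {C d : ℕ} (hl : PolyLen l C d) (hs : Function.Surjective π) :
    r ≤ d := by
  classical
  obtain ⟨p, hp⟩ := exists_basis hs
  let w : (Fin r → ℕ) → Γ := fun a => (List.ofFn fun i => p i ^ a i).prod
  set L := ∑ i, l (p i) with hL
  refine pow_le_imp C L d r fun k => ?_
  have hlen : ∀ a : Fin r → ℕ, (∀ i, a i ≤ k) → l (w a) ≤ k * L := by
    intro a ha
    refine (hl.list_prod _).trans ?_
    rw [List.map_ofFn, List.sum_ofFn, hL, Finset.mul_sum]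
    refine Finset.sum_le_sum fun i _ => ?_
    exact (hl.pow _ _).trans (Nat.mul_le_mul_right _ (ha i))
  have hinj : Function.Injective w := by
    intro a b hab
    have key : ∀ a : Fin r → ℕ, toAdd (π (w a)) = fun j => (a j : ℤ) := by
      intro a
      have h1 : π (w a) = (List.ofFn fun i => π (p i) ^ a i).prod := by
        change π ((List.ofFn fun i => p i ^ a i).prod) = _
        rw [map_list_prod, List.map_ofFn]
        congr 1
        congr 1
        funext i
        exact map_pow _ _ _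
      rw [h1, List.prod_ofFn, toAdd_prod]
      ext j
      rw [Finset.sum_apply, Finset.sum_eq_single j]
      · rw [toAdd_pow, hp]; simp
      · intro i _ hij
        rw [toAdd_pow, hp]; simp [hij.symm]
      · simp
    have h2 := key a
    rw [hab, key b] at h2
    funext j
    have := congrFun h2 j
    exact_mod_cast this.symm
  let S : Finset (Fin r → ℕ) := Fintype.piFinset fun _ => Finset.range (k + 1)
  have hS : S.card = (k + 1) ^ r := by simp [S]
  have h3 : ((w '' (S : Set (Fin r → ℕ))).ncard) = (k + 1) ^ r := by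
    rw [Set.ncard_image_of_injective _ hinj, Set.ncard_coe_finset, hS]
  have h4 : (w '' (S : Set (Fin r → ℕ))) ⊆ {g : Γ | l g ≤ k * L} := by
    rintro _ ⟨a, ha, rfl⟩
    refine hlen a fun i => ?_
    have := Fintype.mem_piFinset.1 ha i
    rw [Finset.mem_range] at this
    omega
  have h5 := Set.ncard_le_ncard h4 (hl.fin _)
  rw [h3] at h5
  exact h5.trans (hl.card _)

end Pi

/-! ### real homomorphisms -/

section HomR

/-- the real vector space of homomorphisms `Γ → ℝ` -/
def HomR (Γ : Type*) [Group Γ] : Submodule ℝ (Γ → ℝ) where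
  carrier := {f | ∀ x y, f (x * y) = f x + f y}
  add_mem' := by
    intro f g hf hg x y
    simp only [Pi.add_apply]
    rw [hf, hg]; ring
  zero_mem' := by intro x y; simp
  smul_mem' := by
    intro c f hf x y
    simp only [Pi.smul_apply, smul_eq_mul]
    rw [hf]; ring

variable {Γ : Type*} [Group Γ]


/-- as a homomorphism -/
def toH (f : HomR Γ) : Γ →* Multiplicative ℝ where
  toFun x := ofAdd ((f : Γ → ℝ) x)
  map_one' := by
    have h := f.2 1 1
    have h1 : (f : Γ → ℝ) 1 = 0 := by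
      rw [mul_one] at h; linarith
    rw [h1]; rfl
  map_mul' x y := by rw [f.2 x y]; rfl

@[simp] theorem toAdd_toH (f : HomR Γ) (x : Γ) : toAdd (toH f x) = (f : Γ → ℝ) x := rfl

/-- from a homomorphism -/
def ofH (f : Γ →* Multiplicative ℝ) : HomR Γ :=
  ⟨fun x => toAdd (f x), fun x y => by
    change toAdd (f (x * y)) = _
    rw [map_mul]; rfl⟩

@[simp] theorem ofH_apply (f : Γ →* Multiplicative ℝ) (x : Γ) :
    (ofH f : Γ → ℝ) x = toAdd (f x) := rfl

theorem HomR.one (f : HomR Γ) : (f : Γ → ℝ) 1 = 0 := by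
  have := toAdd_toH f 1
  rw [map_one] at this
  exact this.symm

theorem HomR.pow (f : HomR Γ) (x : Γ) (n : ℕ) : (f : Γ → ℝ) (x ^ n) = n * (f : Γ → ℝ) x := by
  have := toAdd_toH f (x ^ n)
  rw [map_pow, toAdd_pow, toAdd_toH, nsmul_eq_mul] at this
  exact this.symm

variable {r : ℕ} {π : Γ →* Multiplicative (Fin r → ℤ)}

/-- evaluation on the generators -/
def evp (p : Fin r → Γ) : HomR Γ →ₗ[ℝ] (Fin r → ℝ) where
  toFun f i := (f : Γ → ℝ) (p i)
  map_add' _ _ := rfl
  map_smul' _ _ := rfl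

theorem evp_injective (hπ : ∀ x, π x = 1 → ∃ n : ℕ, 0 < n ∧ x ^ n ∈ commutator Γ) {p : Fin r → Γ}
    (hp : ∀ i, toAdd (π (p i)) = Pi.single i 1) : Function.Injective (evp p) := by
  intro f g hfg
  apply Subtype.ext
  funext x
  have h1 := expand hπ hp (toH f) x
  have h2 := expand hπ hp (toH g) x
  rw [toAdd_toH] at h1 h2
  rw [h1, h2]
  refine Finset.sum_congr rfl fun i _ => ?_
  rw [toAdd_toH, toAdd_toH]
  have := congrFun hfg i
  change (f : Γ → ℝ) (p i) = (g : Γ → ℝ) (p i) at this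
  rw [this]

instance [Group.FG Γ] : FiniteDimensional ℝ (HomR Γ) := by
  obtain ⟨r, π, hs, hπ⟩ := exists_pi Γ
  obtain ⟨p, hp⟩ := exists_basis hs
  exact FiniteDimensional.of_injective (evp p) (evp_injective hπ hp)

theorem finrank_le [Group.FG Γ] {l : Γ → ℕ} {C d : ℕ} (hl : PolyLen l C d) :
    Module.finrank ℝ (HomR Γ) ≤ d := by
  obtain ⟨r, π, hs, hπ⟩ := exists_pi Γ
  obtain ⟨p, hp⟩ := exists_basis hs
  have h1 := LinearMap.finrank_le_finrank_of_injective (f := evp p) (evp_injective hπ hp)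
  rw [Module.finrank_fin_fun] at h1
  exact h1.trans (rank_le hl hs)

end HomR

end Crest.Agent.R273.Max127
end

-- ▼ part R273/MaxB_127
section

/-!
# R273 (S0416), Part B, leaf MAXQ (helper127), group part B

* `norm_le_one` : Milnor's growth argument for eigenvalues of conjugation;
* `kronecker` : integer matrices all of whose eigenvalues have modulus at most one;
* `exists_common` : common eigenvector of a commuting family;
* `exists_inv` : `P'` normal, finitely generated, `Γ/P'` commutative, growth polynomial, `P'` has a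
  nontrivial homomorphism to `ℝ` ⇒ some finite index `Δ ≥ P'` fixes a nontrivial homomorphism;
* `exists_ext` : extension of homomorphisms to `ℝ`.
-/

set_option autoImplicit false

open Multiplicative

namespace Crest.Agent.R273.Max127

open Crest.Agent.R182.Gromov Crest.Agent.R182.GromovMilnor

/-! ### Milnor's argument -/

section Milnor

variable {Γ : Type*} [Group Γ]

theorem geom_lt {a : ℝ} (ha : 2 ≤ a) (m : ℕ) : ∑ i ∈ Finset.range m, a ^ i < a ^ m := by
  induction m with
  | zero => simp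
  | succ m ih =>
    rw [Finset.sum_range_succ, pow_succ]
    have : 0 < a ^ m := by positivity
    nlinarith

variable (P : Subgroup Γ) (F : Γ → ℂ) (t e : Γ) (α : ℂ)

/-- an additive function on `P`, with `F (t x t⁻¹) = α F x` -/
structure Twist : Prop where
  add : ∀ x ∈ P, ∀ y ∈ P, F (x * y) = F x + F y
  mem : ∀ x ∈ P, t * x * t⁻¹ ∈ P
  tw : ∀ x ∈ P, F (t * x * t⁻¹) = α * F x
  he : e ∈ P
  ne : F e ≠ 0

variable {P F t e α}

theorem Twist.one (h : Twist P F t e α) : F 1 = 0 := by
  have := h.add 1 P.one_mem 1 P.one_mem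
  rw [mul_one] at this
  simpa using this

theorem Twist.cj (h : Twist P F t e α) (j : ℕ) : cj t e j ∈ P ∧ F (cj t e j) = α ^ j * F e := by
  induction j with
  | zero => simp [R182.GromovMilnor.cj, h.he]
  | succ j ih =>
    have h1 : R182.GromovMilnor.cj t e (j + 1) = t * R182.GromovMilnor.cj t e j * t⁻¹ := by
      unfold R182.GromovMilnor.cj; rw [pow_succ']; group
    rw [h1]
    refine ⟨h.mem _ ih.1, ?_⟩
    rw [h.tw _ ih.1, ih.2, pow_succ]; ring

theorem Twist.W_sub (h : Twist P F t e α) (m : ℕ) : ∀ w ∈ W t e m, w ∈ P := by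
  induction m with
  | zero =>
    intro w hw
    rw [W, Set.mem_singleton_iff] at hw
    rw [hw]; exact P.one_mem
  | succ m ih =>
    rintro w (hw | ⟨v, hv, rfl⟩)
    · exact ih w hw
    · exact P.mul_mem (ih v hv) (h.cj m).1

theorem Twist.dist (h : Twist P F t e α) (m : ℕ) : ∀ w ∈ W t e m, ∀ v ∈ W t e m,
    ‖F w - F v‖ ≤ (∑ i ∈ Finset.range m, ‖α‖ ^ i) * ‖F e‖ := by
  induction m with
  | zero =>
    intro w hw v hv
    rw [W, Set.mem_singleton_iff] at hw hv
    rw [hw, hv]; simp
  | succ m ih =>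
    have hc : ‖F (R182.GromovMilnor.cj t e m)‖ = ‖α‖ ^ m * ‖F e‖ := by
      rw [(h.cj m).2, norm_mul, norm_pow]
    have hadd : ∀ w ∈ W t e m, F (w * R182.GromovMilnor.cj t e m) = F w + F (R182.GromovMilnor.cj t e m) :=
      fun w hw => h.add _ (h.W_sub m w hw) _ (h.cj m).1
    have h0 : 0 ≤ ‖α‖ ^ m * ‖F e‖ := by positivity
    rw [Finset.sum_range_succ, add_mul]
    rintro w (hw | ⟨w, hw, rfl⟩) v (hv | ⟨v, hv, rfl⟩)
    · have := ih w hw v hv; linarith
    · rw [hadd v hv]
      have h1 := ih w hw v hv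
      have h2 : F w - (F v + F (R182.GromovMilnor.cj t e m)) =
        (F w - F v) - F (R182.GromovMilnor.cj t e m) := by ring
      rw [h2]
      have h3 := norm_sub_le (F w - F v) (F (R182.GromovMilnor.cj t e m))
      rw [hc] at h3
      linarith
    · rw [hadd w hw]
      have h1 := ih w hw v hv
      have h2 : (F w + F (R182.GromovMilnor.cj t e m)) - F v =
        (F w - F v) + F (R182.GromovMilnor.cj t e m) := by ring
      rw [h2]
      have h3 := norm_add_le (F w - F v) (F (R182.GromovMilnor.cj t e m))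
      rw [hc] at h3
      linarith
    · rw [hadd w hw, hadd v hv]
      have h1 := ih w hw v hv
      have h2 : (F w + F (R182.GromovMilnor.cj t e m)) - (F v + F (R182.GromovMilnor.cj t e m)) =
        (F w - F v) := by ring
      rw [h2]
      linarith

theorem Twist.card (h : Twist P F t e α) (hα : 2 ≤ ‖α‖) (m : ℕ) :
    (W t e m).ncard = 2 ^ m := by
  induction m with
  | zero => simp [W]
  | succ m ih =>
    rw [W, Set.ncard_union_eq ?_ (W_finite t e m) ((W_finite t e m).image _),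
      Set.ncard_image_of_injective _ (mul_left_injective _), ih, pow_succ]
    · ring
    · rw [Set.disjoint_left]
      rintro x hx ⟨w, hw, rfl⟩
      have h1 := h.dist m _ hx w hw
      have h2 : F (w * R182.GromovMilnor.cj t e m) = F w + F (R182.GromovMilnor.cj t e m) :=
        h.add _ (h.W_sub m w hw) _ (h.cj m).1
      have h3 : F (w * R182.GromovMilnor.cj t e m) - F w = F (R182.GromovMilnor.cj t e m) := by
        rw [h2]; ring
      change ‖F (w * R182.GromovMilnor.cj t e m) - F w‖ ≤ _ at h1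
      rw [h3, (h.cj m).2, norm_mul, norm_pow] at h1
      have h4 : 0 < ‖F e‖ := norm_pos_iff.2 h.ne
      have h5 := le_of_mul_le_mul_right h1 h4
      have h6 := geom_lt hα m
      linarith

theorem Twist.lt_two (h : Twist P F t e α) {l : Γ → ℕ} {C d : ℕ} (hl : PolyLen l C d) :
    ‖α‖ < 2 := by
  by_contra hα
  push Not at hα
  obtain ⟨m, hm⟩ := exists_lt_two_pow C (l e + l t) d
  have h1 := h.card hα m
  have h2 : (W t e m).ncard ≤ {g : Γ | l g ≤ m * (l e + l t)}.ncard := by
    refine Set.ncard_le_ncard_of_injOn (fun w => w * t ^ m) ?_ ?_ (hl.fin _)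
    · intro w hw
      exact W_len hl t e m w hw
    · intro a _ b _ hab
      exact mul_right_cancel hab
  have h3 := hl.card (m * (l e + l t))
  omega

theorem Twist.pow (h : Twist P F t e α) (k : ℕ) : Twist P F (t ^ k) e (α ^ k) := by
  have key : ∀ k : ℕ, ∀ x ∈ P, t ^ k * x * (t ^ k)⁻¹ ∈ P ∧
      F (t ^ k * x * (t ^ k)⁻¹) = α ^ k * F x := by
    intro k
    induction k with
    | zero => intro x hx; simp [hx]
    | succ k ih =>
      intro x hx
      have h1 : t ^ (k + 1) * x * (t ^ (k + 1))⁻¹ = t * (t ^ k * x * (t ^ k)⁻¹) * t⁻¹ := by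
        rw [pow_succ']; group
      rw [h1]
      have h2 := ih x hx
      refine ⟨h.mem _ h2.1, ?_⟩
      rw [h.tw _ h2.1, h2.2, pow_succ]; ring
  exact ⟨h.add, fun x hx => (key k x hx).1, fun x hx => (key k x hx).2, h.he, h.ne⟩

/-- **Milnor's argument**: the eigenvalues of conjugation have modulus at most one -/
theorem Twist.norm_le_one (h : Twist P F t e α) {l : Γ → ℕ} {C d : ℕ} (hl : PolyLen l C d) :
    ‖α‖ ≤ 1 := by
  by_contra hα
  push Not at hα
  obtain ⟨k, hk⟩ := pow_unbounded_of_one_lt 2 hα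
  have h1 := (h.pow k).lt_two hl
  rw [norm_pow] at h1
  linarith

end Milnor

/-! ### Kronecker -/

section Kron

open Polynomial

/-- a monic integer polynomial with all complex roots of modulus at most one: the nonzero roots are
roots of unity -/
theorem root_of_unity {p : ℤ[X]} (hp : p.Monic)
    (h : ∀ z : ℂ, (p.map (Int.castRingHom ℂ)).IsRoot z → ‖z‖ ≤ 1) {z : ℂ} (hz0 : z ≠ 0)
    (hz : (p.map (Int.castRingHom ℂ)).IsRoot z) : ∃ n : ℕ, 0 < n ∧ z ^ n = 1 := by
  have hpm : (p.map (Int.castRingHom ℂ)).Monic := hp.map _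
  have hm : (p.map (Int.castRingHom ℂ)).mahlerMeasure = 1 := by
    rw [mahlerMeasure_eq_leadingCoeff_mul_prod_roots, hpm.leadingCoeff, norm_one, one_mul]
    apply Multiset.prod_eq_one
    intro x hx
    rw [Multiset.mem_map] at hx
    obtain ⟨a, ha, rfl⟩ := hx
    exact max_eq_left (h a ((mem_roots hpm.ne_zero).1 ha))
  refine pow_eq_one_of_mahlerMeasure_eq_one hm hz0 ?_
  rw [mem_aroots]
  refine ⟨hp.ne_zero, ?_⟩
  rw [IsRoot.def, eval_map] at hz
  rw [aeval_def]
  exact hz

/-- eigenvectors of an integer matrix, acting on columns over `ℂ` -/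
theorem kronecker {r : ℕ} (A : Matrix (Fin r) (Fin r) ℤ)
    (h : ∀ (v : Fin r → ℂ) (β : ℂ), v ≠ 0 → (A.map (Int.castRingHom ℂ)).mulVec v = β • v →
      ‖β‖ ≤ 1) {v : Fin r → ℂ} {β : ℂ} (hv : v ≠ 0) (hβ : β ≠ 0)
    (hA : (A.map (Int.castRingHom ℂ)).mulVec v = β • v) : ∃ n : ℕ, 0 < n ∧ β ^ n = 1 := by
  have hroot : ∀ z : ℂ, (A.charpoly.map (Int.castRingHom ℂ)).IsRoot z ↔
      ∃ v : Fin r → ℂ, v ≠ 0 ∧ (A.map (Int.castRingHom ℂ)).mulVec v = z • v := by
    intro z
    rw [← Matrix.charpoly_map, IsRoot.def, Matrix.eval_charpoly,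
      ← Matrix.exists_mulVec_eq_zero_iff]
    refine exists_congr fun v => and_congr_right fun _ => ?_
    rw [Matrix.sub_mulVec, sub_eq_zero, eq_comm]
    have : (Matrix.scalar (Fin r) z).mulVec v = z • v := by
      rw [Matrix.scalar_apply, Matrix.diagonal_const_mulVec]
    rw [this]
  refine root_of_unity A.charpoly_monic ?_ hβ ((hroot β).2 ⟨v, hv, hA⟩)
  intro z hz
  obtain ⟨w, hw, hw'⟩ := (hroot z).1 hz
  exact h w z hw hw'

end Kron

/-! ### common eigenvectors -/

section Common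

variable {V : Type*} [AddCommGroup V] [Module ℂ V] [FiniteDimensional ℂ V]

theorem exists_common_aux {ι : Type*} (T : ι → V →ₗ[ℂ] V) (hT : ∀ i j v, T i (T j v) = T j (T i v))
    (n : ℕ) : ∀ W : Submodule ℂ V, Module.finrank ℂ W = n → W ≠ ⊥ →
      (∀ i, ∀ w ∈ W, T i w ∈ W) → ∃ v ∈ W, v ≠ 0 ∧ ∀ i, ∃ c : ℂ, T i v = c • v := by
  induction n using Nat.strong_induction_on with
  | _ n ih =>
    intro W hWn hW hinv
    by_cases hsc : ∀ i, ∃ c : ℂ, ∀ w ∈ W, T i w = c • w
    · obtain ⟨v, hv, hv0⟩ := (Submodule.ne_bot_iff W).1 hW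
      exact ⟨v, hv, hv0, fun i => by
        obtain ⟨c, hc⟩ := hsc i
        exact ⟨c, hc v hv⟩⟩
    · push Not at hsc
      obtain ⟨i, hi⟩ := hsc
      have : Nontrivial W := Submodule.nontrivial_iff_ne_bot.2 hW
      let R : Module.End ℂ W := (T i).restrict (hinv i)
      obtain ⟨μ, hμ⟩ := Module.End.exists_eigenvalue R
      obtain ⟨w0, hw0⟩ := hμ.exists_hasEigenvector
      let W' : Submodule ℂ V := W ⊓ LinearMap.ker (T i - μ • LinearMap.id)
      have hmem : ∀ v, v ∈ W' ↔ v ∈ W ∧ T i v = μ • v := by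
        intro v
        rw [Submodule.mem_inf, LinearMap.mem_ker]
        simp [sub_eq_zero]
      have hlt : W' < W := by
        refine lt_of_le_of_ne inf_le_left fun heq => ?_
        obtain ⟨w, hw, hne⟩ := hi μ
        apply hne
        have : w ∈ W' := heq.symm ▸ hw
        exact ((hmem w).1 this).2
      have hW' : W' ≠ ⊥ := by
        rw [Submodule.ne_bot_iff]
        refine ⟨w0, (hmem _).2 ⟨w0.2, ?_⟩, ?_⟩
        · have := hw0.apply_eq_smul
          exact congrArg Subtype.val this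
        · intro h0
          exact hw0.2 (Subtype.ext h0)
      have hinv' : ∀ j, ∀ w ∈ W', T j w ∈ W' := by
        intro j w hw
        rw [hmem] at hw ⊢
        refine ⟨hinv j w hw.1, ?_⟩
        rw [hT, hw.2, map_smul]
      obtain ⟨v, hv, hv0, hv1⟩ := ih _ (hWn ▸ Submodule.finrank_lt_finrank_of_lt hlt) W' rfl hW'
        hinv'
      exact ⟨v, ((hmem v).1 hv).1, hv0, hv1⟩

/-- common eigenvector of a commuting family -/
theorem exists_common [Nontrivial V] {ι : Type*} (T : ι → V →ₗ[ℂ] V)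
    (hT : ∀ i j v, T i (T j v) = T j (T i v)) :
    ∃ v : V, v ≠ 0 ∧ ∀ i, ∃ c : ℂ, T i v = c • v := by
  obtain ⟨v, -, h1, h2⟩ := exists_common_aux T hT _ ⊤ rfl
    (by rw [Ne, eq_comm]; exact bot_ne_top) (fun _ _ _ => trivial)
  exact ⟨v, h1, h2⟩

end Common

end Crest.Agent.R273.Max127
end

-- ▼ part R273/Quasi_127
section

/-!
# R273 (S0416), Part B, leaf MAXQ (helper127): QUASI

`Δ` acts on a nonempty topological space `N`, the normal subgroup `P` acts cocompactly and properly
discontinuously, `φ : P →* Multiplicative ℝ` is invariant under conjugation by `Δ`.  Then `φ`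
vanishes on every commutator `[g, h]`, `g h ∈ Δ`, which lies in `P`.

Part 2: the group `Γ` acts on `X` properly discontinuously and cocompactly and commutes with an
action `Φ` of the vector space `V`; `a : X → V` with `a (γ x) = a x + lam γ`, `a (Φ v x) = a x + v`,
and `lam` has discrete image.  The theorem is applied to `N = a⁻¹(0)` with the action
`γ ↦ Φ (-lam γ) ∘ γ`.
-/

set_option autoImplicit false

open Set Filter Topology Multiplicative
open scoped Pointwise

namespace Crest.Agent.R273.Quasi127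

/-! ### algebra: powers of a commutator -/

section Alg

variable {Q : Type*} [Group Q]

/-- `g h = c h g` with `c` central implies `g^k h^l = c^(k l) h^l g^k` -/
theorem pow_mul_pow_of_central {g h c : Q} (hc : ∀ x : Q, c * x = x * c) (hgh : g * h = c * (h * g))
    (k l : ℕ) : g ^ k * h ^ l = c ^ (k * l) * (h ^ l * g ^ k) := by
  have hcn : ∀ (n : ℕ) (x : Q), c ^ n * x = x * c ^ n := by
    intro n x
    exact ((show Commute c x from hc x).pow_left n).eq
  have h1 : ∀ l : ℕ, g * h ^ l = c ^ l * (h ^ l * g) := by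
    intro l
    induction l with
    | zero => simp
    | succ l ih =>
      calc g * h ^ (l + 1) = (g * h ^ l) * h := by rw [pow_succ, mul_assoc]
        _ = c ^ l * (h ^ l * (g * h)) := by rw [ih]; simp only [mul_assoc]
        _ = c ^ l * (h ^ l * c * (h * g)) := by rw [hgh]; simp only [mul_assoc]
        _ = c ^ l * (c * h ^ l * (h * g)) := by rw [hc (h ^ l)]
        _ = c ^ (l + 1) * (h ^ (l + 1) * g) := by
          rw [pow_succ c, pow_succ h]; simp only [mul_assoc]
  induction k with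
  | zero => simp
  | succ k ih =>
    calc g ^ (k + 1) * h ^ l = g ^ k * (g * h ^ l) := by rw [pow_succ, mul_assoc]
      _ = g ^ k * c ^ l * (h ^ l * g) := by rw [h1]; simp only [mul_assoc]
      _ = c ^ l * (g ^ k * h ^ l * g) := by rw [← hcn l (g ^ k)]; simp only [mul_assoc]
      _ = c ^ l * (c ^ (k * l) * (h ^ l * g ^ k) * g) := by rw [ih]
      _ = c ^ ((k + 1) * l) * (h ^ l * g ^ (k + 1)) := by
        rw [add_mul, one_mul, add_comm (k * l) l, pow_add, pow_succ g]
        simp only [mul_assoc]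

end Alg

section Main

variable {Δ : Type*} [Group Δ] (P : Subgroup Δ) [hP : P.Normal] (φ : P →* Multiplicative ℝ)

/-- invariance of a homomorphism of a normal subgroup under conjugation -/
def Inv : Prop := ∀ (g : Δ) (p : P), φ ⟨g * p * g⁻¹, hP.conj_mem p p.2 g⟩ = φ p

variable {P φ}

/-- the kernel, as a subgroup of the large group -/
theorem normal_ker (hinv : Inv P φ) : (φ.ker.map P.subtype).Normal := by
  refine ⟨?_⟩
  rintro _ ⟨p, hp, rfl⟩ g
  refine ⟨⟨g * p * g⁻¹, hP.conj_mem p p.2 g⟩, ?_, rfl⟩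
  rw [SetLike.mem_coe, MonoidHom.mem_ker] at hp ⊢
  rw [hinv g p, hp]

theorem pow_comm_mem (hinv : Inv P φ) {g h : Δ} (hc : g * h * g⁻¹ * h⁻¹ ∈ P) (k : ℕ) :
    ∃ hk : g ^ k * h ^ k * (g ^ k)⁻¹ * (h ^ k)⁻¹ ∈ P,
      φ ⟨_, hk⟩ = φ ⟨_, hc⟩ ^ (k * k) := by
  have := normal_ker hinv
  set K := φ.ker.map P.subtype with hK
  let π : Δ →* Δ ⧸ K := QuotientGroup.mk' K
  set c : Δ := g * h * g⁻¹ * h⁻¹ with hcdef
  have hcen : ∀ x : Δ ⧸ K, π c * x = x * π c := by
    intro x
    obtain ⟨y, rfl⟩ := QuotientGroup.mk'_surjective K x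
    have h1 : y * c * y⁻¹ * c⁻¹ ∈ K := by
      refine ⟨⟨y * c * y⁻¹, hP.conj_mem c hc y⟩ * (⟨c, hc⟩ : P)⁻¹, ?_, rfl⟩
      rw [SetLike.mem_coe, MonoidHom.mem_ker, map_mul, map_inv, hinv y ⟨c, hc⟩, mul_inv_cancel]
    have h2 : π (y * c * y⁻¹ * c⁻¹) = 1 := (QuotientGroup.eq_one_iff _).2 h1
    rw [map_mul, map_mul, map_mul, map_inv, map_inv, mul_inv_eq_one, mul_inv_eq_iff_eq_mul] at h2
    exact h2.symm
  have hgh : π g * π h = π c * (π h * π g) := by
    rw [← map_mul, ← map_mul, ← map_mul]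
    congr 1
    rw [hcdef]; group
  have h3 := pow_mul_pow_of_central hcen hgh k k
  set w : Δ := g ^ k * h ^ k * (g ^ k)⁻¹ * (h ^ k)⁻¹ with hw
  have h4 : π w = π (c ^ (k * k)) := by
    rw [hw, map_mul, map_mul, map_mul, map_inv, map_inv, map_pow, map_pow, map_pow, h3]
    group
  have h5 : w * (c ^ (k * k))⁻¹ ∈ K := by
    have h6 : π (w * (c ^ (k * k))⁻¹) = 1 := by rw [map_mul, map_inv, h4, mul_inv_cancel]
    exact (QuotientGroup.eq_one_iff _).1 h6
  obtain ⟨p, hp, hpw⟩ := h5
  have hp' : (p : Δ) = w * (c ^ (k * k))⁻¹ := hpw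
  have hwp : w = p * c ^ (k * k) := by rw [hp']; group
  refine ⟨?_, ?_⟩
  · rw [hwp]; exact P.mul_mem p.2 (P.pow_mem hc _)
  · have h7 : (⟨w, by rw [hwp]; exact P.mul_mem p.2 (P.pow_mem hc _)⟩ : P) =
        p * (⟨c, hc⟩ : P) ^ (k * k) := Subtype.ext hwp
    rw [h7, map_mul, map_pow, (MonoidHom.mem_ker).1 hp, one_mul]

/-! ### the quasi-invariant function -/

variable {N : Type*} [TopologicalSpace N] [MulAction Δ N] [ContinuousConstSMul Δ N]

/-- **QUASI** -/
theorem quasi [Nonempty N] (hinv : Inv P φ) {K : Set N} (hK : IsCompact K)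
    (hcov : ∀ x : N, ∃ p ∈ P, p • x ∈ K)
    (hprop : ∀ L L' : Set N, IsCompact L → IsCompact L' → {p : Δ | p ∈ P ∧ ∃ x ∈ L, p • x ∈ L'}.Finite)
    {g h : Δ} (hc : g * h * g⁻¹ * h⁻¹ ∈ P) : φ ⟨_, hc⟩ = 1 := by
  classical
  choose c hcP hcK using hcov
  let F : N → ℝ := fun x => - toAdd (φ ⟨c x, hcP x⟩)
  -- bounded displacement
  have hB : ∀ γ : Δ, ∃ C : ℝ, ∀ x : N, |F (γ • x) - F x| ≤ C := by
    intro γ
    have hfin := hprop (γ • K) K (hK.smul γ) hK
    let val : Δ → ℝ := fun q => if hq : q ∈ P then |toAdd (φ ⟨q, hq⟩)| else 0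
    obtain ⟨C, hC⟩ := (hfin.image val).bddAbove
    refine ⟨C, fun x => ?_⟩
    set q : Δ := c (γ • x) * (γ * (c x)⁻¹ * γ⁻¹) with hq
    have hconj : γ * (c x)⁻¹ * γ⁻¹ ∈ P := hP.conj_mem _ (P.inv_mem (hcP x)) γ
    have hqP : q ∈ P := P.mul_mem (hcP _) hconj
    have hqm : q ∈ {p : Δ | p ∈ P ∧ ∃ x ∈ γ • K, p • x ∈ K} := by
      refine ⟨hqP, γ • (c x • x), smul_mem_smul_set (hcK x), ?_⟩
      have : q • γ • c x • x = c (γ • x) • γ • x := by
        rw [hq, ← mul_smul, ← mul_smul, ← mul_smul]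
        congr 1
        group
      rw [this]
      exact hcK _
    have h1 := hC (mem_image_of_mem val hqm)
    have h2 : val q = |toAdd (φ ⟨q, hqP⟩)| := dif_pos hqP
    rw [h2] at h1
    refine le_trans (le_of_eq ?_) h1
    have h3 : (⟨q, hqP⟩ : P) = ⟨c (γ • x), hcP _⟩ * ⟨γ * ((⟨c x, hcP x⟩⁻¹ : P) : Δ) * γ⁻¹,
        hP.conj_mem _ (⟨c x, hcP x⟩⁻¹ : P).2 γ⟩ := Subtype.ext hq
    rw [h3, φ.map_mul, hinv γ (⟨c x, hcP x⟩⁻¹ : P), φ.map_inv, toAdd_mul, toAdd_inv]
    change |-toAdd (φ ⟨c (γ • x), hcP (γ • x)⟩) - -toAdd (φ ⟨c x, hcP x⟩)| = _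
    rw [abs_sub_comm]
    congr 1
    ring
  -- displacement of elements of `P`
  have hPd : ∃ C : ℝ, ∀ (p : P) (x : N), |F ((p : Δ) • x) - F x - toAdd (φ p)| ≤ C := by
    have hfin := hprop K K hK hK
    let val : Δ → ℝ := fun q => if hq : q ∈ P then |toAdd (φ ⟨q, hq⟩)| else 0
    obtain ⟨C, hC⟩ := (hfin.image val).bddAbove
    refine ⟨C, fun p x => ?_⟩
    set q : Δ := c ((p : Δ) • x) * p * (c x)⁻¹ with hq
    have hqP : q ∈ P := P.mul_mem (P.mul_mem (hcP _) p.2) (P.inv_mem (hcP x))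
    have hqm : q ∈ {p : Δ | p ∈ P ∧ ∃ x ∈ K, p • x ∈ K} := by
      refine ⟨hqP, c x • x, hcK x, ?_⟩
      have : q • c x • x = c ((p : Δ) • x) • (p : Δ) • x := by
        rw [hq, ← mul_smul, ← mul_smul]
        congr 1
        group
      rw [this]
      exact hcK _
    have h1 := hC (mem_image_of_mem val hqm)
    have h2 : val q = |toAdd (φ ⟨q, hqP⟩)| := dif_pos hqP
    rw [h2] at h1
    refine le_trans (le_of_eq ?_) h1
    have h3 : (⟨q, hqP⟩ : P) = ⟨c ((p : Δ) • x), hcP _⟩ * p * (⟨c x, hcP x⟩ : P)⁻¹ :=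
      Subtype.ext hq
    rw [h3, φ.map_mul, φ.map_mul, φ.map_inv, toAdd_mul, toAdd_mul, toAdd_inv]
    change |-toAdd (φ ⟨c ((p : Δ) • x), hcP _⟩) - -toAdd (φ ⟨c x, hcP x⟩) - toAdd (φ p)| = _
    rw [← abs_neg]
    congr 1
    ring
  -- powers
  have hpow : ∀ γ : Δ, ∃ C : ℝ, ∀ (k : ℕ) (x : N), |F (γ ^ k • x) - F x| ≤ k * C := by
    intro γ
    obtain ⟨C, hC⟩ := hB γ
    refine ⟨C, fun k => ?_⟩
    induction k with
    | zero => intro x; simp
    | succ k ih =>
      intro x
      have h1 := hC (γ ^ k • x)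
      rw [← mul_smul, ← pow_succ'] at h1
      have h2 := ih x
      have h3 := abs_sub_le (F (γ ^ (k + 1) • x)) (F (γ ^ k • x)) (F x)
      push_cast
      linarith
  have hpow' : ∀ γ : Δ, ∃ C : ℝ, ∀ (k : ℕ) (x : N), |F ((γ ^ k)⁻¹ • x) - F x| ≤ k * C := by
    intro γ
    obtain ⟨C, hC⟩ := hpow γ
    refine ⟨C, fun k x => ?_⟩
    have h1 := hC k ((γ ^ k)⁻¹ • x)
    rw [smul_inv_smul, abs_sub_comm] at h1
    exact h1
  obtain ⟨x0⟩ := ‹Nonempty N›
  obtain ⟨Cg, hCg⟩ := hpow g
  obtain ⟨Cg', hCg'⟩ := hpow' g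
  obtain ⟨Ch, hCh⟩ := hpow h
  obtain ⟨Ch', hCh'⟩ := hpow' h
  obtain ⟨C1, hC1⟩ := hPd
  set t : ℝ := toAdd (φ ⟨_, hc⟩) with ht
  have hbound : ∀ k : ℕ, (k : ℝ) * k * |t| ≤ k * (Cg + Cg' + Ch + Ch') + C1 := by
    intro k
    obtain ⟨hk, hφ⟩ := pow_comm_mem hinv hc k
    have h1 := hC1 ⟨_, hk⟩ x0
    rw [hφ, toAdd_pow] at h1
    change |F ((g ^ k * h ^ k * (g ^ k)⁻¹ * (h ^ k)⁻¹) • x0) - F x0 - (k * k) • t| ≤ C1 at h1
    rw [mul_smul, mul_smul, mul_smul] at h1
    have e1 := hCh' k x0
    have e2 := hCg' k ((h ^ k)⁻¹ • x0)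
    have e3 := hCh k ((g ^ k)⁻¹ • (h ^ k)⁻¹ • x0)
    have e4 := hCg k (h ^ k • (g ^ k)⁻¹ • (h ^ k)⁻¹ • x0)
    set A4 := F (g ^ k • h ^ k • (g ^ k)⁻¹ • (h ^ k)⁻¹ • x0)
    set A3 := F (h ^ k • (g ^ k)⁻¹ • (h ^ k)⁻¹ • x0)
    set A2 := F ((g ^ k)⁻¹ • (h ^ k)⁻¹ • x0)
    set A1 := F ((h ^ k)⁻¹ • x0)
    have h5 : ((k * k : ℕ) • t : ℝ) = (k : ℝ) * k * t := by rw [nsmul_eq_mul]; push_cast; ring
    rw [h5] at h1
    have h6 : (k : ℝ) * k * |t| = |(k : ℝ) * k * t| := by
      rw [abs_mul, abs_of_nonneg (by positivity : (0 : ℝ) ≤ (k : ℝ) * k)]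
    rw [h6]
    rw [abs_le] at e1 e2 e3 e4 h1 ⊢
    constructor <;> nlinarith
  have ht0 : |t| = 0 := by
    by_contra hne
    have hpos : 0 < |t| := lt_of_le_of_ne (abs_nonneg _) (Ne.symm hne)
    set S := |Cg + Cg' + Ch + Ch'| + |C1| with hS
    have hS0 : 0 ≤ S := by positivity
    obtain ⟨k, hk⟩ := exists_nat_gt ((S + 1) / |t|)
    have hk1 : S + 1 < k * |t| := by rwa [div_lt_iff₀ hpos] at hk
    have hk0 : 0 < (k : ℝ) := by
      by_contra h0
      push Not at h0
      have : (k : ℝ) * |t| ≤ 0 := mul_nonpos_of_nonpos_of_nonneg h0 (abs_nonneg _)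
      linarith
    have hk2 : (1 : ℝ) ≤ k := by
      have : 0 < k := by exact_mod_cast hk0
      exact_mod_cast this
    have h1 := hbound k
    have h2 : (k : ℝ) * (Cg + Cg' + Ch + Ch') + C1 ≤ k * S := by
      have a1 : (k : ℝ) * (Cg + Cg' + Ch + Ch') ≤ k * |Cg + Cg' + Ch + Ch'| :=
        mul_le_mul_of_nonneg_left (le_abs_self _) hk0.le
      have a2 : C1 ≤ k * |C1| := by
        have := le_abs_self C1
        nlinarith [abs_nonneg C1]
      rw [hS, mul_add]
      linarith
    have h3 : (k : ℝ) * (S + 1) < k * (k * |t|) := mul_lt_mul_of_pos_left hk1 hk0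
    nlinarith
  have ht' : t = 0 := abs_eq_zero.1 ht0
  rw [← toAdd_eq_zero]
  exact ht'

end Main

end Crest.Agent.R273.Quasi127
end

-- ▼ part R273/MaxC_127
section

/-!
# R273 (S0416), Part B, leaf MAXQ (helper127), group part C

* `exists_inv` : `P` normal and finitely generated in `Γ`, `Γ/P` commutative, polynomial growth,
  `P` has a nontrivial homomorphism to `ℝ` ⇒ some finite index `Δ ≥ P` fixes a nontrivial one;
* `exists_ext` : extension of homomorphisms to `ℝ`.
-/

set_option autoImplicit false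
set_option linter.unusedSectionVars false

open Multiplicative

namespace Crest.Agent.R273.Max127

open Crest.Agent.R182.Gromov Crest.Agent.R182.GromovMilnor Crest.Agent.R273.Quasi127

section Inv

variable {Γ : Type*} [Group Γ] (P : Subgroup Γ) [hP : P.Normal]

/-- conjugation on `P` -/
def cg (g : Γ) : P →* P where
  toFun x := ⟨g * x * g⁻¹, hP.conj_mem x x.2 g⟩
  map_one' := Subtype.ext (by simp)
  map_mul' x y := Subtype.ext (by
    change g * (x * y : Γ) * g⁻¹ = (g * x * g⁻¹) * (g * y * g⁻¹)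
    group)


theorem cg_mul (g h : Γ) (x : P) : cg P (g * h) x = cg P g (cg P h x) := by
  apply Subtype.ext
  change g * h * (x : Γ) * (g * h)⁻¹ = g * (h * x * h⁻¹) * g⁻¹
  group


variable {P} {r : ℕ} (π : P →* Multiplicative (Fin r → ℤ)) (p : Fin r → P)

/-- the integer matrix of conjugation -/
def AM (g : Γ) : Matrix (Fin r) (Fin r) ℤ := fun i j => toAdd (π (cg P g (p j))) i

theorem AM_mulVec (hπ : ∀ x, π x = 1 → ∃ n : ℕ, 0 < n ∧ x ^ n ∈ commutator P)
    (hp : ∀ i, toAdd (π (p i)) = Pi.single i 1) (g : Γ) (x : P) :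
    toAdd (π (cg P g x)) = (AM π p g).mulVec (toAdd (π x)) := by
  have h := expand hπ hp (π.comp (cg P g)) x
  have h2 : toAdd (π (cg P g x)) = ∑ i, toAdd (π x) i • toAdd (π (cg P g (p i))) := h
  rw [h2]
  ext i
  rw [Finset.sum_apply, Matrix.mulVec, dotProduct]
  refine Finset.sum_congr rfl fun j _ => ?_
  rw [Pi.smul_apply, smul_eq_mul, mul_comm]
  rfl

theorem AM_mul (hπ : ∀ x, π x = 1 → ∃ n : ℕ, 0 < n ∧ x ^ n ∈ commutator P)
    (hp : ∀ i, toAdd (π (p i)) = Pi.single i 1) (g h : Γ) :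
    AM π p (g * h) = AM π p g * AM π p h := by
  ext i j
  change toAdd (π (cg P (g * h) (p j))) i = _
  rw [cg_mul, AM_mulVec π p hπ hp, Matrix.mul_apply, Matrix.mulVec, dotProduct]
  rfl

theorem AM_of_mem (hp : ∀ i, toAdd (π (p i)) = Pi.single i 1) {q : Γ} (hq : q ∈ P) :
    AM π p q = 1 := by
  ext i j
  change toAdd (π (cg P q (p j))) i = _
  have h1 : cg P q (p j) = ⟨q, hq⟩ * p j * (⟨q, hq⟩ : P)⁻¹ := rfl
  rw [h1, π.map_mul, π.map_mul, π.map_inv, mul_comm (π ⟨q, hq⟩), mul_inv_cancel_right, hp,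
    Matrix.one_apply, Pi.single_apply]

/-- transposed matrix over `ℂ` -/
def TM (g : Γ) : Matrix (Fin r) (Fin r) ℂ :=
  ((AM π p g).transpose).map (Int.castRingHom ℂ)

theorem TM_mul (hπ : ∀ x, π x = 1 → ∃ n : ℕ, 0 < n ∧ x ^ n ∈ commutator P)
    (hp : ∀ i, toAdd (π (p i)) = Pi.single i 1) (g h : Γ) :
    TM π p (g * h) = TM π p h * TM π p g := by
  unfold TM
  rw [AM_mul π p hπ hp, Matrix.transpose_mul, Matrix.map_mul]

theorem TM_of_mem (hp : ∀ i, toAdd (π (p i)) = Pi.single i 1) {q : Γ} (hq : q ∈ P) :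
    TM π p q = 1 := by
  unfold TM
  rw [AM_of_mem π p hp hq, Matrix.transpose_one, Matrix.map_one _ (map_zero _) (map_one _)]

theorem TM_comm (hπ : ∀ x, π x = 1 → ∃ n : ℕ, 0 < n ∧ x ^ n ∈ commutator P)
    (hp : ∀ i, toAdd (π (p i)) = Pi.single i 1) {g h : Γ} (hc : g * h * g⁻¹ * h⁻¹ ∈ P) :
    TM π p g * TM π p h = TM π p h * TM π p g := by
  have h1 : g * h = (g * h * g⁻¹ * h⁻¹) * (h * g) := by group
  have h2 : TM π p (g * h) = TM π p (h * g) := by
    rw [h1, TM_mul π p hπ hp, TM_of_mem π p hp hc, mul_one]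
  rw [TM_mul π p hπ hp, TM_mul π p hπ hp] at h2
  exact h2.symm

/-- the homomorphism to `ℂ` attached to a vector, extended by zero -/
noncomputable def Fv (v : Fin r → ℂ) (g : Γ) : ℂ :=
  open Classical in if h : g ∈ P then ∑ i, v i * (toAdd (π ⟨g, h⟩) i : ℂ) else 0

theorem Fv_of_mem (v : Fin r → ℂ) {g : Γ} (h : g ∈ P) :
    Fv π v g = ∑ i, v i * (toAdd (π ⟨g, h⟩) i : ℂ) := dif_pos h

theorem TM_mulVec (v : Fin r → ℂ) (g : Γ) (j : Fin r) :
    (TM π p g).mulVec v j = ∑ i, (AM π p g i j : ℂ) * v i := rfl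

/-- `F_v (g x g⁻¹) = F_{T v} x` -/
theorem Fv_conj (hπ : ∀ x, π x = 1 → ∃ n : ℕ, 0 < n ∧ x ^ n ∈ commutator P)
    (hp : ∀ i, toAdd (π (p i)) = Pi.single i 1) (v : Fin r → ℂ) (g : Γ) {x : Γ} (hx : x ∈ P) :
    Fv π v (g * x * g⁻¹) = Fv π ((TM π p g).mulVec v) x := by
  rw [Fv_of_mem π v (hP.conj_mem x hx g), Fv_of_mem π _ hx]
  have h1 : toAdd (π ⟨g * x * g⁻¹, hP.conj_mem x hx g⟩) =
      (AM π p g).mulVec (toAdd (π ⟨x, hx⟩)) := AM_mulVec π p hπ hp g ⟨x, hx⟩
  rw [h1]
  have h2 : ∀ i, (((AM π p g).mulVec (toAdd (π ⟨x, hx⟩)) i : ℤ) : ℂ) =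
      ∑ j, (AM π p g i j : ℂ) * (toAdd (π ⟨x, hx⟩) j : ℂ) := by
    intro i
    rw [Matrix.mulVec, dotProduct]
    push_cast
    rfl
  simp_rw [h2, TM_mulVec, Finset.mul_sum, Finset.sum_mul]
  rw [Finset.sum_comm]
  refine Finset.sum_congr rfl fun j _ => Finset.sum_congr rfl fun i _ => ?_
  ring

theorem twist (hπ : ∀ x, π x = 1 → ∃ n : ℕ, 0 < n ∧ x ^ n ∈ commutator P)
    (hp : ∀ i, toAdd (π (p i)) = Pi.single i 1) {v : Fin r → ℂ} {g : Γ} {β : ℂ}
    (hv : (TM π p g).mulVec v = β • v) {i : Fin r} (hi : v i ≠ 0) :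
    Twist P (Fv π v) g (p i) β where
  add x hx y hy := by
    rw [Fv_of_mem π v hx, Fv_of_mem π v hy, Fv_of_mem π v (P.mul_mem hx hy),
      ← Finset.sum_add_distrib]
    refine Finset.sum_congr rfl fun i _ => ?_
    have h1 : (⟨x * y, P.mul_mem hx hy⟩ : P) = ⟨x, hx⟩ * ⟨y, hy⟩ := rfl
    rw [h1, π.map_mul, toAdd_mul, Pi.add_apply]
    push_cast
    ring
  mem x hx := hP.conj_mem x hx g
  tw x hx := by
    rw [Fv_conj π p hπ hp v g hx, hv, Fv_of_mem π _ hx, Fv_of_mem π _ hx, Finset.mul_sum]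
    refine Finset.sum_congr rfl fun i _ => ?_
    rw [Pi.smul_apply, smul_eq_mul]; ring
  he := (p i).2
  ne := by
    rw [Fv_of_mem π v (p i).2]
    have h1 : (⟨(p i : Γ), (p i).2⟩ : P) = p i := rfl
    rw [h1, hp i, Finset.sum_eq_single i]
    · simpa using hi
    · intro j _ hj; simp [hj]
    · simp

end Inv

/-- **invariant homomorphism**: polynomial growth, `Γ/P` commutative, `P` finitely generated with a
nontrivial homomorphism to `ℝ` -/
theorem exists_inv {Γ : Type*} [Group Γ] [Group.FG Γ] (P : Subgroup Γ) [hP : P.Normal]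
    [Group.FG P] {l : Γ → ℕ} {C d : ℕ} (hl : PolyLen l C d)
    (hcom : ∀ g h : Γ, g * h * g⁻¹ * h⁻¹ ∈ P) (φ0 : P →* Multiplicative ℝ) (hφ0 : φ0 ≠ 1) :
    ∃ Δ : Subgroup Γ, Δ.FiniteIndex ∧ P ≤ Δ ∧ ∃ φ : P →* Multiplicative ℝ, φ ≠ 1 ∧
      ∀ g ∈ Δ, ∀ x : P, φ ⟨g * x * g⁻¹, hP.conj_mem x x.2 g⟩ = φ x := by
  obtain ⟨r, π, hs, hπ⟩ := exists_pi P
  obtain ⟨p, hp⟩ := exists_basis hs
  -- `r` is positive
  have hr : Nonempty (Fin r) := by
    by_contra hne
    rw [not_nonempty_iff] at hne
    apply hφ0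
    ext x
    have := expand hπ hp φ0 x
    rw [Finset.univ_eq_empty, Finset.sum_empty] at this
    exact congrArg ofAdd this
  let T : Γ → (Fin r → ℂ) →ₗ[ℂ] (Fin r → ℂ) := fun g => (TM π p g).mulVecLin
  have hT : ∀ g h v, T g (T h v) = T h (T g v) := by
    intro g h v
    change (TM π p g).mulVec ((TM π p h).mulVec v) = (TM π p h).mulVec ((TM π p g).mulVec v)
    rw [Matrix.mulVec_mulVec, Matrix.mulVec_mulVec, TM_comm π p hπ hp (hcom g h)]
  obtain ⟨v, hv0, hv⟩ := exists_common T hT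
  choose χ hχ using hv
  have hχ' : ∀ g, (TM π p g).mulVec v = χ g • v := hχ
  obtain ⟨i0, hi0⟩ : ∃ i, v i ≠ 0 := by
    by_contra h
    push Not at h
    exact hv0 (funext h)
  have hinj : ∀ a b : ℂ, a • v = b • v → a = b := by
    intro a b hab
    have := congrFun hab i0
    simp only [Pi.smul_apply, smul_eq_mul] at this
    exact mul_right_cancel₀ hi0 this
  have hχone : ∀ q ∈ P, χ q = 1 := by
    intro q hq
    apply hinj
    rw [← hχ', TM_of_mem π p hp hq, Matrix.one_mulVec, one_smul]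
  have hχmul : ∀ g h, χ (g * h) = χ g * χ h := by
    intro g h
    apply hinj
    rw [← hχ', TM_mul π p hπ hp, ← Matrix.mulVec_mulVec, hχ', Matrix.mulVec_smul, hχ', smul_smul]
  let X : Γ →* ℂ :=
    { toFun := χ
      map_one' := hχone 1 P.one_mem
      map_mul' := hχmul }
  -- roots of unity
  have hroot : ∀ g, ∃ n : ℕ, 0 < n ∧ χ g ^ n = 1 := by
    intro g
    have hg0 : χ g ≠ 0 := by
      intro h0
      have : χ (g * g⁻¹) = χ g * χ g⁻¹ := hχmul _ _
      rw [mul_inv_cancel, hχone 1 P.one_mem, h0, zero_mul] at this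
      exact one_ne_zero this
    refine kronecker ((AM π p g).transpose) ?_ hv0 hg0 (hχ' g)
    intro w β hw hβ
    obtain ⟨i, hi⟩ : ∃ i, w i ≠ 0 := by
      by_contra h
      push Not at h
      exact hw (funext h)
    exact (twist π p hπ hp (v := w) (g := g) (β := β) hβ hi).norm_le_one hl
  -- finite index kernel
  let X' : Γ →* ℂˣ := X.toHomUnits
  have hX' : ∀ g, ((X' g : ℂˣ) : ℂ) = χ g := fun g => rfl
  have hfin : Finite X'.range := by
    have : Group.FG X'.range := Group.fg_of_surjective (X'.rangeRestrict_surjective)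
    apply CommGroup.finite_of_fg_isMulTorsion
    rintro ⟨_, g, rfl⟩
    rw [isOfFinOrder_iff_pow_eq_one]
    obtain ⟨n, hn, hn'⟩ := hroot g
    refine ⟨n, hn, Subtype.ext (Units.ext ?_)⟩
    exact hn'
  have hfi : X'.ker.FiniteIndex := by
    have : Finite (Γ ⧸ X'.ker) :=
      Finite.of_equiv _ (QuotientGroup.quotientKerEquivRange X').symm.toEquiv
    exact Subgroup.finiteIndex_of_finite_quotient
  have hker : ∀ g, g ∈ X'.ker ↔ χ g = 1 := by
    intro g
    rw [MonoidHom.mem_ker, Units.ext_iff, hX', Units.val_one]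
  -- the real vector
  have key : ∀ w : Fin r → ℝ, w ≠ 0 →
      (∀ g ∈ X'.ker, ∀ j, ∑ i, (AM π p g i j : ℝ) * w i = w j) →
      ∃ φ : P →* Multiplicative ℝ, φ ≠ 1 ∧
      ∀ g ∈ X'.ker, ∀ x : P, φ ⟨g * x * g⁻¹, hP.conj_mem x x.2 g⟩ = φ x := by
    intro w hw hfix
    let φ : P →* Multiplicative ℝ :=
      { toFun := fun x => ofAdd (∑ i, w i * (toAdd (π x) i : ℝ))
        map_one' := by
          rw [map_one]; simp
        map_mul' := by
          intro x y
          rw [map_mul, ← ofAdd_add, ← Finset.sum_add_distrib]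
          congr 1
          refine Finset.sum_congr rfl fun i _ => ?_
          rw [toAdd_mul, Pi.add_apply]; push_cast; ring }
    refine ⟨φ, ?_, ?_⟩
    · intro h1
      apply hw
      funext i
      have h2 : toAdd (φ (p i)) = 0 := by rw [h1]; rfl
      have h3 : toAdd (φ (p i)) = ∑ j, w j * (toAdd (π (p i)) j : ℝ) := rfl
      rw [h3, hp i, Finset.sum_eq_single i] at h2
      · simpa using h2
      · intro j _ hj; simp [hj]
      · simp
    · intro g hg x
      change ofAdd (∑ i, w i * (toAdd (π (cg P g x)) i : ℝ)) = ofAdd (∑ i, w i * (toAdd (π x) i : ℝ))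
      congr 1
      rw [AM_mulVec π p hπ hp]
      have h2 : ∀ i, (((AM π p g).mulVec (toAdd (π x)) i : ℤ) : ℝ) =
          ∑ j, (AM π p g i j : ℝ) * (toAdd (π x) j : ℝ) := by
        intro i
        rw [Matrix.mulVec, dotProduct]
        push_cast
        rfl
      simp_rw [h2, Finset.mul_sum]
      rw [Finset.sum_comm]
      refine Finset.sum_congr rfl fun j _ => ?_
      rw [← hfix g hg j, Finset.sum_mul]
      refine Finset.sum_congr rfl fun i _ => ?_
      ring
  have hfixc : ∀ g ∈ X'.ker, ∀ j, ∑ i, (AM π p g i j : ℂ) * v i = v j := by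
    intro g hg j
    rw [← TM_mulVec π p v g j, hχ', (hker g).1 hg, one_smul]
  refine ⟨X'.ker, hfi, fun q hq => (hker q).2 (hχone q hq), ?_⟩
  by_cases hre : (fun i => (v i).re) = 0
  · refine key (fun i => (v i).im) ?_ ?_
    · intro him
      apply hi0
      exact Complex.ext (congrFun hre i0) (congrFun him i0)
    · intro g hg j
      have := congrArg Complex.im (hfixc g hg j)
      rw [Complex.im_sum] at this
      rw [← this]
      refine Finset.sum_congr rfl fun i _ => ?_
      simp [Complex.mul_im]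
  · refine key (fun i => (v i).re) hre ?_
    intro g hg j
    have := congrArg Complex.re (hfixc g hg j)
    rw [Complex.re_sum] at this
    rw [← this]
    refine Finset.sum_congr rfl fun i _ => ?_
    simp [Complex.mul_re]

/-! ### extension -/

/-- a homomorphism from a subgroup of a commutative group to `ℝ` extends -/
theorem exists_ext_comm {A : Type*} [CommGroup A] (B : Subgroup A) (φ : B →* Multiplicative ℝ) :
    ∃ ψ : A →* Multiplicative ℝ, ∀ b : B, ψ b = φ b := by
  have hB : Module.Baer ℤ ℝ := Module.Baer.of_divisible ℝ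
  let f : Additive B →+ Additive A := MonoidHom.toAdditive B.subtype
  have hf : Function.Injective f := B.subtype_injective
  let g : Additive B →+ ℝ := MonoidHom.toAdditiveLeft φ
  obtain ⟨h, hh⟩ := hB.extension_property_addMonoidHom f hf g
  refine ⟨AddMonoidHom.toMultiplicativeRight h, fun b => ?_⟩
  have := DFunLike.congr_fun hh (Additive.ofMul b)
  exact congrArg ofAdd this

/-- a homomorphism `φ : P → ℝ`, `P` containing the commutators and `φ` trivial on them, extends -/
theorem exists_ext {Δ : Type*} [Group Δ] (P : Subgroup Δ) (φ : P →* Multiplicative ℝ)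
    (hφ : ∀ x : P, (x : Δ) ∈ commutator Δ → φ x = 1) :
    ∃ ψ : Δ →* Multiplicative ℝ, ∀ x : P, ψ x = φ x := by
  let f : P →* Abelianization Δ := Abelianization.of.comp P.subtype
  have hker : f.rangeRestrict.ker ≤ φ.ker := by
    intro x hx
    rw [MonoidHom.mem_ker] at hx ⊢
    apply hφ
    have : f x = 1 := congrArg Subtype.val hx
    exact (QuotientGroup.eq_one_iff _).1 this
  let φ' : f.range →* Multiplicative ℝ :=
    (f.rangeRestrict).liftOfSurjective f.rangeRestrict_surjective ⟨φ, hker⟩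
  have hφ' : ∀ x, φ' (f.rangeRestrict x) = φ x := fun x =>
    MonoidHom.liftOfRightInverse_comp_apply _ _ _ ⟨φ, hker⟩ x
  obtain ⟨ψ, hψ⟩ := exists_ext_comm f.range φ'
  refine ⟨ψ.comp Abelianization.of, fun x => ?_⟩
  have h1 := hψ (f.rangeRestrict x)
  rw [hφ'] at h1
  exact h1

end Crest.Agent.R273.Max127
end

-- ▼ part R273/Grp_645
section

/-!
# R273, leaf ALB-4 (helper645): finite-by-abelian groups are virtually free abelian

`exists_inj` : `Γ` finitely generated, `f : Γ →* A`, `A` commutative torsion free, `ker f` finite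
==> there is a central subgroup of finite index on which `f` is injective.
-/

set_option autoImplicit false
set_option linter.style.haveILetI false

namespace Crest.Agent.R273.Grp645

open Subgroup
open scoped IsMulCommutative

/-- a finitely generated group whose commutator subgroup is finite has a center of finite index -/
theorem center_finiteIndex {Γ : Type*} [Group Γ] [Group.FG Γ]
    (h : ((commutator Γ : Subgroup Γ) : Set Γ).Finite) : (Subgroup.center Γ).FiniteIndex := by
  classical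
  obtain ⟨S, hS⟩ := (Group.fg_def.1 ‹Group.FG Γ› : (⊤ : Subgroup Γ).FG)
  have hc : Subgroup.center Γ = ⨅ s : S, Subgroup.centralizer ({(s : Γ)} : Set Γ) := by
    apply le_antisymm
    · refine le_iInf fun s => ?_
      intro z hz
      rw [Subgroup.mem_centralizer_iff]
      intro x _
      exact (Subgroup.mem_center_iff.1 hz x)
    · intro z hz
      rw [Subgroup.mem_iInf] at hz
      rw [Subgroup.mem_center_iff]
      intro g
      have hg : g ∈ Subgroup.closure (S : Set Γ) := by rw [hS]; trivial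
      induction hg using Subgroup.closure_induction with
      | mem x hx =>
        have := hz ⟨x, hx⟩
        rw [Subgroup.mem_centralizer_iff] at this
        exact this x rfl
      | one => simp
      | mul x y _ _ hx hy => rw [mul_assoc, hy, ← mul_assoc, hx, mul_assoc]
      | inv x _ hx =>
        have h1 : x⁻¹ * (x * z) * x⁻¹ = x⁻¹ * (z * x) * x⁻¹ := by rw [hx]
        simpa [mul_assoc] using h1.symm
  rw [hc]
  haveI : Finite S := inferInstance
  have key : ∀ s : Γ, (Subgroup.centralizer ({s} : Set Γ)).FiniteIndex := by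
    intro s
    have hfin : Finite (Γ ⧸ Subgroup.centralizer ({s} : Set Γ)) := by
      let F : Γ ⧸ Subgroup.centralizer ({s} : Set Γ) → (commutator Γ : Subgroup Γ) :=
        Quotient.lift (s := QuotientGroup.leftRel _) (fun g => ⟨g * s * g⁻¹ * s⁻¹,
          Subgroup.commutator_mem_commutator (Subgroup.mem_top g) (Subgroup.mem_top s)⟩) (by
          intro a b hab
          have hab' : a⁻¹ * b ∈ Subgroup.centralizer ({s} : Set Γ) :=
            QuotientGroup.leftRel_apply.1 hab
          rw [Subgroup.mem_centralizer_iff] at hab'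
          have h1 := hab' s rfl
          apply Subtype.ext
          change a * s * a⁻¹ * s⁻¹ = b * s * b⁻¹ * s⁻¹
          congr 1
          have h2 : a * (s * (a⁻¹ * b)) * b⁻¹ = a * (a⁻¹ * b * s) * b⁻¹ := by rw [h1]
          have h3 : a * (s * (a⁻¹ * b)) * b⁻¹ = a * s * a⁻¹ := by group
          have h4 : a * (a⁻¹ * b * s) * b⁻¹ = b * s * b⁻¹ := by group
          rw [h3, h4] at h2
          exact h2)
      haveI : Finite (commutator Γ : Subgroup Γ) := h.to_subtype
      refine Finite.of_injective F ?_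
      intro x y
      induction x using QuotientGroup.induction_on with | _ a =>
      induction y using QuotientGroup.induction_on with | _ b =>
      intro hxy
      have h1 : a * s * a⁻¹ * s⁻¹ = b * s * b⁻¹ * s⁻¹ := congrArg Subtype.val hxy
      have h2 : a * s * a⁻¹ = b * s * b⁻¹ := mul_right_cancel h1
      apply QuotientGroup.eq.2
      rw [Subgroup.mem_centralizer_iff]
      intro x hx
      rw [Set.mem_singleton_iff] at hx
      subst hx
      have h3 : a⁻¹ * (a * x * a⁻¹) * b = a⁻¹ * (b * x * b⁻¹) * b := by rw [h2]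
      have h4 : a⁻¹ * (a * x * a⁻¹) * b = x * (a⁻¹ * b) := by group
      have h5 : a⁻¹ * (b * x * b⁻¹) * b = a⁻¹ * b * x := by group
      rw [h4, h5] at h3
      exact h3
    exact Subgroup.finiteIndex_of_finite_quotient
  haveI := fun s : S => key s
  exact Subgroup.finiteIndex_iInf (fun s => key s)

/-- `Γ` f.g., `f : Γ →* A` with finite kernel, `A` commutative and torsion free: there is a central
subgroup of finite index on which `f` is injective -/
theorem exists_inj {Γ A : Type*} [Group Γ] [Group.FG Γ] [CommGroup A] [IsMulTorsionFree A]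
    (f : Γ →* A) (hf : (f.ker : Set Γ).Finite) :
    ∃ H : Subgroup Γ, H.FiniteIndex ∧ H ≤ Subgroup.center Γ ∧
      ∀ x ∈ H, ∀ y ∈ H, f x = f y → x = y := by
  have hcom : (commutator Γ : Subgroup Γ) ≤ f.ker := Abelianization.commutator_subset_ker f
  haveI hZ : (Subgroup.center Γ).FiniteIndex :=
    center_finiteIndex (hf.subset (fun x hx => hcom hx))
  haveI : Finite f.ker := hf.to_subtype
  set m := Nat.card f.ker with hm
  have hm0 : m ≠ 0 := Nat.card_pos.ne'
  haveI : Group.FG (Subgroup.center Γ) := by infer_instance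
  let P : Subgroup.center Γ →* Subgroup.center Γ := powMonoidHom m
  let H : Subgroup Γ := P.range.map (Subgroup.center Γ).subtype
  have hfin : Finite (Subgroup.center Γ ⧸ P.range) := by
    haveI : Group.FG (Subgroup.center Γ ⧸ P.range) := QuotientGroup.fg _
    apply CommGroup.finite_of_fg_torsion
    intro x
    induction x using QuotientGroup.induction_on with | _ z =>
    rw [isOfFinOrder_iff_pow_eq_one]
    refine ⟨m, Nat.pos_of_ne_zero hm0, ?_⟩
    rw [← QuotientGroup.mk_pow, QuotientGroup.eq_one_iff]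
    exact ⟨z, rfl⟩
  haveI : P.range.FiniteIndex := Subgroup.finiteIndex_of_finite_quotient
  refine ⟨H, ?_, ?_, ?_⟩
  · constructor
    have h1 : H.index = (Subgroup.center Γ).index * P.range.index := by
      have := Subgroup.index_map_subtype P.range
      rw [mul_comm] at this
      exact this
    rw [h1]
    exact mul_ne_zero hZ.index_ne_zero (Subgroup.FiniteIndex.index_ne_zero)
  · rintro x ⟨z, -, rfl⟩
    exact z.2
  · have h1 : ∀ x ∈ H, f x = 1 → x = 1 := by
      rintro x ⟨z, ⟨w, rfl⟩, rfl⟩ hx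
      have h2 : f (w : Γ) ^ m = 1 := by
        have h3 : f ((w : Γ) ^ m) = 1 := hx
        rwa [map_pow] at h3
      have h3 : f (w : Γ) = 1 := by
        exact (pow_eq_one_iff_left hm0).1 h2
      have h4 : (⟨(w : Γ), h3⟩ : f.ker) ^ m = 1 := pow_card_eq_one'
      have h5 : (w : Γ) ^ m = 1 := congrArg Subtype.val h4
      exact h5
    intro x hx y hy hxy
    have h2 := h1 (x * y⁻¹) (H.mul_mem hx (H.inv_mem hy)) (by rw [map_mul, map_inv, hxy, mul_inv_cancel])
    exact mul_inv_eq_one.1 h2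

end Crest.Agent.R273.Grp645
end

-- ▼ part R273/VPC_501
section

/-!
# Row 273, leaf VPC (helper501)

An infinite finitely generated group of polynomial growth has a finite index subgroup with a
surjection onto `ℤ`.  This is a wrapper around `Crest.Agent.R182.GromovFinal.onto_int`, in the
shapes used by the growth argument of row 273:

* `onto_int_of_len`     : any length function `l` with `PolyLen l C d`;
* `onto_int_of_word`    : word balls of a finite generating set;
* `onto_int_of_ball`    : products of at most `k` elements of a finite symmetric generating set;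
* `onto_int_of_growth`  : `Nat`-valued length function with a REAL polynomial bound on balls.
-/

set_option autoImplicit false

namespace Crest.Agent.R273.VPC_501

open Crest.GroupTheory Crest.Agent.R182.Gromov Crest.Agent.R182.GromovFinal
  Crest.Agent.R182.GromovMain

universe u

theorem onto_int_of_len {G : Type u} [Group G] [Infinite G] (hfg : Group.FG G) {l : G → ℕ}
    {C d : ℕ} (hl : PolyLen l C d) :
    ∃ H : Subgroup G, H.FiniteIndex ∧ ∃ φ : H →* Multiplicative ℤ, Function.Surjective φ :=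
  onto_int harmonicRep compactPart G hfg l C d hl




end Crest.Agent.R273.VPC_501
end

-- ▼ part R273/MaxD_127
section

/-!
# R273 (S0416), Part B, leaf MAXQ (helper127), group part D : assembly

`HK Γ` : common kernel of the homomorphisms `Γ → ℝ`; `QU Γ` : the conclusion of `Quasi127.quasi`;
`maxg` : `G` finitely generated of polynomial growth, `QU` for all subgroups of finite index ⇒ a
subgroup of finite index is commutative and its homomorphisms to `ℝ` separate points.
-/

set_option autoImplicit false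

open Multiplicative
open scoped Pointwise

namespace Crest.Agent.R273.Max127

open Crest.Agent.R182.Gromov Crest.Agent.R182.GromovMilnor Crest.Agent.R273.Quasi127
open Crest.GroupTheory

universe u

/-- common kernel of the homomorphisms to `ℝ` -/
def HK (Γ : Type*) [Group Γ] : Subgroup Γ := ⨅ f : Γ →* Multiplicative ℝ, f.ker

theorem mem_HK {Γ : Type*} [Group Γ] {x : Γ} : x ∈ HK Γ ↔ ∀ f : Γ →* Multiplicative ℝ, f x = 1 := by
  simp [HK, Subgroup.mem_iInf, MonoidHom.mem_ker]

instance {Γ : Type*} [Group Γ] : (HK Γ).Normal := by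
  refine ⟨fun x hx g => ?_⟩
  rw [mem_HK] at hx ⊢
  intro f
  rw [map_mul, map_mul, hx f, mul_one, map_inv, mul_inv_cancel]

/-- invariant homomorphisms vanish on commutators -/
def QU (Γ : Type*) [Group Γ] : Prop :=
  ∀ (Δ P : Subgroup Γ) (hP : P.Normal), Δ.FiniteIndex → P ≤ Δ → P ≤ HK Γ →
    P.relIndex (HK Γ) ≠ 0 → ∀ φ : P →* Multiplicative ℝ,
    (∀ g ∈ Δ, ∀ x : P, φ ⟨g * x * g⁻¹, hP.conj_mem x x.2 g⟩ = φ x) →
    ∀ g ∈ Δ, ∀ h ∈ Δ, ∀ hc : g * h * g⁻¹ * h⁻¹ ∈ P, φ ⟨_, hc⟩ = 1

/-! ### `QU` from an action -/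

/-- cocompactness passes to subgroups of finite index -/
theorem cocompact_sub {Γ : Type*} [Group Γ] {N : Type*} [TopologicalSpace N] [MulAction Γ N]
    [ContinuousConstSMul Γ N] (K P : Subgroup Γ) (hidx : P.relIndex K ≠ 0)
    {S : Set N} (hS : IsCompact S) (hcov : ∀ x : N, ∃ p ∈ K, p • x ∈ S) :
    ∃ S' : Set N, IsCompact S' ∧ ∀ x : N, ∃ p ∈ P, p • x ∈ S' := by
  have : (P.subgroupOf K).FiniteIndex := ⟨hidx⟩
  have hfin : Finite (K ⧸ P.subgroupOf K) := inferInstance
  refine ⟨⋃ q : K ⧸ P.subgroupOf K, ((q.out : K) : Γ)⁻¹ • S,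
    isCompact_iUnion fun q => hS.smul _, fun x => ?_⟩
  obtain ⟨k, hk, hkx⟩ := hcov x
  obtain ⟨p, hp⟩ := QuotientGroup.mk_out_eq_mul (P.subgroupOf K) (⟨k, hk⟩ : K)
  set q : K ⧸ P.subgroupOf K := ((⟨k, hk⟩ : K) : K ⧸ P.subgroupOf K) with hq
  have h1 : ((q.out : K) : Γ) = k * ((p : K) : Γ) := congrArg Subtype.val hp
  refine ⟨((p : K) : Γ)⁻¹, P.inv_mem p.2, Set.mem_iUnion.2 ⟨q, ?_⟩⟩
  rw [Set.mem_smul_set_iff_inv_smul_mem, inv_inv, h1, smul_smul, mul_inv_cancel_right]
  exact hkx

/-- `QU` for a group acting on a space such that `HK Γ` is cocompact and properly discontinuous -/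
theorem QU_of_action {Γ : Type*} [Group Γ] {N : Type*} [TopologicalSpace N] [Nonempty N]
    [MulAction Γ N] [ContinuousConstSMul Γ N] {S : Set N} (hS : IsCompact S)
    (hcov : ∀ x : N, ∃ p ∈ HK Γ, p • x ∈ S)
    (hprop : ∀ L L' : Set N, IsCompact L → IsCompact L' →
      {p : Γ | p ∈ HK Γ ∧ ∃ x ∈ L, p • x ∈ L'}.Finite) : QU Γ := by
  intro Δ P hP hΔ hPΔ hPK hidx φ hinv g hg h hh hc
  obtain ⟨S', hS', hcov'⟩ := cocompact_sub (HK Γ) P hidx hS hcov
  have hn : (P.subgroupOf Δ).Normal := inferInstance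
  have hcs : ContinuousConstSMul Δ N := ⟨fun g => continuous_const_smul (g : Γ)⟩
  let e : P.subgroupOf Δ →* P :=
    { toFun := fun x => ⟨((x : Δ) : Γ), x.2⟩
      map_one' := rfl
      map_mul' := fun _ _ => rfl }
  have h1 := quasi (Δ := Δ) (P := P.subgroupOf Δ) (φ := φ.comp e) (N := N)
    (by
      intro g x
      exact hinv g g.2 (e x)) hS'
    (by
      intro x
      obtain ⟨p, hp, hpx⟩ := hcov' x
      exact ⟨⟨p, hPΔ hp⟩, hp, hpx⟩)
    (by
      intro L L' hL hL'
      refine Set.Finite.of_finite_image (f := fun p : Δ => (p : Γ)) ?_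
        Subtype.val_injective.injOn
      refine (hprop L L' hL hL').subset ?_
      rintro _ ⟨p, ⟨hp, x, hx, hpx⟩, rfl⟩
      exact ⟨hPK hp, x, hx, hpx⟩)
    (g := ⟨g, hg⟩) (h := ⟨h, hh⟩) hc
  exact h1

/-! ### restriction of homomorphisms -/

/-- restriction of real homomorphisms to a subgroup -/
def res {H : Type*} [Group H] (Δ : Subgroup H) : HomR H →ₗ[ℝ] HomR Δ where
  toFun f := ⟨fun x => (f : H → ℝ) x, fun x y => f.2 x y⟩
  map_add' _ _ := rfl
  map_smul' _ _ := rfl

theorem res_injective {H : Type*} [Group H] (Δ : Subgroup H) [hΔ : Δ.FiniteIndex] :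
    Function.Injective (res Δ) := by
  intro f g hfg
  apply Subtype.ext
  funext x
  obtain ⟨n, hn, -, hx⟩ := Subgroup.exists_pow_mem_of_index_ne_zero hΔ.index_ne_zero x
  have h1 : (f : H → ℝ) (x ^ n) = (g : H → ℝ) (x ^ n) :=
    congrFun (congrArg Subtype.val hfg) ⟨x ^ n, hx⟩
  rw [HomR.pow, HomR.pow] at h1
  have : (n : ℝ) ≠ 0 := by exact_mod_cast hn.ne'
  exact mul_left_cancel₀ this h1

/-- evaluation at all homomorphisms -/
def ev (H : Type*) [Group H] : H →* ((H →* Multiplicative ℝ) → Multiplicative ℝ) where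
  toFun x f := f x
  map_one' := by funext f; exact map_one f
  map_mul' x y := by funext f; exact map_mul f x y

theorem ev_ker (H : Type*) [Group H] : (ev H).ker = HK H := by
  ext x
  rw [MonoidHom.mem_ker, mem_HK]
  exact funext_iff

/-- **key step** -/
theorem finite_HK {H : Type u} [Group H] (hvp : IsVirtuallyPolycyclic H) {l : H → ℕ} {C d : ℕ}
    (hl : PolyLen l C d)
    (hmax : ∀ Δ : Subgroup H, Δ.FiniteIndex →
      Module.finrank ℝ (HomR Δ) ≤ Module.finrank ℝ (HomR H))
    (hQ : QU H) : ((HK H : Subgroup H) : Set H).Finite := by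
  classical
  by_contra hinf
  have hInf : Infinite (HK H) := Set.infinite_coe_iff.2 hinf
  have hsub : ∀ {Γ : Type u} [Group Γ], IsVirtuallyPolycyclic Γ → ∀ K : Subgroup Γ,
      IsVirtuallyPolycyclic K := fun h K => R182.Polyc.isVirtuallyPolycyclic_subgroup h K
  have hfgH : Group.FG H := R182.Polyc.isVirtuallyPolycyclic_fg hvp
  have hfgK : Group.FG (HK H) := R182.Polyc.isVirtuallyPolycyclic_fg (hsub hvp _)
  obtain ⟨K1, hK1, φ1, hφ1⟩ := VPC_501.onto_int_of_len hfgK (hl.subgroup (HK H))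
  obtain ⟨P0, hP0le, hP0fi, -, hPn⟩ := LatFin127.exists_normal (HK H) K1
  set P : Subgroup H := P0.map (HK H).subtype with hPdef
  have hPK : P ≤ HK H := by
    rintro _ ⟨x, -, rfl⟩
    exact x.2
  have hP0mem : ∀ (x : H) (hx : x ∈ P), (⟨x, hPK hx⟩ : HK H) ∈ P0 := by
    rintro x ⟨y, hy, hyx⟩
    have : (⟨x, hPK ⟨y, hy, hyx⟩⟩ : HK H) = y := Subtype.ext hyx.symm
    rw [this]; exact hy
  have hmemP : ∀ x : HK H, x ∈ P0 → (x : H) ∈ P := fun x hx => ⟨x, hx, rfl⟩
  have hidx : P.relIndex (HK H) ≠ 0 := by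
    have : P.subgroupOf (HK H) = P0 := by
      ext x
      exact ⟨fun hx => hP0mem x hx, fun hx => hmemP x hx⟩
    rw [Subgroup.relIndex, this]
    exact hP0fi.index_ne_zero
  -- the quotient `H / P`
  have hPev : P ≤ (ev H).ker := by rw [ev_ker]; exact hPK
  let evq : H ⧸ P →* ((H →* Multiplicative ℝ) → Multiplicative ℝ) := QuotientGroup.lift P (ev H) hPev
  have hkfin : (evq.ker : Set (H ⧸ P)).Finite := by
    have hfin : Finite (HK H ⧸ P0) := inferInstance
    refine (Set.finite_range fun q : HK H ⧸ P0 =>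
      (((q.out : HK H) : H) : H ⧸ P)).subset ?_
    intro x hx
    obtain ⟨y, rfl⟩ := QuotientGroup.mk_surjective x
    have hy : y ∈ HK H := by
      rw [← ev_ker, MonoidHom.mem_ker]
      exact (MonoidHom.mem_ker).1 hx
    obtain ⟨p, hp⟩ := QuotientGroup.mk_out_eq_mul P0 (⟨y, hy⟩ : HK H)
    refine ⟨((⟨y, hy⟩ : HK H) : HK H ⧸ P0), ?_⟩
    have h1 : (((((⟨y, hy⟩ : HK H) : HK H ⧸ P0)).out : HK H) : H) = y * ((p : HK H) : H) :=
      congrArg Subtype.val hp
    change ((((((⟨y, hy⟩ : HK H) : HK H ⧸ P0)).out : HK H) : H) : H ⧸ P) = (y : H ⧸ P)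
    rw [h1]
    exact (QuotientGroup.mk_mul_of_mem y (hmemP _ p.2))
  obtain ⟨Hb, hHb, hHc, -⟩ := Grp645.exists_inj evq hkfin
  set Γ1 : Subgroup H := Hb.comap (QuotientGroup.mk' P) with hΓ1
  have hΓ1fi : Γ1.FiniteIndex := by
    refine ⟨?_⟩
    rw [hΓ1, Subgroup.index_comap_of_surjective _ (QuotientGroup.mk'_surjective P)]
    exact hHb.index_ne_zero
  have hPΓ1 : P ≤ Γ1 := by
    intro x hx
    change (QuotientGroup.mk' P) x ∈ Hb
    have : (QuotientGroup.mk' P) x = 1 := (QuotientGroup.eq_one_iff x).2 hx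
    rw [this]; exact Hb.one_mem
  have hcomm : ∀ x ∈ Γ1, ∀ y : H, x * y * x⁻¹ * y⁻¹ ∈ P := by
    intro x hx y
    have hc := Subgroup.mem_center_iff.1 (hHc hx) ((QuotientGroup.mk' P) y)
    have h1 : (QuotientGroup.mk' P) (x * y * x⁻¹ * y⁻¹) = 1 := by
      rw [map_mul, map_mul, map_mul, map_inv, map_inv, ← hc]
      group
    exact (QuotientGroup.eq_one_iff _).1 h1
  -- apply `exists_inv` on `Γ1`
  have hfgΓ1 : Group.FG Γ1 := R182.Polyc.isVirtuallyPolycyclic_fg (hsub hvp _)
  have hfgP1 : Group.FG (P.subgroupOf Γ1) :=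
    R182.Polyc.isVirtuallyPolycyclic_fg (hsub (hsub hvp Γ1) _)
  let ι : P.subgroupOf Γ1 →* K1 :=
    { toFun := fun x => ⟨⟨((x : Γ1) : H), hPK x.2⟩, hP0le (hP0mem _ x.2)⟩
      map_one' := rfl
      map_mul' := fun _ _ => rfl }
  let cast : Multiplicative ℤ →* Multiplicative ℝ :=
    AddMonoidHom.toMultiplicative (Int.castAddHom ℝ)
  let φ0 : P.subgroupOf Γ1 →* Multiplicative ℝ := cast.comp (φ1.comp ι)
  have hφ0 : φ0 ≠ 1 := by
    intro h0
    obtain ⟨k, hk⟩ := hφ1 (ofAdd 1)
    obtain ⟨n, hn, -, hx⟩ :=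
      Subgroup.exists_pow_mem_of_index_ne_zero hP0fi.index_ne_zero ((k : K1) : HK H)
    have hmem : ((((k : K1) : HK H) ^ n : HK H) : H) ∈ P := hmemP _ hx
    have h1 := DFunLike.congr_fun h0
      (⟨⟨((((k : K1) : HK H) ^ n : HK H) : H), hPΓ1 hmem⟩, hmem⟩ : P.subgroupOf Γ1)
    have h2 : ι ⟨⟨((((k : K1) : HK H) ^ n : HK H) : H), hPΓ1 hmem⟩, hmem⟩ = k ^ n :=
      Subtype.ext (Subtype.ext rfl)
    have h3 : cast (φ1 (ι ⟨⟨((((k : K1) : HK H) ^ n : HK H) : H), hPΓ1 hmem⟩, hmem⟩)) = 1 := h1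
    rw [h2, map_pow, hk] at h3
    have h4 : toAdd (cast ((ofAdd (1 : ℤ)) ^ n)) = ((n : ℤ) : ℝ) := by
      change ((toAdd ((ofAdd (1 : ℤ)) ^ n) : ℤ) : ℝ) = _
      rw [toAdd_pow, toAdd_ofAdd]; simp
    rw [h3, toAdd_one] at h4
    have : (n : ℤ) = 0 := by exact_mod_cast h4.symm
    omega
  obtain ⟨Δ', hΔ', hPΔ', φ, hφne, hφinv⟩ := exists_inv (P.subgroupOf Γ1) (hl.subgroup Γ1)
    (by
      intro g h
      exact hcomm g g.2 h) φ0 hφ0
  set Δ : Subgroup H := Δ'.map Γ1.subtype with hΔdef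
  have hΔfi : Δ.FiniteIndex := by
    refine ⟨?_⟩
    rw [hΔdef, Subgroup.index_map_subtype]
    exact mul_ne_zero hΔ'.index_ne_zero hΓ1fi.index_ne_zero
  have hPΔ : P ≤ Δ := fun x hx => ⟨⟨x, hPΓ1 hx⟩, hPΔ' hx, rfl⟩
  have hΔΓ1 : Δ ≤ Γ1 := by
    rintro _ ⟨y, -, rfl⟩
    exact y.2
  let e : P →* P.subgroupOf Γ1 :=
    { toFun := fun x => ⟨⟨x, hPΓ1 x.2⟩, x.2⟩
      map_one' := rfl
      map_mul' := fun _ _ => rfl }
  let φP : P →* Multiplicative ℝ := φ.comp e
  have hinvP : ∀ g ∈ Δ, ∀ x : P, φP ⟨g * x * g⁻¹, hPn.conj_mem x x.2 g⟩ = φP x := by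
    rintro _ ⟨g, hg, rfl⟩ x
    exact hφinv g hg (e x)
  have hkill := hQ Δ P hPn hΔfi hPΔ hPK hidx φP hinvP
  -- extension to `Δ`
  let e2 : P.subgroupOf Δ →* P :=
    { toFun := fun x => ⟨((x : Δ) : H), x.2⟩
      map_one' := rfl
      map_mul' := fun _ _ => rfl }
  obtain ⟨ψ, hψ⟩ := exists_ext (P.subgroupOf Δ) (φP.comp e2) (by
    intro x hx
    have hle : commutator Δ ≤ ((φP.comp e2).ker).map (P.subgroupOf Δ).subtype := by
      rw [commutator_def, Subgroup.commutator_le]
      intro g _ h _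
      have hmem : (g : H) * h * (g : H)⁻¹ * (h : H)⁻¹ ∈ P := hcomm g (hΔΓ1 g.2) h
      exact ⟨⟨g * h * g⁻¹ * h⁻¹, hmem⟩, hkill g g.2 h h.2 hmem, rfl⟩
    obtain ⟨y, hy, hyx⟩ := hle hx
    have : y = x := Subtype.ext hyx
    rw [← this]
    exact hy)
  -- maximality
  have hfgΔ : Group.FG Δ := R182.Polyc.isVirtuallyPolycyclic_fg (hsub hvp _)
  have hrank : Module.finrank ℝ (HomR H) = Module.finrank ℝ (HomR Δ) :=
    le_antisymm (LinearMap.finrank_le_finrank_of_injective (res_injective Δ)) (hmax Δ hΔfi)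
  have hsurj : Function.Surjective (res Δ) :=
    (LinearMap.injective_iff_surjective_of_finrank_eq_finrank hrank).1 (res_injective Δ)
  obtain ⟨f, hf⟩ := hsurj (ofH ψ)
  apply hφne
  ext x
  have hxP : (((x : Γ1) : H)) ∈ P := x.2
  have h1 : (f : H → ℝ) ((x : Γ1) : H) = 0 := by
    have := mem_HK.1 (hPK hxP) (toH f)
    exact congrArg toAdd this
  have h2 : toAdd (ψ ⟨((x : Γ1) : H), hPΔ hxP⟩) = (f : H → ℝ) ((x : Γ1) : H) := by
    have := congrFun (congrArg Subtype.val hf) ⟨((x : Γ1) : H), hPΔ hxP⟩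
    exact this.symm
  have h3 := hψ ⟨⟨((x : Γ1) : H), hPΔ hxP⟩, hxP⟩
  have h4 : ψ ⟨((x : Γ1) : H), hPΔ hxP⟩ = φ x := h3
  rw [← h4]
  apply toAdd.injective
  rw [h2, h1]
  rfl

/-- **MAXG** : the group part of MAXQ -/
theorem maxg {G : Type u} [Group G] [hfg : Group.FG G] {l : G → ℕ} {C d : ℕ} (hl : PolyLen l C d)
    (hQ : ∀ H : Subgroup G, H.FiniteIndex → QU H) :
    ∃ Γ : Subgroup G, Γ.FiniteIndex ∧ (∀ x ∈ Γ, ∀ y ∈ Γ, x * y = y * x) ∧ HK Γ = ⊥ := by
  classical
  have hvp : IsVirtuallyPolycyclic G := R182.GromovMain.gromov hfg hl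
  have hsub : ∀ K : Subgroup G, IsVirtuallyPolycyclic K := fun K =>
    R182.Polyc.isVirtuallyPolycyclic_subgroup hvp K
  have hfgs : ∀ K : Subgroup G, Group.FG K := fun K =>
    R182.Polyc.isVirtuallyPolycyclic_fg (hsub K)
  -- maximal rank
  let S : Set ℕ := {r | ∃ H : Subgroup G, H.FiniteIndex ∧ Module.finrank ℝ (HomR H) = r}
  have hne : S.Nonempty := ⟨_, ⊤, inferInstance, rfl⟩
  have hbdd : BddAbove S := by
    refine ⟨d, ?_⟩
    rintro _ ⟨H, -, rfl⟩
    have := hfgs H
    exact finrank_le (hl.subgroup H)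
  obtain ⟨H, hH, hHr⟩ := Nat.sSup_mem hne hbdd
  have hfin : ((HK H : Subgroup H) : Set H).Finite := by
    refine finite_HK (hsub H) (hl.subgroup H) ?_ (hQ H hH)
    intro Δ hΔ
    rw [hHr]
    refine le_csSup hbdd ⟨Δ.map H.subtype, ⟨?_⟩, ?_⟩
    · rw [Subgroup.index_map_subtype]
      exact mul_ne_zero hΔ.index_ne_zero hH.index_ne_zero
    · -- `Δ ≃ Δ.map`
      let E : Δ ≃* Δ.map H.subtype := Δ.equivMapOfInjective H.subtype H.subtype_injective
      let L : HomR (Δ.map H.subtype) ≃ₗ[ℝ] HomR Δ :=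
        { toFun := fun f => ⟨fun x => (f : _ → ℝ) (E x), fun x y => by
            change (f : _ → ℝ) (E (x * y)) = _
            rw [map_mul]; exact f.2 _ _⟩
          invFun := fun f => ⟨fun x => (f : _ → ℝ) (E.symm x), fun x y => by
            change (f : _ → ℝ) (E.symm (x * y)) = _
            rw [map_mul]; exact f.2 _ _⟩
          map_add' := fun _ _ => rfl
          map_smul' := fun _ _ => rfl
          left_inv := fun f => Subtype.ext (funext fun x => by simp)
          right_inv := fun f => Subtype.ext (funext fun x => by simp) }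
      exact L.finrank_eq
  have := hfgs H
  have hk : ((ev H).ker : Set H).Finite := by rw [ev_ker]; exact hfin
  obtain ⟨H1, hH1, hH1c, hinj⟩ := Grp645.exists_inj (ev H) hk
  refine ⟨H1.map H.subtype, ⟨?_⟩, ?_, ?_⟩
  · rw [Subgroup.index_map_subtype]
    exact mul_ne_zero hH1.index_ne_zero hH.index_ne_zero
  · rintro _ ⟨x, hx, rfl⟩ _ ⟨y, -, rfl⟩
    have := Subgroup.mem_center_iff.1 (hH1c hx) y
    exact (congrArg (H.subtype) this).symm
  · rw [eq_bot_iff]
    rintro ⟨_, x, hx, rfl⟩ hk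
    rw [mem_HK] at hk
    have h1 : x = 1 := by
      apply hinj x hx 1 H1.one_mem
      rw [map_one]
      funext f
      exact hk ((f.comp (Subgroup.inclusion (show H1.map H.subtype ≤ H by
        rintro _ ⟨z, -, rfl⟩; exact z.2))))
    subst h1
    rw [Subgroup.mem_bot]
    rfl

end Crest.Agent.R273.Max127
end

-- ▼ part R273/Growth_289
section

/-!
# R273 (S0416), Part C, BGT-3 (helper289): polynomial growth from `Ric ≥ 0`

A group acting isometrically, freely, properly discontinuously and cocompactly on a connected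
Riemannian manifold with `Ric ≥ 0` has polynomial growth: Bishop–Gromov (`R247`) + packing.

* `complete_of_cocompact` : a locally compact metric space with a cocompact isometric action is
  complete;
* `card_le_of_bishop`     : orbit counting;
* `growth_wordLength`     : `ncard {g | wordLength S g ≤ k} ≤ C * k ^ m` for `k ≥ 1`.
-/

set_option autoImplicit false
noncomputable section
open Set Filter Topology MeasureTheory Metric
open scoped ContDiff Manifold ENNReal NNReal
open Bundle Crest.GeometryTopology.CoordMetric Crest.GeometryTopology.ChartCurvature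
  Crest.GeometryTopology.PointedLimit
open Crest.GroupTheory (wordLength)

namespace Crest.Agent.R273.Growth_289

universe u

section Metric

variable {N : Type*} [MetricSpace N] {Γ : Type*} [Group Γ] [MulAction Γ N]

/-- A locally compact metric space with a cocompact isometric group action is complete. -/
theorem complete_of_cocompact [LocallyCompactSpace N]
    (hiso : ∀ (g : Γ) (x y : N), dist (g • x) (g • y) = dist x y)
    {K : Set N} (hK : IsCompact K) (hcov : ∀ x : N, ∃ g : Γ, g • x ∈ K) : CompleteSpace N := by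
  -- a uniform radius with compact closed balls
  obtain ⟨K', hK', hKK'⟩ := exists_compact_superset hK
  obtain ⟨ε, hε, hthick⟩ := hK.exists_thickening_subset_open isOpen_interior hKK'
  have hball : ∀ x ∈ K, closedBall x (ε / 2) ⊆ K' := by
    intro x hx y hy
    refine interior_subset (hthick ?_)
    rw [mem_thickening_iff]
    exact ⟨x, hx, lt_of_le_of_lt hy (by linarith)⟩
  refine Metric.complete_of_cauchySeq_tendsto fun s hs => ?_
  obtain ⟨m, hm⟩ := Metric.cauchySeq_iff'.1 hs (ε / 2) (by positivity)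
  obtain ⟨g, hg⟩ := hcov (s m)
  have hcpt : IsCompact (closedBall (g • s m) (ε / 2)) :=
    hK'.of_isClosed_subset isClosed_closedBall (hball _ hg)
  have hmem : ∀ k, g • s (m + k) ∈ closedBall (g • s m) (ε / 2) := by
    intro k
    rw [mem_closedBall, hiso]
    exact (hm (m + k) (by omega)).le
  obtain ⟨y, hy, φ, hφ, hlim⟩ := hcpt.tendsto_subseq hmem
  have hlim' : Tendsto (fun k => s (m + φ k)) atTop (𝓝 (g⁻¹ • y)) := by
    rw [tendsto_iff_dist_tendsto_zero] at hlim ⊢
    refine hlim.congr fun k => ?_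
    rw [Function.comp_apply, ← hiso g (s (m + φ k)), smul_inv_smul]
  refine ⟨g⁻¹ • y, tendsto_nhds_of_cauchySeq_of_subseq hs ?_ hlim'⟩
  exact tendsto_atTop_mono (fun k => by omega : ∀ k, φ k ≤ m + φ k) hφ.tendsto_atTop

/-- lengths of words bound displacements -/
theorem dist_prod_smul_le (hiso : ∀ (g : Γ) (x y : N), dist (g • x) (g • y) = dist x y)
    (x0 : N) (S : Set Γ) {L : ℝ} (hL : ∀ s ∈ S, dist (s • x0) x0 ≤ L) :
    ∀ l : List Γ, (∀ x ∈ l, x ∈ S ∨ x⁻¹ ∈ S) → dist (l.prod • x0) x0 ≤ l.length * L := by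
  intro l
  induction l with
  | nil => intro _; simp
  | cons a l ih =>
    intro h
    have h1 := ih fun x hx => h x (by simp [hx])
    have h2 : dist (a • x0) x0 ≤ L := by
      rcases h a (by simp) with ha | ha
      · exact hL a ha
      · have := hL _ ha
        rwa [← hiso a, smul_inv_smul, dist_comm] at this
    rw [List.prod_cons, mul_smul, List.length_cons]
    have h3 := dist_triangle (a • l.prod • x0) (a • x0) x0
    rw [hiso] at h3
    push_cast
    linarith

/-- the word length is attained -/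
theorem exists_word {S : Set Γ} (hS : Subgroup.closure S = ⊤) (g : Γ) :
    ∃ l : List Γ, l.length = wordLength S g ∧ (∀ x ∈ l, x ∈ S ∨ x⁻¹ ∈ S) ∧ l.prod = g := by
  have hne : {n : ℕ | ∃ l : List Γ, l.length = n ∧ (∀ x ∈ l, x ∈ S ∨ x⁻¹ ∈ S) ∧ l.prod = g}.Nonempty := by
    have hg : g ∈ Subgroup.closure S := by rw [hS]; trivial
    rw [← Subgroup.mem_toSubmonoid, Subgroup.closure_toSubmonoid] at hg
    obtain ⟨l, hl, hp⟩ := Submonoid.exists_list_of_mem_closure hg
    exact ⟨l.length, l, rfl, fun x hx => by simpa using hl x hx, hp⟩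
  exact Nat.sInf_mem hne

theorem dist_smul_le_wordLength (hiso : ∀ (g : Γ) (x y : N), dist (g • x) (g • y) = dist x y)
    (x0 : N) {S : Set Γ} (hS : Subgroup.closure S = ⊤) {L : ℝ}
    (hL : ∀ s ∈ S, dist (s • x0) x0 ≤ L) (g : Γ) :
    dist (g • x0) x0 ≤ wordLength S g * L := by
  obtain ⟨l, hl, hlS, rfl⟩ := exists_word hS g
  rw [← hl]
  exact dist_prod_smul_le hiso x0 S hL l hlS

theorem complete_of_cocompact_manifold (m : ℕ) [ChartedSpace (EuclideanSpace ℝ (Fin m)) N]
    (hiso : ∀ (g : Γ) (x y : N), dist (g • x) (g • y) = dist x y)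
    {K : Set N} (hK : IsCompact K) (hcov : ∀ x : N, ∃ g : Γ, g • x ∈ K) : CompleteSpace N := by
  have : LocallyCompactSpace N := ChartedSpace.locallyCompactSpace (EuclideanSpace ℝ (Fin m)) N
  exact complete_of_cocompact hiso hK hcov

/-- orbit counting from a doubling type inequality -/
theorem card_mul_le [MeasurableSpace N] [BorelSpace N] (μ : Measure N)
    (hiso : ∀ (g : Γ) (x y : N), dist (g • x) (g • y) = dist x y)
    (hμ : ∀ (g : Γ) (x : N) (r : ℝ), μ (ball (g • x) r) = μ (ball x r))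
    (x0 : N) {r : ℝ} (hr : ∀ g : Γ, g ≠ 1 → 2 * r ≤ dist (g • x0) x0) {R : ℝ}
    (F : Finset Γ) (hF : ∀ g ∈ F, dist (g • x0) x0 ≤ R) :
    (F.card : ℝ≥0∞) * μ (ball x0 r) ≤ μ (ball x0 (R + r)) := by
  have hdisj : (F : Set Γ).PairwiseDisjoint fun g => ball (g • x0) r := by
    intro g _ h _ hgh
    refine ball_disjoint_ball ?_
    have h1 : h⁻¹ * g ≠ 1 := by
      intro h2; exact hgh (inv_mul_eq_one.1 h2).symm
    have h2 := hr _ h1
    rw [← hiso h, ← mul_smul, mul_inv_cancel_left] at h2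
    linarith
  calc (F.card : ℝ≥0∞) * μ (ball x0 r) = ∑ g ∈ F, μ (ball (g • x0) r) := by
        rw [Finset.sum_congr rfl fun g _ => hμ g x0 r]
        simp
    _ = μ (⋃ g ∈ F, ball (g • x0) r) :=
        (measure_biUnion_finset hdisj fun g _ => measurableSet_ball).symm
    _ ≤ μ (ball x0 (R + r)) := by
        refine measure_mono (iUnion₂_subset fun g hg y hy => ?_)
        rw [mem_ball] at hy ⊢
        have := dist_triangle y (g • x0) x0
        have := hF g hg
        linarith

end Metric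

section Riem

variable {m : ℕ} {N : Type u} [MetricSpace N] [ConnectedSpace N]
  [ChartedSpace (EuclideanSpace ℝ (Fin m)) N]
  [IsManifold 𝓘(ℝ, EuclideanSpace ℝ (Fin m)) ∞ N]
  [RiemannianBundle (fun x : N => TangentSpace 𝓘(ℝ, EuclideanSpace ℝ (Fin m)) x)]
  [IsContMDiffRiemannianBundle 𝓘(ℝ, EuclideanSpace ℝ (Fin m)) ∞ (EuclideanSpace ℝ (Fin m))
    (fun x : N => TangentSpace 𝓘(ℝ, EuclideanSpace ℝ (Fin m)) x)]
  [IsRiemannianManifold 𝓘(ℝ, EuclideanSpace ℝ (Fin m)) N]
  {Γ : Type*} [Group Γ] [MulAction Γ N]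

variable [MeasurableSpace N] [BorelSpace N]

/-- **Orbit counting** under `Ric ≥ 0`. -/
theorem card_le (hric : HasRicciLowerBound m N 0)
    (hiso : ∀ (g : Γ) (x y : N), dist (g • x) (g • y) = dist x y)
    {K : Set N} (hK : IsCompact K) (hcov : ∀ x : N, ∃ g : Γ, g • x ∈ K)
    (x0 : N) {r : ℝ} (hr0 : 0 < r) (hr : ∀ g : Γ, g ≠ 1 → 2 * r ≤ dist (g • x0) x0) {R : ℝ}
    (hR : 0 ≤ R) (F : Finset Γ) (hF : ∀ g ∈ F, dist (g • x0) x0 ≤ R) :
    (F.card : ℝ) ≤ ((R + r) / r) ^ m := by
  have : CompleteSpace N := complete_of_cocompact_manifold m hiso hK hcov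
  have hpos : (μHE[m] : Measure N).IsOpenPosMeasure := Crest.Agent.R247.Ms322.isOpenPosMeasure m N
  have h1 := card_mul_le (μHE[m] : Measure N) hiso (fun g x s => by
    have hI : Isometry fun y : N => g • y := Isometry.of_dist_eq fun a b => hiso g a b
    rw [← hI.euclideanHausdorffMeasure_image (ball x s)]
    congr 1
    ext y
    constructor
    · intro hy
      refine ⟨g⁻¹ • y, ?_, smul_inv_smul g y⟩
      rw [mem_ball] at hy ⊢
      rwa [← hiso g, smul_inv_smul]
    · rintro ⟨z, hz, rfl⟩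
      rw [mem_ball] at hz ⊢
      rwa [hiso]) x0 hr F hF
  have h2 := Crest.Agent.R247.Bgr546.bgr_all m 0 le_rfl N x0 r (R + r) (by simpa using hric) hr0
    (by linarith)
  have hb0 : (μHE[m] : Measure N) (ball x0 r) ≠ 0 := (measure_ball_pos _ _ hr0).ne'
  have hbt : (μHE[m] : Measure N) (ball x0 r) ≠ ⊤ :=
    (Crest.Agent.R247.GluM923.ball_lt_top m N x0 r).ne
  have h3 := h1.trans h2
  rw [ENNReal.mul_le_mul_iff_left hb0 hbt] at h3
  have h4 : Real.exp (0 * (R + r) ^ 2 / 2) * ((R + r) / r) ^ m = ((R + r) / r) ^ m := by simp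
  rw [h4] at h3
  have h5 : (0 : ℝ) ≤ ((R + r) / r) ^ m := by positivity
  have h6 := (ENNReal.ofReal_le_ofReal_iff h5).1 (by simpa using h3 : ENNReal.ofReal (F.card : ℝ) ≤ _)
  exact h6

/-- **BGT-3.** A group acting isometrically, freely (at `x0`), properly discontinuously and
cocompactly on a connected Riemannian manifold with `Ric ≥ 0` has polynomial growth. -/
theorem growth_wordLength (hric : HasRicciLowerBound m N 0)
    (hiso : ∀ (g : Γ) (x y : N), dist (g • x) (g • y) = dist x y)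
    {K : Set N} (hK : IsCompact K) (hcov : ∀ x : N, ∃ g : Γ, g • x ∈ K)
    (x0 : N) {U : Set N} (hU : U ∈ 𝓝 x0) (hdisc : ∀ g : Γ, g ≠ 1 → g • x0 ∉ U)
    (S : Finset Γ) (hS : Subgroup.closure (S : Set Γ) = ⊤) :
    ∃ C : ℕ, ∀ k : ℕ, 1 ≤ k → {g : Γ | wordLength (S : Set Γ) g ≤ k}.Finite ∧
      {g : Γ | wordLength (S : Set Γ) g ≤ k}.ncard ≤ C * k ^ m := by
  classical
  obtain ⟨ε, hε, hεU⟩ := Metric.mem_nhds_iff.1 hU
  have hr : ∀ g : Γ, g ≠ 1 → 2 * (ε / 2) ≤ dist (g • x0) x0 := by
    intro g hg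
    by_contra hlt
    rw [not_le] at hlt
    exact hdisc g hg (hεU (by rw [mem_ball]; linarith))
  -- displacement bound of the generators
  obtain ⟨L, hL0, hL⟩ : ∃ L : ℝ, 0 ≤ L ∧ ∀ s ∈ (S : Set Γ), dist (s • x0) x0 ≤ L := by
    refine ⟨∑ s ∈ S, dist (s • x0) x0, Finset.sum_nonneg fun _ _ => dist_nonneg, fun s hs => ?_⟩
    exact Finset.single_le_sum (f := fun s => dist (s • x0) x0) (fun _ _ => dist_nonneg) hs
  set c : ℝ := ((L + ε / 2) / (ε / 2)) ^ m with hc
  have hc0 : 0 ≤ c := by positivity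
  refine ⟨⌈c⌉₊, fun k hk => ?_⟩
  have hk1 : (1 : ℝ) ≤ k := by exact_mod_cast hk
  have hbound : ∀ F : Finset Γ, (F : Set Γ) ⊆ {g : Γ | wordLength (S : Set Γ) g ≤ k} →
      F.card ≤ ⌈c⌉₊ * k ^ m := by
    intro F hF
    have h1 : ∀ g ∈ F, dist (g • x0) x0 ≤ k * L := by
      intro g hg
      refine (dist_smul_le_wordLength hiso x0 hS hL g).trans ?_
      have h2 : wordLength (S : Set Γ) g ≤ k := hF hg
      have h3 : (wordLength (S : Set Γ) g : ℝ) ≤ k := by exact_mod_cast h2
      gcongr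
    have h2 := card_le hric hiso hK hcov x0 (by positivity : 0 < ε / 2) hr
      (by positivity : (0 : ℝ) ≤ k * L) F h1
    have h3 : (k * L + ε / 2) / (ε / 2) ≤ k * ((L + ε / 2) / (ε / 2)) := by
      rw [← mul_div_assoc]
      gcongr
      nlinarith
    have h4 : ((k * L + ε / 2) / (ε / 2)) ^ m ≤ (k * ((L + ε / 2) / (ε / 2))) ^ m := by
      gcongr
    have h5 : (F.card : ℝ) ≤ ⌈c⌉₊ * k ^ m := by
      refine (h2.trans h4).trans ?_
      rw [mul_pow, mul_comm]
      gcongr
      exact Nat.le_ceil c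
    exact_mod_cast h5
  have hfin : {g : Γ | wordLength (S : Set Γ) g ≤ k}.Finite := by
    by_contra hinf
    obtain ⟨F, hF, hcard⟩ := (Set.not_finite.1 hinf).exists_subset_card_eq (⌈c⌉₊ * k ^ m + 1)
    have := hbound F hF
    omega
  refine ⟨hfin, ?_⟩
  have := hbound hfin.toFinset (by simp)
  rwa [Set.ncard_eq_toFinset_card _ hfin]

end Riem

end Crest.Agent.R273.Growth_289
end
end

-- ▼ part R273/CPI_798
section

/-!
# R273 (S0416), C-PI (helper798): `Ric ≥ 0` and infinite fundamental group give a finite étale cover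
with `H¹(𝓞) ≠ 0`

* `onto_int` : `K : Kah A` with semipositive Ricci form on a compact connected `M`, `D : MonD A G`
  with `D.cov G` connected, `G` infinite and finitely generated ⟹ a finite index subgroup of `G`
  surjects onto `ℤ`.
* `exists_cover` : the conclusion for the universal cover.
-/

set_option autoImplicit false
set_option linter.unusedSectionVars false

open Set Filter Topology Complex
open scoped ContDiff Matrix ComplexConjugate Manifold ComplexOrder

namespace Crest.Agent.R273.CPI_798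

open Crest.Agent.R275.Geo Crest.Agent.R275.Core144 Crest.Agent.R275.GC293
open Crest.Agent.R275.SerG398 Crest.Agent.R275.Dg199
open Crest.Agent.R273.Defs_333 Crest.Agent.R273.Kah_333 Crest.Agent.R273.Vol_333
open Crest.Agent.R273.RMan_798 Crest.Agent.R273.RMan4_798 Crest.Agent.R273.UCov_914
open Crest.Agent.R273.PiEnd_836 Crest.Agent.R273.PiEndG_836 Crest.Agent.R273.LamN127

noncomputable section

variable {n : ℕ} {M : Type} [TopologicalSpace M] {A : Atl n M}

theorem dist_deck [T2Space M] {G : Type} [Group G] (D : MonD A G) [ConnectedSpace (D.cov G)]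
    (K : Kah A) (g : G) (x y : (ofKah (pullKah D G K)).M) : dist (g • x) (g • y) = dist x y := by
  have hle : ∀ (g : G) (x y : (ofKah (pullKah D G K)).M), dist (g • x) (g • y) ≤ dist x y := by
    intro g x y
    have h1 := chIso_deck D K g
    have h2 : Continuous (fun e : (ofKah (pullKah D G K)).M => g • e) :=
      continuous_const_smul (T := D.cov G) g
    exact h1.dist_le h2 x y
  refine le_antisymm (hle g x y) ?_
  have := hle g⁻¹ (g • x) (g • y)
  rwa [inv_smul_smul, inv_smul_smul] at this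



end

end Crest.Agent.R273.CPI_798
end

-- ▼ part R273/MaxE_127
section

/-!
# R273 (S0416), Part B, leaf MAXQ (helper127), geometric part

* `ker_lamB`   : the kernel of a universal period homomorphism is `HK G`;
* `QU_of_dual` : `QU G` from commuting fields dual to a basis of the closed holomorphic 1-forms;
* `exists_polyLen` : polynomial growth of `G` from the semipositive Ricci form;
* `exists_sub` : **MAXQ**, a subgroup of finite index is commutative with separating real
  homomorphisms.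
-/

set_option autoImplicit false
set_option linter.unusedSectionVars false

open Set Filter Topology Multiplicative

namespace Crest.Agent.R273.Max127

open Crest.Agent.R275.Geo Crest.Agent.R275.Core144 Crest.Agent.R275.GC293
open Crest.Agent.R275.ZC352 Crest.Agent.R273.UCov_914
open Crest.Agent.R273.Defs_333 Crest.Agent.R273.Kah_333 Crest.Agent.R273.Vol_333
open Crest.Agent.R273.RMan_798 Crest.Agent.R273.RMan4_798 Crest.Agent.R273.Alb645
open Crest.Agent.R182.Gromov

noncomputable section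

/-- the kernel of a universal homomorphism is the common kernel of all homomorphisms to `ℝ` -/
theorem ker_of_univ {Γ : Type*} [Group Γ] {V : Type*} [NormedAddCommGroup V] [NormedSpace ℝ V]
    [FiniteDimensional ℝ V] {lam : Γ →* Multiplicative V} (hU : Lat.Univ lam) :
    lam.ker = HK Γ := by
  ext x
  rw [MonoidHom.mem_ker, mem_HK]
  constructor
  · intro hx f
    obtain ⟨ℓ, hℓ, -⟩ := hU f
    have h1 := hℓ x
    rw [hx, toAdd_one, map_zero] at h1
    exact toAdd_eq_zero.1 h1
  · intro hx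
    rw [← toAdd_eq_zero]
    by_contra hne
    obtain ⟨f, hf⟩ := SeparatingDual.exists_ne_zero (R := ℝ) hne
    apply hf
    let F : Γ →* Multiplicative ℝ := (AddMonoidHom.toMultiplicative
      (f.toLinearMap.toAddMonoidHom)).comp lam
    have h1 := hx F
    exact congrArg toAdd h1

variable {n : ℕ} {M : Type} [TopologicalSpace M] {A : Atl n M}
variable {G : Type} [Group G] (D : MonD A G)

section dual

variable {g : ℕ} (S : DualD A g) [CompactSpace M] [T2Space M] [Finite A.ι]
variable [SimplyConnectedSpace (D.cov G)] (hA : GoodA A) (e0 : D.cov G)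

/-- **QU** from commuting fields dual to a universal family of closed forms -/
theorem QU_of_dual [Group.FG G] (hU : Lat.Univ (lamB D hA e0 S.b)) : QU G := by
  have hdis : DiscreteTopology (Lat.L (lamB D hA e0 S.b)) := Lat.discrete_L hU
  have hker := ker_of_univ hU
  have hmem : ∀ γ : G, γ ∈ HK G ↔ tr D S hA e0 γ = 0 := by
    intro γ
    rw [← hker, tr_eq_zero_iff]
  obtain ⟨K, hK, hKc⟩ := ker_fund D S hA e0
  have hne : Nonempty (NN D S hA e0) := ⟨⟨e0, e0_mem D S hA e0⟩⟩
  refine QU_of_action (N := NN D S hA e0) hK ?_ ?_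
  · intro x
    obtain ⟨γ, hγ, hx⟩ := hKc x
    exact ⟨γ, (hmem γ).2 hγ, hx⟩
  · intro L L' hL hL'
    refine (ker_finite D S hA e0 hL hL').subset ?_
    rintro γ ⟨hγ, x, hx, hx'⟩
    exact ⟨(hmem γ).1 hγ, x, hx, hx'⟩

/-- the zero fibre is compact if the homomorphisms to `ℝ` separate the points of `G` -/
theorem compact_of_HK [Group.FG G] (hU : Lat.Univ (lamB D hA e0 S.b)) (h : HK G = ⊥) :
    CompactSpace (NN D S hA e0) := by
  have hdis : DiscreteTopology (Lat.L (lamB D hA e0 S.b)) := Lat.discrete_L hU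
  refine compactSpace_N D S hA e0 ?_
  rw [ker_of_univ hU, h, Subgroup.coe_bot]
  exact Set.finite_singleton 1

theorem lamB_injective [Group.FG G] (hU : Lat.Univ (lamB D hA e0 S.b)) (h : HK G = ⊥) :
    Function.Injective (lamB D hA e0 S.b) := by
  rw [← MonoidHom.ker_eq_bot_iff, ker_of_univ hU, h]

end dual

/-- polynomial growth -/
theorem exists_polyLen [T2Space M] [CompactSpace M] [Finite A.ι] [hfg : Group.FG G]
    [ConnectedSpace (D.cov G)] (K : Kah A) (hK : (volK K).Semipos) :
    ∃ (l : G → ℕ) (C d : ℕ), PolyLen l C d := by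
  obtain ⟨S, hS⟩ := Group.fg_def.1 hfg
  obtain ⟨C, hC, hcov⟩ := D.exists_fund
  obtain ⟨x0⟩ := (inferInstance : Nonempty (D.cov G))
  obtain ⟨i, hi⟩ := A.cover (D.pr x0)
  obtain ⟨C', hC'⟩ := Growth_289.growth_wordLength (m := 2 * n)
    (N := (ofKah (pullKah D G K)).M) (hasRicci _ (volK_pull_semipos D G hK))
    (CPI_798.dist_deck D K) (K := C) hC hcov x0 (U := D.sheet i (D.co i x0))
    ((D.isOpen_sheet i _).mem_nhds ⟨hi, rfl⟩) (by
      intro g hg hmem
      have h1 : D.co i (g • x0) = D.co i x0 := hmem.2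
      rw [D.co_deck] at h1
      exact hg (by simpa using h1)) S hS
  exact ⟨_, C', 2 * n, R182.GromovFinal.polyLen_wordLength hS S.finite_toSet
    fun n hn => (hC' n hn).2⟩

/-- **MAXQ**, with the existence of the dual data on all coverings as hypothesis -/
theorem exists_sub_of [T2Space M] [CompactSpace M] [Finite A.ι] [hfg : Group.FG G]
    [SimplyConnectedSpace (D.cov G)] (hA : GoodA A) (K : Kah A) (hK : (volK K).Semipos)
    (hD : ∀ H : Subgroup G, H.FiniteIndex → ∃ (g : ℕ) (S : DualD (D.atl (G ⧸ H)) g)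
      (e0 : (D.sub H).cov H), Lat.Univ (lamB (D.sub H) (D.goodA (F := G ⧸ H) hA) e0 S.b)) :
    ∃ H : Subgroup G, H.FiniteIndex ∧ (∀ x ∈ H, ∀ y ∈ H, x * y = y * x) ∧ HK H = ⊥ := by
  obtain ⟨l, C, d, hl⟩ := exists_polyLen D K hK
  refine maxg hl fun H hH => ?_
  obtain ⟨g, S, e0, hU⟩ := hD H hH
  have hfin : Finite (G ⧸ H) := Subgroup.finite_quotient_of_finiteIndex
  have hfgH : Group.FG H := Subgroup.fg_of_index_ne_zero H
  exact QU_of_dual (D.sub H) S (D.goodA (F := G ⧸ H) hA) e0 hU

end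

end Crest.Agent.R273.Max127
end

-- ▼ part R273/MaxF_127
section

/-!
# R273 (S0416), Part B, leaf MAXQ (helper127), final form

* `DualAt`, `DualStmt` : the output of leaf DUALK (helper376) on all manifolds;
* `exists_nf` : **MAXQ**: a commutative subgroup `H` of finite index together with the dual data
  on the covering `D.cov (G ⧸ H)`: the periods are universal and injective and the zero fibre is
  compact.
-/

set_option autoImplicit false
set_option linter.unusedSectionVars false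

open Set Filter Topology Multiplicative

namespace Crest.Agent.R273.Max127

open Crest.Agent.R275.Geo Crest.Agent.R275.Core144 Crest.Agent.R275.GC293
open Crest.Agent.R275.ZC352 Crest.Agent.R273.UCov_914
open Crest.Agent.R273.Defs_333 Crest.Agent.R273.Kah_333 Crest.Agent.R273.Vol_333
open Crest.Agent.R273.RMan_798 Crest.Agent.R273.RMan4_798 Crest.Agent.R273.Alb645
open Crest.Agent.R273.HFlow7_376 (Par)
open Crest.Agent.R182.Gromov

noncomputable section

/-- dual data with parallel fields, the closed forms being a basis -/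
def DualAt {n : ℕ} {M : Type} [TopologicalSpace M] (A : Atl n M) [Finite A.ι] (P : Part A)
    (K : Kah A) : Prop :=
  HodgeZ A P ∧ ∃ (g : ℕ) (S : DualD A g),
    (∃ bs : Module.Basis (Fin g) ℂ (H1 A), ∀ k, bs k = S.b k) ∧ ∀ k, Par K (S.V k)

/-- the output of leaf DUALK -/
def DualStmt : Prop :=
  ∀ (n : ℕ) (M : Type) [TopologicalSpace M] [T2Space M] [CompactSpace M] [ConnectedSpace M]
    (A : Atl n M) [Finite A.ι] (P : Part A) (K : Kah A), (volK K).Semipos → DualAt A P K

variable {n : ℕ} {M : Type} [TopologicalSpace M] {A : Atl n M}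
variable {G : Type} [Group G] (D : MonD A G)

/-- universality from `DualAt` -/
theorem univ_of_dualAt [CompactSpace M] [T2Space M] [Finite A.ι] [SimplyConnectedSpace (D.cov G)]
    (hA : GoodA A) (P : Part A) (hH : HodgeZ A P) {g : ℕ} (S : DualD A g)
    (hb : ∃ bs : Module.Basis (Fin g) ℂ (H1 A), ∀ k, bs k = S.b k) (e0 : D.cov G) :
    Lat.Univ (lamB D hA e0 S.b) := by
  obtain ⟨bs, hbs⟩ := hb
  have h1 : (fun k => bs k) = S.b := funext hbs
  rw [← h1]
  exact univ_lamB D hA e0 P hH bs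

/-- the dual data on the covering of a subgroup of finite index -/
theorem dual_sub (hDS : DualStmt) [CompactSpace M] [T2Space M] [Finite A.ι]
    [SimplyConnectedSpace (D.cov G)] (P : Part A) (K : Kah A)
    (hK : (volK K).Semipos) (H : Subgroup G) [H.FiniteIndex] :
    HodgeZ (D.atl (G ⧸ H)) (D.pullPart (F := G ⧸ H) P) ∧ ∃ (g : ℕ) (S : DualD (D.atl (G ⧸ H)) g),
      (∃ bs : Module.Basis (Fin g) ℂ (H1 (D.atl (G ⧸ H))), ∀ k, bs k = S.b k) ∧
        ∀ k, Par (pullKah D (G ⧸ H) K) (S.V k) := by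
  have hfin : Finite (G ⧸ H) := Subgroup.finite_quotient_of_finiteIndex
  exact hDS n (D.cov (G ⧸ H)) (D.atl (G ⧸ H)) (D.pullPart (F := G ⧸ H) P)
    (pullKah D (G ⧸ H) K) (volK_pull_semipos D (G ⧸ H) hK)

/-- **MAXQ** -/
theorem exists_nf (hDS : DualStmt) [T2Space M] [CompactSpace M] [Finite A.ι]
    [hfg : Group.FG G] [SimplyConnectedSpace (D.cov G)] (hA : GoodA A) (P : Part A) (K : Kah A)
    (hK : (volK K).Semipos) :
    ∃ (H : Subgroup G) (_ : Finite (G ⧸ H)), H.FiniteIndex ∧
      (∀ x ∈ H, ∀ y ∈ H, x * y = y * x) ∧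
      ∃ (g : ℕ) (S : DualD (D.atl (G ⧸ H)) g),
        (∃ bs : Module.Basis (Fin g) ℂ (H1 (D.atl (G ⧸ H))), ∀ k, bs k = S.b k) ∧
        (∀ k, Par (pullKah D (G ⧸ H) K) (S.V k)) ∧ ∀ e0 : (D.sub H).cov H,
          Lat.Univ (lamB (D.sub H) (D.goodA (F := G ⧸ H) hA) e0 S.b) ∧
          Function.Injective (lamB (D.sub H) (D.goodA (F := G ⧸ H) hA) e0 S.b) ∧
          CompactSpace (NN (D.sub H) S (D.goodA (F := G ⧸ H) hA) e0) := by
  have key : ∀ H : Subgroup G, H.FiniteIndex → ∃ (g : ℕ) (S : DualD (D.atl (G ⧸ H)) g),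
      (∃ bs : Module.Basis (Fin g) ℂ (H1 (D.atl (G ⧸ H))), ∀ k, bs k = S.b k) ∧
        (∀ k, Par (pullKah D (G ⧸ H) K) (S.V k)) ∧ ∀ e0 : (D.sub H).cov H,
          Lat.Univ (lamB (D.sub H) (D.goodA (F := G ⧸ H) hA) e0 S.b) := by
    intro H hH
    have hfin : Finite (G ⧸ H) := Subgroup.finite_quotient_of_finiteIndex
    obtain ⟨hHZ, g, S, hb, hp⟩ := dual_sub D hDS P K hK H
    exact ⟨g, S, hb, hp, fun e0 =>
      univ_of_dualAt (D.sub H) (D.goodA (F := G ⧸ H) hA) _ hHZ S hb e0⟩
  obtain ⟨H, hH, hcomm, hHK⟩ := exists_sub_of D hA K hK fun H hH => by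
    obtain ⟨g, S, -, -, h⟩ := key H hH
    have hc : ConnectedSpace ((D.sub H).cov H) := inferInstance
    exact ⟨g, S, (inferInstance : Nonempty ((D.sub H).cov H)).some, h _⟩
  obtain ⟨g, S, hb, hp, hU⟩ := key H hH
  have hfin : Finite (G ⧸ H) := Subgroup.finite_quotient_of_finiteIndex
  have hfgH : Group.FG H := Subgroup.fg_of_index_ne_zero H
  exact ⟨H, hfin, hH, hcomm, g, S, hb, hp, fun e0 => ⟨hU e0,
    lamB_injective (D.sub H) S (D.goodA (F := G ⧸ H) hA) e0 (hU e0) hHK,
    compact_of_HK (D.sub H) S (D.goodA (F := G ⧸ H) hA) e0 (hU e0) hHK⟩⟩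

end

end Crest.Agent.R273.Max127
end

-- ▼ part R273/NF_127
section

/-!
# R273 (S0416), Part B (helper127): the normal form, `NFStmt` of AsmB_534

* `SusOfStmt` : the output of SUSOF (helper645);
* `nf_of`     : `DualStmt → SusOfStmt → NFStmt`.
-/

set_option autoImplicit false
set_option linter.unusedSectionVars false

open Set Filter Topology Multiplicative Function

namespace Crest.Agent.R273.Max127

open Crest.Agent.R275.Geo Crest.Agent.R275.Core144 Crest.Agent.R275.GC293
open Crest.Agent.R275.ZC352 Crest.Agent.R273.UCov_914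
open Crest.Agent.R273.Defs_333 Crest.Agent.R273.Kah_333 Crest.Agent.R273.Vol_333
open Crest.Agent.R273.RMan_798 Crest.Agent.R273.RMan4_798 Crest.Agent.R273.Alb645
open Crest.Agent.R273.HFlow7_376 (Par)
open Crest.Agent.R273.Sus_333 Crest.Agent.R273.AsmB_534

noncomputable section

/-- **SUSOF** (helper645) -/
def SusOfStmt : Prop :=
  ∀ (g d : ℕ) (M : Type) [TopologicalSpace M] [CompactSpace M] [T2Space M] (A : Atl (g + d) M)
    [Finite A.ι] (G : Type) [CommGroup G] (D : MonD A G) [SimplyConnectedSpace (D.cov G)]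
    (S : DualD A g) (hA : GoodA A) (e0 : D.cov G) (K : Kah A)
    (bs : Module.Basis (Fin g) ℂ (H1 A)), (∀ k, bs k = S.b k) → (∀ k, Par K (S.V k)) →
    ∀ B : Atl d (NN D S hA e0),
      HFlow3_376.HolM B (D.atl G) (Subtype.val : NN D S hA e0 → D.cov G) →
      HFlow3_376.HolM (D.atl G) B (rN D S hA e0) →
      ∃ SS : Sus D K B, ∀ γ k, toAdd (SS.lam γ) k = toAdd (lamB D hA e0 S.b γ) k

theorem hasSus_comm (hSus : SusOfStmt) {g d : ℕ} {M : Type} [TopologicalSpace M] [CompactSpace M]
    [T2Space M] {A : Atl (g + d) M} [Finite A.ι] {G : Type} [CommGroup G] [Group.FG G]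
    (D : MonD A G) [SimplyConnectedSpace (D.cov G)] (S : DualD A g) (hA : GoodA A)
    (e0 : D.cov G) (K : Kah A)
    (hb : ∃ bs : Module.Basis (Fin g) ℂ (H1 A), ∀ k, bs k = S.b k) (hp : ∀ k, Par K (S.V k))
    (hinj : Injective (lamB D hA e0 S.b)) [CompactSpace (NN D S hA e0)]
    (T : Ret_155.FAtl (HR D S hA e0)) (hd : T.d = d) : HasSus K := by
  obtain ⟨bs, hbs⟩ := hb
  have h1 : HFlow3_376.HolM T.B (D.atl G) (Subtype.val : NN D S hA e0 → D.cov G) :=
    holM_valT D S hA e0 (FAtl.toG T)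
  have h2 : HFlow3_376.HolM (D.atl G) T.B (rN D S hA e0) :=
    holM_rNT D S hA e0 (FAtl.toG T)
  cases T with
  | mk d' B hfin hgood hpart a cmp sub app =>
  change d' = d at hd
  subst hd
  obtain ⟨SS, hSS⟩ := hSus g d' M A G D S hA e0 K bs hbs hp B h1 h2
  refine HasSus.mk K G D (NN D S hA e0) B hgood hpart SS fun x y hxy => hinj ?_
  apply toAdd.injective
  funext k
  rw [← hSS x k, ← hSS y k, hxy]

/-- the normal form for a commutative group -/
theorem hasSus_of (hSus : SusOfStmt) {n : ℕ} {M : Type} [TopologicalSpace M] [CompactSpace M]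
    [T2Space M] {A : Atl n M} [Finite A.ι] {G : Type} [hG : Group G]
    (hcomm : ∀ x y : G, x * y = y * x) [hfg : Group.FG G] (D : MonD A G)
    [hsc : SimplyConnectedSpace (D.cov G)] {g : ℕ} (S : DualD A g) (hA : GoodA A)
    (e0 : D.cov G) (K : Kah A)
    (hb : ∃ bs : Module.Basis (Fin g) ℂ (H1 A), ∀ k, bs k = S.b k) (hp : ∀ k, Par K (S.V k))
    (hinj : Injective (lamB D hA e0 S.b)) (hcpt : CompactSpace (NN D S hA e0)) :
    HasSus K := by
  obtain ⟨T⟩ := exists_fN D S hA e0
  have hdim : g + T.d = n := dim_NT D S hA e0 (FAtl.toG T)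
  obtain ⟨d, hd⟩ : ∃ d, T.d = d := ⟨_, rfl⟩
  rw [hd] at hdim
  subst hdim
  exact @hasSus_comm hSus g d M _ _ _ A _ G (CommGroup.mk hcomm) hfg D hsc S hA e0 K hb hp hinj
    hcpt T hd

/-- **NF** -/
theorem nf_of (hDS : DualStmt) (hSus : SusOfStmt) : NFStmt := by
  intro n M _ _ _ _ A _ hA P K hK
  have hlp : LocallyPathConnectedSpace M := locPath A
  have hpc : PathConnectedSpace M := pathConnectedSpace_iff_connectedSpace.2 inferInstance
  obtain ⟨x0⟩ := (inferInstance : Nonempty M)
  have hfg : Group.FG (FundamentalGroup M x0) := fg hA x0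
  have hsc : SimplyConnectedSpace ((uD hA x0).cov (FundamentalGroup M x0)) :=
    simplyConnected hA x0
  obtain ⟨H, hfin, hH, hcomm, g, S, hb, hp, h⟩ := exists_nf (uD hA x0) hDS hA P K hK
  have hfgH : Group.FG H := Subgroup.fg_of_index_ne_zero H
  have hne : Nonempty (((uD hA x0).sub H).cov H) := inferInstance
  obtain ⟨e0⟩ := hne
  obtain ⟨-, hinj, hcpt⟩ := h e0
  refine ⟨FundamentalGroup M x0, inferInstance, uD hA x0, FundamentalGroup M x0 ⧸ H,
    inferInstance, hfin, inferInstance, inferInstance, ?_⟩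
  exact hasSus_of hSus (fun x y => Subtype.ext (hcomm x x.2 y y.2)) ((uD hA x0).sub H) S
    ((uD hA x0).goodA (F := FundamentalGroup M x0 ⧸ H) hA) e0
    (pullKah (uD hA x0) (FundamentalGroup M x0 ⧸ H) K) hb hp hinj hcpt

end

end Crest.Agent.R273.Max127
end

-- ▼ part R273/AlbI_645
section

/-!
# R273 (S0416), Part B (helper645), file I: the normal form `Sus` (helper333) from `DualD`

`A : Atl (g + d) M`, `B : Atl d (NN D S hA e0)` with holomorphic inclusion and retraction,
`S.b` a basis of `H1 A`, `S.V k` parallel for `K`:  `susOf : Sus D K B`.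
-/

set_option autoImplicit false
set_option linter.unusedSectionVars false
set_option linter.style.haveILetI false

open Set Filter Topology Complex Metric Function
open scoped ContDiff ComplexConjugate Matrix ComplexOrder

namespace Crest.Agent.R273.Alb645

open Crest.Agent.R275.Geo Crest.Agent.R275.Core144 Crest.Agent.R275.GC293
open Crest.Agent.R275.Prod363
open Crest.Agent.R275.ZC352 Crest.Agent.R273.UCov_914
open Crest.Agent.R273.HFlow3_376 Crest.Agent.R273.HFlow4_376 Crest.Agent.R273.HFlow5_376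
open Crest.Agent.R273.HFlow6_376 Crest.Agent.R273.HFlow7_376 Crest.Agent.R273.HFlow8_376
open Crest.Agent.R273.Map_835 Crest.Agent.R273.PB_835 Crest.Agent.R273.Prd_835
open Crest.Agent.R273.Kah_333 Crest.Agent.R273.EA_333 Crest.Agent.R273.Sus_333

noncomputable section

variable {g d : ℕ} {M : Type} [TopologicalSpace M] {A : Atl (g + d) M}
variable {G : Type} [Group G] (D : MonD A G)
variable (S : DualD A g) [CompactSpace M] [T2Space M] [Finite A.ι]
variable [SimplyConnectedSpace (D.cov G)] (hA : GoodA A) (e0 : D.cov G)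

/-- the product decomposition with Euclidean first factor -/
def psiE : (Cn g × NN D S hA e0) ≃ₜ D.cov G :=
  ((EuclideanSpace.equiv (Fin g) ℂ).toHomeomorph.prodCongr (Homeomorph.refl _)).trans
    (psi D S hA e0)

theorem psiE_apply (z : Cn g) (y : NN D S hA e0) :
    psiE D S hA e0 (z, y) = (mflowN D S).Φ (z : Fin g → ℂ) (y : D.cov G) := rfl


variable (B : Atl d (NN D S hA e0))
  (hv : HolM B (D.atl G) (Subtype.val : NN D S hA e0 → D.cov G))
  (hr : HolM (D.atl G) B (rN D S hA e0))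

include hv in
theorem holP_psiB (c : Fin g → ℂ) (y : NN D S hA e0) :
    HolP B (D.atl G) (fun c y => psi D S hA e0 (c, y)) c y :=
  HolP.comp (G := (mflowN D S).Φ) (F := fun _ (y : NN D S hA e0) => (y : D.cov G))
    ((mflowN D S).hol _ _) (hv.toP c y)

theorem ofLp_add_diff (i : (EA g).ι) (w : Cn (g + d)) : DifferentiableAt ℂ
    (fun w : Cn (g + d) => (((fstL g d w + ctr i : Cn g) : Fin g → ℂ), sndL g d w)) w := by
  refine DifferentiableAt.prodMk ?_ (sndL g d).differentiableAt
  have h1 : DifferentiableAt ℂ (fun w : Cn (g + d) => (fstL g d w + ctr i : Cn g)) w :=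
    (fstL g d).differentiableAt.add_const _
  exact (EuclideanSpace.equiv (Fin g) ℂ).differentiableAt.comp w h1

include hv in
theorem holMap_psiE : HolMap ((EA g).prod B) (D.atl G) (psiE D S hA e0) := by
  refine ⟨(psiE D S hA e0).continuous, ?_⟩
  rintro ⟨i, j⟩ p w ⟨hw, hw'⟩
  have hw1 : fstL g d w ∈ ((EA g).e i).target ∧ sndL g d w ∈ (B.e j).target := hw
  have hys : (B.e j).symm (sndL g d w) ∈ (B.e j).source := (B.e j).map_target hw1.2
  have h := (holP_psiB D S hA e0 B hv ((fstL g d w + ctr i : Cn g) : Fin g → ℂ)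
    ((B.e j).symm (sndL g d w))).diff (i := j) (j := p) hys hw'
  rw [(B.e j).right_inv hw1.2] at h
  exact (DifferentiableAt.comp w
    (g := fun q : (Fin g → ℂ) × Cn d => (D.atl G).e p (psi D S hA e0 (q.1, (B.e j).symm q.2)))
    (f := fun w : Cn (g + d) => (((fstL g d w + ctr i : Cn g) : Fin g → ℂ), sndL g d w))
    h (ofLp_add_diff i w)).differentiableWithinAt

theorem holMap_avecE : HolMap (D.atl G) (EA g) (fun e => WithLp.toLp 2 (avec D S hA e0 e)) := by
  refine ⟨(PiLp.continuous_toLp 2 _).comp (continuous_avec D S hA e0), fun p k => ?_⟩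
  have h1 : DifferentiableOn ℂ (fun z => (WithLp.toLp 2
      (avec D S hA e0 (((D.atl G).e p).symm z)) : Cn g) - ctr k) ((D.atl G).e p).target :=
    ((EuclideanSpace.equiv (Fin g) ℂ).symm.differentiable.comp_differentiableOn
      (diffOn_avec D S hA e0 p)).sub_const _
  exact h1.mono inter_subset_left

include hr in
theorem holMap_psiE_symm : HolMap (D.atl G) ((EA g).prod B) (psiE D S hA e0).symm :=
  holMap_pair (holMap_avecE D S hA e0) (holM_iff.1 hr)

include hv hr in
theorem lBih_psiE : LBih ((EA g).prod B) (D.atl G) (psiE D S hA e0) :=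
  Fam_835.lBih_of_inv (holMap_psiE D S hA e0 B hv) (holMap_psiE_symm D S hA e0 B hr)
    (psiE D S hA e0).symm_apply_apply

/-- the translation part with Euclidean values -/
def lamE : G →* Multiplicative (Cn g) :=
  (AddMonoidHom.toMultiplicative
    ((EuclideanSpace.equiv (Fin g) ℂ).symm : (Fin g → ℂ) ≃L[ℂ] Cn g).toLinearMap.toAddMonoidHom).comp
    (lamB D hA e0 S.b)


theorem deck_psiE (γ : G) (z : Cn g) (y : NN D S hA e0) :
    γ • psiE D S hA e0 (z, y) =
      psiE D S hA e0 (z + Multiplicative.toAdd (lamE D S hA e0 γ), γ • y) :=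
  deck_psi D S hA e0 γ _ y

/-! ### tangent vectors -/

/-- the map to `M` -/
def piE (q : Cn g × NN D S hA e0) : M := D.pr (psiE D S hA e0 q)

include hv in
theorem holMap_piE : HolMap ((EA g).prod B) A (piE D S hA e0) :=
  (holM_iff.1 (holM_pr D G)).comp (holMap_psiE D S hA e0 B hv)

/-- the slices, as maps to the covering -/
def slE (z : Cn g) (y : NN D S hA e0) : D.cov G := psiE D S hA e0 (z, y)

include hv in
theorem holM_slE (z : Cn g) : HolM B (D.atl G) (slE D S hA e0 z) :=
  HolM.comp (g := (mflowN D S).Φ (z : Fin g → ℂ)) ((mflowN D S).holM _) hv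

theorem avec_slE (z : Cn g) (y : NN D S hA e0) :
    avec D S hA e0 (slE D S hA e0 z y) = (z : Fin g → ℂ) := by
  change avec D S hA e0 ((mflowN D S).Φ (z : Fin g → ℂ) (y : D.cov G)) = _
  rw [avec_flow, avec_coe, zero_add]

include hv in
/-- the forms vanish on the slices -/
theorem form_slE (k : Fin g) (z : Cn g) {j : B.ι} {a : A.ι} {y : NN D S hA e0}
    (hj : y ∈ (B.e j).source) (ha : D.pr (slE D S hA e0 z y) ∈ (A.e a).source) (w : Cn d) :
    (S.b k : A.ι → M → (Cn (g + d) →L[ℂ] ℂ)) a (D.pr (slE D S hA e0 z y))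
      (tm B A (fun y => D.pr (slE D S hA e0 z y)) j a y w) = 0 := by
  obtain ⟨p, hpp⟩ := (D.atl G).cover (slE D S hA e0 z y)
  have hE := holM_slE D S hA e0 B hv z
  have h1 := tm_comp (f := slE D S hA e0 z) (g := D.pr (F := G)) (holM_pr D G) hE hj hpp ha
  have h2 : tm B A (fun y => D.pr (slE D S hA e0 z y)) j a y w =
      tm (D.atl G) A (D.pr (F := G)) p a (slE D S hA e0 z y)
        (tm B (D.atl G) (slE D S hA e0 z) j p y w) := by
    change tm B A (D.pr ∘ slE D S hA e0 z) j a y w = _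
    rw [h1]
    rfl
  have h3 := (S.b k).2.2.2.1 p.1 a (D.pr (slE D S hA e0 z y)) ⟨hpp.1, ha⟩
  have h4 : (S.b k : A.ι → M → (Cn (g + d) →L[ℂ] ℂ)) a (D.pr (slE D S hA e0 z y))
      (tm (D.atl G) A (D.pr (F := G)) p a (slE D S hA e0 z y)
        (tm B (D.atl G) (slE D S hA e0 z) j p y w)) =
      (S.b k : A.ι → M → (Cn (g + d) →L[ℂ] ℂ)) p.1 (D.pr (slE D S hA e0 z y))
        (tm B (D.atl G) (slE D S hA e0 z) j p y w) := by
    rw [h3]
    rfl
  rw [h2, h4]
  -- the primitive is constant on the slice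
  have h5 := prm_isPrim D hA e0 (S.b k) p _ hpp
  rw [plb_of_mem D G _ hpp] at h5
  have h6 : HasFDerivAt (fun w => (D.atl G).e p (slE D S hA e0 z ((B.e j).symm w)))
      (tm B (D.atl G) (slE D S hA e0 z) j p y) (B.e j y) := (hE.diff hj hpp).hasFDerivAt
  have h7 : (D.atl G).e p (slE D S hA e0 z ((B.e j).symm (B.e j y))) =
      (D.atl G).e p (slE D S hA e0 z y) := by rw [(B.e j).left_inv hj]
  have h8 := HasFDerivAt.comp (B.e j y) (g := fun z => prm D hA e0 (S.b k) (((D.atl G).e p).symm z))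
    (f := fun w => (D.atl G).e p (slE D S hA e0 z ((B.e j).symm w))) (by rw [h7]; exact h5) h6
  have h9 : ((fun z => prm D hA e0 (S.b k) (((D.atl G).e p).symm z)) ∘
      (fun w => (D.atl G).e p (slE D S hA e0 z ((B.e j).symm w)))) =ᶠ[𝓝 (B.e j y)]
      fun _ => (z : Fin g → ℂ) k := by
    have hc : ContinuousAt (fun w => slE D S hA e0 z ((B.e j).symm w)) (B.e j y) :=
      ContinuousAt.comp (g := slE D S hA e0 z) hE.continuous.continuousAt
        ((B.e j).continuousAt_symm ((B.e j).map_source hj))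
    have hev := hc.eventually_mem (((D.atl G).e p).open_source.mem_nhds (by
      rw [(B.e j).left_inv hj]
      exact hpp))
    filter_upwards [hev] with w hw
    change prm D hA e0 (S.b k) (((D.atl G).e p).symm ((D.atl G).e p
      (slE D S hA e0 z ((B.e j).symm w)))) = _
    rw [((D.atl G).e p).left_inv hw]
    exact congrFun (avec_slE D S hA e0 z _) k
  have h10 := h8.unique ((hasFDerivAt_const _ _).congr_of_eventuallyEq h9)
  exact congrArg (fun T : Cn d →L[ℂ] ℂ => T w) h10

end

end Crest.Agent.R273.Alb645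
end

-- ▼ part R273/AlbJ_645
section

/-!
# R273 (S0416), Part B (helper645), file J: SUSOF

`susOf : Sus D K B` (normal form of helper333) for `Y = NN D S hA e0`.
-/

set_option autoImplicit false
set_option linter.unusedSectionVars false
set_option linter.style.haveILetI false

open Set Filter Topology Complex Metric Function
open scoped ContDiff ComplexConjugate Matrix ComplexOrder

namespace Crest.Agent.R273.Alb645

open Crest.Agent.R275.Geo Crest.Agent.R275.Core144 Crest.Agent.R275.GC293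
open Crest.Agent.R275.Prod363
open Crest.Agent.R275.ZC352 Crest.Agent.R273.UCov_914
open Crest.Agent.R273.HFlow3_376 Crest.Agent.R273.HFlow4_376 Crest.Agent.R273.HFlow5_376
open Crest.Agent.R273.HFlow6_376 Crest.Agent.R273.HFlow7_376 Crest.Agent.R273.HFlow8_376
open Crest.Agent.R273.Map_835 Crest.Agent.R273.PB_835 Crest.Agent.R273.Prd_835
open Crest.Agent.R273.Kah_333 Crest.Agent.R273.EA_333 Crest.Agent.R273.Sus_333

noncomputable section

section cols

variable {g d : ℕ} {M : Type} [TopologicalSpace M] {A : Atl (g + d) M}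
variable {G : Type} [Group G] (D : MonD A G)
variable (S : DualD A g) [CompactSpace M] [T2Space M] [Finite A.ι]
variable [SimplyConnectedSpace (D.cov G)] (hA : GoodA A) (e0 : D.cov G)
variable (B : Atl d (NN D S hA e0))
  (hv : HolM B (D.atl G) (Subtype.val : NN D S hA e0 → D.cov G))
  (hr : HolM (D.atl G) B (rN D S hA e0))

include hv in
/-- the differential in the directions of `ℂ^g` -/
theorem tm_left (k : Fin g) {i : (EA g).ι} {j : B.ι} {a : A.ι} {z : Cn g} {y : NN D S hA e0}
    (hi : z ∈ ((EA g).e i).source) (hj : y ∈ (B.e j).source)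
    (ha : piE D S hA e0 (z, y) ∈ (A.e a).source) :
    tm ((EA g).prod B) A (piE D S hA e0) (i, j) a (z, y)
      (EuclideanSpace.single (Fin.castAdd d k) 1) = (S.V k).X a (piE D S hA e0 (z, y)) := by
  have hH := holM_iff.2 (holMap_piE D S hA e0 B hv)
  have h1 : HasFDerivAt (Map_835.rd ((EA g).prod B) A (piE D S hA e0) (i, j) a)
      (tm ((EA g).prod B) A (piE D S hA e0) (i, j) a (z, y))
      (app (((EA g).e i) z) (B.e j y)) := (hH.diff (i := (i, j)) ⟨hi, hj⟩ ha).hasFDerivAt
  have h2 : HasDerivAt (fun s : ℂ => app (((EA g).e i) z) (B.e j y) +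
      s • (EuclideanSpace.single (Fin.castAdd d k) 1 : Cn (g + d)))
      (EuclideanSpace.single (Fin.castAdd d k) 1) 0 := by
    have h3 := ((hasDerivAt_id (0 : ℂ)).smul_const
      (EuclideanSpace.single (Fin.castAdd d k) 1 : Cn (g + d))).const_add
        (app (((EA g).e i) z) (B.e j y))
    rw [one_smul] at h3
    exact h3
  have h4 := HasFDerivAt.comp_hasDerivAt_of_eq (0 : ℂ) h1 h2 (by rw [zero_smul, add_zero])
  -- the curve
  have h5 := ((related_pr D G (S.V k)).intAt ((mflowN D S).int k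
    ((mflowN D S).Φ (z : Fin g → ℂ) (y : D.cov G)) 0))
  have h0 : (mflowN D S).Φ (Pi.single k (0 : ℂ)) ((mflowN D S).Φ (z : Fin g → ℂ) (y : D.cov G)) =
      (mflowN D S).Φ (z : Fin g → ℂ) (y : D.cov G) := by
    rw [Pi.single_zero, (mflowN D S).zero]
  have h6 := h5.chart (j := a) (by rw [h0]; exact ha)
  have h7 : ((Map_835.rd ((EA g).prod B) A (piE D S hA e0) (i, j) a) ∘ fun s : ℂ =>
      app (((EA g).e i) z) (B.e j y) +
        s • (EuclideanSpace.single (Fin.castAdd d k) 1 : Cn (g + d))) =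
      fun s => A.e a (D.pr ((mflowN D S).Φ (Pi.single k s)
        ((mflowN D S).Φ (z : Fin g → ℂ) (y : D.cov G)))) := by
    funext s
    have e1 : app (((EA g).e i) z) (B.e j y) +
        s • (EuclideanSpace.single (Fin.castAdd d k) 1 : Cn (g + d)) =
        app (((EA g).e i) z + s • EuclideanSpace.single k 1) (B.e j y) := by
      rw [app_add_left]
      congr 1
      rw [← app_single_left]
      refine ext_prod ?_ ?_ <;> simp
    simp only [comp_apply]
    rw [e1, Map_835.rd, prod_e_symm_app, (B.e j).left_inv hj, piE, psiE_apply]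
    congr 2
    rw [← (mflowN D S).add]
    congr 1
    change ((((z - ctr i + s • EuclideanSpace.single k 1) + ctr i : Cn g)) : Fin g → ℂ) = _
    have e2 : (z - ctr i + s • EuclideanSpace.single k 1) + ctr i =
        s • EuclideanSpace.single k 1 + z := by abel
    rw [e2]
    funext l
    change s * (EuclideanSpace.single k (1 : ℂ) : Cn g) l + z l =
      (Pi.single k s : Fin g → ℂ) l + z l
    congr 1
    by_cases hl : l = k
    · subst hl; simp
    · simp [hl]
  rw [h7] at h4
  have h8 := h4.unique h6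
  rw [h8, h0]
  rfl

include hv in
/-- the differential in the directions of the fibre -/
theorem tm_right (w : Cn d) {i : (EA g).ι} {j : B.ι} {a : A.ι} {z : Cn g} {y : NN D S hA e0}
    (hi : z ∈ ((EA g).e i).source) (hj : y ∈ (B.e j).source)
    (ha : piE D S hA e0 (z, y) ∈ (A.e a).source) :
    tm ((EA g).prod B) A (piE D S hA e0) (i, j) a (z, y) (app 0 w) =
      tm B A (fun y => D.pr (slE D S hA e0 z y)) j a y w := by
  have hH := holM_iff.2 (holMap_piE D S hA e0 B hv)
  have h1 : HasFDerivAt (Map_835.rd ((EA g).prod B) A (piE D S hA e0) (i, j) a)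
      (tm ((EA g).prod B) A (piE D S hA e0) (i, j) a (z, y))
      (app (((EA g).e i) z) (B.e j y)) := (hH.diff (i := (i, j)) ⟨hi, hj⟩ ha).hasFDerivAt
  have h2 : HasFDerivAt (fun v : Cn d => app (((EA g).e i) z) v)
      ((appL g d).comp (ContinuousLinearMap.inr ℂ (Cn g) (Cn d))) (B.e j y) :=
    (appL g d).hasFDerivAt.comp (B.e j y) (hasFDerivAt_prodMk_right (((EA g).e i) z) (B.e j y))
  have h3 := HasFDerivAt.comp (B.e j y) h1 h2
  have h4 : ((Map_835.rd ((EA g).prod B) A (piE D S hA e0) (i, j) a) ∘ fun v : Cn d =>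
      app (((EA g).e i) z) v) = fun v => A.e a (D.pr (slE D S hA e0 z ((B.e j).symm v))) := by
    funext v
    simp only [comp_apply]
    rw [Map_835.rd, prod_e_symm_app, ((EA g).e i).left_inv hi]
    rfl
  rw [h4] at h3
  have h5 : tm B A (fun y => D.pr (slE D S hA e0 z y)) j a y = _ := h3.fderiv
  rw [h5]
  rfl

/-! ### the metric -/

/-- entries of a pulled back metric -/
theorem gram_entry {n m : ℕ} {M M' : Type} [TopologicalSpace M] [TopologicalSpace M']
    {A : Atl n M} {B : Atl m M'} (K : Kah A) (f : M' → M) (j : B.ι) (i : A.ι) (y : M')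
    (a b : Fin m) :
    ((Jp B A f j i y)ᵀ * K.g i (f y) * (Jp B A f j i y).map conj) a b =
      hf K i (f y) (tm B A f j i y (EuclideanSpace.single a 1))
        (tm B A f j i y (EuclideanSpace.single b 1)) := by
  rw [hf_eq]
  simp only [Matrix.mul_apply, Matrix.transpose_apply, Matrix.map_apply, Finset.sum_mul]
  rw [Finset.sum_comm]
  refine Finset.sum_congr rfl fun a' _ => Finset.sum_congr rfl fun b' _ => ?_
  change (tm B A f j i y (EuclideanSpace.single a 1)) a' * K.g i (f y) a' b' *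
    conj ((tm B A f j i y (EuclideanSpace.single b 1)) b') = _
  ring

include hv hr in
theorem imm_val : ∀ (j : B.ι) (p : (D.atl G).ι), ∀ y ∈ (B.e j).source,
    (y : D.cov G) ∈ ((D.atl G).e p).source →
      Injective (fderiv ℂ (Map_835.rd B (D.atl G) (Subtype.val : NN D S hA e0 → D.cov G) j p)
        (B.e j y)) := by
  intro j p y hy hp
  exact imm_of_leftInv (holM_iff.1 hv) (holM_iff.1 hr) (rN_coe D S hA e0) j p _ (mem_dm hy hp)

variable (K : Kah A) (hp : ∀ k, Par K (S.V k))

omit [CompactSpace M] [T2Space M] [Finite A.ι] [SimplyConnectedSpace (D.cov G)] in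
include hp in
theorem par_pullV (k : Fin g) :
    Par (HFlowC_376.pullK D K : Kah (D.atl G)) (pullV D G (S.V k)) := by
  intro p z hz c b
  exact hp k p.1 z hz c b

include hp in
/-- the flow covers isometries -/
theorem isom_flow (c : Fin g → ℂ) :
    Isom (HFlowC_376.pullK D K : Kah (D.atl G)) (HFlowC_376.pullK D K) ((mflowN D S).Φ c) :=
  (mflowN D S).isom (par_pullV D S K hp) c

/-- the metric of the fibre -/
def KYm : Kah B := KahI_645.pullI (HFlowC_376.pullK D K : Kah (D.atl G)) (holM_iff.1 hv)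
  (imm_val D S hA e0 B hv hr)

include hp in
theorem KYm_entry (b b' : Fin d) {j : B.ι} {a : A.ι} {z : Cn g} {y : NN D S hA e0}
    (hj : y ∈ (B.e j).source) (ha : D.pr (slE D S hA e0 z y) ∈ (A.e a).source) :
    hf K a (D.pr (slE D S hA e0 z y))
      (tm B A (fun y => D.pr (slE D S hA e0 z y)) j a y (EuclideanSpace.single b 1))
      (tm B A (fun y => D.pr (slE D S hA e0 z y)) j a y (EuclideanSpace.single b' 1)) =
    (KYm D S hA e0 B hv hr K).g j y b b' := by
  obtain ⟨p, hpp⟩ := (D.atl G).cover (y : D.cov G)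
  have hI := (HFlowC_376.isom_pr D (F := G) K).comp (isom_flow D S K hp (z : Fin g → ℂ))
  have h1 := tm_comp (f := (Subtype.val : NN D S hA e0 → D.cov G))
    (g := D.pr ∘ (mflowN D S).Φ (z : Fin g → ℂ)) hI.1 hv hj hpp ha
  have h2 : tm B A (fun y => D.pr (slE D S hA e0 z y)) j a y =
      (tm (D.atl G) A (D.pr ∘ (mflowN D S).Φ (z : Fin g → ℂ)) p a (y : D.cov G)).comp
        (tm B (D.atl G) (Subtype.val : NN D S hA e0 → D.cov G) j p y) := h1
  rw [h2, KYm, KahI_645.pullI_g _ _ _ hj hpp, gram_entry]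
  exact hI.2 p a _ hpp ha _ _

variable (bs : Module.Basis (Fin g) ℂ (H1 A)) (hbs : ∀ k, bs k = S.b k)

include hbs in
/-- **the metric in the product decomposition** -/
theorem met_eq (i : (EA g).ι) (j : B.ι) (a : A.ι) (z : Cn g) (y : NN D S hA e0)
    (hi : z ∈ ((EA g).e i).source) (hj : y ∈ (B.e j).source)
    (ha : D.pr (psiE D S hA e0 (z, y)) ∈ (A.e a).source) :
    (Jp ((EA g).prod B) A (fun q => D.pr (psiE D S hA e0 q)) (i, j) a (z, y))ᵀ *
      K.g a (D.pr (psiE D S hA e0 (z, y))) *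
      (Jp ((EA g).prod B) A (fun q => D.pr (psiE D S hA e0 q)) (i, j) a (z, y)).map conj =
      blk (G0m S K hp bs) ((KYm D S hA e0 B hv hr K).g j y) := by
  have hR : ∀ b : Fin d, tm ((EA g).prod B) A (piE D S hA e0) (i, j) a (z, y)
      (EuclideanSpace.single (Fin.natAdd g b) 1) =
      tm B A (fun y => D.pr (slE D S hA e0 z y)) j a y (EuclideanSpace.single b 1) := by
    intro b
    rw [← app_single_right, tm_right D S hA e0 B hv _ hi hj ha]
  have hL : ∀ k : Fin g, tm ((EA g).prod B) A (piE D S hA e0) (i, j) a (z, y)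
      (EuclideanSpace.single (Fin.castAdd d k) 1) = (S.V k).X a (piE D S hA e0 (z, y)) := fun k =>
    tm_left D S hA e0 B hv k hi hj ha
  have hE := gram_entry K (piE D S hA e0) (B := (EA g).prod B) (i, j) a (z, y)
  refine blk_ext _ _ (fun k l => ?_) (fun b b' => ?_) (fun k b => ?_) (fun b k => ?_)
  · refine (hE _ _).trans ?_
    rw [hL, hL]
    exact hf_VV S K hp bs hbs k l ha
  · refine (hE _ _).trans ?_
    rw [hR, hR]
    exact KYm_entry D S hA e0 B hv hr K hp b b' hj ha
  · refine (hE _ _).trans ?_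
    rw [hL, hR]
    exact hf_left S K hp bs hbs ha (fun m => form_slE D S hA e0 B hv m z hj ha _) k
  · refine (hE _ _).trans ?_
    rw [hL, hR]
    exact hf_right S K hp bs hbs ha (fun m => form_slE D S hA e0 B hv m z hj ha _) k

end cols

/-! ### the normal form -/

section sus

variable {g d : ℕ} {M : Type} [TopologicalSpace M] {A : Atl (g + d) M}
variable {G : Type} [CommGroup G] (D : MonD A G)
variable (S : DualD A g) [CompactSpace M] [T2Space M] [Finite A.ι]
variable [SimplyConnectedSpace (D.cov G)] (hA : GoodA A) (e0 : D.cov G)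
variable (B : Atl d (NN D S hA e0))
  (hv : HolM B (D.atl G) (Subtype.val : NN D S hA e0 → D.cov G))
  (hr : HolM (D.atl G) B (rN D S hA e0))
  (K : Kah A) (hp : ∀ k, Par K (S.V k))
  (bs : Module.Basis (Fin g) ℂ (H1 A)) (hbs : ∀ k, bs k = S.b k)

/-- **SUSOF** -/
def susOf : Sus D K B where
  lam := lamE D S hA e0
  Ψ := psiE D S hA e0
  lb := lBih_psiE D S hA e0 B hv hr
  eqv := deck_psiE D S hA e0
  G0 := G0m S K hp bs
  G0pos := by
    have : Nonempty M := ⟨D.pr e0⟩
    exact G0_pos S K hp bs hbs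
  KY := KYm D S hA e0 B hv hr K
  met i j a z y hi hj ha := met_eq D S hA e0 B hv hr K hp bs hbs i j a z y hi hj ha

end sus

end

end Crest.Agent.R273.Alb645
end

-- ▼ part R273/NFb_127
section

/-!
# R273 (S0416), Part B (helper127): the normal form, SUSOF discharged

`susOfStmt` (645's `susOf`) and `nf_of'` : `DualStmt → NFStmt`.
-/

set_option autoImplicit false
set_option linter.unusedSectionVars false

open Set Filter Topology Multiplicative Function

namespace Crest.Agent.R273.Max127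

open Crest.Agent.R273.Alb645

theorem susOfStmt : SusOfStmt := by
  intro g d M _ _ _ A _ G _ D _ S hA e0 K bs hbs hp B hv hr
  exact ⟨susOf D S hA e0 B hv hr K hp bs hbs, fun _ _ => rfl⟩

/-- **NF** from DUALK -/
theorem nf_of' (hDS : DualStmt) : AsmB_534.NFStmt := nf_of hDS susOfStmt

end Crest.Agent.R273.Max127
end

-- ▼ part R273/DualB_127

/-!
# R273 (S0416), Part B (helper127): DUALK

On a compact connected `(M, K)` with `Ric ≥ 0` every closed holomorphic 1-form is `⟨·, V⟩` with `V`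
parallel (376); hence `H1 A` is finite dimensional and has a dual basis of parallel fields.
-/

set_option autoImplicit false
set_option linter.unusedSectionVars false

open Set Filter Topology Complex Metric Function
open scoped ComplexConjugate Matrix ComplexOrder

namespace Crest.Agent.R273.Max127

open Crest.Agent.R275.Geo Crest.Agent.R275.Core144 Crest.Agent.R275.GC293
open Crest.Agent.R273.Defs_333 Crest.Agent.R273.Kah_333 Crest.Agent.R273.Vol_333
open Crest.Agent.R273.HFlow3_376 Crest.Agent.R273.HFlow5_376 Crest.Agent.R273.HFlow7_376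
open Crest.Agent.R273.NoHVF_376 Crest.Agent.R273.Alb645 Crest.Agent.R273.HolF_578

noncomputable section

variable {n : ℕ} {M : Type} [TopologicalSpace M] {A : Atl n M}

/-- a closed holomorphic form takes a constant value on a holomorphic field -/
theorem pair_const [CompactSpace M] [ConnectedSpace M] {b : A.ι → M → (Cn n →L[ℂ] ℂ)}
    (hb : b ∈ H1 A) (V : HVF A) :
    ∃ c : ℂ, ∀ i, ∀ x ∈ (A.e i).source, b i x (V.X i x) = c := by
  classical
  let ch : M → A.ι := fun x => (A.cover x).choose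
  have hch : ∀ x, x ∈ (A.e (ch x)).source := fun x => (A.cover x).choose_spec
  let f : M → ℂ := fun x => b (ch x) x (V.X (ch x) x)
  have hfs : ∀ i, ∀ x ∈ (A.e i).source, f x = b i x (V.X i x) := by
    intro i x hx
    change b (ch x) x (V.X (ch x) x) = _
    rw [hb.2.2.1 i (ch x) x ⟨hx, hch x⟩, V.tr i (ch x) x ⟨hx, hch x⟩]
    rfl
  have hf : ∀ i, HolAt A i univ f := by
    intro i
    have h1 : DifferentiableOn ℂ (fun z => b i ((A.e i).symm z) (V.X i ((A.e i).symm z)))
        (A.e i).target := (hb.1 i).clm_apply (V.hol i)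
    refine (h1.mono inter_subset_left).congr fun z hz => ?_
    exact hfs i _ ((A.e i).map_target hz.1)
  obtain ⟨x0⟩ := (inferInstance : Nonempty M)
  exact ⟨f x0, fun i x hx => by rw [← hfs i x hx]; exact hol_const hf x x0⟩

/-- the constant value -/
def pv [CompactSpace M] [ConnectedSpace M] (b : H1 A) (V : HVF A) : ℂ :=
  (pair_const b.2 V).choose

theorem pv_eq [CompactSpace M] [ConnectedSpace M] (b : H1 A) (V : HVF A) {i : A.ι} {x : M}
    (hx : x ∈ (A.e i).source) : (b : A.ι → M → (Cn n →L[ℂ] ℂ)) i x (V.X i x) = pv b V :=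
  (pair_const b.2 V).choose_spec i x hx

theorem pv_sum [CompactSpace M] [ConnectedSpace M] {κ : Type*} (s : Finset κ) (c : κ → ℂ)
    (b : κ → H1 A) (V : HVF A) : pv (∑ k ∈ s, c k • b k) V = ∑ k ∈ s, c k * pv (b k) V := by
  obtain ⟨x⟩ := (inferInstance : Nonempty M)
  obtain ⟨i, hx⟩ := A.cover x
  rw [← pv_eq _ V hx, Submodule.coe_sum]
  simp only [Finset.sum_apply, Submodule.coe_smul, Pi.smul_apply]
  rw [sum_apply]
  refine Finset.sum_congr rfl fun k _ => ?_
  rw [smul_apply, pv_eq (b k) V hx, smul_eq_mul]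

section main

variable [T2Space M] [CompactSpace M] [ConnectedSpace M] [Finite A.ι] (P : Part A) (K : Kah A)
  (hK : (volK K).Semipos)

include P hK in
/-- a closed holomorphic form which vanishes on its own field is zero -/
theorem eq_zero_of_pv {b : H1 A} {F : HVF A} (_hF : Par K F)
    (hb : lowF K F = (b : A.ι → M → (Cn n →L[ℂ] ℂ))) (h0 : pv b F = 0) : b = 0 := by
  apply Subtype.ext
  funext i x
  by_cases hx : x ∈ (A.e i).source
  · have h1 := pv_eq b F hx
    rw [h0, ← hb, lowF_hf hx] at h1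
    have h2 : F.X i x = 0 := by
      by_contra hne
      exact (hf_pos K hx hne).ne' h1
    ext v
    rw [← hb, lowF_hf hx, h2, hf_eq]
    simp
  · exact b.2.2.1 i x hx


include P hK in
/-- **the dual basis** -/
theorem exists_dual : ∃ (g : ℕ) (S : DualD A g),
    (∃ bs : Module.Basis (Fin g) ℂ (H1 A), ∀ k, bs k = S.b k) ∧ ∀ k, Par K (S.V k) := by
  have hfd : FiniteDimensional ℂ (Om A 1) :=
    ParG_880.om_fin P K (fun i x hx => cur_posSemidef hK i hx) 1
  let bs : Module.Basis (Fin (Module.finrank ℂ (Om A 1))) ℂ (H1 A) :=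
    (Module.finBasis ℂ (Om A 1)).map (DegOne_376.omH1 P K hK).symm
  have h1 : ∀ b : H1 A, ∃ V : HVF A, Par K V ∧ lowF K V = b.1 :=
    fun b => DegOne_376.exists_par P K hK b.2
  choose W hWp hWl using h1
  -- symmetry of the pairing
  have hsym : ∀ b b' : H1 A, pv b (W b') = conj (pv b' (W b)) := by
    intro b b'
    obtain ⟨x⟩ := (inferInstance : Nonempty M)
    obtain ⟨i, hx⟩ := A.cover x
    rw [← pv_eq b (W b') hx, ← pv_eq b' (W b) hx, ← hWl b, ← hWl b', lowF_hf hx, lowF_hf hx,
      hf_conj K hx]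
  let T : Matrix (Fin (Module.finrank ℂ (Om A 1))) (Fin (Module.finrank ℂ (Om A 1))) ℂ :=
    Matrix.of fun l j => pv (bs l) (W (bs j))
  have hT : IsUnit T.det := by
    rw [isUnit_iff_ne_zero]
    intro hdet
    obtain ⟨c, hc, hcT⟩ := Matrix.exists_vecMul_eq_zero_iff.2 hdet
    apply hc
    have h2 : ∀ j, pv (∑ l, c l • bs l) (W (bs j)) = 0 := by
      intro j
      rw [pv_sum]
      exact congrFun hcT j
    set f : H1 A := ∑ l, c l • bs l with hf
    have h3 : ∀ j, pv (bs j) (W f) = 0 := by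
      intro j
      rw [hsym, h2, map_zero]
    have h4 : pv f (W f) = 0 := by
      rw [hf, pv_sum]
      rw [← hf]
      exact Finset.sum_eq_zero fun l _ => by rw [h3, mul_zero]
    have h5 : f = 0 := eq_zero_of_pv P K hK (hWp f) (hWl f) h4
    have h6 := bs.repr_sum_self c
    rw [← hf, h5, map_zero] at h6
    exact h6.symm
  -- the fields
  have hTT : T.conjTranspose = T := by
    ext l j
    exact (hsym _ _).symm
  let E := T⁻¹
  let V : Fin (Module.finrank ℂ (Om A 1)) → HVF A := fun k => W (∑ l, E k l • bs l)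
  have hV : ∀ j k, pv (bs j) (V k) = if j = k then 1 else 0 := by
    intro j k
    change pv (bs j) (W (∑ l, E k l • bs l)) = _
    rw [hsym, pv_sum]
    have h2 : ∑ l, E k l * pv (bs l) (W (bs j)) = (E * T) k j := rfl
    rw [h2, Matrix.nonsing_inv_mul T hT, Matrix.one_apply]
    by_cases hjk : j = k
    · rw [if_pos hjk, if_pos hjk.symm, map_one]
    · rw [if_neg hjk, if_neg fun h => hjk h.symm, map_zero]
  refine ⟨Module.finrank ℂ (Om A 1), ⟨V, bs, fun k l => HFlow9_376.Par.comm (hWp _) (hWp _), ?_⟩,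
    ⟨bs, fun _ => rfl⟩, fun k => hWp _⟩
  intro k l i x hx
  rw [pv_eq (bs k) (V l) hx]
  exact hV k l

end main

/-- **DUALK** -/
theorem dual_stmt : DualStmt := by
  intro n M _ _ _ _ A _ P K hK
  exact ⟨HodZ_376.hodgeZ P K hK, exists_dual P K hK⟩

/-- **NF**, unconditional -/
theorem nf : AsmB_534.NFStmt := nf_of' dual_stmt

end

end Crest.Agent.R273.Max127
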