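import Crest.Agent.R273.Cic_769
import Crest.Agent.R273.Defs_333
import Crest.Agent.R273.Cram_747

-- ▼ part R273/Rigid_769
section

/-!
# R273, leaf A-RIG (helper769): vector valued sections, quotients of proportional sections,
the rigid case

* `IsWS L G s`   : `s : A.ι → M → ρ → ℂ` is a holomorphic section of `W ⊗ L`, `W` with cocycle `G`
                   (no condition on `G` is needed);
* `nlz`          : identity theorem: a section which is not identically zero is not locally zero;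
* `quot_sec`     : `w` section of `W ⊗ L₁`, `w'` section of `W ⊗ L₂`, proportional, `|w'| ≤ C |w|`
                   locally ⇒ `w' = lam w` with `lam` a holomorphic section of `L₂ L₁⁻¹`;
* `quot_cic`     : the same if `w ^ N q_N = w' ^ N s` for infinitely many `N`;
* `rigid`        : `w_k` (`k ∈ K` infinite) proportional sections of `W ⊗ L^k` such that all
                   `w_k^(m-l) w_m^(l-k) / w_l^(m-k)` are constant ⇒ `HasSec (L ^ (l - k))`.
-/

set_option autoImplicit false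
set_option linter.unusedSectionVars false

open Set Filter Topology Complex
open scoped ContDiff Matrix ComplexConjugate

namespace Crest.Agent.R273.Rigid769

open Crest.Agent.R275.Geo Crest.Agent.R275.Core144 Crest.Agent.R275.GC293
open Crest.Agent.R273.Defs_333 Crest.Agent.R273.Cic769

noncomputable section

variable {n : ℕ} {M : Type} [TopologicalSpace M] {A : Atl n M}

/-- holomorphic section of `W ⊗ L`, where `W` has the cocycle `G` -/
structure IsWS (L : LB A) {ρ : Type} [Fintype ρ] (G : A.ι → A.ι → M → Matrix ρ ρ ℂ)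
    (s : A.ι → M → ρ → ℂ) : Prop where
  hol : ∀ i r, HolAt A i univ (fun x => s i x r)
  tr : ∀ i j, ∀ x ∈ (A.e i).source ∩ (A.e j).source,
    s i x = L.g i j x • (G i j x *ᵥ s j x)

variable {L L₁ L₂ : LB A} {ρ : Type} [Fintype ρ] {G : A.ι → A.ι → M → Matrix ρ ρ ℂ}
  {s w w' : A.ι → M → ρ → ℂ}

/-- not identically zero -/
def NZ (s : A.ι → M → ρ → ℂ) : Prop := ∃ i, ∃ x ∈ (A.e i).source, s i x ≠ 0

/-- proportional families -/
def Prp (w w' : A.ι → M → ρ → ℂ) : Prop :=
  ∀ i, ∀ x ∈ (A.e i).source, ∀ a b, w i x a * w' i x b = w i x b * w' i x a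

theorem HolAt.univ_iff {i : A.ι} {f : M → ℂ} : HolAt A i univ f ↔
    DifferentiableOn ℂ (fun z => f ((A.e i).symm z)) (A.e i).target := by
  unfold HolAt
  rw [preimage_univ, inter_univ]

namespace IsWS

theorem zero_of (h : IsWS L G s) {i j : A.ι} {x : M}
    (hx : x ∈ (A.e i).source ∩ (A.e j).source) (h0 : s j x = 0) : s i x = 0 := by
  rw [h.tr i j x hx, h0, Matrix.mulVec_zero, smul_zero]

/-- the reading in a chart -/
theorem diff (h : IsWS L G s) (i : A.ι) :
    DifferentiableOn ℂ (fun z => s i ((A.e i).symm z)) (A.e i).target :=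
  differentiableOn_pi.2 fun r => HolAt.univ_iff.1 (h.hol i r)

theorem diffc (h : IsWS L G s) (i : A.ι) (r : ρ) :
    DifferentiableOn ℂ (fun z => s i ((A.e i).symm z) r) (A.e i).target :=
  HolAt.univ_iff.1 (h.hol i r)

theorem contAt (h : IsWS L G s) {i : A.ι} {x : M} (hx : x ∈ (A.e i).source) :
    ContinuousAt (s i) x := by
  have h1 : ContinuousAt (fun z => s i ((A.e i).symm z)) (A.e i x) :=
    ((h.diff i).differentiableAt
      ((A.e i).open_target.mem_nhds ((A.e i).map_source hx))).continuousAt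
  have h2 : ContinuousAt (A.e i) x := (A.e i).continuousAt hx
  have h3 : ContinuousAt ((fun z => s i ((A.e i).symm z)) ∘ (A.e i)) x :=
    ContinuousAt.comp (g := fun z => s i ((A.e i).symm z)) h1 h2
  refine h3.congr ?_
  filter_upwards [(A.e i).open_source.mem_nhds hx] with y hy
  simp [(A.e i).left_inv hy]

end IsWS

/-- frequently near a point, transported to the chart -/
theorem freq_chart {i : A.ι} {x : M} (hx : x ∈ (A.e i).source) {p : M → Prop}
    (h : ∃ᶠ y in 𝓝 x, p y) : ∃ᶠ z in 𝓝 (A.e i x), p ((A.e i).symm z) := by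
  intro hcon
  apply h
  have h2 : Tendsto (A.e i) (𝓝 x) (𝓝 (A.e i x)) := (A.e i).continuousAt hx
  filter_upwards [h2.eventually hcon, (A.e i).open_source.mem_nhds hx] with y hy hys
  rwa [(A.e i).left_inv hys] at hy

theorem freq_of_chart {i : A.ι} {z : Cn n} (hz : z ∈ (A.e i).target) {p : M → Prop}
    (h : ∃ᶠ w in 𝓝 z, p ((A.e i).symm w)) : ∃ᶠ y in 𝓝 ((A.e i).symm z), p y := by
  intro hcon
  apply h
  have h2 : Tendsto (A.e i).symm (𝓝 z) (𝓝 ((A.e i).symm z)) := (A.e i).symm.continuousAt hz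
  exact h2.eventually hcon

/-- **identity theorem** for sections -/
theorem nlz [PreconnectedSpace M] (h : IsWS L G s) (hne : NZ s) (i : A.ι) {x : M}
    (hx : x ∈ (A.e i).source) : ∃ᶠ y in 𝓝 x, s i y ≠ 0 := by
  classical
  set Z : Set M := {x | ∃ i, x ∈ (A.e i).source ∧ ∀ᶠ y in 𝓝 x, s i y = 0} with hZ
  have hop : IsOpen Z := by
    rw [isOpen_iff_mem_nhds]
    rintro x ⟨i, hxi, he⟩
    filter_upwards [(A.e i).open_source.mem_nhds hxi, eventually_eventually_nhds.2 he] with y hy hye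
    exact ⟨i, hy, hye⟩
  have hany : ∀ x ∈ Z, ∀ j, x ∈ (A.e j).source → ∀ᶠ y in 𝓝 x, s j y = 0 := by
    rintro x ⟨i, hxi, he⟩ j hxj
    filter_upwards [(A.e i).open_source.mem_nhds hxi, (A.e j).open_source.mem_nhds hxj, he]
      with y h1 h2 h3
    exact h.zero_of ⟨h2, h1⟩ h3
  have hcl : IsClosed Z := by
    rw [← closure_subset_iff_isClosed]
    intro x hxc
    obtain ⟨i, hxi⟩ := A.cover x
    obtain ⟨ρ', hρ, hball⟩ := Metric.isOpen_iff.1 (A.e i).open_target (A.e i x)
      ((A.e i).map_source hxi)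
    have hV : (A.e i).source ∩ (A.e i) ⁻¹' (Metric.ball (A.e i x) ρ') ∈ 𝓝 x :=
      ((A.e i).isOpen_inter_preimage Metric.isOpen_ball).mem_nhds
        ⟨hxi, Metric.mem_ball_self hρ⟩
    obtain ⟨y, ⟨hyi, hyb⟩, hyZ⟩ := mem_closure_iff_nhds.1 hxc _ hV
    have h1 : ∀ᶠ z in 𝓝 (A.e i y), s i ((A.e i).symm z) = 0 := by
      have h2 : Tendsto (A.e i).symm (𝓝 (A.e i y)) (𝓝 y) := by
        have := (A.e i).symm.continuousAt (x := A.e i y) ((A.e i).map_source hyi)
        rwa [ContinuousAt, (A.e i).left_inv hyi] at this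
      exact h2.eventually (hany y hyZ i hyi)
    have hA : AnalyticOnNhd ℂ (fun z => s i ((A.e i).symm z)) (Metric.ball (A.e i x) ρ') :=
      (Crest.Agent.R266.SCV.analyticOnNhd_of_differentiableOn (A.e i).open_target
        (h.diff i)).mono hball
    have h3 := hA.eqOn_zero_of_preconnected_of_eventuallyEq_zero
      (convex_ball _ _).isPreconnected hyb h1
    refine ⟨i, hxi, ?_⟩
    filter_upwards [hV] with u hu
    have := h3 hu.2
    simpa [(A.e i).left_inv hu.1] using this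
  rcases isClopen_iff.1 ⟨hcl, hop⟩ with h1 | h1
  · intro hcon
    have : x ∈ Z := ⟨i, hx, by simpa using hcon⟩
    rw [h1] at this
    exact this
  · exfalso
    obtain ⟨j, y, hy, hy0⟩ := hne
    have : y ∈ Z := by rw [h1]; trivial
    exact hy0 (hany y this j hy).self_of_nhds

/-- a component which is not locally zero on the whole chart -/
theorem exists_comp [PreconnectedSpace M] (h : IsWS L G s) (hne : NZ s) (i : A.ι)
    (hc : IsPreconnected (A.e i).target) (hn : (A.e i).target.Nonempty) :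
    ∃ a : ρ, ∀ z ∈ (A.e i).target, ∃ᶠ y in 𝓝 z, s i ((A.e i).symm y) a ≠ 0 := by
  obtain ⟨z₀, hz₀⟩ := hn
  have h1 : ∃ᶠ y in 𝓝 ((A.e i).symm z₀), s i y ≠ 0 := nlz h hne i ((A.e i).map_target hz₀)
  have h2 := freq_chart ((A.e i).map_target hz₀) h1
  rw [(A.e i).right_inv hz₀] at h2
  obtain ⟨z₁, hz₁, hz₁t⟩ := (h2.and_eventually ((A.e i).open_target.mem_nhds hz₀)).exists
  obtain ⟨a, ha⟩ := Function.ne_iff.1 hz₁
  refine ⟨a, fun z hz => ?_⟩
  exact (Crest.Agent.R266.SCV.dense_ne_zero (A.e i).open_target hc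
    (Crest.Agent.R266.SCV.analyticOnNhd_of_differentiableOn (A.e i).open_target (h.diffc i a))
    ⟨z₁, hz₁t, ha⟩ z hz).mono fun y hy => hy.2

/-- the quotient of two proportional sections, the second one locally dominated by the first -/
theorem quot_sec [PreconnectedSpace M] (hc : ∀ i, IsPreconnected (A.e i).target)
    (h1 : IsWS L₁ G w) (h2 : IsWS L₂ G w') (hne : NZ w) (hp : Prp w w')
    (hb : ∀ i, ∀ x ∈ (A.e i).source, ∃ C : ℝ, ∀ᶠ y in 𝓝 x, ‖w' i y‖ ≤ C * ‖w i y‖) :
    ∃ lam, IsHS (L₂ * L₁⁻¹) univ lam ∧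
      ∀ i, ∀ x ∈ (A.e i).source, w' i x = lam i x • w i x := by
  classical
  have key : ∀ i, ∃ lam : Cn n → ℂ, DifferentiableOn ℂ lam (A.e i).target ∧
      ∀ z ∈ (A.e i).target, w' i ((A.e i).symm z) = lam z • w i ((A.e i).symm z) := by
    intro i
    by_cases hn : (A.e i).target.Nonempty
    swap
    · rw [not_nonempty_iff_eq_empty] at hn
      exact ⟨fun _ => 0, by rw [hn]; exact differentiableOn_empty, fun z hz => by
        rw [hn] at hz; exact absurd hz (notMem_empty z)⟩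
    obtain ⟨a, ha⟩ := exists_comp h1 hne i (hc i) hn
    have hb' : ∀ z ∈ (A.e i).target, ∃ C : ℝ, ∀ᶠ y in 𝓝 z,
        ‖w' i ((A.e i).symm y) a‖ ≤ C * ‖w i ((A.e i).symm y) a‖ := by
      intro z hz
      obtain ⟨C, hC⟩ := hb i _ ((A.e i).map_target hz)
      have ht : Tendsto (A.e i).symm (𝓝 z) (𝓝 ((A.e i).symm z)) := (A.e i).symm.continuousAt hz
      refine ⟨C, ?_⟩
      filter_upwards [ht.eventually hC, (A.e i).open_target.mem_nhds hz] with y hy hyt
      set x := (A.e i).symm y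
      have hx : x ∈ (A.e i).source := (A.e i).map_target hyt
      by_cases h0 : w i x a = 0
      · by_cases h00 : w i x = 0
        · rw [h00, norm_zero, mul_zero] at hy
          have := norm_le_zero_iff.1 hy
          rw [this, h0]; simp
        · obtain ⟨b, hb0⟩ := Function.ne_iff.1 h00
          have h3 := hp i x hx a b
          rw [h0, zero_mul] at h3
          have h4 : w' i x a = 0 := by
            rcases mul_eq_zero.1 h3.symm with h5 | h5
            · exact absurd h5 hb0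
            · exact h5
          rw [h0, h4]; simp
      · set μ := w' i x a / w i x a with hμ
        have h3 : w' i x = μ • w i x := by
          funext b
          have h4 := hp i x hx a b
          rw [Pi.smul_apply, smul_eq_mul, hμ, div_mul_eq_mul_div, eq_div_iff h0, mul_comm]
          rw [h4]; ring
        have h5 : 0 < ‖w i x‖ := norm_pos_iff.2 fun h => h0 (by rw [h]; rfl)
        have h6 : ‖μ‖ ≤ C := by
          rw [h3, norm_smul] at hy
          exact le_of_mul_le_mul_right hy h5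
        rw [h3, Pi.smul_apply, smul_eq_mul, norm_mul]
        exact mul_le_mul_of_nonneg_right h6 (norm_nonneg _)
    obtain ⟨lam, hlam, hle⟩ := exists_quot (A.e i).open_target (h2.diffc i a) (h1.diffc i a)
      ha hb'
    refine ⟨lam, hlam, fun z hz => ?_⟩
    funext b
    -- continuity and density
    have hcont : ContinuousAt (fun y => w' i ((A.e i).symm y) b -
        lam y * w i ((A.e i).symm y) b) z := by
      have e1 := ((h2.diffc i b).differentiableAt ((A.e i).open_target.mem_nhds hz)).continuousAt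
      have e2 := ((h1.diffc i b).differentiableAt ((A.e i).open_target.mem_nhds hz)).continuousAt
      have e3 := (hlam.differentiableAt ((A.e i).open_target.mem_nhds hz)).continuousAt
      exact e1.sub (e3.mul e2)
    have hfr : ∃ᶠ y in 𝓝 z, w' i ((A.e i).symm y) b - lam y * w i ((A.e i).symm y) b = 0 := by
      refine ((ha z hz).and_eventually ((A.e i).open_target.mem_nhds hz)).mono ?_
      rintro y ⟨hy0, hyt⟩
      have h3 := hp i _ ((A.e i).map_target hyt) a b
      have h4 := hle y hyt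
      rw [h4] at h3
      have h5 : w i ((A.e i).symm y) a * (w' i ((A.e i).symm y) b -
          lam y * w i ((A.e i).symm y) b) = 0 := by
        rw [mul_sub, h3]; ring
      exact (mul_eq_zero.1 h5).resolve_left hy0
    have h6 : w' i ((A.e i).symm z) b - lam z * w i ((A.e i).symm z) b = 0 := by
      by_contra hcon
      exact hfr ((hcont.eventually_ne hcon).mono fun y hy h => hy h)
    exact sub_eq_zero.1 h6
  choose lam hlam hle using key
  have hle' : ∀ i, ∀ x ∈ (A.e i).source, w' i x = lam i (A.e i x) • w i x := by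
    intro i x hx
    have := hle i (A.e i x) ((A.e i).map_source hx)
    rwa [(A.e i).left_inv hx] at this
  refine ⟨fun i x => if x ∈ (A.e i).source then lam i (A.e i x) else 0, ⟨?_, ?_, ?_⟩, ?_⟩
  · intro i
    rw [HolAt.univ_iff]
    refine (hlam i).congr fun z hz => ?_
    simp only [(A.e i).map_target hz, if_true, (A.e i).right_inv hz]
  · intro i x hx
    simp [hx]
  · intro i j x hx _
    simp only [hx.1, hx.2, if_true]
    have hfr : ∃ᶠ y in 𝓝 x, lam i (A.e i y) - (L₂ * L₁⁻¹).g i j y * lam j (A.e j y) = 0 := by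
      refine ((nlz h1 hne i hx.1).and_eventually
        (((A.e i).open_source.inter (A.e j).open_source).mem_nhds hx)).mono ?_
      rintro y ⟨hy0, hy⟩
      have e1 := hle' i y hy.1
      have e2 := hle' j y hy.2
      have e3 := h2.tr i j y hy
      have e4 := h1.tr i j y hy
      have hL1 : L₁.g i j y ≠ 0 := L₁.ne_zero i j y
      have hL2 : L₂.g i j y ≠ 0 := L₂.ne_zero i j y
      rw [e2, Matrix.mulVec_smul] at e3
      have e5 : G i j y *ᵥ w j y = (L₁.g i j y)⁻¹ • w i y := by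
        rw [e4, inv_smul_smul₀ hL1]
      rw [e5, e1] at e3
      obtain ⟨b, hb0⟩ := Function.ne_iff.1 hy0
      have e6 := congrFun e3 b
      simp only [Pi.smul_apply, smul_eq_mul] at e6
      rw [LB.mul_g, LB.inv_g]
      have hb0' : w i y b ≠ 0 := hb0
      have e7 : (lam i (A.e i y) - L₂.g i j y * (L₁.g i j y)⁻¹ * lam j (A.e j y)) * w i y b = 0 := by
        rw [sub_mul, e6]; ring
      exact (mul_eq_zero.1 e7).resolve_right hb0'
    have hcx : ∀ k, x ∈ (A.e k).source → ContinuousAt (fun y => lam k (A.e k y)) x := fun k hk =>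
      ContinuousAt.comp (g := lam k) (((hlam k).differentiableAt
        ((A.e k).open_target.mem_nhds ((A.e k).map_source hk))).continuousAt)
        ((A.e k).continuousAt hk)
    have hg : ContinuousAt ((L₂ * L₁⁻¹).g i j) x := by
      have e1 := ((L₂ * L₁⁻¹).hol i j).diffAt (A.e j).open_source hx.1 hx.2
      have e2 : ContinuousAt ((fun z => (L₂ * L₁⁻¹).g i j ((A.e i).symm z)) ∘ (A.e i)) x :=
        ContinuousAt.comp (g := fun z => (L₂ * L₁⁻¹).g i j ((A.e i).symm z)) e1.continuousAt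
          ((A.e i).continuousAt hx.1)
      refine e2.congr ?_
      filter_upwards [(A.e i).open_source.mem_nhds hx.1] with y hy
      simp only [Function.comp, (A.e i).left_inv hy]
    have hcont : ContinuousAt (fun y => lam i (A.e i y) -
        (L₂ * L₁⁻¹).g i j y * lam j (A.e j y)) x :=
      (hcx i hx.1).sub (hg.mul (hcx j hx.2))
    have h6 : lam i (A.e i x) - (L₂ * L₁⁻¹).g i j x * lam j (A.e j x) = 0 := by
      by_contra hcon
      exact hfr ((hcont.eventually_ne hcon).mono fun y hy h => hy h)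
    exact sub_eq_zero.1 h6
  · intro i x hx
    simp only [hx, if_true]
    exact hle' i x hx

/-- two dense conditions, the first one open -/
theorem freq_and {X : Type*} [TopologicalSpace X] {x : X} {p q : X → Prop}
    (h : ∃ᶠ y in 𝓝 x, (∀ᶠ u in 𝓝 y, p u) ∧ ∃ᶠ u in 𝓝 y, q u) : ∃ᶠ y in 𝓝 x, p y ∧ q y := by
  refine frequently_frequently_nhds.1 (h.mono fun y hy => ?_)
  exact (hy.2.and_eventually hy.1).mono fun u hu => ⟨hu.2, hu.1⟩

/-- the quotient of two proportional sections, by complete integral closedness -/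
theorem quot_cic [PreconnectedSpace M] (hc : ∀ i, IsPreconnected (A.e i).target)
    (h1 : IsWS L₁ G w) (h2 : IsWS L₂ G w') (hne : NZ w) (hp : Prp w w')
    {S : A.ι → M → ρ → ℂ} (hS : ∀ i a, HolAt A i univ (fun x => S i x a))
    (hS0 : ∀ i a, (∀ z ∈ (A.e i).target, ∃ᶠ y in 𝓝 z, w i ((A.e i).symm y) a ≠ 0) →
      ∀ z ∈ (A.e i).target, ∃ᶠ y in 𝓝 z,
        w i ((A.e i).symm y) a * S i ((A.e i).symm y) a ≠ 0)
    (hN : ∀ N₀ : ℕ, ∃ N, N₀ ≤ N ∧ ∃ q : A.ι → M → ρ → ℂ,
      (∀ i a, HolAt A i univ (fun x => q i x a)) ∧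
      ∀ i, ∀ x ∈ (A.e i).source, ∀ a, w i x a ^ N * q i x a = w' i x a ^ N * S i x a) :
    ∃ lam, IsHS (L₂ * L₁⁻¹) univ lam ∧
      ∀ i, ∀ x ∈ (A.e i).source, w' i x = lam i x • w i x := by
  refine quot_sec hc h1 h2 hne hp fun i x hx => ?_
  have hn : (A.e i).target.Nonempty := ⟨_, (A.e i).map_source hx⟩
  obtain ⟨a, ha⟩ := exists_comp h1 hne i (hc i) hn
  have hz := (A.e i).map_source hx
  obtain ⟨C, hC⟩ := bound_of_pow (A.e i).open_target
    (Crest.Agent.R266.SCV.analyticOnNhd_of_differentiableOn (A.e i).open_target (h2.diffc i a))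
    (Crest.Agent.R266.SCV.analyticOnNhd_of_differentiableOn (A.e i).open_target (h1.diffc i a))
    (Crest.Agent.R266.SCV.analyticOnNhd_of_differentiableOn (A.e i).open_target
      (HolAt.univ_iff.1 (hS i a)))
    hz (hS0 i a ha _ hz) (fun N₀ => by
      obtain ⟨N, hNN, q, hq, he⟩ := hN N₀
      exact ⟨N, hNN, _, HolAt.univ_iff.1 (hq i a), fun z hz => he i _ ((A.e i).map_target hz) a⟩)
  refine ⟨C, ?_⟩
  -- transport to `M`
  have hC' : ∀ᶠ y in 𝓝 x, y ∈ (A.e i).source ∧ ‖w' i y a‖ ≤ C * ‖w i y a‖ := by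
    filter_upwards [((A.e i).continuousAt hx).tendsto.eventually hC,
      (A.e i).open_source.mem_nhds hx] with y hy hys
    rw [(A.e i).left_inv hys] at hy
    exact ⟨hys, hy⟩
  filter_upwards [eventually_eventually_nhds.2 hC'] with y hy
  have hys := hy.self_of_nhds.1
  have hfr : ∃ᶠ u in 𝓝 y, w i u a ≠ 0 := by
    have := freq_of_chart ((A.e i).map_source hys)
      (p := fun u => w i u a ≠ 0) (ha _ ((A.e i).map_source hys))
    rwa [(A.e i).left_inv hys] at this
  have hcont : ContinuousAt (fun u => C * ‖w i u‖ - ‖w' i u‖) y :=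
    (continuousAt_const.mul (h1.contAt hys).norm).sub (h2.contAt hys).norm
  have hfr2 : ∃ᶠ u in 𝓝 y, 0 ≤ C * ‖w i u‖ - ‖w' i u‖ := by
    refine (hfr.and_eventually hy).mono ?_
    rintro u ⟨h0, hus, hle⟩
    set μ := w' i u a / w i u a with hμ
    have h3 : w' i u = μ • w i u := by
      funext b
      have h4 := hp i u hus a b
      rw [Pi.smul_apply, smul_eq_mul, hμ, div_mul_eq_mul_div, eq_div_iff h0, mul_comm]
      rw [h4]; ring
    have h6 : ‖μ‖ ≤ C := by
      rw [hμ, norm_div, div_le_iff₀ (norm_pos_iff.2 h0)]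
      exact hle
    rw [h3, norm_smul]
    have := mul_le_mul_of_nonneg_right h6 (norm_nonneg (w i u))
    linarith
  have := ge_of_tendsto_of_frequently hcont.tendsto hfr2
  linarith

/-- if `w`, `w'` are proportional nonzero sections, a component of `w` which is not locally zero
gives a component of `w'` which is not locally zero -/
theorem comp_of_prp [PreconnectedSpace M] (h1 : IsWS L₁ G w) (h2 : IsWS L₂ G w')
    (hne' : NZ w') (hp : Prp w w') {i : A.ι} {a : ρ}
    (ha : ∀ z ∈ (A.e i).target, ∃ᶠ y in 𝓝 z, w i ((A.e i).symm y) a ≠ 0) {z : Cn n}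
    (hz : z ∈ (A.e i).target) :
    ∃ᶠ y in 𝓝 z, w i ((A.e i).symm y) a ≠ 0 ∧ w' i ((A.e i).symm y) a ≠ 0 := by
  have h3 : ∃ᶠ y in 𝓝 z, w i ((A.e i).symm y) a ≠ 0 ∧
      (w' i ((A.e i).symm y) ≠ 0 ∧ y ∈ (A.e i).target) := by
    apply freq_and
    refine ((ha z hz).and_eventually ((A.e i).open_target.mem_nhds hz)).mono ?_
    rintro y ⟨hy, hyt⟩
    constructor
    · exact (((h1.diffc i a).differentiableAt
        ((A.e i).open_target.mem_nhds hyt)).continuousAt).eventually_ne hy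
    · have h4 := freq_chart ((A.e i).map_target hyt) (nlz h2 hne' i ((A.e i).map_target hyt))
      rw [(A.e i).right_inv hyt] at h4
      exact h4.and_eventually ((A.e i).open_target.mem_nhds hyt)
  refine h3.mono ?_
  rintro y ⟨hy, hy', hyt⟩
  refine ⟨hy, fun h0 => ?_⟩
  obtain ⟨b, hb⟩ := Function.ne_iff.1 hy'
  have h4 := hp i _ ((A.e i).map_target hyt) a b
  rw [h0, mul_zero] at h4
  rcases mul_eq_zero.1 h4 with h5 | h5
  · exact hy h5
  · exact hb h5

/-- **rigid case**, with the quotient section -/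
theorem rigid' [PreconnectedSpace M] (hc : ∀ i, IsPreconnected (A.e i).target)
    (K : Set ℕ) (hK : K.Infinite) (W : ℕ → A.ι → M → ρ → ℂ)
    (hW : ∀ k ∈ K, IsWS (L ^ k) G (W k)) (hne : ∀ k ∈ K, NZ (W k))
    (hp : ∀ k ∈ K, ∀ l ∈ K, Prp (W k) (W l))
    (hconst : ∀ k ∈ K, ∀ l ∈ K, ∀ m ∈ K, k < l → l < m → ∃ C : ℂ, C ≠ 0 ∧
      ∀ i, ∀ x ∈ (A.e i).source, ∀ a,
        W k i x a ^ (m - l) * W m i x a ^ (l - k) = C * W l i x a ^ (m - k))
    {k l : ℕ} (hk : k ∈ K) (hl : l ∈ K) (hkl : k < l) :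
    ∃ lam, IsHS (L ^ (l - k)) univ lam ∧
      ∀ i, ∀ x ∈ (A.e i).source, W l i x = lam i x • W k i x := by
  rw [pow_sub L hkl.le]
  refine quot_cic hc (hW k hk) (hW l hl) (hne k hk) (hp k hk l hl)
    (S := fun i x a => W l i x a ^ (l - k)) (fun i a => ((hW l hl).hol i a).pow _) ?_ ?_
  · intro i a ha z hz
    refine (comp_of_prp (hW k hk) (hW l hl) (hne l hl) (hp k hk l hl) ha hz).mono ?_
    rintro y ⟨h1, h2⟩
    exact mul_ne_zero h1 (pow_ne_zero _ h2)
  · intro N₀
    obtain ⟨m, hm, hmN⟩ := hK.exists_gt (l + N₀)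
    obtain ⟨C, hC, he⟩ := hconst k hk l hl m hm hkl (by omega)
    refine ⟨m - l, by omega, fun i x a => C⁻¹ * W m i x a ^ (l - k),
      fun i a => (((hW m hm).hol i a).pow _).const_mul _, fun i x hx a => ?_⟩
    have h1 := he i x hx a
    have h2 : m - k = (m - l) + (l - k) := by omega
    calc W k i x a ^ (m - l) * (C⁻¹ * W m i x a ^ (l - k))
        = C⁻¹ * (W k i x a ^ (m - l) * W m i x a ^ (l - k)) := by ring
      _ = C⁻¹ * (C * W l i x a ^ (m - k)) := by rw [h1]
      _ = W l i x a ^ (m - k) := by rw [inv_mul_cancel_left₀ hC]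
      _ = W l i x a ^ (m - l) * W l i x a ^ (l - k) := by rw [h2, pow_add]

/-- **rigid case** -/
theorem rigid [PreconnectedSpace M] (hc : ∀ i, IsPreconnected (A.e i).target)
    (K : Set ℕ) (hK : K.Infinite) (W : ℕ → A.ι → M → ρ → ℂ)
    (hW : ∀ k ∈ K, IsWS (L ^ k) G (W k)) (hne : ∀ k ∈ K, NZ (W k))
    (hp : ∀ k ∈ K, ∀ l ∈ K, Prp (W k) (W l))
    (hconst : ∀ k ∈ K, ∀ l ∈ K, ∀ m ∈ K, k < l → l < m → ∃ C : ℂ, C ≠ 0 ∧
      ∀ i, ∀ x ∈ (A.e i).source, ∀ a,
        W k i x a ^ (m - l) * W m i x a ^ (l - k) = C * W l i x a ^ (m - k)) :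
    ∃ m, 0 < m ∧ HasSec (L ^ m) := by
  obtain ⟨k, hk⟩ := hK.nonempty
  obtain ⟨l, hl, hkl⟩ := hK.exists_gt k
  obtain ⟨lam, h1, h2⟩ := rigid' hc K hK W hW hne hp hconst hk hl hkl
  refine ⟨l - k, by omega, lam, h1, ?_⟩
  obtain ⟨i, x, hx, h0⟩ := hne l hl
  refine ⟨i, x, hx, fun h3 => h0 ?_⟩
  rw [h2 i x hx, h3, zero_smul]

end

end Crest.Agent.R273.Rigid769
end

-- ▼ part R273/Mer_769
section

/-!
# R273, leaf A-MER (helper769): the field of meromorphic functions on a connected complex manifold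

* `HolU A U f`  : `f : M → ℂ` is holomorphic on the open set `U` (in all charts)
* `dn M`        : the filter of the sets which contain a dense open set
* `IsMer A f`   : `f` is locally a quotient of holomorphic functions (arbitrary values at the zeros
                  of the denominator)
* `Mer A`       : germs along `dn M` of meromorphic functions; a field, a `ℂ`-algebra
* `reg g`, `ev g x` : open dense set of regular points of `g : Mer A`, value at a regular point
-/

set_option autoImplicit false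
set_option linter.unusedSectionVars false

open Set Filter Topology Complex
open scoped ContDiff Matrix ComplexConjugate

namespace Crest.Agent.R273.Mer769

open Crest.Agent.R275.Geo Crest.Agent.R275.Core144 Crest.Agent.R275.GC293
open Crest.Agent.R273.Cic769 Crest.Agent.R273.Rigid769

noncomputable section

/-! ### the filter of dense open sets -/

section Dn

variable (M : Type) [TopologicalSpace M]

/-- the sets which contain a dense open set -/
def dn : Filter M where
  sets := {s | Dense (interior s)}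
  univ_sets := by simp
  sets_of_superset := fun h hs => Dense.mono (interior_mono hs) h
  inter_sets := fun {s t} hs ht => by
    show Dense (interior (s ∩ t))
    rw [interior_inter]
    exact Dense.inter_of_isOpen_left hs ht isOpen_interior

variable {M}

theorem mem_dn {s : Set M} : s ∈ dn M ↔ ∀ x, ∃ᶠ y in 𝓝 x, s ∈ 𝓝 y := by
  show Dense (interior s) ↔ _
  unfold Dense
  refine forall_congr' fun x => ?_
  rw [mem_closure_iff_frequently]
  simp only [mem_interior_iff_mem_nhds]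

theorem dn_neBot [Nonempty M] : (dn M).NeBot := by
  rw [neBot_iff]
  intro h
  have h1 : (∅ : Set M) ∈ dn M := by rw [h]; exact mem_bot
  rw [mem_dn] at h1
  obtain ⟨x⟩ := ‹Nonempty M›
  exact (h1 x).exists.elim fun y hy => (mem_of_mem_nhds hy).elim

instance [Nonempty M] : (dn M).NeBot := dn_neBot

theorem dn_of_dense {s : Set M} (ho : IsOpen s) (hd : Dense s) : s ∈ dn M := by
  show Dense (interior s)
  rwa [ho.interior_eq]

/-- elements of `dn` meet every nonempty open set, in an interior point -/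
theorem exists_mem_of_dn {s U : Set M} (hs : s ∈ dn M) (hU : IsOpen U) (hne : U.Nonempty) :
    ∃ x ∈ U, s ∈ 𝓝 x := by
  obtain ⟨x, hx⟩ := hne
  obtain ⟨y, hy, hyU⟩ := ((mem_dn.1 hs x).and_eventually (hU.mem_nhds hx)).exists
  exact ⟨y, hyU, hy⟩

theorem frequently_of_dn {s : Set M} (hs : s ∈ dn M) (x : M) : ∃ᶠ y in 𝓝 x, s ∈ 𝓝 y :=
  mem_dn.1 hs x

end Dn

variable {n : ℕ} {M : Type} [TopologicalSpace M] {A : Atl n M}

/-! ### holomorphic functions on open sets -/

/-- `f` is holomorphic on `U` -/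
def HolU (A : Atl n M) (U : Set M) (f : M → ℂ) : Prop := ∀ i, HolAt A i U f

namespace HolU

variable {U V : Set M} {f g : M → ℂ}

theorem mono (h : HolU A U f) (hV : V ⊆ U) : HolU A V f := fun i => (h i).mono hV
theorem congr (h : HolU A U f) (he : ∀ x ∈ U, f x = g x) : HolU A U g :=
  fun i => (h i).congr fun x _ hx => he x hx
theorem const (c : ℂ) : HolU A U (fun _ => c) := fun _ => holAt_const c
theorem add (h : HolU A U f) (h' : HolU A U g) : HolU A U fun x => f x + g x :=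
  fun i => (h i).add (h' i)
theorem sub (h : HolU A U f) (h' : HolU A U g) : HolU A U fun x => f x - g x :=
  fun i => (h i).sub (h' i)
theorem mul (h : HolU A U f) (h' : HolU A U g) : HolU A U fun x => f x * g x :=
  fun i => (h i).mul (h' i)
theorem neg (h : HolU A U f) : HolU A U fun x => - f x := fun i => (h i).neg
theorem pow (h : HolU A U f) (m : ℕ) : HolU A U fun x => f x ^ m := fun i => (h i).pow m
theorem inv (h : HolU A U f) (h0 : ∀ x ∈ U, f x ≠ 0) : HolU A U fun x => (f x)⁻¹ :=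
  fun i => (h i).inv fun x _ hx => h0 x hx
theorem div (h : HolU A U f) (h' : HolU A U g) (h0 : ∀ x ∈ U, g x ≠ 0) :
    HolU A U fun x => f x / g x := by
  simp only [div_eq_mul_inv]
  exact h.mul (h'.inv h0)

theorem continuousAt (h : HolU A U f) (hU : IsOpen U) {x : M} (hx : x ∈ U) :
    ContinuousAt f x := by
  obtain ⟨i, hi⟩ := A.cover x
  have h1 := ((h i).diffAt hU hi hx).continuousAt
  have h2 : ContinuousAt ((fun z => f ((A.e i).symm z)) ∘ (A.e i)) x :=
    ContinuousAt.comp (g := fun z => f ((A.e i).symm z)) h1 ((A.e i).continuousAt hi)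
  refine h2.congr ?_
  filter_upwards [(A.e i).open_source.mem_nhds hi] with y hy
  simp [(A.e i).left_inv hy]

theorem continuousOn (h : HolU A U f) (hU : IsOpen U) : ContinuousOn f U :=
  fun _ hx => (h.continuousAt hU hx).continuousWithinAt

theorem isOpen_ne (h : HolU A U f) (hU : IsOpen U) : IsOpen (U ∩ {x | f x ≠ 0}) :=
  (h.continuousOn hU).isOpen_inter_preimage hU isOpen_compl_singleton

/-- union of open sets -/
theorem of_local (h : ∀ x ∈ U, ∃ V, IsOpen V ∧ x ∈ V ∧ HolU A V f) : HolU A U f := by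
  intro i z hz
  obtain ⟨V, hVo, hxV, hV⟩ := h _ hz.2
  have h1 : DifferentiableAt ℂ (fun z => f ((A.e i).symm z)) z :=
    (hV i).differentiableAt (IsOpen.mem_nhds (isOpen_ti hVo) ⟨hz.1, hxV⟩)
  exact h1.differentiableWithinAt

theorem sum {κ : Type*} (s : Finset κ) {F : κ → M → ℂ} (h : ∀ k ∈ s, HolU A U (F k)) :
    HolU A U fun x => ∑ k ∈ s, F k x := fun i => HolAt.sum s fun k hk => h k hk i

theorem prod {κ : Type*} (s : Finset κ) {F : κ → M → ℂ} (h : ∀ k ∈ s, HolU A U (F k)) :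
    HolU A U fun x => ∏ k ∈ s, F k x := fun i => HolAt.prod s fun k hk => h k hk i

end HolU

/-- from one chart to all charts -/
theorem holU_of_holAt {i : A.ι} {U : Set M} {f : M → ℂ} (hU : IsOpen U)
    (hUi : U ⊆ (A.e i).source) (h : HolAt A i U f) : HolU A U f := by
  intro j
  refine ((h.chg hU j).mono fun x hx => ⟨hx, hUi hx⟩)

/-- small neighbourhoods where the identity theorem holds -/
theorem exists_ball {x : M} {U : Set M} (hU : U ∈ 𝓝 x) :
    ∃ V ⊆ U, IsOpen V ∧ x ∈ V ∧ ∀ f : M → ℂ, HolU A V f →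
      (∃ y ∈ V, ∀ᶠ z in 𝓝 y, f z = 0) → ∀ z ∈ V, f z = 0 := by
  obtain ⟨i, hi⟩ := A.cover x
  have hxt := (A.e i).map_source hi
  have h1 : (A.e i).target ∩ (A.e i).symm ⁻¹' U ∈ 𝓝 (A.e i x) := by
    refine inter_mem ((A.e i).open_target.mem_nhds hxt) ?_
    have := (A.e i).continuousAt_symm hxt
    apply this
    rwa [(A.e i).left_inv hi]
  obtain ⟨ε, hε, hball⟩ := Metric.mem_nhds_iff.1 h1
  set B := Metric.ball (A.e i x) ε with hB
  refine ⟨(A.e i).source ∩ (A.e i) ⁻¹' B, ?_, (A.e i).isOpen_inter_preimage Metric.isOpen_ball,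
    ⟨hi, Metric.mem_ball_self hε⟩, ?_⟩
  · rintro y ⟨hy, hyB⟩
    have := (hball hyB).2
    rwa [mem_preimage, (A.e i).left_inv hy] at this
  · rintro f hf ⟨y, ⟨hy, hyB⟩, hev⟩ z ⟨hz, hzB⟩
    have hd : DifferentiableOn ℂ (fun z => f ((A.e i).symm z)) B := by
      refine DifferentiableOn.mono (hf i) fun w hw => ?_
      have hwt := (hball hw).1
      refine ⟨hwt, (A.e i).map_target hwt, ?_⟩
      show A.e i ((A.e i).symm w) ∈ B
      rwa [(A.e i).right_inv hwt]
    have han : AnalyticOnNhd ℂ (fun z => f ((A.e i).symm z)) B :=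
      Crest.Agent.R266.SCV.analyticOnNhd_of_differentiableOn Metric.isOpen_ball hd
    have hev' : (fun z => f ((A.e i).symm z)) =ᶠ[𝓝 (A.e i y)] 0 := by
      have hc := (A.e i).continuousAt_symm ((A.e i).map_source hy)
      rw [ContinuousAt, (A.e i).left_inv hy] at hc
      exact hc.eventually hev
    have := han.eqOn_zero_of_preconnected_of_eventuallyEq_zero
      ((convex_ball _ _).isPreconnected) hyB hev' hzB
    simpa [(A.e i).left_inv hz] using this

/-- `f` is nowhere locally zero on `V` -/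
def NLZ (V : Set M) (f : M → ℂ) : Prop := ∀ y ∈ V, ∃ᶠ z in 𝓝 y, f z ≠ 0

theorem NLZ.mono {V W : Set M} {f : M → ℂ} (h : NLZ V f) (hW : W ⊆ V) : NLZ W f :=
  fun y hy => h y (hW hy)

theorem NLZ.freq_nhds {V : Set M} {f : M → ℂ} (h : NLZ V f) (hV : IsOpen V) (hf : HolU A V f)
    {y : M} (hy : y ∈ V) : ∃ᶠ z in 𝓝 y, z ∈ V ∧ ∀ᶠ w in 𝓝 z, f w ≠ 0 := by
  refine ((h y hy).and_eventually (hV.mem_nhds hy)).mono ?_
  rintro z ⟨hz, hzV⟩
  exact ⟨hzV, (hf.continuousAt hV hzV).eventually_ne hz⟩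

theorem NLZ.mul {V : Set M} {f g : M → ℂ} (h : NLZ V f) (h' : NLZ V g) (hV : IsOpen V)
    (hf : HolU A V f) : NLZ V fun x => f x * g x := by
  intro y hy
  have h1 : ∃ᶠ z in 𝓝 y, (∀ᶠ u in 𝓝 z, f u ≠ 0) ∧ ∃ᶠ u in 𝓝 z, g u ≠ 0 :=
    (h.freq_nhds hV hf hy).mono fun z hz => ⟨hz.2, h' z hz.1⟩
  exact (freq_and h1).mono fun z hz => mul_ne_zero hz.1 hz.2

/-- dichotomy on a small neighbourhood -/
theorem nlz_or {x : M} {U : Set M} (hU : U ∈ 𝓝 x) :
    ∃ V ⊆ U, IsOpen V ∧ x ∈ V ∧ ∀ f : M → ℂ, HolU A V f → (∀ z ∈ V, f z = 0) ∨ NLZ V f := by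
  obtain ⟨V, hVU, hVo, hxV, hV⟩ := exists_ball (A := A) hU
  refine ⟨V, hVU, hVo, hxV, fun f hf => ?_⟩
  by_cases h : ∃ y ∈ V, ∀ᶠ z in 𝓝 y, f z = 0
  · exact Or.inl (hV f hf h)
  · right
    push Not at h
    exact h

/-! ### meromorphic functions -/

/-- `f` is locally a quotient of holomorphic functions -/
def IsMer (A : Atl n M) (f : M → ℂ) : Prop :=
  ∀ x, ∃ V, IsOpen V ∧ x ∈ V ∧ ∃ p q : M → ℂ, HolU A V p ∧ HolU A V q ∧ NLZ V q ∧
    ∀ y ∈ V, q y ≠ 0 → f y * q y = p y

theorem isMer_of_holU {f : M → ℂ} (h : HolU A univ f) : IsMer A f := fun _ =>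
  ⟨univ, isOpen_univ, trivial, f, fun _ => 1, h, HolU.const 1,
    fun _ _ => (Eventually.of_forall fun _ => one_ne_zero).frequently, fun _ _ _ => mul_one _⟩

theorem isMer_const (c : ℂ) : IsMer A fun _ => c := isMer_of_holU (HolU.const c)

theorem IsMer.add {f g : M → ℂ} (hf : IsMer A f) (hg : IsMer A g) :
    IsMer A fun x => f x + g x := by
  intro x
  obtain ⟨V, hV, hxV, p, q, hp, hq, hq0, he⟩ := hf x
  obtain ⟨V', hV', hxV', p', q', hp', hq', hq0', he'⟩ := hg x
  refine ⟨V ∩ V', hV.inter hV', ⟨hxV, hxV'⟩, fun y => p y * q' y + p' y * q y,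
    fun y => q y * q' y, ?_, ?_, ?_, ?_⟩
  · exact ((hp.mono inter_subset_left).mul (hq'.mono inter_subset_right)).add
      ((hp'.mono inter_subset_right).mul (hq.mono inter_subset_left))
  · exact (hq.mono inter_subset_left).mul (hq'.mono inter_subset_right)
  · exact NLZ.mul (hq0.mono inter_subset_left) (hq0'.mono inter_subset_right) (hV.inter hV')
      (hq.mono inter_subset_left)
  · intro y hy h0
    have h1 := he y hy.1 (left_ne_zero_of_mul h0)
    have h2 := he' y hy.2 (right_ne_zero_of_mul h0)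
    beta_reduce
    rw [← h1, ← h2]; ring

theorem IsMer.mul {f g : M → ℂ} (hf : IsMer A f) (hg : IsMer A g) :
    IsMer A fun x => f x * g x := by
  intro x
  obtain ⟨V, hV, hxV, p, q, hp, hq, hq0, he⟩ := hf x
  obtain ⟨V', hV', hxV', p', q', hp', hq', hq0', he'⟩ := hg x
  refine ⟨V ∩ V', hV.inter hV', ⟨hxV, hxV'⟩, fun y => p y * p' y,
    fun y => q y * q' y, ?_, ?_, ?_, ?_⟩
  · exact (hp.mono inter_subset_left).mul (hp'.mono inter_subset_right)
  · exact (hq.mono inter_subset_left).mul (hq'.mono inter_subset_right)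
  · exact NLZ.mul (hq0.mono inter_subset_left) (hq0'.mono inter_subset_right) (hV.inter hV')
      (hq.mono inter_subset_left)
  · intro y hy h0
    have h1 := he y hy.1 (left_ne_zero_of_mul h0)
    have h2 := he' y hy.2 (right_ne_zero_of_mul h0)
    beta_reduce
    rw [← h1, ← h2]; ring

theorem IsMer.neg {f : M → ℂ} (hf : IsMer A f) : IsMer A fun x => - f x := by
  have := (isMer_const (A := A) (-1)).mul hf
  simpa using this

/-- zero near a point or nonzero on a dense open subset of a neighbourhood -/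
theorem IsMer.dich {f : M → ℂ} (hf : IsMer A f) (x : M) : ∃ V, IsOpen V ∧ x ∈ V ∧
    ((∀ y ∈ V, ∃ᶠ z in 𝓝 y, ∀ᶠ w in 𝓝 z, f w = 0) ∨
      ∀ y ∈ V, ∃ᶠ z in 𝓝 y, ∀ᶠ w in 𝓝 z, f w ≠ 0) := by
  obtain ⟨U, hU, hxU, p, q, hp, hq, hq0, he⟩ := hf x
  obtain ⟨V, hVU, hVo, hxV, hV⟩ := nlz_or (A := A) (hU.mem_nhds hxU)
  refine ⟨V, hVo, hxV, ?_⟩
  rcases hV p (hp.mono hVU) with h | h
  · left
    intro y hy
    refine ((hq0.mono hVU).freq_nhds hVo (hq.mono hVU) hy).mono ?_
    rintro z ⟨hzV, hz⟩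
    filter_upwards [hz, hVo.mem_nhds hzV] with w hw hwV
    have := he w (hVU hwV) hw
    rw [h w hwV] at this
    exact (mul_eq_zero.1 this).resolve_right hw
  · right
    intro y hy
    have h1 := h.mul (hq0.mono hVU) hVo (hp.mono hVU)
    refine (h1.freq_nhds hVo ((hp.mono hVU).mul (hq.mono hVU)) hy).mono ?_
    rintro z ⟨hzV, hz⟩
    filter_upwards [hz, hVo.mem_nhds hzV] with w hw hwV h0
    have := he w (hVU hwV) (right_ne_zero_of_mul hw)
    rw [h0, zero_mul] at this
    exact left_ne_zero_of_mul hw this.symm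

/-- a meromorphic function on a connected manifold is zero densely or nonzero densely -/
theorem IsMer.zero_or [PreconnectedSpace M] {f : M → ℂ} (hf : IsMer A f) :
    {x | f x = 0} ∈ dn M ∨ {x | f x ≠ 0} ∈ dn M := by
  set Z : Set M := {x | ∀ᶠ y in 𝓝 x, ∃ᶠ z in 𝓝 y, ∀ᶠ w in 𝓝 z, f w = 0} with hZ
  have hop : IsOpen Z := by
    rw [isOpen_iff_mem_nhds]
    intro x hx
    exact eventually_eventually_nhds.2 hx
  have key : ∀ x, (∃ᶠ y in 𝓝 x, ∀ᶠ w in 𝓝 y, f w = 0) → x ∈ Z := by
    intro x hx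
    obtain ⟨V, hVo, hxV, h⟩ := hf.dich x
    rcases h with h | h
    · exact Filter.mem_of_superset (hVo.mem_nhds hxV) h
    · exfalso
      obtain ⟨y, hy, hyV⟩ := (hx.and_eventually (hVo.mem_nhds hxV)).exists
      have h2 := (h y hyV).and_eventually (eventually_eventually_nhds.2 hy)
      obtain ⟨z, hz1, hz2⟩ := h2.exists
      exact hz1.self_of_nhds hz2.self_of_nhds
  have hcl : IsClosed Z := by
    rw [← closure_subset_iff_isClosed]
    intro x hx
    apply key
    rw [mem_closure_iff_frequently] at hx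
    refine frequently_frequently_nhds.1 (hx.mono fun y hy => ?_)
    exact hy.self_of_nhds
  rcases isClopen_iff.1 ⟨hcl, hop⟩ with h | h
  · right
    rw [mem_dn]
    intro x
    obtain ⟨V, hVo, hxV, h'⟩ := hf.dich x
    rcases h' with h' | h'
    · exfalso
      have : x ∈ Z := Filter.mem_of_superset (hVo.mem_nhds hxV) h'
      rw [h] at this
      exact this
    · exact h' x hxV
  · left
    rw [mem_dn]
    intro x
    have : x ∈ Z := by rw [h]; trivial
    exact this.self_of_nhds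

theorem IsMer.inv {f : M → ℂ} (hf : IsMer A f) :
    IsMer A fun x => (f x)⁻¹ := by
  intro x
  obtain ⟨U, hU, hxU, p, q, hp, hq, hq0, he⟩ := hf x
  obtain ⟨V, hVU, hVo, hxV, hV⟩ := nlz_or (A := A) (hU.mem_nhds hxU)
  rcases hV p (hp.mono hVU) with h | h
  · refine ⟨V, hVo, hxV, fun _ => 0, q, HolU.const 0, hq.mono hVU, hq0.mono hVU, ?_⟩
    intro y hy h0
    have := he y (hVU hy) h0
    rw [h y hy] at this
    beta_reduce
    rw [(mul_eq_zero.1 this).resolve_right h0]
    simp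
  · refine ⟨V, hVo, hxV, fun y => q y * q y, fun y => p y * q y,
      (hq.mono hVU).mul (hq.mono hVU), (hp.mono hVU).mul (hq.mono hVU),
      h.mul (hq0.mono hVU) hVo (hp.mono hVU), ?_⟩
    intro y hy h0
    have h1 := he y (hVU hy) (right_ne_zero_of_mul h0)
    have h2 : f y ≠ 0 := fun h3 => left_ne_zero_of_mul h0 (by rw [← h1, h3, zero_mul])
    beta_reduce
    rw [← h1]
    field_simp

/-! ### the field -/

/-- the ring of germs of meromorphic functions -/
def MerS (A : Atl n M) : Subring ((dn M).Germ ℂ) where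
  carrier := {g | ∃ f : M → ℂ, IsMer A f ∧ (f : (dn M).Germ ℂ) = g}
  mul_mem' := by
    rintro _ _ ⟨f, hf, rfl⟩ ⟨g, hg, rfl⟩
    exact ⟨_, hf.mul hg, rfl⟩
  one_mem' := ⟨_, isMer_const 1, rfl⟩
  add_mem' := by
    rintro _ _ ⟨f, hf, rfl⟩ ⟨g, hg, rfl⟩
    exact ⟨_, hf.add hg, rfl⟩
  zero_mem' := ⟨_, isMer_const 0, rfl⟩
  neg_mem' := by
    rintro _ ⟨f, hf, rfl⟩
    exact ⟨_, hf.neg, rfl⟩

/-- meromorphic functions on `M` -/
def Mer (A : Atl n M) : Type := MerS A

instance : CommRing (Mer A) := inferInstanceAs (CommRing (MerS A))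

/-- the class of a meromorphic function -/
def mk (f : M → ℂ) (hf : IsMer A f) : Mer A := ⟨(f : (dn M).Germ ℂ), f, hf, rfl⟩

/-- a representative -/
def rep (g : Mer A) : M → ℂ := Classical.choose g.2

theorem rep_mer (g : Mer A) : IsMer A (rep g) := (Classical.choose_spec g.2).1

theorem rep_coe (g : Mer A) : ((rep g : M → ℂ) : (dn M).Germ ℂ) = g.1 :=
  (Classical.choose_spec g.2).2

theorem mk_rep (g : Mer A) : mk (rep g) (rep_mer g) = g := Subtype.ext (rep_coe g)

theorem mk_eq {f g : M → ℂ} (hf : IsMer A f) (hg : IsMer A g) :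
    mk f hf = mk g hg ↔ {x | f x = g x} ∈ dn M := by
  constructor
  · intro h
    exact Germ.coe_eq.1 (congrArg Subtype.val h)
  · intro h
    exact Subtype.ext (Germ.coe_eq.2 h)

theorem exists_mk (g : Mer A) : ∃ (f : M → ℂ) (hf : IsMer A f), g = mk f hf :=
  ⟨rep g, rep_mer g, (mk_rep g).symm⟩

theorem mk_add {f g : M → ℂ} (hf : IsMer A f) (hg : IsMer A g) :
    mk f hf + mk g hg = mk _ (hf.add hg) := rfl

theorem mk_mul {f g : M → ℂ} (hf : IsMer A f) (hg : IsMer A g) :
    mk f hf * mk g hg = mk _ (hf.mul hg) := rfl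


/-- constants -/
def cst : ℂ →+* Mer A where
  toFun c := mk (fun _ => c) (isMer_const c)
  map_one' := rfl
  map_mul' _ _ := rfl
  map_zero' := rfl
  map_add' _ _ := rfl

instance : Algebra ℂ (Mer A) := (cst (A := A)).toAlgebra

theorem algebraMap_eq (c : ℂ) : algebraMap ℂ (Mer A) c = mk (fun _ => c) (isMer_const c) := rfl

theorem mk_zero : (0 : Mer A) = mk (fun _ => 0) (isMer_const 0) := rfl
theorem mk_one : (1 : Mer A) = mk (fun _ => 1) (isMer_const 1) := rfl

theorem mk_eq_zero {f : M → ℂ} (hf : IsMer A f) : mk f hf = 0 ↔ {x | f x = 0} ∈ dn M := by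
  rw [mk_zero, mk_eq]

theorem mk_ne_zero [PreconnectedSpace M] [Nonempty M] {f : M → ℂ} (hf : IsMer A f) :
    mk f hf ≠ 0 ↔ {x | f x ≠ 0} ∈ dn M := by
  rw [Ne, mk_eq_zero]
  constructor
  · intro h
    exact hf.zero_or.resolve_left h
  · intro h h'
    have := inter_mem h h'
    have hne := dn_neBot (M := M)
    obtain ⟨x, hx⟩ := hne.nonempty_of_mem this
    exact hx.1 hx.2

/-- inverse -/
def minv (g : Mer A) : Mer A :=
  ⟨g.1⁻¹, by
    obtain ⟨f, hf, h⟩ := g.2
    exact ⟨_, hf.inv, by rw [← h]; rfl⟩⟩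

theorem minv_mk {f : M → ℂ} (hf : IsMer A f) :
    minv (mk f hf) = mk _ hf.inv := rfl

instance [ConnectedSpace M] : Field (Mer A) where
  inv := minv
  exists_pair_ne := ⟨0, 1, by
    intro h
    rw [mk_zero, mk_one, mk_eq] at h
    have hne := dn_neBot (M := M)
    obtain ⟨x, hx⟩ := hne.nonempty_of_mem h
    exact zero_ne_one (hx : (0 : ℂ) = 1)⟩
  mul_inv_cancel := by
    intro g hg
    obtain ⟨f, hf, rfl⟩ := exists_mk g
    have h1 := (mk_ne_zero hf).1 hg
    show mk f hf * minv (mk f hf) = 1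
    rw [minv_mk, mk_mul, mk_one, mk_eq]
    exact Filter.mem_of_superset h1 fun x hx => mul_inv_cancel₀ hx
  inv_zero := by
    show minv (mk (fun _ => 0) (isMer_const 0)) = mk (fun _ => 0) (isMer_const 0)
    rw [minv_mk, mk_eq]
    simp
  nnqsmul := _
  nnqsmul_def := fun _ _ => rfl
  qsmul := _
  qsmul_def := fun _ _ => rfl

theorem mk_inv [ConnectedSpace M] {f : M → ℂ} (hf : IsMer A f) :
    (mk f hf)⁻¹ = mk _ hf.inv := rfl

end

end Crest.Agent.R273.Mer769
end

-- ▼ part R273/MerB_769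
section

/-!
# R273, leaf A-MER (helper769): regular points and values of meromorphic functions

* `RegAt f x F`   : `F` is holomorphic near `x` and `f = F` densely near `x`
* `reg g`, `ev g` : regular points and values of `g : Mer A`
-/

set_option autoImplicit false
set_option linter.unusedSectionVars false

open Set Filter Topology Complex
open scoped ContDiff Matrix ComplexConjugate

namespace Crest.Agent.R273.Mer769

open Crest.Agent.R275.Geo Crest.Agent.R275.Core144 Crest.Agent.R275.GC293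
open Crest.Agent.R273.Cic769 Crest.Agent.R273.Rigid769

noncomputable section

variable {n : ℕ} {M : Type} [TopologicalSpace M] {A : Atl n M}

/-- `F` is holomorphic near `x` and `f = F` on a dense open subset of a neighbourhood of `x` -/
def RegAt (A : Atl n M) (f : M → ℂ) (x : M) (F : M → ℂ) : Prop :=
  ∃ V, IsOpen V ∧ x ∈ V ∧ HolU A V F ∧ {y | y ∈ V → f y = F y} ∈ dn M

namespace RegAt

variable {f g F G : M → ℂ} {x : M}

theorem congr_left (h : RegAt A f x F) (hfg : {y | f y = g y} ∈ dn M) : RegAt A g x F := by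
  obtain ⟨V, hV, hx, hF, he⟩ := h
  refine ⟨V, hV, hx, hF, ?_⟩
  filter_upwards [he, hfg] with y hy hy' hyV
  rw [← hy', hy hyV]

theorem add (h : RegAt A f x F) (h' : RegAt A g x G) :
    RegAt A (fun y => f y + g y) x fun y => F y + G y := by
  obtain ⟨V, hV, hx, hF, he⟩ := h
  obtain ⟨W, hW, hxW, hG, he'⟩ := h'
  refine ⟨V ∩ W, hV.inter hW, ⟨hx, hxW⟩, (hF.mono inter_subset_left).add
    (hG.mono inter_subset_right), ?_⟩
  filter_upwards [he, he'] with y hy hy' hyV
  rw [hy hyV.1, hy' hyV.2]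

theorem mul (h : RegAt A f x F) (h' : RegAt A g x G) :
    RegAt A (fun y => f y * g y) x fun y => F y * G y := by
  obtain ⟨V, hV, hx, hF, he⟩ := h
  obtain ⟨W, hW, hxW, hG, he'⟩ := h'
  refine ⟨V ∩ W, hV.inter hW, ⟨hx, hxW⟩, (hF.mono inter_subset_left).mul
    (hG.mono inter_subset_right), ?_⟩
  filter_upwards [he, he'] with y hy hy' hyV
  rw [hy hyV.1, hy' hyV.2]

theorem inv (h : RegAt A f x F) (h0 : F x ≠ 0) : RegAt A (fun y => (f y)⁻¹) x fun y => (F y)⁻¹ := by
  obtain ⟨V, hV, hx, hF, he⟩ := h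
  refine ⟨V ∩ {y | F y ≠ 0}, hF.isOpen_ne hV, ⟨hx, h0⟩, (hF.mono inter_subset_left).inv
    fun y hy => hy.2, ?_⟩
  filter_upwards [he] with y hy hyV
  rw [hy hyV.1]

theorem const (c : ℂ) : RegAt A (fun _ => c) x fun _ => c :=
  ⟨univ, isOpen_univ, trivial, HolU.const c, by simp⟩

/-- uniqueness of the value -/
theorem unique (h : RegAt A f x F) (h' : RegAt A f x G) : F x = G x := by
  obtain ⟨V, hV, hx, hF, he⟩ := h
  obtain ⟨W, hW, hxW, hG, he'⟩ := h'
  have hc : ContinuousAt (fun y => F y - G y) x :=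
    (hF.continuousAt hV hx).sub (hG.continuousAt hW hxW)
  by_contra hne
  have h1 : ∀ᶠ y in 𝓝 x, F y - G y ≠ 0 := hc.eventually_ne (sub_ne_zero.2 hne)
  have h2 := mem_dn.1 (inter_mem he he') x
  have hVx : ∀ᶠ y in 𝓝 x, y ∈ V := hV.mem_nhds hx
  have hWx : ∀ᶠ y in 𝓝 x, y ∈ W := hW.mem_nhds hxW
  obtain ⟨y, hy1, hy2, hy3, hy4⟩ := (h2.and_eventually (h1.and (hVx.and hWx))).exists
  have hy5 := mem_of_mem_nhds hy1
  refine hy2 ?_
  rw [← hy5.1 hy3, hy5.2 hy4, sub_self]

end RegAt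

open Classical in
/-- the value of `f` at `x` (zero if `f` is not regular at `x`) -/
def evF (A : Atl n M) (f : M → ℂ) (x : M) : ℂ :=
  if h : ∃ F, RegAt A f x F then Classical.choose h x else 0

theorem RegAt.evF_eq {f F : M → ℂ} {x : M} (h : RegAt A f x F) : evF A f x = F x := by
  have hex : ∃ F, RegAt A f x F := ⟨F, h⟩
  unfold evF
  rw [dif_pos hex]
  exact (Classical.choose_spec hex).unique h

theorem RegAt.self {f F : M → ℂ} {x : M} (h : RegAt A f x F) : RegAt A f x (evF A f) := by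
  obtain ⟨V, hV, hx, hF, he⟩ := h
  have h1 : ∀ y ∈ V, evF A f y = F y := fun y hy => RegAt.evF_eq ⟨V, hV, hy, hF, he⟩
  refine ⟨V, hV, hx, hF.congr fun y hy => (h1 y hy).symm, ?_⟩
  filter_upwards [he] with y hy hyV
  rw [hy hyV, h1 y hyV]

theorem evF_congr {f g : M → ℂ} (h : {y | f y = g y} ∈ dn M) : evF A f = evF A g := by
  funext x
  by_cases hex : ∃ F, RegAt A f x F
  · obtain ⟨F, hF⟩ := hex
    rw [hF.evF_eq, (hF.congr_left h).evF_eq]
  · have hex' : ¬ ∃ F, RegAt A g x F := by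
      rintro ⟨F, hF⟩
      exact hex ⟨F, hF.congr_left (by filter_upwards [h] with y hy using hy.symm)⟩
    unfold evF
    rw [dif_neg hex, dif_neg hex']

/-- regular points of `f` -/
def regF (A : Atl n M) (f : M → ℂ) : Set M := {x | ∃ F, RegAt A f x F}

theorem regF_congr {f g : M → ℂ} (h : {y | f y = g y} ∈ dn M) : regF A f = regF A g := by
  have h' : {y | g y = f y} ∈ dn M := by filter_upwards [h] with y hy using hy.symm
  ext x
  exact ⟨fun ⟨F, hF⟩ => ⟨F, hF.congr_left h⟩, fun ⟨F, hF⟩ => ⟨F, hF.congr_left h'⟩⟩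

theorem isOpen_regF (f : M → ℂ) : IsOpen (regF A f) := by
  rw [isOpen_iff_mem_nhds]
  rintro x ⟨F, V, hV, hx, hF, he⟩
  exact Filter.mem_of_superset (hV.mem_nhds hx) fun y hy => ⟨F, V, hV, hy, hF, he⟩

theorem IsMer.dn_regF {f : M → ℂ} (hf : IsMer A f) : regF A f ∈ dn M := by
  rw [mem_dn]
  intro x
  obtain ⟨U, hU, hxU, p, q, hp, hq, hq0, he⟩ := hf x
  refine (hq0.freq_nhds hU hq hxU).mono ?_
  rintro y ⟨hyU, hy⟩
  refine (isOpen_regF f).mem_nhds ⟨fun z => p z / q z, U ∩ {z | q z ≠ 0}, hq.isOpen_ne hU,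
    ⟨hyU, hy.self_of_nhds⟩, (hp.mono inter_subset_left).div (hq.mono inter_subset_left)
      fun z hz => hz.2, ?_⟩
  refine Filter.univ_mem' fun z => ?_
  rintro ⟨hzU, hz⟩
  rw [eq_div_iff hz]
  exact he z hzU hz

theorem IsMer.evF_eq {f : M → ℂ} (hf : IsMer A f) : {x | evF A f x = f x} ∈ dn M := by
  rw [mem_dn]
  intro x
  obtain ⟨U, hU, hxU, p, q, hp, hq, hq0, he⟩ := hf x
  refine (hq0.freq_nhds hU hq hxU).mono ?_
  rintro y ⟨hyU, hy⟩
  filter_upwards [hy, hU.mem_nhds hyU] with z hz hzU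
  have h1 : RegAt A f z fun z => p z / q z := ⟨U ∩ {z | q z ≠ 0}, hq.isOpen_ne hU,
    ⟨hzU, hz⟩, (hp.mono inter_subset_left).div (hq.mono inter_subset_left)
      fun z hz => hz.2, Filter.univ_mem' fun w => by
        rintro ⟨hwU, hw⟩
        rw [eq_div_iff hw]
        exact he w hwU hw⟩
  rw [h1.evF_eq, div_eq_iff hz]
  exact (he z hzU hz).symm

/-! ### values of elements of `Mer A` -/

/-- the value of `g` at `x` -/
def ev (g : Mer A) (x : M) : ℂ := evF A (rep g) x

/-- regular points -/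
def reg (g : Mer A) : Set M := regF A (rep g)

theorem rep_mk {f : M → ℂ} (hf : IsMer A f) : {x | rep (mk f hf) x = f x} ∈ dn M :=
  Germ.coe_eq.1 (rep_coe (mk f hf))

theorem ev_mk {f : M → ℂ} (hf : IsMer A f) : ev (mk f hf) = evF A f := evF_congr (rep_mk hf)

theorem reg_mk {f : M → ℂ} (hf : IsMer A f) : reg (mk f hf) = regF A f := regF_congr (rep_mk hf)

/-- on an open set where `f` is holomorphic all points are regular and the value is `f x` -/
theorem RegAt.of_hol {f : M → ℂ} {V : Set M} (hV : IsOpen V) (hf : HolU A V f) {x : M}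
    (hx : x ∈ V) : RegAt A f x f := ⟨V, hV, hx, hf, Filter.univ_mem' fun _ _ => rfl⟩

theorem ev_mk_of_hol {f : M → ℂ} (hf : IsMer A f) {V : Set M} (hV : IsOpen V) (h : HolU A V f)
    {x : M} (hx : x ∈ V) : x ∈ reg (mk f hf) ∧ ev (mk f hf) x = f x := by
  rw [reg_mk, ev_mk]
  exact ⟨⟨f, RegAt.of_hol hV h hx⟩, (RegAt.of_hol hV h hx).evF_eq⟩

theorem isOpen_reg (g : Mer A) : IsOpen (reg g) := isOpen_regF _

theorem dn_reg (g : Mer A) : reg g ∈ dn M := (rep_mer g).dn_regF

theorem dense_reg (g : Mer A) : Dense (reg g) := by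
  have := dn_reg g
  have h : Dense (interior (reg g)) := this
  exact h.mono interior_subset

theorem regAt_ev {g : Mer A} {x : M} (hx : x ∈ reg g) : RegAt A (rep g) x (ev g) := by
  obtain ⟨F, hF⟩ := hx
  exact hF.self


/-- the value is a holomorphic function on the regular set -/
theorem holU_ev (g : Mer A) : HolU A (reg g) (ev g) := by
  refine HolU.of_local fun x hx => ?_
  obtain ⟨V, hV, hxV, hF, -⟩ := regAt_ev hx
  exact ⟨V, hV, hxV, hF⟩

theorem ev_rep (g : Mer A) : {x | ev g x = rep g x} ∈ dn M := (rep_mer g).evF_eq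


theorem isMer_ev (g : Mer A) : IsMer A (ev g) := by
  intro x
  obtain ⟨U, hU, hxU, p, q, hp, hq, hq0, he⟩ := rep_mer g x
  refine ⟨U, hU, hxU, p, q, hp, hq, hq0, fun y hy h0 => ?_⟩
  have h1 : RegAt A (rep g) y fun z => p z / q z := ⟨U ∩ {z | q z ≠ 0}, hq.isOpen_ne hU,
    ⟨hy, h0⟩, (hp.mono inter_subset_left).div (hq.mono inter_subset_left)
      fun z hz => hz.2, Filter.univ_mem' fun w => by
        rintro ⟨hwU, hw⟩
        rw [eq_div_iff hw]
        exact he w hwU hw⟩
  show evF A (rep g) y * q y = p y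
  rw [h1.evF_eq, div_mul_cancel₀ _ h0]

theorem mk_ev (g : Mer A) : mk (ev g) (isMer_ev g) = g := by
  conv_rhs => rw [← mk_rep g]
  rw [mk_eq]
  exact ev_rep g

/-- a meromorphic function is regular where a local presentation has a nonzero denominator -/
theorem reg_of_quot {f : M → ℂ} (hf : IsMer A f) {V : Set M} (hV : IsOpen V) {p q : M → ℂ}
    (hp : HolU A V p) (hq : HolU A V q) (he : ∀ y ∈ V, q y ≠ 0 → f y * q y = p y) {x : M}
    (hx : x ∈ V) (h0 : q x ≠ 0) : x ∈ reg (mk f hf) ∧ ev (mk f hf) x = p x / q x := by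
  have h1 : RegAt A f x fun z => p z / q z := ⟨V ∩ {z | q z ≠ 0}, hq.isOpen_ne hV,
    ⟨hx, h0⟩, (hp.mono inter_subset_left).div (hq.mono inter_subset_left)
      fun z hz => hz.2, Filter.univ_mem' fun w => by
        rintro ⟨hwU, hw⟩
        rw [eq_div_iff hw]
        exact he w hwU hw⟩
  rw [reg_mk, ev_mk]
  exact ⟨⟨_, h1⟩, h1.evF_eq⟩

theorem reg_add {g h : Mer A} {x : M} (hg : x ∈ reg g) (hh : x ∈ reg h) :
    x ∈ reg (g + h) ∧ ev (g + h) x = ev g x + ev h x := by
  have h1 := (regAt_ev hg).add (regAt_ev hh)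
  have h2 : g + h = mk _ ((rep_mer g).add (rep_mer h)) := by
    rw [← mk_add (rep_mer g) (rep_mer h), mk_rep, mk_rep]
  rw [h2, reg_mk, ev_mk]
  exact ⟨⟨_, h1⟩, h1.evF_eq⟩

theorem reg_mul {g h : Mer A} {x : M} (hg : x ∈ reg g) (hh : x ∈ reg h) :
    x ∈ reg (g * h) ∧ ev (g * h) x = ev g x * ev h x := by
  have h1 := (regAt_ev hg).mul (regAt_ev hh)
  have h2 : g * h = mk _ ((rep_mer g).mul (rep_mer h)) := by
    rw [← mk_mul (rep_mer g) (rep_mer h), mk_rep, mk_rep]
  rw [h2, reg_mk, ev_mk]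
  exact ⟨⟨_, h1⟩, h1.evF_eq⟩

theorem reg_algebraMap (c : ℂ) (x : M) :
    x ∈ reg (algebraMap ℂ (Mer A) c) ∧ ev (algebraMap ℂ (Mer A) c) x = c := by
  rw [algebraMap_eq]
  exact ev_mk_of_hol _ isOpen_univ (HolU.const c) (mem_univ x)

theorem reg_inv [ConnectedSpace M] {g : Mer A} {x : M} (hg : x ∈ reg g) (h0 : ev g x ≠ 0) :
    x ∈ reg g⁻¹ ∧ ev g⁻¹ x = (ev g x)⁻¹ := by
  have h1 := (regAt_ev hg).inv h0
  have h2 : g⁻¹ = mk _ (rep_mer g).inv := by
    rw [← mk_inv (rep_mer g), mk_rep]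
  rw [h2, reg_mk, ev_mk]
  exact ⟨⟨_, h1⟩, h1.evF_eq⟩

/-- the local ring of `x` -/
def loc (A : Atl n M) (x : M) : Subalgebra ℂ (Mer A) where
  carrier := {g | x ∈ reg g}
  mul_mem' := fun hg hh => (reg_mul hg hh).1
  add_mem' := fun hg hh => (reg_add hg hh).1
  algebraMap_mem' := fun c => (reg_algebraMap c x).1

@[simp] theorem mem_loc {g : Mer A} {x : M} : g ∈ loc A x ↔ x ∈ reg g := Iff.rfl

/-- evaluation at `x`, an algebra homomorphism on the local ring -/
def evH (A : Atl n M) (x : M) : loc A x →ₐ[ℂ] ℂ where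
  toFun g := ev g.1 x
  map_one' := by
    have := (reg_algebraMap (A := A) 1 x).2
    rwa [map_one] at this
  map_mul' g h := (reg_mul g.2 h.2).2
  map_zero' := by
    have := (reg_algebraMap (A := A) 0 x).2
    rwa [map_zero] at this
  map_add' g h := (reg_add g.2 h.2).2
  commutes' c := (reg_algebraMap c x).2

@[simp] theorem evH_apply {x : M} (g : loc A x) : evH A x g = ev g.1 x := rfl

/-! ### zero test -/

theorem dn_ne [ConnectedSpace M] {g : Mer A} (h : g ≠ 0) : {x | x ∈ reg g ∧ ev g x ≠ 0} ∈ dn M := by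
  rw [← mk_rep g] at h
  have h1 := (mk_ne_zero (rep_mer g)).1 h
  filter_upwards [h1, ev_rep g, dn_reg g] with x hx hx' hx''
  exact ⟨hx'', by rw [hx']; exact hx⟩

/-- identity theorem -/
theorem eq_zero_of_freq [ConnectedSpace M] {g : Mer A} {x : M}
    (h : ∃ᶠ y in 𝓝 x, ∀ᶠ z in 𝓝 y, z ∈ reg g → ev g z = 0) : g = 0 := by
  by_contra hne
  obtain ⟨y, hy⟩ := h.exists
  obtain ⟨z, hz, hz'⟩ := (mem_dn.1 (dn_ne hne) y |>.and_eventually
    (eventually_eventually_nhds.2 hy)).exists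
  have h1 := mem_of_mem_nhds hz
  exact h1.2 (hz'.self_of_nhds h1.1)

theorem eq_zero_of_open [ConnectedSpace M] {g : Mer A} {U : Set M} (hU : IsOpen U)
    (hne : U.Nonempty) (h : ∀ x ∈ U, x ∈ reg g → ev g x = 0) : g = 0 := by
  obtain ⟨x, hx⟩ := hne
  refine eq_zero_of_freq (x := x) (Eventually.frequently ?_)
  have := hU.mem_nhds hx
  filter_upwards [eventually_eventually_nhds.2 this] with y hy
  filter_upwards [hy] with z hz
  exact h z hz

theorem eq_of_open [ConnectedSpace M] {g h : Mer A} {U : Set M} (hU : IsOpen U)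
    (hne : U.Nonempty) (he : ∀ x ∈ U, x ∈ reg g → x ∈ reg h → ev g x = ev h x) : g = h := by
  rw [← sub_eq_zero]
  have hrg : {x | x ∈ U ∧ x ∈ reg g ∧ x ∈ reg h} = U ∩ (reg g ∩ reg h) := rfl
  have ho : IsOpen (U ∩ (reg g ∩ reg h)) := hU.inter ((isOpen_reg g).inter (isOpen_reg h))
  have hn : (U ∩ (reg g ∩ reg h)).Nonempty := by
    obtain ⟨x, hxU, hx⟩ := exists_mem_of_dn (inter_mem (dn_reg g) (dn_reg h)) hU hne
    exact ⟨x, hxU, mem_of_mem_nhds hx⟩
  refine eq_zero_of_open ho hn ?_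
  rintro x ⟨hxU, hxg, hxh⟩ hx
  have h2 : g = (g - h) + h := by ring
  have h3 := (reg_add hx hxh).2
  rw [sub_add_cancel, he x hxU hxg hxh] at h3
  linear_combination -h3

/-- two elements with the same values on an open set where both are regular -/
theorem eq_iff_dn [ConnectedSpace M] {g h : Mer A} : g = h ↔ {x | ev g x = ev h x} ∈ dn M := by
  constructor
  · rintro rfl
    simp
  · intro h'
    rw [← mk_ev g, ← mk_ev h, mk_eq]
    exact h'

end

end Crest.Agent.R273.Mer769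
end

-- ▼ part R273/FFa_769
section

/-!
# R273, leaf A-FF (helper769), part 1: quotients of proportional sections, the field `FF`

* `Rel g u u'`  : `u = g u'` at the regular points of `g : Mer A`
* `exists_quo`  : two proportional sections of the same bundle, `u' ≠ 0`, have a quotient `g : Mer A`
* `tp`          : tensor product of two tensor sections
* `WW L w0 σ a` : the holomorphic sections of `(Λ^* T)^{⊗ (σ × ρ)} ⊗ L^a` proportional to `w0^{⊗ σ}`
* `FF L w0`     : the quotients of the elements of `WW L w0 σ a`; an intermediate field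
-/

set_option autoImplicit false
set_option linter.unusedSectionVars false

open Set Filter Topology Complex
open scoped ContDiff Matrix ComplexConjugate

namespace Crest.Agent.R273.FF769

open Crest.Agent.R275.Geo Crest.Agent.R275.Core144 Crest.Agent.R275.GC293
open Crest.Agent.R273.Rigid769 Crest.Agent.R273.Mer769
open Crest.Agent.R273.Cram_747 (TS KP tns tns_TS mnr)
open Crest.Agent.R273.Fock_243 (FI Gam)

noncomputable section

variable {n : ℕ} {M : Type} [TopologicalSpace M] {A : Atl n M}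

/-! ### quotients -/

/-- `u = g u'` at the regular points of `g` -/
def Rel {κ : Type*} (g : Mer A) (u u' : A.ι → M → κ → ℂ) : Prop :=
  ∀ i, ∀ x ∈ (A.e i).source, x ∈ reg g → ∀ F, u i x F = ev g x * u' i x F

section Quo

variable {κ : Type} [Fintype κ] {L : LB A} {G : A.ι → A.ι → M → Matrix κ κ ℂ}
  {u u' v v' : A.ι → M → κ → ℂ}

/-- at a point where `u' ≠ 0` the vector `u` is a multiple of `u'` -/
theorem prp_smul (hp : Prp u u') {i : A.ι} {x : M} (hx : x ∈ (A.e i).source) {F : κ}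
    (h0 : u' i x F ≠ 0) : u i x = (u i x F / u' i x F) • u' i x := by
  funext H
  have h1 := hp i x hx F H
  rw [Pi.smul_apply, smul_eq_mul, div_mul_eq_mul_div, eq_div_iff h0, ← h1]

/-- the ratio does not depend on the component and on the chart -/
theorem ratio_indep (h : IsWS L G u) (h' : IsWS L G u') (hp : Prp u u') {i j : A.ι} {x : M}
    (hi : x ∈ (A.e i).source) (hj : x ∈ (A.e j).source) {F H : κ} (h0 : u' i x F ≠ 0)
    (h1 : u' j x H ≠ 0) : u j x H / u' j x H = u i x F / u' i x F := by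
  have h2 := prp_smul hp hi h0
  set c := u i x F / u' i x F with hc
  have h3 : u j x = c • u' j x := by
    rw [h.tr j i x ⟨hj, hi⟩, h'.tr j i x ⟨hj, hi⟩, h2, Matrix.mulVec_smul, smul_comm]
  rw [h3, Pi.smul_apply, smul_eq_mul, mul_div_assoc, div_self h1, mul_one]

open Classical in
/-- the quotient as a function -/
def quoF (u u' : A.ι → M → κ → ℂ) (x : M) : ℂ :=
  if h : ∃ p : A.ι × κ, x ∈ (A.e p.1).source ∧ u' p.1 x p.2 ≠ 0 then
    u (Classical.choose h).1 x (Classical.choose h).2 /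
      u' (Classical.choose h).1 x (Classical.choose h).2 else 0

theorem quoF_eq (h : IsWS L G u) (h' : IsWS L G u') (hp : Prp u u') {i : A.ι} {x : M}
    (hi : x ∈ (A.e i).source) {F : κ} (h0 : u' i x F ≠ 0) :
    quoF u u' x = u i x F / u' i x F := by
  have hex : ∃ p : A.ι × κ, x ∈ (A.e p.1).source ∧ u' p.1 x p.2 ≠ 0 := ⟨(i, F), hi, h0⟩
  unfold quoF
  rw [dif_pos hex]
  exact ratio_indep h h' hp hi (Classical.choose_spec hex).1 h0 (Classical.choose_spec hex).2

/-- a section which is not identically zero has near every point a component which is nowhere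
locally zero -/
theorem exists_comp_nlz [PreconnectedSpace M] (h' : IsWS L G u') (h0 : NZ u') {i : A.ι} {x : M}
    (hi : x ∈ (A.e i).source) : ∃ V ⊆ (A.e i).source, IsOpen V ∧ x ∈ V ∧
      ∃ F, NLZ V fun y => u' i y F := by
  obtain ⟨V, hVU, hVo, hxV, hV⟩ := nlz_or (A := A) ((A.e i).open_source.mem_nhds hi)
  refine ⟨V, hVU, hVo, hxV, ?_⟩
  by_contra hcon
  push Not at hcon
  have h1 : ∀ F, ∀ y ∈ V, u' i y F = 0 := by
    intro F
    have hh : HolU A V fun y => u' i y F := holU_of_holAt hVo hVU ((h'.hol i F).mono (subset_univ _))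
    exact (hV _ hh).resolve_right (hcon F)
  have h2 := nlz h' h0 i hi
  refine h2 ?_
  filter_upwards [hVo.mem_nhds hxV] with y hy hne
  exact hne (funext fun F => h1 F y hy)

theorem isMer_quoF [PreconnectedSpace M] (h : IsWS L G u) (h' : IsWS L G u') (hp : Prp u u')
    (h0 : NZ u') : IsMer A (quoF u u') := by
  intro x
  obtain ⟨i, hi⟩ := A.cover x
  obtain ⟨V, hVs, hVo, hxV, F, hF⟩ := exists_comp_nlz h' h0 hi
  refine ⟨V, hVo, hxV, fun y => u i y F, fun y => u' i y F,
    holU_of_holAt hVo hVs ((h.hol i F).mono (subset_univ _)),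
    holU_of_holAt hVo hVs ((h'.hol i F).mono (subset_univ _)), hF, fun y hy hne => ?_⟩
  rw [quoF_eq h h' hp (hVs hy) hne, div_mul_cancel₀ _ hne]

/-- the quotient as an element of `Mer A` -/
def quo [PreconnectedSpace M] (h : IsWS L G u) (h' : IsWS L G u') (hp : Prp u u')
    (h0 : NZ u') : Mer A := mk (quoF u u') (isMer_quoF h h' hp h0)

/-- where `u' ≠ 0` the quotient is regular -/
theorem quo_reg [PreconnectedSpace M] (h : IsWS L G u) (h' : IsWS L G u') (hp : Prp u u')
    (h0 : NZ u') {i : A.ι} {x : M} (hi : x ∈ (A.e i).source) {F : κ} (hne : u' i x F ≠ 0) :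
    x ∈ reg (quo h h' hp h0) ∧ ev (quo h h' hp h0) x = u i x F / u' i x F := by
  refine reg_of_quot (isMer_quoF h h' hp h0) (A.e i).open_source (p := fun y => u i y F)
    (q := fun y => u' i y F) ?_ ?_ ?_ hi hne
  · exact holU_of_holAt (A.e i).open_source subset_rfl ((h.hol i F).mono (subset_univ _))
  · exact holU_of_holAt (A.e i).open_source subset_rfl ((h'.hol i F).mono (subset_univ _))
  · intro y hy hne
    rw [quoF_eq h h' hp hy hne, div_mul_cancel₀ _ hne]

theorem quo_rel [PreconnectedSpace M] (h : IsWS L G u) (h' : IsWS L G u') (hp : Prp u u')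
    (h0 : NZ u') : Rel (quo h h' hp h0) u u' := by
  intro i x hi hx F
  set g := quo h h' hp h0 with hg
  -- both sides are continuous at `x`, equality holds where `u' ≠ 0`
  have hc : ContinuousAt (fun y => u i y F - ev g y * u' i y F) x := by
    have h1 : ContinuousAt (fun y => u i y F) x :=
      (holU_of_holAt (A.e i).open_source subset_rfl
        ((h.hol i F).mono (subset_univ _))).continuousAt (A.e i).open_source hi
    have h2 : ContinuousAt (fun y => u' i y F) x :=
      (holU_of_holAt (A.e i).open_source subset_rfl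
        ((h'.hol i F).mono (subset_univ _))).continuousAt (A.e i).open_source hi
    exact h1.sub (((holU_ev g).continuousAt (isOpen_reg g) hx).mul h2)
  have hfr : ∃ᶠ y in 𝓝 x, u i y F - ev g y * u' i y F = 0 := by
    refine ((nlz h' h0 i hi).and_eventually ((A.e i).open_source.mem_nhds hi)).mono ?_
    rintro y ⟨hy, hys⟩
    obtain ⟨H, hH⟩ := Function.ne_iff.1 hy
    have h3 := (quo_reg h h' hp h0 hys hH).2
    rw [← hg] at h3
    rw [h3]
    have h4 := congrFun (prp_smul hp hys hH) F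
    rw [Pi.smul_apply, smul_eq_mul] at h4
    rw [h4, sub_self]
  have h5 : u i x F - ev g x * u' i x F = 0 := by
    by_contra hne
    exact hfr ((hc.eventually_ne hne).mono fun y hy h => hy h)
  exact sub_eq_zero.1 h5

theorem Rel.reg_ev [ConnectedSpace M] (h : IsWS L G u) (h' : IsWS L G u')
    {g : Mer A} (hg : Rel g u u') {i : A.ι} {x : M} (hi : x ∈ (A.e i).source) {F : κ}
    (hne : u' i x F ≠ 0) : x ∈ reg g ∧ ev g x = u i x F / u' i x F := by
  -- `g` is represented by its own values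
  have h1 : {y | y ∈ (A.e i).source → rep g y * u' i y F = u i y F} ∈ dn M := by
    filter_upwards [ev_rep g, dn_reg g] with y hy hyr hys
    rw [← hy, ← hg i y hys hyr F]
  have hu : HolU A (A.e i).source fun y => u i y F :=
    holU_of_holAt (A.e i).open_source subset_rfl ((h.hol i F).mono (subset_univ _))
  have hu' : HolU A (A.e i).source fun y => u' i y F :=
    holU_of_holAt (A.e i).open_source subset_rfl ((h'.hol i F).mono (subset_univ _))
  have h2 : RegAt A (rep g) x fun y => u i y F / u' i y F := by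
    refine ⟨(A.e i).source ∩ {y | u' i y F ≠ 0}, hu'.isOpen_ne (A.e i).open_source, ⟨hi, hne⟩,
      (hu.mono inter_subset_left).div (hu'.mono inter_subset_left) fun y hy => hy.2, ?_⟩
    filter_upwards [h1] with y hy hyV
    rw [eq_div_iff hyV.2]
    exact hy hyV.1
  exact ⟨⟨_, h2⟩, h2.evF_eq⟩

/-- uniqueness of the quotient -/
theorem Rel.unique [ConnectedSpace M] {κ : Type*} {u u' : A.ι → M → κ → ℂ} (h0 : ∀ i, ∀ x ∈ (A.e i).source, ∃ᶠ y in 𝓝 x, u' i y ≠ 0)
    {g g' : Mer A} (hg : Rel g u u') (hg' : Rel g' u u') : g = g' := by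
  rw [eq_iff_dn, mem_dn]
  intro x
  -- a point near `x`, regular for both
  have h1 := mem_dn.1 (inter_mem (dn_reg g) (dn_reg g')) x
  refine h1.mono fun y hy => ?_
  obtain ⟨i, hi⟩ := A.cover y
  filter_upwards [hy, (A.e i).open_source.mem_nhds hi, eventually_eventually_nhds.2 hy] with z hz hzi hze
  -- continuity at `z`
  have hc : ContinuousAt (fun w => ev g w - ev g' w) z :=
    ((holU_ev g).continuousAt (isOpen_reg g) hz.1).sub
      ((holU_ev g').continuousAt (isOpen_reg g') hz.2)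
  have hfr : ∃ᶠ w in 𝓝 z, ev g w - ev g' w = 0 := by
    refine (((h0 i z hzi).and_eventually ((A.e i).open_source.mem_nhds hzi)).and_eventually
      hze).mono ?_
    rintro w ⟨⟨hw, hwi⟩, hwr⟩
    obtain ⟨F, hF⟩ := Function.ne_iff.1 hw
    have h2 := hg i w hwi hwr.1 F
    have h3 := hg' i w hwi hwr.2 F
    rw [h2] at h3
    exact sub_eq_zero.2 (mul_right_cancel₀ hF h3)
  have h5 : ev g z - ev g' z = 0 := by
    by_contra hne
    exact hfr ((hc.eventually_ne hne).mono fun w hw h => hw h)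
  exact sub_eq_zero.1 h5

end Quo

/-! ### calculus of `Rel` -/

section RelCalc

variable {κ κ' : Type*} {u u' v v' : A.ι → M → κ → ℂ}

theorem rel_algebraMap (c : ℂ) (u : A.ι → M → κ → ℂ) :
    Rel (algebraMap ℂ (Mer A) c) (c • u) u := by
  intro i x _ _ F
  rw [(reg_algebraMap c x).2]
  rfl

/-- `Rel` may be checked on a dense open set, for continuous families -/
theorem rel_of_dn {g : Mer A} {u u' : A.ι → M → κ → ℂ}
    (hu : ∀ i F, ∀ x ∈ (A.e i).source, ContinuousAt (fun y => u i y F) x)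
    (hu' : ∀ i F, ∀ x ∈ (A.e i).source, ContinuousAt (fun y => u' i y F) x)
    (h : {x | ∀ i, x ∈ (A.e i).source → x ∈ reg g → ∀ F, u i x F = ev g x * u' i x F} ∈ dn M) :
    Rel g u u' := by
  intro i x hi hx F
  have hc : ContinuousAt (fun y => u i y F - ev g y * u' i y F) x :=
    (hu i F x hi).sub (((holU_ev g).continuousAt (isOpen_reg g) hx).mul (hu' i F x hi))
  have hfr : ∃ᶠ y in 𝓝 x, u i y F - ev g y * u' i y F = 0 := by
    have e1 : ∀ᶠ y in 𝓝 x, y ∈ (A.e i).source := (A.e i).open_source.mem_nhds hi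
    have e2 : ∀ᶠ y in 𝓝 x, y ∈ reg g := (isOpen_reg g).mem_nhds hx
    refine ((mem_dn.1 h x).and_eventually (e1.and e2)).mono ?_
    rintro y ⟨hy, hyi, hyr⟩
    have := mem_of_mem_nhds hy i hyi hyr F
    rw [this, sub_self]
  have h5 : u i x F - ev g x * u' i x F = 0 := by
    by_contra hne
    exact hfr ((hc.eventually_ne hne).mono fun y hy h => hy h)
  exact sub_eq_zero.1 h5

end RelCalc

/-! ### tensor products -/

section TP

variable {ρ σ σ' : Type}

/-- tensor product of two tensor sections -/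
def tp (τ : A.ι → M → (σ × ρ → FI n) → ℂ) (τ' : A.ι → M → (σ' × ρ → FI n) → ℂ) :
    A.ι → M → ((σ ⊕ σ') × ρ → FI n) → ℂ := fun i x F =>
  τ i x (fun p => F (Sum.inl p.1, p.2)) * τ' i x (fun p => F (Sum.inr p.1, p.2))

/-- index tuples on `(σ ⊕ σ') × ρ` -/
def eqv (κ : Type) (σ σ' ρ : Type) :
    ((σ ⊕ σ') × ρ → κ) ≃ (σ × ρ → κ) × (σ' × ρ → κ) where
  toFun F := (fun p => F (Sum.inl p.1, p.2), fun p => F (Sum.inr p.1, p.2))
  invFun q := fun p => Sum.elim (fun s => q.1 (s, p.2)) (fun s => q.2 (s, p.2)) p.1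
  left_inv F := by
    funext p
    obtain ⟨s, r⟩ := p
    cases s <;> rfl
  right_inv q := rfl

theorem tp_eqv (τ : A.ι → M → (σ × ρ → FI n) → ℂ) (τ' : A.ι → M → (σ' × ρ → FI n) → ℂ)
    (i : A.ι) (x : M) (q : (σ × ρ → FI n) × (σ' × ρ → FI n)) :
    tp τ τ' i x ((eqv (FI n) σ σ' ρ).symm q) = τ i x q.1 * τ' i x q.2 := rfl

variable [Fintype ρ] [DecidableEq ρ] [Fintype σ] [DecidableEq σ] [Fintype σ'] [DecidableEq σ']
  {N N' : LB A} {τ : A.ι → M → (σ × ρ → FI n) → ℂ} {τ' : A.ι → M → (σ' × ρ → FI n) → ℂ}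

theorem tp_TS (h : TS (σ × ρ) N τ) (h' : TS (σ' × ρ) N' τ') :
    TS ((σ ⊕ σ') × ρ) (N * N') (tp τ τ') := by
  refine ⟨fun i F => (h.hol i _).mul (h'.hol i _), fun i x hx => ?_, fun i j x hx => ?_⟩
  · funext F
    simp [tp, h.off i x hx]
  · funext F
    rw [LB.mul_g]
    have h1 : τ i x (fun p => F (Sum.inl p.1, p.2)) = N.g i j x *
        ∑ H : σ × ρ → FI n, (∏ a, Gam (Jm A j i x) (F (Sum.inl a.1, a.2)) (H a)) * τ j x H := by
      rw [h.tr i j x hx]
      simp [Matrix.mulVec, dotProduct, KP]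
    have h2 : τ' i x (fun p => F (Sum.inr p.1, p.2)) = N'.g i j x *
        ∑ H : σ' × ρ → FI n, (∏ a, Gam (Jm A j i x) (F (Sum.inr a.1, a.2)) (H a)) *
          τ' j x H := by
      rw [h'.tr i j x hx]
      simp [Matrix.mulVec, dotProduct, KP]
    simp only [tp, Pi.smul_apply, smul_eq_mul, Matrix.mulVec, dotProduct, KP, Matrix.of_apply]
    rw [h1, h2]
    have h3 : ∑ H : (σ ⊕ σ') × ρ → FI n, (∏ a, Gam (Jm A j i x) (F a) (H a)) *
        (τ j x (fun p => H (Sum.inl p.1, p.2)) * τ' j x (fun p => H (Sum.inr p.1, p.2))) =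
        (∑ H : σ × ρ → FI n, (∏ a, Gam (Jm A j i x) (F (Sum.inl a.1, a.2)) (H a)) * τ j x H) *
        ∑ H : σ' × ρ → FI n, (∏ a, Gam (Jm A j i x) (F (Sum.inr a.1, a.2)) (H a)) *
          τ' j x H := by
      rw [Finset.sum_mul_sum, ← Finset.sum_product', Finset.univ_product_univ]
      refine Fintype.sum_equiv (eqv (FI n) σ σ' ρ) _ _ fun H => ?_
      simp only [eqv, Equiv.coe_fn_mk]
      have h4 : (∏ a : (σ ⊕ σ') × ρ, Gam (Jm A j i x) (F a) (H a)) =
          (∏ a : σ × ρ, Gam (Jm A j i x) (F (Sum.inl a.1, a.2)) (H (Sum.inl a.1, a.2))) *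
          ∏ a : σ' × ρ, Gam (Jm A j i x) (F (Sum.inr a.1, a.2)) (H (Sum.inr a.1, a.2)) := by
        rw [Fintype.prod_prod_type, Fintype.prod_sum_type, Fintype.prod_prod_type,
          Fintype.prod_prod_type]
      rw [h4]; ring
    rw [h3]; ring

theorem tp_tns (w : A.ι → M → (ρ → FI n) → ℂ) :
    tp (tns fun _ : σ => w) (tns fun _ : σ' => w) = tns fun _ : σ ⊕ σ' => w := by
  funext i x F
  simp only [tp, tns, Fintype.prod_sum_type]

end TP

theorem prp_tp {ρ σ σ' : Type} {τ w : A.ι → M → (σ × ρ → FI n) → ℂ}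
    {τ' w' : A.ι → M → (σ' × ρ → FI n) → ℂ} (h : Cram_747.Prp τ w) (h' : Cram_747.Prp τ' w') :
    Cram_747.Prp (tp τ τ') (tp w w') := by
  intro i x F H
  have h1 := h i x (fun p => F (Sum.inl p.1, p.2)) (fun p => H (Sum.inl p.1, p.2))
  have h2 := h' i x (fun p => F (Sum.inr p.1, p.2)) (fun p => H (Sum.inr p.1, p.2))
  simp only [tp]
  linear_combination (τ' i x fun p => F (Sum.inr p.1, p.2)) *
    (w' i x fun p => H (Sum.inr p.1, p.2)) * h1 +
    (τ i x fun p => H (Sum.inl p.1, p.2)) * (w i x fun p => F (Sum.inl p.1, p.2)) * h2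

/-! ### bridge between `TS` and `IsWS` -/

section Bridge

variable {ρ : Type} [Fintype ρ] [DecidableEq ρ] {N : LB A}
  {τ τ' : A.ι → M → (ρ → FI n) → ℂ}

theorem ts_isWS (h : TS ρ N τ) : IsWS N (fun i j x => KP ρ (Gam (Jm A j i x))) τ :=
  ⟨h.hol, h.tr⟩

theorem ts_nz (h : TS ρ N τ) (h0 : τ ≠ 0) : NZ τ := by
  by_contra hcon
  refine h0 ?_
  funext i x
  by_cases hx : x ∈ (A.e i).source
  · by_contra h1
    exact hcon ⟨i, x, hx, h1⟩
  · exact h.off i x hx

theorem prp_of (h : Cram_747.Prp τ τ') : Prp τ τ' := fun i x _ a b => h i x a b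


/-- existence of the quotient of two proportional tensor sections -/
theorem exists_rel [ConnectedSpace M] (h : TS ρ N τ) (h' : TS ρ N τ')
    (hp : Cram_747.Prp τ τ') (h0 : τ' ≠ 0) : ∃ g : Mer A, Rel g τ τ' :=
  ⟨_, quo_rel (ts_isWS h) (ts_isWS h') (prp_of hp) (ts_nz h' h0)⟩

theorem freq_ne [ConnectedSpace M] (h' : TS ρ N τ') (h0 : τ' ≠ 0) :
    ∀ i, ∀ x ∈ (A.e i).source, ∃ᶠ y in 𝓝 x, τ' i y ≠ 0 :=
  fun i _ hx => nlz (ts_isWS h') (ts_nz h' h0) i hx

theorem rel_unique [ConnectedSpace M] (h' : TS ρ N τ') (h0 : τ' ≠ 0) {g g' : Mer A}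
    (hg : Rel g τ τ') (hg' : Rel g' τ τ') : g = g' := Rel.unique (freq_ne h' h0) hg hg'

theorem ts_cont (h : TS ρ N τ) (i : A.ι) (F : ρ → FI n) {x : M} (hx : x ∈ (A.e i).source) :
    ContinuousAt (fun y => τ i y F) x :=
  (holU_of_holAt (A.e i).open_source subset_rfl
    ((h.hol i F).mono (subset_univ _))).continuousAt (A.e i).open_source hx

/-- criterion for `Rel` on a dense open set -/
theorem rel_of_dn' {g : Mer A} (h : TS ρ N τ) (h' : TS ρ N τ')
    (he : {x | ∀ i, x ∈ (A.e i).source → x ∈ reg g → ∀ F, τ i x F = ev g x * τ' i x F} ∈ dn M) :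
    Rel g τ τ' :=
  rel_of_dn (fun i F _ hx => ts_cont h i F hx) (fun i F _ hx => ts_cont h' i F hx) he

theorem ts_add {τ τ' : A.ι → M → (ρ → FI n) → ℂ} (h : TS ρ N τ) (h' : TS ρ N τ') :
    TS ρ N (τ + τ') := by
  refine ⟨fun i F => (h.hol i F).add (h'.hol i F), fun i x hx => ?_, fun i j x hx => ?_⟩
  · simp [h.off i x hx, h'.off i x hx]
  · simp only [Pi.add_apply]
    rw [h.tr i j x hx, h'.tr i j x hx, Matrix.mulVec_add, smul_add]

theorem ts_smul (c : ℂ) (h : TS ρ N τ) : TS ρ N (c • τ) := by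
  refine ⟨fun i F => (h.hol i F).const_mul c, fun i x hx => ?_, fun i j x hx => ?_⟩
  · simp [h.off i x hx]
  · simp only [Pi.smul_apply]
    rw [h.tr i j x hx, Matrix.mulVec_smul, smul_comm]

end Bridge

theorem prp_add {κ : Type*} {τ τ' w : A.ι → M → κ → ℂ} (h : Cram_747.Prp τ w)
    (h' : Cram_747.Prp τ' w) : Cram_747.Prp (τ + τ') w := by
  intro i x F H
  have h1 := h i x F H
  have h2 := h' i x F H
  simp only [Pi.add_apply]
  linear_combination h1 + h2

theorem prp_smul' {κ : Type*} (c : ℂ) {τ w : A.ι → M → κ → ℂ} (h : Cram_747.Prp τ w) :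
    Cram_747.Prp (c • τ) w := by
  intro i x F H
  have h1 := h i x F H
  simp only [Pi.smul_apply, smul_eq_mul]
  linear_combination c * h1

end

end Crest.Agent.R273.FF769
end

-- ▼ part R273/FFb_769

/-!
# R273, leaf A-FF (helper769), part 2: the field `FF`

* `WW L w0 σ a τ` : `τ` is a holomorphic section of `(Λ^* T)^{⊗ (σ × ρ)} ⊗ L^a` proportional to
                    `w0^{⊗ σ}`
* `FF L w0`       : the quotients `τ / τ'` of such sections; an intermediate field `ℂ ⊆ FF ⊆ Mer A`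
* `exists_common` : finitely many elements of `FF` have a common denominator
-/

set_option autoImplicit false
set_option linter.unusedSectionVars false

open Set Filter Topology Complex
open scoped ContDiff Matrix ComplexConjugate

namespace Crest.Agent.R273.FF769

open Crest.Agent.R275.Geo Crest.Agent.R275.Core144 Crest.Agent.R275.GC293
open Crest.Agent.R273.Rigid769 Crest.Agent.R273.Mer769
open Crest.Agent.R273.Cram_747 (TS KP tns tns_TS mnr tns_ne_zero exists_nz nz)
open Crest.Agent.R273.Fock_243 (FI Gam)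

noncomputable section

variable {n : ℕ} {M : Type} [TopologicalSpace M] {A : Atl n M}

section Gen

variable {ρ σ σ' : Type} [Fintype ρ] [DecidableEq ρ] [Fintype σ] [DecidableEq σ] [Fintype σ']
  [DecidableEq σ'] {N N' : LB A}

theorem tp_ne_zero [ConnectedSpace M] {τ : A.ι → M → (σ × ρ → FI n) → ℂ}
    {τ' : A.ι → M → (σ' × ρ → FI n) → ℂ} (h : TS (σ × ρ) N τ) (h' : TS (σ' × ρ) N' τ')
    (h0 : τ ≠ 0) (h0' : τ' ≠ 0) : tp τ τ' ≠ 0 := by
  have hne : (nz τ ∩ nz τ').Nonempty := by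
    have := (h'.dense_nz h0').inter_open_nonempty _ h.isOpen_nz
      ((h.dense_nz h0).nonempty)
    exact this
  obtain ⟨x, hx, hx'⟩ := hne
  obtain ⟨i, hi⟩ := A.cover x
  obtain ⟨F, hF⟩ := Function.ne_iff.1 (h.ne_of_nz hx hi)
  obtain ⟨H, hH⟩ := Function.ne_iff.1 (h'.ne_of_nz hx' hi)
  intro h1
  have h2 : tp τ τ' i x ((eqv (FI n) σ σ' ρ).symm (F, H)) = 0 := by rw [h1]; rfl
  rw [tp_eqv] at h2
  exact mul_ne_zero hF hH h2

theorem rel_tp {g g' : Mer A} {τ u : A.ι → M → (σ × ρ → FI n) → ℂ}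
    {τ' u' : A.ι → M → (σ' × ρ → FI n) → ℂ} (hτ : TS (σ × ρ) N τ) (hu : TS (σ × ρ) N u)
    (hτ' : TS (σ' × ρ) N' τ') (hu' : TS (σ' × ρ) N' u') (h : Rel g τ u) (h' : Rel g' τ' u') :
    Rel (g * g') (tp τ τ') (tp u u') := by
  refine rel_of_dn' (tp_TS hτ hτ') (tp_TS hu hu') ?_
  filter_upwards [dn_reg g, dn_reg g'] with x hx hx' i hi _ F
  simp only [tp]
  rw [h i x hi hx, h' i x hi hx', (reg_mul hx hx').2]
  ring

theorem rel_mul_add {g g' : Mer A} {τ u : A.ι → M → (σ × ρ → FI n) → ℂ}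
    {τ' u' : A.ι → M → (σ' × ρ → FI n) → ℂ} (hτ : TS (σ × ρ) N τ) (hu : TS (σ × ρ) N u)
    (hτ' : TS (σ' × ρ) N' τ') (hu' : TS (σ' × ρ) N' u') (h : Rel g τ u) (h' : Rel g' τ' u') :
    Rel (g + g') (tp τ u' + tp u τ') (tp u u') := by
  refine rel_of_dn' (ts_add (tp_TS hτ hu') (tp_TS hu hτ')) (tp_TS hu hu') ?_
  filter_upwards [dn_reg g, dn_reg g'] with x hx hx' i hi _ F
  simp only [tp, Pi.add_apply]
  rw [h i x hi hx, h' i x hi hx', (reg_add hx hx').2]
  ring

theorem rel_symm [ConnectedSpace M] {g : Mer A} {τ u : A.ι → M → (ρ → FI n) → ℂ}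
    (hτ : TS ρ N τ) (hu : TS ρ N u) (h : Rel g τ u) (hg : g ≠ 0) : Rel g⁻¹ u τ := by
  refine rel_of_dn' hu hτ ?_
  filter_upwards [dn_ne hg] with x hx i hi _ F
  rw [h i x hi hx.1, (reg_inv hx.1 hx.2).2, inv_mul_cancel_left₀ hx.2]


end Gen

/-! ### the sections proportional to powers of `w0` -/

section FFdef

variable {ρ : Type} [Fintype ρ] [DecidableEq ρ] (L : LB A) (w0 : A.ι → M → (ρ → FI n) → ℂ)

/-- holomorphic sections of `(Λ^* T)^{⊗ (σ × ρ)} ⊗ L^a` proportional to `w0^{⊗ σ}` -/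
structure WW (σ : Type) [Fintype σ] [DecidableEq σ] (a : ℕ) (τ : A.ι → M → (σ × ρ → FI n) → ℂ) :
    Prop where
  ts : TS (σ × ρ) (L ^ a) τ
  prp : Cram_747.Prp τ (tns fun _ : σ => w0)

variable {L w0}

section WWlem

variable {σ σ' : Type} [Fintype σ] [DecidableEq σ] [Fintype σ'] [DecidableEq σ'] {a a' : ℕ}

theorem WW.add {τ τ' : A.ι → M → (σ × ρ → FI n) → ℂ} (h : WW L w0 σ a τ) (h' : WW L w0 σ a τ') :
    WW L w0 σ a (τ + τ') := ⟨ts_add h.ts h'.ts, prp_add h.prp h'.prp⟩

theorem WW.smul (c : ℂ) {τ : A.ι → M → (σ × ρ → FI n) → ℂ} (h : WW L w0 σ a τ) :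
    WW L w0 σ a (c • τ) := ⟨ts_smul c h.ts, prp_smul' c h.prp⟩

theorem WW.tp {τ : A.ι → M → (σ × ρ → FI n) → ℂ} {τ' : A.ι → M → (σ' × ρ → FI n) → ℂ}
    (h : WW L w0 σ a τ) (h' : WW L w0 σ' a' τ') : WW L w0 (σ ⊕ σ') (a + a') (tp τ τ') := by
  refine ⟨(tp_TS h.ts h'.ts).congr_N (pow_add L a a').symm, ?_⟩
  rw [← tp_tns]
  exact prp_tp h.prp h'.prp

theorem WW.tns {σ : Type} [Fintype σ] [DecidableEq σ] [Nonempty σ] {a : ℕ} (h : TS ρ (L ^ a) w0) :
    WW L w0 σ (a * Fintype.card σ) (Cram_747.tns fun _ : σ => w0) := by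
  refine ⟨(tns_TS (fun _ : σ => h)).congr_N ?_, Cram_747.Prp.refl _⟩
  rw [Finset.prod_const, Finset.card_univ, ← pow_mul]

/-- two elements of `WW L w0 σ a` are proportional -/
theorem WW.prp₂ [ConnectedSpace M] {τ τ' : A.ι → M → (σ × ρ → FI n) → ℂ} (h : WW L w0 σ a τ)
    (h' : WW L w0 σ a' τ') {N : LB A} (hw : TS (σ × ρ) N (Cram_747.tns fun _ : σ => w0))
    (h0 : (Cram_747.tns fun _ : σ => w0) ≠ (0 : A.ι → M → (σ × ρ → FI n) → ℂ)) :
    Cram_747.Prp τ τ' := by
  intro i x F H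
  by_cases hi : x ∈ (A.e i).source
  · have hc : ContinuousAt (fun y => τ i y F * τ' i y H - τ i y H * τ' i y F) x :=
      ((ts_cont h.ts i F hi).mul (ts_cont h'.ts i H hi)).sub
        ((ts_cont h.ts i H hi).mul (ts_cont h'.ts i F hi))
    have hfr : ∃ᶠ y in 𝓝 x, τ i y F * τ' i y H - τ i y H * τ' i y F = 0 := by
      refine (freq_ne hw h0 i x hi).mono fun y hy => ?_
      obtain ⟨E, hE⟩ := Function.ne_iff.1 hy
      set w := Cram_747.tns (fun _ : σ => w0) i y with hw
      have hE' : w E ≠ 0 := hE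
      have a1 := h.prp i y F E
      have a2 := h.prp i y H E
      have b1 := h'.prp i y F E
      have b2 := h'.prp i y H E
      rw [← hw] at a1 a2 b1 b2
      have h1 : (τ i y F * τ' i y H - τ i y H * τ' i y F) * (w E * w E) = 0 := by
        linear_combination (τ' i y H * w E) * a1 + (τ i y E * w F) * b2 -
          (τ' i y F * w E) * a2 - (τ i y E * w H) * b1
      exact (mul_eq_zero.1 h1).resolve_right (mul_ne_zero hE' hE')
    have h5 : τ i x F * τ' i x H - τ i x H * τ' i x F = 0 := by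
      by_contra hne
      exact hfr ((hc.eventually_ne hne).mono fun y hy h => hy h)
    exact sub_eq_zero.1 h5
  · simp [h.ts.off i x hi]

end WWlem

variable (L w0)

/-- the quotients of proportional sections -/
def InFF (g : Mer A) : Prop :=
  ∃ (σ : Type) (_ : Fintype σ) (_ : DecidableEq σ) (_ : Nonempty σ) (a : ℕ)
    (τ τ' : A.ι → M → (σ × ρ → FI n) → ℂ), WW L w0 σ a τ ∧ WW L w0 σ a τ' ∧ τ' ≠ 0 ∧ Rel g τ τ'

variable {L w0}

theorem InFF.mul [ConnectedSpace M] {g g' : Mer A} (h : InFF L w0 g) (h' : InFF L w0 g') :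
    InFF L w0 (g * g') := by
  obtain ⟨σ, _, _, _, a, τ, u, hτ, hu, h0, hr⟩ := h
  obtain ⟨σ', _, _, _, a', τ', u', hτ', hu', h0', hr'⟩ := h'
  exact ⟨σ ⊕ σ', inferInstance, inferInstance, inferInstance, a + a', _, _, hτ.tp hτ', hu.tp hu',
    tp_ne_zero hu.ts hu'.ts h0 h0', rel_tp hτ.ts hu.ts hτ'.ts hu'.ts hr hr'⟩

theorem InFF.add [ConnectedSpace M] {g g' : Mer A} (h : InFF L w0 g) (h' : InFF L w0 g') :
    InFF L w0 (g + g') := by
  obtain ⟨σ, _, _, _, a, τ, u, hτ, hu, h0, hr⟩ := h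
  obtain ⟨σ', _, _, _, a', τ', u', hτ', hu', h0', hr'⟩ := h'
  exact ⟨σ ⊕ σ', inferInstance, inferInstance, inferInstance, a + a', _, _,
    (hτ.tp hu').add (hu.tp hτ'), hu.tp hu',
    tp_ne_zero hu.ts hu'.ts h0 h0', rel_mul_add hτ.ts hu.ts hτ'.ts hu'.ts hr hr'⟩

theorem InFF.inv [ConnectedSpace M] {g : Mer A} (h : InFF L w0 g) : InFF L w0 g⁻¹ := by
  by_cases hg : g = 0
  · rwa [hg, inv_zero, ← hg]
  obtain ⟨σ, _, _, _, a, τ, u, hτ, hu, h0, hr⟩ := h
  refine ⟨σ, inferInstance, inferInstance, inferInstance, a, u, τ, hu, hτ, ?_,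
    rel_symm hτ.ts hu.ts hr hg⟩
  rintro rfl
  refine hg (rel_unique hu.ts h0 hr ?_)
  intro i x hi _ F
  have := (reg_algebraMap (A := A) 0 x).2
  rw [map_zero] at this
  rw [this]
  simp

theorem InFF.algebraMap [ConnectedSpace M] {a : ℕ} (hw : TS ρ (L ^ a) w0) (h0 : w0 ≠ 0) (c : ℂ) :
    InFF L w0 (algebraMap ℂ (Mer A) c) :=
  ⟨Unit, inferInstance, inferInstance, inferInstance, _, _, _, (WW.tns hw).smul c, WW.tns hw,
    tns_ne_zero (fun _ : Unit => hw) fun _ => h0, rel_algebraMap c _⟩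

/-- the field `FF` -/
def FF [ConnectedSpace M] {a : ℕ} (hw : TS ρ (L ^ a) w0) (h0 : w0 ≠ 0) :
    IntermediateField ℂ (Mer A) where
  carrier := {g | InFF L w0 g}
  mul_mem' := fun h h' => InFF.mul h h'
  add_mem' := fun h h' => InFF.add h h'
  algebraMap_mem' := fun c => InFF.algebraMap hw h0 c
  inv_mem' := fun _ h => InFF.inv h

theorem mem_FF [ConnectedSpace M] {a : ℕ} {hw : TS ρ (L ^ a) w0} {h0 : w0 ≠ 0} {g : Mer A} :
    g ∈ FF hw h0 ↔ InFF L w0 g := Iff.rfl

/-- quotients of elements of `WW` are in `FF` -/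
theorem WW.exists_mem [ConnectedSpace M] {a b : ℕ} (hw : TS ρ (L ^ a) w0) (h0 : w0 ≠ 0)
    {σ : Type} [Fintype σ] [DecidableEq σ] [Nonempty σ] {τ τ' : A.ι → M → (σ × ρ → FI n) → ℂ}
    (h : WW L w0 σ b τ) (h' : WW L w0 σ b τ') (h0' : τ' ≠ 0) :
    ∃ g ∈ FF hw h0, Rel g τ τ' := by
  obtain ⟨g, hg⟩ := exists_rel h.ts h'.ts (h.prp₂ h' (WW.tns (σ := σ) hw).ts
    (tns_ne_zero (fun _ : σ => hw) fun _ => h0)) h0'
  exact ⟨g, ⟨σ, inferInstance, inferInstance, inferInstance, b, τ, τ', h, h', h0', hg⟩, hg⟩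

/-- common denominators -/
theorem exists_common [ConnectedSpace M] {a : ℕ} (hw : TS ρ (L ^ a) w0) (h0 : w0 ≠ 0)
    {κ : Type} (s : Finset κ) (g : κ → Mer A) (hg : ∀ k ∈ s, g k ∈ FF hw h0) :
    ∃ (σ : Type) (_ : Fintype σ) (_ : DecidableEq σ) (_ : Nonempty σ) (b : ℕ)
      (t : A.ι → M → (σ × ρ → FI n) → ℂ) (τ : κ → A.ι → M → (σ × ρ → FI n) → ℂ),
      WW L w0 σ b t ∧ t ≠ 0 ∧ (∀ k ∈ s, WW L w0 σ b (τ k)) ∧ ∀ k ∈ s, Rel (g k) (τ k) t := by
  classical
  induction s using Finset.induction_on with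
  | empty =>
    exact ⟨Unit, inferInstance, inferInstance, inferInstance, _, _, fun _ => 0, WW.tns hw,
      tns_ne_zero (fun _ : Unit => hw) fun _ => h0, by simp, by simp⟩
  | insert l s hl ih =>
    obtain ⟨σ, _, _, _, b, t, τ, ht, ht0, hτ, hr⟩ :=
      ih fun k hk => hg k (Finset.mem_insert_of_mem hk)
    obtain ⟨σ', _, _, _, b', u, t', hu, ht', ht0', hr'⟩ := hg l (Finset.mem_insert_self _ _)
    have h1 : ∀ {N : LB A} {v : A.ι → M → (σ × ρ → FI n) → ℂ} {g : Mer A},
        TS (σ × ρ) N v → TS (σ × ρ) N t → Rel g v t → Rel g (tp v t') (tp t t') := by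
      intro N v g hv ht1 hvr
      refine rel_of_dn' (tp_TS hv ht'.ts) (tp_TS ht1 ht'.ts) ?_
      filter_upwards [dn_reg g] with x hx i hi _ F
      simp only [tp]
      rw [hvr i x hi hx]
      ring
    have h2 : Rel (g l) (tp t u) (tp t t') := by
      refine rel_of_dn' (tp_TS ht.ts hu.ts) (tp_TS ht.ts ht'.ts) ?_
      filter_upwards [dn_reg (g l)] with x hx i hi _ F
      simp only [tp]
      rw [hr' i x hi hx]
      ring
    refine ⟨σ ⊕ σ', inferInstance, inferInstance, inferInstance, b + b', tp t t',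
      fun k => if k = l then tp t u else tp (τ k) t', ht.tp ht', tp_ne_zero ht.ts ht'.ts ht0 ht0',
      fun k hk => ?_, fun k hk => ?_⟩
    · by_cases hkl : k = l
      · simp only [hkl, if_true]; exact ht.tp hu
      · simp only [hkl, if_false]
        exact (hτ k ((Finset.mem_insert.1 hk).resolve_left hkl)).tp ht'
    · by_cases hkl : k = l
      · subst hkl
        simp only [if_true]
        exact h2
      · simp only [hkl, if_false]
        have hk' := (Finset.mem_insert.1 hk).resolve_left hkl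
        exact h1 (hτ k hk').ts ht.ts (hr k hk')

end FFdef

end

end Crest.Agent.R273.FF769
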