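import Mathlib

/-!
Row 273, leaf A-FG (769, post 1674), part 1: intermediate fields of finitely generated field
extensions are finitely generated.
-/

set_option linter.unusedSectionVars false

namespace Crest.Agent.R273.FG_259

open IntermediateField

/-- linear independence over `F₁` of elements of `E`, `E / F₁` algebraic, stays after adjoining
elements algebraically independent over `F₁` -/
theorem linInd_adjoin {F K : Type*} [Field F] [Field K] [Algebra F K]
    (E : IntermediateField F K) [Algebra.IsAlgebraic F E] {ι κ : Type*} {z : κ → K}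
    (hz : AlgebraicIndependent F z) {e : ι → E} (he : LinearIndependent F e) :
    LinearIndependent (adjoin F (Set.range z)) (fun i => (e i : K)) := by
  have hzE : AlgebraicIndependent E z := hz.extendScalars E
  have h1 : LinearIndependent (Algebra.adjoin F (Set.range z)) (fun i => (e i : K)) := by
    rw [linearIndependent_iff']
    intro s g hg i hi
    have hex : ∀ j, ∃ p : MvPolynomial κ F, MvPolynomial.aeval z p = (g j : K) := by
      intro j
      have : (g j : K) ∈ (MvPolynomial.aeval z : MvPolynomial κ F →ₐ[F] K).range :=
        (Algebra.adjoin_range_eq_range_aeval F z) ▸ (g j).2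
      exact this
    choose p hp using hex
    have h2 : MvPolynomial.aeval z (∑ j ∈ s, MvPolynomial.C (e j) *
        MvPolynomial.map (algebraMap F E) (p j)) = (0 : K) := by
      rw [map_sum, ← hg]
      refine Finset.sum_congr rfl fun j _ => ?_
      rw [map_mul, MvPolynomial.aeval_map_algebraMap, hp]
      simp [Algebra.smul_def, mul_comm]
    have h3 := (algebraicIndependent_iff.1 hzE) _ h2
    have h4 : p i = 0 := by
      ext m
      have h5 := congrArg (MvPolynomial.coeff m) h3
      rw [MvPolynomial.coeff_sum] at h5
      simp only [MvPolynomial.coeff_C_mul, MvPolynomial.coeff_map, MvPolynomial.coeff_zero] at h5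
      have h6 : ∑ j ∈ s, (MvPolynomial.coeff m (p j)) • e j = 0 := by
        rw [← h5]
        exact Finset.sum_congr rfl fun j _ => by rw [Algebra.smul_def, mul_comm]
      simpa using (linearIndependent_iff'.1 he) s _ h6 i hi
    apply Subtype.ext
    rw [← hp i, h4]
    simp
  open IntermediateField.algebraAdjoinAdjoin in
  exact (LinearIndependent.iff_fractionRing (Algebra.adjoin F (Set.range z))
    (adjoin F (Set.range z))).1 h1

/-- an algebraic intermediate field of a finitely generated field extension is finite -/
theorem finite_of_alg {F K : Type*} [Field F] [Field K] [Algebra F K]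
    [Algebra.EssFiniteType F K] (E : IntermediateField F K) [Algebra.IsAlgebraic F E] :
    Module.Finite F E := by
  obtain ⟨s, hs⟩ := exists_isTranscendenceBasis F K
  have h1 : Algebra.IsAlgebraic (adjoin F (Set.range ((↑) : s → K))) K := hs.isAlgebraic_field
  have h2 : Algebra.EssFiniteType (adjoin F (Set.range ((↑) : s → K))) K :=
    .of_comp F _ K
  have h3 : Module.Finite (adjoin F (Set.range ((↑) : s → K))) K :=
    Algebra.finite_of_essFiniteType_of_isAlgebraic
  have h4 := linInd_adjoin E hs.1 (Module.Basis.ofVectorSpace F E).linearIndependent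
  have h5 : Finite (Module.Basis.ofVectorSpaceIndex F E) := h4.finite
  exact Module.Finite.of_basis (Module.Basis.ofVectorSpace F E)

/-- **subextensions of finitely generated field extensions are finitely generated** -/
theorem essFiniteType_of_le {F K : Type*} [Field F] [Field K] [Algebra F K]
    [Algebra.EssFiniteType F K] (E : IntermediateField F K) : Algebra.EssFiniteType F E := by
  have : FinTrdeg F E := finTrdeg_iff_trdeg.2
    ((trdeg_le_of_injective E.val E.val.injective).trans_lt (trdeg_lt_aleph0 F K))
  obtain ⟨y, hy⟩ := exists_finset_isTranscendenceBasis F E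
  obtain ⟨F₁, hF₁⟩ : ∃ F₁ : IntermediateField F K, F₁ =
      adjoin F (((↑) : E → K) '' (y : Set E)) := ⟨_, rfl⟩
  have hle : F₁ ≤ E := by
    rw [hF₁, adjoin_le_iff]
    rintro _ ⟨x, -, rfl⟩
    exact x.2
  have hfg : F₁.FG := by
    rw [hF₁]
    exact fg_adjoin_of_finite (y.finite_toSet.image _)
  have hfg' : Algebra.EssFiniteType F F₁ := essFiniteType_iff.2 hfg
  have h2 : Algebra.EssFiniteType F₁ K := .of_comp F _ K
  have halg0 : Algebra.IsAlgebraic (adjoin F (Set.range ((↑) : y → E))) E := hy.isAlgebraic_field
  have hG : (adjoin F (Set.range ((↑) : y → E))).map E.val ≤ F₁ := by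
    rw [adjoin_map, hF₁]
    refine adjoin.mono _ _ _ ?_
    rintro _ ⟨_, ⟨x, rfl⟩, rfl⟩
    exact ⟨x, x.2, rfl⟩
  have halg : Algebra.IsAlgebraic F₁ (extendScalars hle) := by
    let f : (adjoin F (Set.range ((↑) : y → E))) →+* F₁ :=
      { toFun := fun a => ⟨((a : E) : K), hG ⟨a, a.2, rfl⟩⟩
        map_one' := rfl
        map_mul' := fun _ _ => rfl
        map_zero' := rfl
        map_add' := fun _ _ => rfl }
    refine ⟨fun x => ?_⟩
    have hx : IsAlgebraic (adjoin F (Set.range ((↑) : y → E))) (⟨(x : K), x.2⟩ : E) :=
      halg0.isAlgebraic _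
    have hx2 : IsAlgebraic F₁ (E.val.toRingHom ⟨(x : K), x.2⟩) :=
      hx.ringHom_of_comp_eq f E.val.toRingHom f.injective rfl
    exact (isAlgebraic_algebraMap_iff (algebraMap (extendScalars hle) K).injective).1 hx2
  have h3 : Module.Finite F₁ (extendScalars hle) := finite_of_alg _
  have h4 : Algebra.EssFiniteType F (extendScalars hle) := .comp F F₁ _
  have h5 : Algebra.EssFiniteType F ((extendScalars hle).restrictScalars F) := h4
  rwa [extendScalars_restrictScalars] at h5


end Crest.Agent.R273.FG_259
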