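import Mathlib

-- ▼ part R273/BDiag_733
section

/-!
# R273 (S0416), BP-T leaf BDIAG (helper733): bounded commutative groups of operators

`V` finite dimensional complex vector space with a definite seminorm `N`, `G` a commutative group,
`ρ : G →* (V →ₗ[ℂ] V)`, every orbit bounded.

* `iSup_eq_top` : `V` is the sum of the joint eigenspaces;
* `exists_char` : the character of a joint eigenvector takes values in the circle;
* `exists_vec` : if `T : V →ₗ[ℂ] ℂ`, `T ∘ ρ g = η g • T`, `T ≠ 0` then some `v` has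
  `ρ g v = η g • v` for all `g` and `T v ≠ 0`.
-/

set_option autoImplicit false
set_option linter.unusedSectionVars false
set_option linter.unusedVariables false

open Module Module.End

namespace Crest.Agent.R273.BDiag_733

variable {V : Type*} [AddCommGroup V] [Module ℂ V] {G : Type*} [CommGroup G]

/-- all orbits are bounded -/
def Bdd (N : Seminorm ℂ V) (ρ : G →* Module.End ℂ V) : Prop :=
  ∀ v, ∃ C : ℝ, ∀ g, N (ρ g v) ≤ C

variable {N : Seminorm ℂ V} {ρ : G →* Module.End ℂ V}

theorem pow_eig {u : Module.End ℂ V} {μ : ℂ} {v : V} (h : u v = μ • v) (n : ℕ) :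
    (u ^ n) v = μ ^ n • v := by
  induction n with
  | zero => simp
  | succ n ih => rw [pow_succ, Module.End.mul_apply, h, map_smul, ih, smul_smul, pow_succ, mul_comm]

theorem map_pow_apply (g : G) (n : ℕ) (v : V) : ρ (g ^ n) v = (ρ g ^ n) v := by rw [map_pow]

theorem inv_apply (g : G) (v : V) : ρ g⁻¹ (ρ g v) = v := by
  rw [← Module.End.mul_apply, ← map_mul, inv_mul_cancel, map_one, Module.End.one_apply]

/-- eigenvalues have modulus `≤ 1` -/
theorem norm_le_one (hN : ∀ v, N v = 0 → v = 0) (hb : Bdd N ρ) {g : G} {μ : ℂ} {v : V}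
    (hv : v ≠ 0) (h : ρ g v = μ • v) : ‖μ‖ ≤ 1 := by
  by_contra hc
  push Not at hc
  obtain ⟨C, hC⟩ := hb v
  have hNv : 0 < N v := lt_of_le_of_ne (apply_nonneg N v) fun h0 => hv (hN v h0.symm)
  obtain ⟨n, hn⟩ := pow_unbounded_of_one_lt (C / N v) hc
  have h1 := hC (g ^ n)
  rw [map_pow_apply, pow_eig h, map_smul_eq_mul, norm_pow] at h1
  rw [div_lt_iff₀ hNv] at hn
  linarith

theorem eig_ne_zero {g : G} {μ : ℂ} {v : V} (hv : v ≠ 0) (h : ρ g v = μ • v) : μ ≠ 0 := by
  rintro rfl
  apply hv
  have := inv_apply (ρ := ρ) g v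
  rw [h, zero_smul, map_zero] at this
  exact this.symm

theorem eig_inv {g : G} {μ : ℂ} {v : V} (hv : v ≠ 0) (h : ρ g v = μ • v) :
    ρ g⁻¹ v = μ⁻¹ • v := by
  have h1 := inv_apply (ρ := ρ) g v
  rw [h, map_smul] at h1
  rw [eq_inv_smul_iff₀ (eig_ne_zero hv h)]
  exact h1

theorem norm_eq_one (hN : ∀ v, N v = 0 → v = 0) (hb : Bdd N ρ) {g : G} {μ : ℂ} {v : V}
    (hv : v ≠ 0) (h : ρ g v = μ • v) : ‖μ‖ = 1 := by
  refine le_antisymm (norm_le_one hN hb hv h) ?_
  have h1 := norm_le_one hN hb hv (eig_inv hv h)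
  rw [norm_inv] at h1
  have h2 : 0 < ‖μ‖ := norm_pos_iff.2 (eig_ne_zero hv h)
  rwa [inv_le_one₀ h2] at h1

theorem pow_two_step {u : Module.End ℂ V} {μ : ℂ} {v w : V} (h : u v = μ • v + w)
    (hw : u w = μ • w) (n : ℕ) : (u ^ (n + 1)) v = μ ^ (n + 1) • v + ((n + 1 : ℕ) * μ ^ n) • w := by
  induction n with
  | zero => simp [h]
  | succ n ih =>
    rw [pow_succ', Module.End.mul_apply, ih, map_add, map_smul, map_smul, h, hw]
    rw [smul_add, smul_smul, smul_smul, add_assoc, ← add_smul]
    congr 2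
    push_cast
    ring

/-- no Jordan blocks -/
theorem no_jordan (hN : ∀ v, N v = 0 → v = 0) (hb : Bdd N ρ) {g : G} {μ : ℂ} {v w : V}
    (h : ρ g v = μ • v + w) (hw : ρ g w = μ • w) : w = 0 := by
  by_contra hne
  have hμ := norm_eq_one hN hb hne hw
  obtain ⟨C, hC⟩ := hb v
  have hNw : 0 < N w := lt_of_le_of_ne (apply_nonneg N w) fun h0 => hne (hN w h0.symm)
  obtain ⟨n, hn⟩ := exists_nat_gt ((C + N v) / N w)
  have h1 := hC (g ^ (n + 1))
  rw [map_pow_apply, pow_two_step h hw] at h1
  have h2 : N (((n + 1 : ℕ) * μ ^ n) • w) ≤ N (μ ^ (n + 1) • v + ((n + 1 : ℕ) * μ ^ n) • w) +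
      N (μ ^ (n + 1) • v) := by
    have h3 : ((n + 1 : ℕ) * μ ^ n) • w =
        (μ ^ (n + 1) • v + ((n + 1 : ℕ) * μ ^ n) • w) - μ ^ (n + 1) • v := by abel
    conv_lhs => rw [h3]
    exact map_sub_le_add N _ _
  rw [map_smul_eq_mul, map_smul_eq_mul, norm_mul, norm_pow, norm_pow, hμ, one_pow, one_pow,
    mul_one, one_mul] at h2
  have h4 : ‖((n + 1 : ℕ) : ℂ)‖ = (n : ℝ) + 1 := by
    rw [Complex.norm_natCast]; push_cast; ring
  rw [h4] at h2
  rw [div_lt_iff₀ hNw] at hn
  nlinarith

theorem gen_le (hN : ∀ v, N v = 0 → v = 0) (hb : Bdd N ρ) (g : G) (μ : ℂ) (n : ℕ) :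
    ∀ v, ((ρ g - μ • 1) ^ n) v = 0 → (ρ g) v = μ • v ∨ n = 0 := by
  induction n with
  | zero => intro v _; exact Or.inr rfl
  | succ n ih =>
    intro v hv
    left
    rw [pow_succ, Module.End.mul_apply] at hv
    set w : V := (ρ g - μ • 1) v with hw
    have h1 : ρ g v = μ • v + w := by
      rw [hw, LinearMap.sub_apply, LinearMap.smul_apply, Module.End.one_apply]; abel
    rcases ih w hv with h2 | h2
    · have h3 := no_jordan hN hb h1 h2
      rw [h3, add_zero] at h1
      exact h1
    · subst h2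
      rw [pow_zero, Module.End.one_apply] at hv
      rw [hv, add_zero] at h1
      exact h1

theorem maxGen_eq (hN : ∀ v, N v = 0 → v = 0) (hb : Bdd N ρ) (g : G) (μ : ℂ) {v : V}
    (hv : v ∈ (ρ g).maxGenEigenspace μ) : ρ g v = μ • v := by
  rw [Module.End.mem_maxGenEigenspace] at hv
  obtain ⟨n, hn⟩ := hv
  rcases gen_le hN hb g μ n v hn with h | h
  · exact h
  · subst h
    rw [pow_zero, Module.End.one_apply] at hn
    rw [hn]; simp

variable [FiniteDimensional ℂ V]

/-- joint eigenspaces -/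
def joint (ρ : G →* Module.End ℂ V) (χ : G → ℂ) : Submodule ℂ V where
  carrier := {v | ∀ g, ρ g v = χ g • v}
  add_mem' := by
    intro a b ha hb g
    rw [map_add, ha g, hb g, smul_add]
  zero_mem' := by intro g; simp
  smul_mem' := by
    intro c a ha g
    rw [map_smul, ha g, smul_comm]

theorem iSup_eq_top (hN : ∀ v, N v = 0 → v = 0) (hb : Bdd N ρ) :
    ⨆ χ : G → ℂ, joint ρ χ = ⊤ := by
  have h1 := iSup_iInf_maxGenEigenspace_eq_top_of_iSup_maxGenEigenspace_eq_top_of_commute
    (fun g => ρ g) (fun g g' _ => by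
      show ρ g * ρ g' = ρ g' * ρ g
      rw [← map_mul, ← map_mul, mul_comm]) (fun g => iSup_maxGenEigenspace_eq_top (ρ g))
  rw [eq_top_iff, ← h1]
  refine iSup_mono fun χ => fun v hv => ?_
  intro g
  rw [Submodule.mem_iInf] at hv
  exact maxGen_eq hN hb g (χ g) (hv g)

/-- **BDIAG** -/
theorem exists_vec (hN : ∀ v, N v = 0 → v = 0) (hb : Bdd N ρ) (T : V →ₗ[ℂ] ℂ) (hT : T ≠ 0)
    (η : G → ℂ) (hη : ∀ g v, T (ρ g v) = η g * T v) :
    ∃ v, (∀ g, ρ g v = η g • v) ∧ T v ≠ 0 := by
  by_contra hcon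
  push Not at hcon
  apply hT
  have h1 : ∀ χ : G → ℂ, joint ρ χ ≤ LinearMap.ker T := by
    intro χ v hv
    rw [LinearMap.mem_ker]
    by_contra hne
    apply hne
    refine hcon v fun g => ?_
    rw [hv g]
    congr 1
    have h2 := hη g v
    rw [hv g, map_smul, smul_eq_mul] at h2
    exact mul_right_cancel₀ hne h2
  have h3 : (⊤ : Submodule ℂ V) ≤ LinearMap.ker T := by
    rw [← iSup_eq_top hN hb]
    exact iSup_le h1
  ext v
  exact h3 (Submodule.mem_top)





theorem exists_minimal_nat {α : Type*} [Nonempty α] (f : α → ℕ) : ∃ a, ∀ b, f a ≤ f b := by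
  classical
  have h : ∃ k, ∃ a, f a = k := ⟨_, Classical.arbitrary α, rfl⟩
  obtain ⟨a, ha⟩ := Nat.find_spec h
  exact ⟨a, fun b => by rw [ha]; exact Nat.find_min' h ⟨b, rfl⟩⟩

/-- version with a separating family of functionals instead of a norm -/
theorem exists_vec_fun {σ : Type*} (φ : σ → V →ₗ[ℂ] ℂ) (hφ : ∀ v, (∀ s, φ s v = 0) → v = 0)
    (hb : ∀ s v, ∃ C : ℝ, ∀ g, ‖φ s (ρ g v)‖ ≤ C) (T : V →ₗ[ℂ] ℂ) (hT : T ≠ 0)
    (η : G → ℂ) (hη : ∀ g v, T (ρ g v) = η g * T v) :
    ∃ v, (∀ g, ρ g v = η g • v) ∧ T v ≠ 0 := by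
  -- finitely many functionals suffice
  obtain ⟨t, ht⟩ : ∃ t : Finset σ, ∀ v, (∀ s ∈ t, φ s v = 0) → v = 0 := by
    classical
    obtain ⟨t, htm⟩ : ∃ t : Finset σ, ∀ t' : Finset σ,
        finrank ℂ (⨅ s ∈ t, LinearMap.ker (φ s) : Submodule ℂ V) ≤
          finrank ℂ (⨅ s ∈ t', LinearMap.ker (φ s) : Submodule ℂ V) := by
      obtain ⟨t, ht⟩ := exists_minimal_nat (fun t : Finset σ =>
        finrank ℂ (⨅ s ∈ t, LinearMap.ker (φ s) : Submodule ℂ V))
      exact ⟨t, ht⟩
    refine ⟨t, fun v hv => hφ v fun s => ?_⟩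
    have h1 : (⨅ s' ∈ insert s t, LinearMap.ker (φ s') : Submodule ℂ V) ≤
        ⨅ s' ∈ t, LinearMap.ker (φ s') :=
      biInf_mono fun i hi => Finset.mem_insert_of_mem hi
    have h2 := Submodule.eq_of_le_of_finrank_le h1 (htm (insert s t))
    have h3 : v ∈ ⨅ s' ∈ t, LinearMap.ker (φ s') := by
      simp only [Submodule.mem_iInf]
      exact hv
    rw [← h2] at h3
    simp only [Submodule.mem_iInf] at h3
    exact h3 s (Finset.mem_insert_self s t)
  let N : Seminorm ℂ V := Seminorm.of (fun v => ∑ s ∈ t, ‖φ s v‖)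
    (fun x y => by
      rw [← Finset.sum_add_distrib]
      exact Finset.sum_le_sum fun s _ => by rw [map_add]; exact norm_add_le _ _)
    (fun a x => by
      rw [Finset.mul_sum]
      exact Finset.sum_congr rfl fun s _ => by rw [map_smul, norm_smul])
  have hNa : ∀ v, N v = ∑ s ∈ t, ‖φ s v‖ := fun v => rfl
  refine exists_vec (N := N) (fun v hv => ht v fun s hs => ?_) (fun v => ?_) T hT η hη
  · rw [hNa] at hv
    exact norm_eq_zero.1 ((Finset.sum_eq_zero_iff_of_nonneg fun _ _ => norm_nonneg _).1 hv s hs)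
  · choose C hC using fun s => hb s v
    refine ⟨∑ s ∈ t, C s, fun g => ?_⟩
    rw [hNa]
    exact Finset.sum_le_sum fun s _ => hC s g

end Crest.Agent.R273.BDiag_733
end

-- ▼ part R273/Gordan_106

/-! Row 273, T9: Gordan's theorem over `ℤ` (422, post 1723).  A finite family in a finitely generated
torsion free abelian group without a nontrivial relation with natural coefficients is strictly
positive for some real functional, which can be chosen off finitely many kernels. -/

namespace Crest.Agent.R273.Gordan_106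

open Filter Topology

variable {W : Type*} [AddCommGroup W]

/-- a nonzero element of a finitely generated torsion free group is positive for some integral
functional -/
theorem exists_pos (hfg : Module.Finite ℤ W)
    (htf : ∀ (w : W) (m : ℕ), m ≠ 0 → m • w = 0 → w = 0) {w : W} (hw : w ≠ 0) :
    ∃ f : W →+ ℤ, 0 < f w := by
  have : Module.IsTorsionFree ℤ W := by
    refine Module.isTorsionFree_iff_smul_eq_zero.2 ?_
    intro r m hrm
    by_cases hr : r = 0
    · exact Or.inl hr
    · refine Or.inr (htf m r.natAbs (by simpa using hr) ?_)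
      rcases Int.natAbs_eq r with h | h
      · rw [h] at hrm
        simpa using hrm
      · rw [h] at hrm
        simpa using hrm
  let b := Module.Free.chooseBasis ℤ W
  have h0 : b.repr w ≠ 0 := by
    intro h0
    exact hw (by simpa using h0)
  obtain ⟨j, hj⟩ := Finsupp.ne_iff.1 h0
  have hj' : b.coord j w ≠ 0 := by simpa using hj
  rcases lt_or_gt_of_ne hj' with h | h
  · exact ⟨-(b.coord j).toAddMonoidHom, by simpa using h⟩
  · exact ⟨(b.coord j).toAddMonoidHom, by simpa using h⟩

/-- a rational number strictly between finitely many lower bounds and an upper bound -/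
theorem exists_between_fin {ι : Type*} (s : Finset ι) (a : ι → ℚ) (b : ℚ) (h : ∀ i ∈ s, a i < b) :
    ∃ t : ℚ, (∀ i ∈ s, a i < t) ∧ t < b := by
  have h1 : ∀ᶠ t in 𝓝[<] b, ∀ i ∈ s, a i < t := by
    rw [Filter.eventually_all_finset]
    intro i hi
    exact eventually_nhdsWithin_of_eventually_nhds (lt_mem_nhds (h i hi))
  have h2 : ∀ᶠ t in 𝓝[<] b, t < b := self_mem_nhdsWithin
  obtain ⟨t, h3, h4⟩ := (h1.and h2).exists
  exact ⟨t, h3, h4⟩

/-- integral Gordan theorem, on a finite subset of the index set -/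
theorem gordan_fin (hfg : Module.Finite ℤ W)
    (htf : ∀ (w : W) (m : ℕ), m ≠ 0 → m • w = 0 → w = 0) {ι : Type*} (s : Finset ι) :
    ∀ (v : ι → W), (∀ c : ι → ℕ, ∑ i ∈ s, c i • v i = 0 → ∀ i ∈ s, c i = 0) →
      ∃ f : W →+ ℤ, ∀ i ∈ s, 0 < f (v i) := by
  classical
  induction s using Finset.induction_on with
  | empty => intro v _; exact ⟨0, by simp⟩
  | insert a s ha ih =>
    intro v hv
    have hne : ∀ i ∈ s, i ≠ a := fun i hi h => ha (h ▸ hi)
    -- the family on `s`
    have h1 : ∀ c : ι → ℕ, ∑ i ∈ s, c i • v i = 0 → ∀ i ∈ s, c i = 0 := by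
      intro c hc i hi
      have := hv (fun i => if i = a then 0 else c i) (by
        rw [Finset.sum_insert ha]
        simp only [if_true, zero_smul, zero_add]
        rw [← hc]
        refine Finset.sum_congr rfl fun i hi => ?_
        rw [if_neg (hne i hi)]) i (Finset.mem_insert_of_mem hi)
      simpa [hne i hi] using this
    obtain ⟨f, hf⟩ := ih v h1
    rcases lt_trichotomy (f (v a)) 0 with hneg | hzero | hpos
    · -- negative case
      set p : ℕ := (f (v a)).natAbs with hp
      have hp0 : p ≠ 0 := by simpa [hp] using hneg.ne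
      have hpz : (p : ℤ) = -f (v a) := by
        rw [hp]; omega
      have hq : ∀ i ∈ s, ((f (v i)).natAbs : ℤ) = f (v i) := fun i hi => by
        have := hf i hi
        omega
      let u : ι → W := fun i => (f (v i)).natAbs • v a + p • v i
      have h2 : ∀ c : ι → ℕ, ∑ i ∈ s, c i • u i = 0 → ∀ i ∈ s, c i = 0 := by
        intro c hc i hi
        have := hv (fun i => if i = a then ∑ j ∈ s, c j * (f (v j)).natAbs else c i * p) (by
          rw [Finset.sum_insert ha]
          simp only [if_true]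
          rw [← hc, Finset.sum_smul, Finset.sum_congr rfl (fun i hi => by
            rw [if_neg (hne i hi)] : ∀ i ∈ s, (if i = a then
              ∑ j ∈ s, c j * (f (v j)).natAbs else c i * p) • v i = (c i * p) • v i),
            ← Finset.sum_add_distrib]
          refine Finset.sum_congr rfl fun i _ => ?_
          simp only [u, smul_add, mul_smul]) i (Finset.mem_insert_of_mem hi)
        simpa [hne i hi, hp0] using this
      obtain ⟨g, hg⟩ := ih u h2
      have hg' : ∀ i ∈ s, 0 < f (v i) * g (v a) + p * g (v i) := by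
        intro i hi
        have := hg i hi
        simp only [u, map_add, map_nsmul, nsmul_eq_mul] at this
        rwa [hq i hi] at this
      obtain ⟨t, ht1, ht2⟩ := exists_between_fin s (fun i => -(g (v i) : ℚ) / (f (v i) : ℚ))
        ((g (v a) : ℚ) / p) (by
          intro i hi
          have hfi : (0 : ℚ) < f (v i) := by exact_mod_cast hf i hi
          have hpp : (0 : ℚ) < p := by exact_mod_cast Nat.pos_of_ne_zero hp0
          rw [div_lt_div_iff₀ hfi hpp]
          have := hg' i hi
          have h3 : (0 : ℚ) < f (v i) * g (v a) + p * g (v i) := by exact_mod_cast this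
          nlinarith)
      have htd : (0 : ℚ) < t.den := by exact_mod_cast t.den_pos
      refine ⟨t.den • g + t.num • f, fun i hi => ?_⟩
      have key : ∀ w : W, ((t.den • g + t.num • f : W →+ ℤ) w : ℚ) =
          t.den * ((g w : ℚ) + t * (f w : ℚ)) := by
        intro w
        have : (t.num : ℚ) = t.den * t := by
          rw [mul_comm]; exact (Rat.mul_den_eq_num t).symm
        simp only [AddMonoidHom.add_apply, AddMonoidHom.coe_smul, Pi.smul_apply, nsmul_eq_mul,
          zsmul_eq_mul, Int.cast_add, Int.cast_mul, Int.cast_natCast, Int.cast_id]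
        rw [this]; ring
      have goal : (0 : ℚ) < ((t.den • g + t.num • f : W →+ ℤ) (v i) : ℚ) := by
        rw [key]
        refine mul_pos htd ?_
        rcases Finset.mem_insert.1 hi with rfl | hi
        · have hpp : (0 : ℚ) < p := by exact_mod_cast Nat.pos_of_ne_zero hp0
          rw [lt_div_iff₀ hpp] at ht2
          have h3 : (f (v i) : ℚ) = -p := by
            have : f (v i) = -(p : ℤ) := by omega
            exact_mod_cast this
          rw [h3]; linarith
        · have hfi : (0 : ℚ) < f (v i) := by exact_mod_cast hf i hi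
          have h3 := ht1 i hi
          rw [div_lt_iff₀ hfi] at h3
          linarith
      exact_mod_cast goal
    · -- zero case
      have hva : v a ≠ 0 := by
        intro h0
        have := hv (fun i => if i = a then 1 else 0) (by
          rw [Finset.sum_insert ha]
          simp only [if_true, h0, smul_zero, zero_add]
          refine Finset.sum_eq_zero fun i hi => ?_
          rw [if_neg (hne i hi), zero_smul]) a (Finset.mem_insert_self a s)
        simp at this
      obtain ⟨g, hg⟩ := exists_pos hfg htf hva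
      -- a large multiple of `f`
      obtain ⟨N, hN⟩ : ∃ N : ℕ, ∀ i ∈ s, -g (v i) < N := by
        refine ⟨∑ i ∈ s, ((g (v i)).natAbs + 1), fun i hi => ?_⟩
        have : (g (v i)).natAbs + 1 ≤ ∑ i ∈ s, ((g (v i)).natAbs + 1) :=
          Finset.single_le_sum (f := fun i => (g (v i)).natAbs + 1) (fun _ _ => Nat.zero_le _) hi
        have h3 : (((g (v i)).natAbs + 1 : ℕ) : ℤ) ≤ ((∑ i ∈ s, ((g (v i)).natAbs + 1) : ℕ) : ℤ) :=
          by exact_mod_cast this
        push_cast at h3 ⊢
        have h4 : -g (v i) ≤ |g (v i)| := neg_le_abs _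
        linarith
      refine ⟨g + N • f, fun i hi => ?_⟩
      simp only [AddMonoidHom.add_apply, AddMonoidHom.coe_smul, Pi.smul_apply, nsmul_eq_mul]
      rcases Finset.mem_insert.1 hi with rfl | hi
      · rw [hzero]; simpa using hg
      · have h3 := hf i hi
        have h4 := hN i hi
        have h5 : (N : ℤ) * 1 ≤ N * f (v i) := by
          refine mul_le_mul_of_nonneg_left ?_ (by positivity)
          omega
        linarith
    · -- positive case
      refine ⟨f, fun i hi => ?_⟩
      rcases Finset.mem_insert.1 hi with rfl | hi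
      · exact hpos
      · exact hf i hi

/-- moving a functional off finitely many kernels -/
theorem generic (hfg : Module.Finite ℤ W)
    (htf : ∀ (w : W) (m : ℕ), m ≠ 0 → m • w = 0 → w = 0) {ι : Type*} [Finite ι] (v : ι → W)
    (f : W →+ ℝ) (hf : ∀ i, 0 < f (v i)) (S : Finset W) :
    (∀ w ∈ S, w ≠ 0) → ∃ x : W →+ ℝ, (∀ i, 0 < x (v i)) ∧ ∀ w ∈ S, x w ≠ 0 := by
  classical
  induction S using Finset.induction_on with
  | empty => intro _; exact ⟨f, hf, by simp⟩
  | insert w S hw ih =>
    intro hS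
    obtain ⟨x, hx1, hx2⟩ := ih fun w' hw' => hS w' (Finset.mem_insert_of_mem hw')
    by_cases h0 : x w = 0
    · obtain ⟨g, hg⟩ := exists_pos hfg htf (hS w (Finset.mem_insert_self w S))
      let g' : W →+ ℝ := (Int.castAddHom ℝ).comp g
      have hg' : 0 < g' w := by
        change (0 : ℝ) < ((g w : ℤ) : ℝ)
        exact_mod_cast hg
      have hc : ∀ u : W, ContinuousAt (fun ε : ℝ => x u + ε * g' u) 0 := fun u => by fun_prop
      have h1 : ∀ᶠ ε in 𝓝[>] (0 : ℝ), ∀ i, 0 < x (v i) + ε * g' (v i) := by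
        rw [Filter.eventually_all]
        intro i
        refine eventually_nhdsWithin_of_eventually_nhds ?_
        exact (hc (v i)).eventually (lt_mem_nhds (by simpa using hx1 i))
      have h2 : ∀ᶠ ε in 𝓝[>] (0 : ℝ), ∀ w' ∈ S, x w' + ε * g' w' ≠ 0 := by
        rw [Filter.eventually_all_finset]
        intro w' hw'
        refine eventually_nhdsWithin_of_eventually_nhds ?_
        exact (hc w').eventually (isOpen_ne.mem_nhds (by simpa using hx2 w' hw'))
      have h3 : ∀ᶠ ε in 𝓝[>] (0 : ℝ), 0 < ε := self_mem_nhdsWithin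
      obtain ⟨ε, ⟨h4, h5⟩, h6⟩ := ((h1.and h2).and h3).exists
      refine ⟨x + (AddMonoidHom.mulLeft ε).comp g', fun i => ?_, fun w' hw' => ?_⟩
      · simpa using h4 i
      · rcases Finset.mem_insert.1 hw' with rfl | hw'
        · have : x w' + ε * g' w' ≠ 0 := by
            rw [h0, zero_add]; exact (mul_pos h6 hg').ne'
          simpa using this
        · simpa using h5 w' hw'
    · refine ⟨x, hx1, fun w' hw' => ?_⟩
      rcases Finset.mem_insert.1 hw' with rfl | hw'
      · exact h0
      · exact hx2 w' hw'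

/-- **Gordan over `ℤ`**. -/
theorem gordan {W : Type*} [AddCommGroup W] (hfg : Module.Finite ℤ W)
    (htf : ∀ (w : W) (m : ℕ), m ≠ 0 → m • w = 0 → w = 0) {ι : Type*} [Fintype ι] (v : ι → W)
    (h : ∀ c : ι → ℕ, ∑ i, c i • v i = 0 → c = 0) (S : Finset W) (hS : ∀ w ∈ S, w ≠ 0) :
    ∃ x : W →+ ℝ, (∀ i, 0 < x (v i)) ∧ ∀ w ∈ S, x w ≠ 0 := by
  obtain ⟨f, hf⟩ := gordan_fin hfg htf (Finset.univ : Finset ι) v fun c hc i _ => by
    rw [h c hc]; rfl
  refine generic hfg htf v ((Int.castAddHom ℝ).comp f) (fun i => ?_) S hS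
  change (0 : ℝ) < ((f (v i) : ℤ) : ℝ)
  exact_mod_cast hf i (Finset.mem_univ i)

end Crest.Agent.R273.Gordan_106
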