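import Crest.Agent.R275.RetG_666
import Crest.Agent.R273.HomScale_803
import Crest.Agent.R275.SerR_398

-- ▼ part R273/KRL2_803
section

/-!
# R273, leaf D.12 (helper803): the parametrix in the UNSHIFTED norms, holomorphic limits in L2

`S0 P B = scS P B 0` : the scale of unshifted norms `H^s` (all degrees), `s = 0` is the `L²` norm.

* `opm0_KML`, `opm0_RML` : `K`, `R : H^s → H^{s+1}`;
* `nab0_le` : `∇ : H^{s+1} → H^s`; `op0_actL0`, `op0_pqL0` : bundle maps, degree projections;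
* `pow_RML_le` : `R^m : L² → H^m`;
* `exists_limit` : if `v m` is Cauchy in `L²`, `K v m = 0` (e.g. degree `0`) and `∇ v m → 0` in `L²`,
  then `v m → w` in `L²` with `w` SMOOTH, and `∇ w = 0` if `∇ ∇ = 0`.
-/

set_option autoImplicit false
set_option linter.unusedSectionVars false
set_option linter.unusedSimpArgs false
set_option linter.unusedVariables false

open Set Filter Topology Complex
open scoped ContDiff Matrix ComplexConjugate

namespace Crest.Agent.R273.KRL2_803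

open Crest.Agent.R275 Crest.Agent.R275.Geo Crest.Agent.R275.Tor812 Crest.Agent.R275.TorS666
  Crest.Agent.R275.C1d194 Crest.Agent.R275.C2812 Crest.Agent.R275.Ret666
  Crest.Agent.R275.Fred685 Crest.Agent.R275.FHom556 Crest.Agent.R275.RetC666

noncomputable section

variable {n : ℕ} {M : Type} [TopologicalSpace M] {A : Atl n M}

section

variable [Finite A.ι] (P : Part A) (B : FBun A) {B' : FBun A}

/-- the scale of the unshifted norms `H^s` -/
abbrev S0 : Scale ℂ (Sec B) := scS P B 0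


theorem tb_KT1 : TB1 1 (KTl B.io) (shB 0 B) (shB 0 B) :=
  tb1_KT fun a k l h => by
    simp only [shB]
    omega

theorem tb_GT1 : TB1 1 (GTl : (B.κ → SPer (RI n)) →ₗ[ℂ] (B.κ → SPer (RI n)))
    (shB 0 B) (shB 0 B) := tb1_GT fun k => by omega

section XS

theorem opR_ExtA_any {κ₂ : Type} [Fintype κ₂] (b : AF P B.κ κ₂) (sh₂ : κ₂ → ℕ) :
    OpR 0 (scT (ws (Wt.one P) sh₂)) (S0 P B) ((XS P B).ExtA b sh₂) :=
  (XS P B).opR_ExtA b fun j x k l h => by omega


theorem opR_LocA_any' (a : AF P B.κ B.κ) :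
    OpR 0 (S0 P B) (scT (ws (Wt.one P) (shB 0 B))) ((XS P B).LocA a (shB 0 B)) :=
  (XS P B).opR_LocA a fun j x k l h => by simp only [shB]; omega

/-- **`K : H^s → H^{s+1}`** -/
theorem opm0_KML : Opm (S0 P B) (S0 P B) (KML B P) := by
  rw [← XS_K P B, (XS P B).K_eq 0]
  have hK := opR_TT (Wt.one P) ((tb_KT1 B).tbd A)
  have h1 : OpR 1 (S0 P B) (S0 P B) ((XS P B).ExtA (AF.chi P B) (shB 0 B) ∘ₗ
      TT (Wt.one P) ((tb_KT1 B).tbd A) ∘ₗ (XS P B).LocA (AF.psi P B) (shB 0 B)) :=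
    (opR_ExtA_any P B _ _).comp0' (hK.comp0 (opR_LocA_any' P B _))
  exact opR_one.1 h1

/-- **`R : H^s → H^{s+1}`** -/
theorem opm0_RML : Opm (S0 P B) (S0 P B) (RML B P) := by
  rw [← XS_R P B, (XS P B).R_eq 0]
  have hK := opR_TT (Wt.one P) ((tb_KT1 B).tbd A)
  have hG := opR_TT (Wt.one P) ((tb_GT1 B).tbd A)
  have h1 : OpR 1 (S0 P B) (S0 P B) ((XS P B).ExtA (AF.chi P B) (shB 0 B) ∘ₗ
      TT (Wt.one P) ((tb_GT1 B).tbd A) ∘ₗ (XS P B).LocA (AF.psi P B) (shB 0 B)) :=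
    (opR_ExtA_any P B _ _).comp0' (hG.comp0 (opR_LocA_any' P B _))
  have h2 : OpR 1 (S0 P B) (S0 P B) ((XS P B).ExtA (AF.dchi P B) (shB 0 B) ∘ₗ
      TT (Wt.one P) ((tb_KT1 B).tbd A) ∘ₗ (XS P B).LocA (AF.psi P B) (shB 0 B)) :=
    (opR_ExtA_any P B _ _).comp0' (hK.comp0 (opR_LocA_any' P B _))
  have h3 : OpR 1 (S0 P B) (S0 P B) ((XS P B).ExtA (AF.chi P B) (shB 0 B) ∘ₗ
      TT (Wt.one P) ((tb_KT1 B).tbd A) ∘ₗ (XS P B).LocA (AF.dpsi P B) (shB 0 B)) :=
    (opR_ExtA_any P B _ _).comp0' (hK.comp0 (opR_LocA_any' P B _))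
  exact opR_one.1 ((h1.sub h2).add h3)

end XS

/-! ### coordinates, `∇`, bundle maps -/

theorem coord0 (s : ℕ) (u : Sec B) (i : A.ι) (k : B.κ) :
    nrm s (loc A i (P.psi B.κ i) (u.1 i) k) ≤ (S0 P B).nrm s u := by
  have h := coordS P B 0 s u i k
  rwa [Nat.zero_sub, add_zero] at h

theorem nrm0_le_sum [Fintype A.ι] (s : ℕ) (u : Sec B) :
    (S0 P B).nrm s u ≤ ∑ i, ∑ k, nrm s (loc A i (P.psi B.κ i) (u.1 i) k) := by
  have h := nrmS_le_sum P B 0 s u
  simpa only [Nat.zero_sub, add_zero] using h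

/-- localisations with any amplitude -/
theorem nrm0_loc_le {κ₁ : Type} [Fintype κ₁] {i : A.ι} {a : M → Matrix κ₁ B.κ ℂ}
    (ha : IsAmp A i a) (s : ℕ) :
    ∃ C, 0 ≤ C ∧ ∀ (u : Sec B) (k : κ₁), nrm s (loc A i a (u.1 i) k) ≤ C * (S0 P B).nrm s u := by
  obtain ⟨C, h0, h⟩ := nrm_loc_any P B ha 0 0 (fun _ => 0) (fun x k l _ => by omega) s
  exact ⟨C, h0, fun u k => h u k⟩


/-- **`∇ : H^{s+1} → H^s`** -/
theorem nab0_le (s : ℕ) : ∃ C, 0 ≤ C ∧ ∀ u : Sec B,
    (S0 P B).nrm s (nabL B u) ≤ C * (S0 P B).nrm (s + 1) u := by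
  classical
  have := Fintype.ofFinite A.ι
  obtain ⟨C1, hC1, h1⟩ := (tb1_DT (e := B.e) (sh₁ := fun _ => 1) (sh₂ := fun _ => 0) (r := 0)
    (fun _ _ _ _ => by omega)) s
  choose C2 hC2 h2 using fun i => nrm0_loc_le P B ((amp_dpsi B P).amp i) s
  refine ⟨∑ i, ∑ _k : B.κ, (C1 * Fintype.card B.κ + C2 i), Finset.sum_nonneg fun i _ =>
    Finset.sum_nonneg fun k _ => add_nonneg (by positivity) (hC2 i), fun u => ?_⟩
  refine (nrm0_le_sum P B s (nabL B u)).trans ?_
  rw [Finset.sum_mul]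
  refine Finset.sum_le_sum fun i _ => ?_
  rw [Finset.sum_mul]
  refine Finset.sum_le_sum fun k _ => ?_
  have h3 : loc A i (P.psi B.κ i) ((nabL B u).1 i) k
      = DTl B.e (loc A i (P.psi B.κ i) (u.1 i)) k - loc A i (dpsi B P i) (u.1 i) k :=
    congrFun (congrFun (LocF_nab B P u.2) i) k
  rw [h3]
  refine (nrm_sub_le _ _ _).trans ?_
  rw [add_mul]
  refine add_le_add ?_ ?_
  · refine (h1 (loc A i (P.psi B.κ i) (u.1 i)) k).trans ?_
    rw [mul_assoc]
    refine mul_le_mul_of_nonneg_left ?_ hC1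
    refine (Finset.sum_le_sum fun l _ => coord0 P B (s + 1) u i l).trans (le_of_eq ?_)
    rw [Finset.sum_const, nsmul_eq_mul, Finset.card_univ]
  · exact (h2 i u k).trans (mul_le_mul_of_nonneg_left ((S0 P B).mono s u) (hC2 i))

variable {B} in
/-- bundle maps are bounded in all the unshifted norms -/
theorem op0_actL0 {r : ℕ} (H : FHom r B B') : Op0 (S0 P B) (S0 P B') H.actL := by
  rw [← XS_act P B H]
  refine opR_zero.1 ((XS P B').opR_iff.2 ?_)
  rw [(XS P B).LocA_act (XS P B') H]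
  refine (opR_chw _).comp0' ((XS P B).opR_LocA _ fun i x k l h => ?_)
  simp only [shB]
  omega

/-- degree projections -/
theorem op0_pqL0 (q : ℕ) : Op0 (S0 P B) (S0 P B) (pqL B q) := by
  rw [← Hq_actL B q]
  exact op0_actL0 P (Hq B q)

/-! ### powers of `R` -/




theorem htpy_apply (u : Sec B) : nabL B (KML B P u) + KML B P (nabL B u) = u - RML B P u := by
  have h := LinearMap.congr_fun (nabL_KML B P) u
  simpa using h


variable {P B}



/-- uniqueness of `L²` limits -/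
theorem limit_unique {v : ℕ → Sec B} {w w' : Sec B}
    (h : Tendsto (fun m => (S0 P B).nrm 0 (v m - w)) atTop (𝓝 0))
    (h' : Tendsto (fun m => (S0 P B).nrm 0 (v m - w')) atTop (𝓝 0)) : w = w' := by
  have h1 : Tendsto (fun m => (S0 P B).nrm 0 (v m - w') + (S0 P B).nrm 0 (v m - w)) atTop
      (𝓝 (0 + 0)) := h'.add h
  rw [add_zero] at h1
  have h2 : (S0 P B).nrm 0 (w - w') ≤ 0 := by
    refine ge_of_tendsto h1 (Filter.Eventually.of_forall fun m => ?_)
    have h3 : w - w' = (v m - w') - (v m - w) := by abel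
    rw [h3]
    exact map_sub_le_add _ _ _
  have h4 := (S0 P B).eq_zero _ (le_antisymm h2 (apply_nonneg _ _))
  exact sub_eq_zero.1 h4




end

end

end Crest.Agent.R273.KRL2_803
end

-- ▼ part R273/HodgeH_803

/-!
# R273, leaf D.15 (helper803): Hodge type homotopy on `Sec B`, closed range, exactness in `L²`

`B : FBun A`, finite atlas, `∇ ∇ = 0`.

* `HodgeOp P B` : operators `H`, `K` on `Sec B` with `u - H u = ∇ (K u) + K (∇ u)`, `∇ H = H ∇ = 0`,
  `H` smoothing of finite rank, `K : H^s → H^{s+1}` (unshifted norms), both graded;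
* `exists_hodgeOp` : they exist;
* `HodgeOp.closed_range`, `HodgeOp.exact_iff` : `z` exact ⟹ `z = ∇ (K z)`; `z` closed is exact iff
  `H z = 0`;
* `HodgeOp.l2_split` : if `u m` is Cauchy in `L²` and `∇ u m → 0` in `L²`, then `H u m → z` in every
  `H^s` with `z` smooth and closed, `K u m` is Cauchy in `H^1`, `u m - z - ∇ K u m → 0` in `L²`;
* `HodgeOp.l2_exact` : if moreover the limit is orthogonal to the closed sections of the dual
  bundle, then `u m - ∇ y m → 0` in `L²` with `y m` smooth and Cauchy in `H^1`.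
-/

set_option autoImplicit false
set_option linter.unusedSectionVars false
set_option linter.unusedVariables false

open Set Filter Topology Complex
open scoped ContDiff Matrix ComplexConjugate

namespace Crest.Agent.R273.HodgeH_803

open Crest.Agent.R275 Crest.Agent.R275.Geo Crest.Agent.R275.Tor812 Crest.Agent.R275.TorS666
  Crest.Agent.R275.C1d194 Crest.Agent.R275.C2812 Crest.Agent.R275.Ret666
  Crest.Agent.R275.Fred685 Crest.Agent.R275.FHom556 Crest.Agent.R275.RetC666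
  Crest.Agent.R275.SerG398
open Crest.Agent.R273.KRL2_803

noncomputable section

variable {n : ℕ} {M : Type} [TopologicalSpace M] {A : Atl n M}

section

variable [Finite A.ι] (P : Part A) (B : FBun A) {B' : FBun A}

/-- `R` is negligible for the unshifted scale -/
theorem neg0_RML : Neg (S0 P B) (S0 P B) (RML B P) := neg_of_opmSS P (opm0_RML P B)

/-- Hodge type homotopy on `Sec B` -/
structure HodgeOp where
  sq : ∀ u, nabL B (nabL B u) = 0
  H : Sec B →ₗ[ℂ] Sec B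
  K : Sec B →ₗ[ℂ] Sec B
  smH : SmFin (S0 P B) (S0 P B) H
  opmK : Opm (S0 P B) (S0 P B) K
  htpy : ∀ u, u - H u = nabL B (K u) + K (nabL B u)
  nabH : ∀ u, nabL B (H u) = 0
  Hnab : ∀ u, H (nabL B u) = 0
  Hpq : ∀ q u, H (pqL B q u) = pqL B q (H u)
  Kpq : ∀ q u, K (pqL B (q + 1) u) = pqL B q (K u)
  Kpq0 : ∀ u, K (pqL B 0 u) = 0

/-- **existence of the Hodge type homotopy** -/
theorem exists_hodgeOp (hsq : ∀ u, nabL B (nabL B u) = 0) : Nonempty (HodgeOp P B) := by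
  obtain ⟨H, K', h1, h2, h3, h4, h5, h6, h7, h8⟩ :=
    Crest.Agent.R273.HomScale_803.exists_homotopy_graded (S := S0 P B) (d := nabL B)
      (K := KML B P) (R := RML B P) hsq (htpy_apply P B) (opm0_KML P B) (neg0_RML P B)
      (fun q => pqL B q) (topDeg B) (fun q => op0_pqL0 P B q)
      (fun q v => LinearMap.congr_fun (pqL_idem (B := B) q) v)
      (fun q r v h => LinearMap.congr_fun (pqL_orth (B := B) h) v)
      (fun v => pqL_sum le_rfl v)
      (fun q v => (LinearMap.congr_fun (nabL_pqL (B := B) q) v).symm)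
      (fun v => LinearMap.congr_fun (pqL_zero_nabL (B := B)) v)
  exact ⟨⟨hsq, H, K', h1, h2, h3, h4, h5, h6, h7, h8⟩⟩

namespace HodgeOp

variable {P B} (T : HodgeOp P B)

/-- bounds of `H` : `L² → H^s` -/
theorem H_le (s : ℕ) : ∃ C, 0 ≤ C ∧ ∀ u, (S0 P B).nrm s (T.H u) ≤ C * (S0 P B).nrm 0 u :=
  exists_nonneg_const (T.smH.2 s)

/-- bounds of `K` : `H^s → H^{s+1}` -/
theorem K_le (s : ℕ) : ∃ C, 0 ≤ C ∧ ∀ u, (S0 P B).nrm (s + 1) (T.K u) ≤ C * (S0 P B).nrm s u :=
  exists_nonneg_const (T.opmK s)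

/-- `z` exact ⟹ `z = ∇ (K z)` -/
theorem eq_nab_K {z : Sec B} (hz : nabL B z = 0) (hH : T.H z = 0) : nabL B (T.K z) = z := by
  have h := T.htpy z
  rw [hz, map_zero, add_zero, hH, sub_zero] at h
  exact h.symm



/-- Cauchy sequences for `nrm s` -/
def Cau (P : Part A) (B : FBun A) (s : ℕ) (u : ℕ → Sec B) : Prop :=
  ∀ ε > 0, ∃ N, ∀ m ≥ N, ∀ l ≥ N, (S0 P B).nrm s (u m - u l) < ε

theorem Cau.map {s t : ℕ} {u : ℕ → Sec B} (hu : Cau P B s u) (X : Sec B →ₗ[ℂ] Sec B')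
    (hX : ∃ C, 0 ≤ C ∧ ∀ u, (S0 P B').nrm t (X u) ≤ C * (S0 P B).nrm s u) :
    Cau P B' t (fun m => X (u m)) := by
  obtain ⟨C, hC0, hC⟩ := hX
  intro ε hε
  obtain ⟨N, hN⟩ := hu (ε / (C + 1)) (by positivity)
  refine ⟨N, fun m hm l hl => ?_⟩
  rw [← map_sub]
  have h1 := hN m hm l hl
  have h2 := hC (u m - u l)
  have h3 : (0 : ℝ) ≤ (S0 P B).nrm s (u m - u l) := apply_nonneg _ _
  have h4 : C * (ε / (C + 1)) < ε := by
    rw [mul_div_assoc', div_lt_iff₀ (by positivity)]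
    nlinarith
  exact lt_of_le_of_lt (h2.trans (mul_le_mul_of_nonneg_left h1.le hC0)) h4

theorem tendsto_map {s t : ℕ} {u : ℕ → Sec B} (hu : Tendsto (fun m => (S0 P B).nrm s (u m)) atTop (𝓝 0))
    (X : Sec B →ₗ[ℂ] Sec B')
    (hX : ∃ C, 0 ≤ C ∧ ∀ u, (S0 P B').nrm t (X u) ≤ C * (S0 P B).nrm s u) :
    Tendsto (fun m => (S0 P B').nrm t (X (u m))) atTop (𝓝 0) := by
  obtain ⟨C, hC0, hC⟩ := hX
  have h1 : Tendsto (fun m => C * (S0 P B).nrm s (u m)) atTop (𝓝 (C * 0)) := hu.const_mul C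
  rw [mul_zero] at h1
  exact squeeze_zero (fun m => apply_nonneg _ _) (fun m => hC _) h1

/-- `H u m` converges in every `H^s` to one smooth section -/
theorem H_limit {u : ℕ → Sec B} (hu : Cau P B 0 u) :
    ∃ z : Sec B, nabL B z = 0 ∧ ∀ s, Tendsto (fun m => (S0 P B).nrm s (T.H (u m) - z)) atTop (𝓝 0) := by
  obtain ⟨z, hz⟩ := (S0 P B).complete (fun m => T.H (u m)) fun s => Cau.map hu T.H (T.H_le s)
  have h1 : ∀ s, Tendsto (fun m => (S0 P B).nrm s (T.H (u m) - z)) atTop (𝓝 0) := by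
    intro s
    rw [Metric.tendsto_atTop]
    intro ε hε
    obtain ⟨N, hN⟩ := hz s ε hε
    refine ⟨N, fun m hm => ?_⟩
    rw [Real.dist_eq, sub_zero, abs_of_nonneg (apply_nonneg _ _)]
    exact hN m hm
  refine ⟨z, ?_, h1⟩
  have h2 := tendsto_map (h1 1) (nabL B) (nab0_le P B 0)
  have h3 : Tendsto (fun _ : ℕ => (S0 P B).nrm 0 (nabL B z)) atTop (𝓝 0) := by
    refine h2.congr fun m => ?_
    rw [map_sub, T.nabH, zero_sub, map_neg_eq_map]
  have h4 : (S0 P B).nrm 0 (nabL B z) = 0 := tendsto_nhds_unique tendsto_const_nhds h3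
  exact (S0 P B).eq_zero _ h4

/-- **splitting of an almost closed `L²` sequence** -/
theorem l2_split {u : ℕ → Sec B} (hu : Cau P B 0 u)
    (hd : Tendsto (fun m => (S0 P B).nrm 0 (nabL B (u m))) atTop (𝓝 0)) :
    ∃ z : Sec B, nabL B z = 0 ∧
      (∀ s, Tendsto (fun m => (S0 P B).nrm s (T.H (u m) - z)) atTop (𝓝 0)) ∧
      Cau P B 1 (fun m => T.K (u m)) ∧
      Tendsto (fun m => (S0 P B).nrm 0 (u m - z - nabL B (T.K (u m)))) atTop (𝓝 0) := by
  obtain ⟨z, hz, hlim⟩ := T.H_limit hu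
  refine ⟨z, hz, hlim, Cau.map hu T.K (T.K_le 0), ?_⟩
  have h1 := tendsto_map hd T.K (t := 0) (by
    obtain ⟨C, hC0, hC⟩ := T.K_le 0
    exact ⟨C, hC0, fun u => ((S0 P B).nrm_mono (Nat.zero_le _) _).trans (hC u)⟩)
  have h2 := (hlim 0).add h1
  rw [add_zero] at h2
  refine squeeze_zero (fun m => apply_nonneg _ _) (fun m => ?_) h2
  have h3 : u m - z - nabL B (T.K (u m)) = (T.H (u m) - z) + T.K (nabL B (u m)) := by
    have h4 := T.htpy (u m)
    have h5 : T.K (nabL B (u m)) = u m - T.H (u m) - nabL B (T.K (u m)) := by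
      rw [h4]; abel
    rw [h5]
    abel
  rw [h3]
  exact map_add_le_add _ _ _

/-- degree of the limit -/
theorem limit_deg {q : ℕ} {u : ℕ → Sec B} (hq : ∀ m, pqL B q (u m) = u m) {z : Sec B}
    (hz : Tendsto (fun m => (S0 P B).nrm 0 (T.H (u m) - z)) atTop (𝓝 0)) : pqL B q z = z := by
  have h1 := tendsto_map hz (pqL B q) (exists_nonneg_const (op0_pqL0 P B q 0))
  refine limit_unique (P := P) (v := fun m => T.H (u m)) ?_ hz
  refine h1.congr fun m => ?_
  rw [map_sub, ← T.Hpq, hq]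

end HodgeOp

/-! ### duality -/

section dual

variable [CompactSpace M] [T2Space M] (D : DPair B B')

variable {B}


end dual

end

end

end Crest.Agent.R273.HodgeH_803
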