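import Mathlib.LinearAlgebra.FiniteDimensional.Lemmas
import Mathlib.LinearAlgebra.Dimension.Constructions
import Mathlib.LinearAlgebra.Dimension.Free
import Mathlib.LinearAlgebra.Dimension.RankNullity
import Mathlib.Data.Complex.Basic
import Crest.Agent.R275.Kos_798

/-!
R273 (S0416), Part A, leaves K1, K2 (helper619): the algebra of the L2-Koszul step.

* `dbl`: the double complex lemma (relation form; `D` may be an unbounded operator given by its graph).
* `euler`: an exact complex of finite dimensional spaces has alternating sum `0`.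
* `kop`: the Koszul operator on `Finset (Fin m) → V`, `kop_kop`.
* `koszul_L2`: the combined statement.
-/

set_option autoImplicit false

open Finset

namespace Crest.Agent.R273.KosAb_619

/-! ### K1: the double complex lemma -/

/-- Double complex lemma.  `W p q` : (Koszul degree, form degree).  `Dr` is the graph of `D`. -/
theorem dbl {V : Type*} [AddCommGroup V] (W : ℕ → ℕ → AddSubgroup V) (K : V →+ V)
    (Dr : AddSubgroup (V × V))
    (hKW : ∀ p q u, u ∈ W p q → K u ∈ W (p + 1) q)
    (hKK : ∀ u, K (K u) = 0)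
    (hDK : ∀ u x, (u, x) ∈ Dr → (K u, K x) ∈ Dr)
    (hfun : ∀ y, ((0 : V), y) ∈ Dr → y = 0)
    (hDD : ∀ u x, (u, x) ∈ Dr → (x, (0 : V)) ∈ Dr)
    (hK0 : ∀ q u, u ∈ W 0 q → K u = 0 → u = 0)
    (hK1 : ∀ p q u, u ∈ W (p + 1) q → (u, (0 : V)) ∈ Dr → K u = 0 →
      ∃ u' x, u' ∈ W p q ∧ x ∈ W p (q + 1) ∧ (u', x) ∈ Dr ∧ K u' = u)
    (hD : ∀ p q u, u ∈ W p (q + 1) → (u, (0 : V)) ∈ Dr → ∃ v ∈ W p q, (v, u) ∈ Dr) :
    ∀ p q u, u ∈ W (p + 1) q → (u, (0 : V)) ∈ Dr → K u = 0 →
      ∃ u' ∈ W p q, (u', (0 : V)) ∈ Dr ∧ K u' = u := by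
  intro p
  induction p with
  | zero =>
    intro q u hu hDu hKu
    obtain ⟨u', x, hu', hx, hDx, hKu'⟩ := hK1 0 q u hu hDu hKu
    have hKx : K x = 0 := by
      refine hfun _ ?_
      have h1 := Dr.sub_mem (hDK _ _ hDx) hDu
      rwa [hKu', Prod.mk_sub_mk, sub_self, sub_zero] at h1
    have hx0 := hK0 _ _ hx hKx
    exact ⟨u', hu', hx0 ▸ hDx, hKu'⟩
  | succ p ih =>
    intro q u hu hDu hKu
    obtain ⟨u', x, hu', hx, hDx, hKu'⟩ := hK1 (p + 1) q u hu hDu hKu
    have hKx : K x = 0 := by
      refine hfun _ ?_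
      have h1 := Dr.sub_mem (hDK _ _ hDx) hDu
      rwa [hKu', Prod.mk_sub_mk, sub_self, sub_zero] at h1
    obtain ⟨y, hy, hDy, hKy⟩ := ih (q + 1) x hx (hDD _ _ hDx) hKx
    obtain ⟨z, hz, hDz⟩ := hD p q y hy hDy
    refine ⟨u' - K z, (W (p + 1) q).sub_mem hu' (hKW _ _ _ hz), ?_, ?_⟩
    · have h1 := Dr.sub_mem hDx (hDK _ _ hDz)
      rwa [hKy, Prod.mk_sub_mk, sub_self] at h1
    · rw [map_sub, hKK, sub_zero, hKu']

/-! ### K2: alternating sums -/

/-- An exact complex `0 → C 0 → C 1 → ⋯ → C N → 0` has vanishing alternating sum of dimensions. -/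
theorem euler {k : Type*} [Field k] {C : ℕ → Type*} [∀ p, AddCommGroup (C p)] [∀ p, Module k (C p)]
    [∀ p, FiniteDimensional k (C p)] (d : ∀ p, C p →ₗ[k] C (p + 1))
    (h0 : Function.Injective (d 0)) (hex : ∀ p, LinearMap.ker (d (p + 1)) = LinearMap.range (d p))
    (N : ℕ) (hN : Module.finrank k (C (N + 1)) = 0) :
    ∑ p ∈ range (N + 1), (-1 : ℤ) ^ p * (Module.finrank k (C p) : ℤ) = 0 := by
  have key : ∀ N, ∑ p ∈ range (N + 1), (-1 : ℤ) ^ p * (Module.finrank k (C p) : ℤ) =
      (-1) ^ N * (Module.finrank k (LinearMap.range (d N)) : ℤ) := by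
    intro N
    induction N with
    | zero =>
      rw [LinearMap.finrank_range_of_inj h0]; simp
    | succ N ih =>
      rw [sum_range_succ, ih]
      have h1 := LinearMap.finrank_range_add_finrank_ker (d (N + 1))
      rw [hex N] at h1
      rw [← h1]
      push_cast
      ring
  rw [key N]
  have h2 : Module.finrank k (LinearMap.range (d N)) = 0 :=
    Nat.eq_zero_of_le_zero (hN ▸ Submodule.finrank_le _)
  rw [h2]; simp

/-! ### The Koszul operator -/

open Crest.Agent.R275.Kos798

variable {R : Type*} [CommRing R] {V : Type*} [AddCommGroup V] [Module R V] {m : ℕ}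

/-- The Koszul operator `s ∧ · + p ⌟ ·` on `Finset (Fin m) → V`. -/
def kop (s p : Fin m → R) : (Finset (Fin m) → V) →ₗ[R] (Finset (Fin m) → V) where
  toFun f T := ∑ j, (sgn R j T * cf s p j T) • f (tog T j)
  map_add' f g := by
    funext T
    simp only [Pi.add_apply, smul_add, Finset.sum_add_distrib]
  map_smul' c f := by
    funext T
    simp only [Pi.smul_apply, RingHom.id_apply, Finset.smul_sum]
    refine Finset.sum_congr rfl fun j _ => ?_
    rw [smul_comm]

theorem kop_apply (s p : Fin m → R) (f : Finset (Fin m) → V) (T : Finset (Fin m)) :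
    kop s p f T = ∑ j, (sgn R j T * cf s p j T) • f (tog T j) := rfl

theorem kop_eq_K (s p : Fin m → R) (f : Finset (Fin m) → V) (T : Finset (Fin m)) :
    kop s p f T = ∑ S, K s p T S • f S := by
  classical
  rw [kop_apply]
  unfold K
  simp only [Finset.sum_smul, ite_smul, zero_smul]
  rw [Finset.sum_comm]
  refine Finset.sum_congr rfl fun j _ => ?_
  rw [Finset.sum_ite_eq]
  simp

theorem kop_kop (s p : Fin m → R) (f : Finset (Fin m) → V) :
    kop s p (kop s p f) = (∑ j, s j * p j) • f := by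
  classical
  funext T
  rw [kop_eq_K]
  simp only [kop_eq_K s p f, Finset.smul_sum, smul_smul]
  rw [Finset.sum_comm]
  have h1 : ∀ S : Finset (Fin m), ∑ x, (K s p T x * K s p x S) • f S =
      ((∑ j, s j * p j) * (1 : Matrix (Finset (Fin m)) (Finset (Fin m)) R) T S) • f S := by
    intro S
    rw [← Finset.sum_smul, ← Matrix.mul_apply, K_mul_K, Matrix.smul_apply, smul_eq_mul]
  rw [Finset.sum_congr rfl fun S _ => h1 S, Finset.sum_eq_single T]
  · rw [Matrix.one_apply_eq, mul_one]; rfl
  · intro S _ hS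
    rw [Matrix.one_apply_ne hS.symm, mul_zero, zero_smul]
  · intro h; exact absurd (mem_univ _) h

theorem cf_add (s p s' p' : Fin m → R) (j : Fin m) (T : Finset (Fin m)) :
    cf (s + s') (p + p') j T = cf s p j T + cf s' p' j T := by
  unfold cf; split_ifs <;> rfl

theorem kop_add (s p s' p' : Fin m → R) (f : Finset (Fin m) → V) :
    kop (s + s') (p + p') f = kop s p f + kop s' p' f := by
  funext T
  simp only [kop_apply, Pi.add_apply, cf_add, mul_add, add_smul, Finset.sum_add_distrib]

/-- wedge twice is zero -/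
theorem wedge_wedge (s : Fin m → R) (f : Finset (Fin m) → V) : kop s 0 (kop s 0 f) = 0 := by
  rw [kop_kop]; simp

/-- contraction twice is zero -/
theorem contr_contr (p : Fin m → R) (f : Finset (Fin m) → V) : kop 0 p (kop 0 p f) = 0 := by
  rw [kop_kop]; simp

/-- the homotopy formula `e(s) i(p) + i(p) e(s) = ⟨s,p⟩`. -/
theorem anticomm (s p : Fin m → R) (f : Finset (Fin m) → V) :
    kop s 0 (kop 0 p f) + kop 0 p (kop s 0 f) = (∑ j, s j * p j) • f := by
  have h := kop_kop s p f
  have h1 : kop s p f = kop s 0 f + kop 0 p f := by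
    rw [← kop_add]; simp
  rw [h1, map_add] at h
  have h2 : ∀ g : Finset (Fin m) → V, kop s p g = kop s 0 g + kop 0 p g := by
    intro g; rw [← kop_add]; simp
  rw [h2, h2, wedge_wedge, contr_contr, zero_add, add_zero] at h
  rw [← h]; abel

/-- support in degree `p` with values in `A`. -/
def Deg (A : AddSubgroup V) (p : ℕ) : AddSubgroup (Finset (Fin m) → V) where
  carrier := {f | (∀ T, T.card = p → f T ∈ A) ∧ ∀ T, T.card ≠ p → f T = 0}
  add_mem' := by
    rintro f g ⟨h1, h2⟩ ⟨h3, h4⟩
    exact ⟨fun T hT => A.add_mem (h1 T hT) (h3 T hT), fun T hT => by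
      rw [Pi.add_apply, h2 T hT, h4 T hT, add_zero]⟩
  zero_mem' := ⟨fun T _ => A.zero_mem, fun T _ => rfl⟩
  neg_mem' := by
    rintro f ⟨h1, h2⟩
    exact ⟨fun T hT => A.neg_mem (h1 T hT), fun T hT => by rw [Pi.neg_apply, h2 T hT, neg_zero]⟩


theorem sgn_smul_mem {A : AddSubgroup V} (j : Fin m) (T : Finset (Fin m)) {v : V} (hv : v ∈ A) :
    sgn R j T • v ∈ A := by
  unfold sgn
  rcases Nat.even_or_odd (T.filter (· < j)).card with h | h
  · rw [h.neg_one_pow, one_smul]; exact hv
  · rw [h.neg_one_pow, neg_smul, one_smul]; exact A.neg_mem hv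

theorem card_tog_of_mem {T : Finset (Fin m)} {j : Fin m} (h : j ∈ T) :
    (tog T j).card + 1 = T.card := by
  unfold tog; rw [if_pos h, Finset.card_erase_add_one h]

theorem card_tog_of_notMem {T : Finset (Fin m)} {j : Fin m} (h : j ∉ T) :
    (tog T j).card = T.card + 1 := by
  unfold tog; rw [if_neg h, Finset.card_insert_of_notMem h]

/-- wedge raises the degree. -/
theorem wedge_mem {A B : AddSubgroup V} {s : Fin m → R} (hs : ∀ j v, v ∈ A → s j • v ∈ B) {p : ℕ}
    {f : Finset (Fin m) → V} (hf : f ∈ Deg A p) : kop s 0 f ∈ Deg B (p + 1) := by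
  constructor
  · intro T hT
    rw [kop_apply]
    refine B.sum_mem fun j _ => ?_
    by_cases hj : j ∈ T
    · have hc := card_tog_of_mem hj
      rw [cf, if_pos hj, mul_smul]
      exact sgn_smul_mem _ _ (hs _ _ (hf.1 _ (by omega)))
    · rw [cf, if_neg hj]; simp
  · intro T hT
    rw [kop_apply]
    refine Finset.sum_eq_zero fun j _ => ?_
    by_cases hj : j ∈ T
    · have hc := card_tog_of_mem hj
      rw [hf.2 _ (by omega), smul_zero]
    · rw [cf, if_neg hj]; simp

/-- contraction lowers the degree. -/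
theorem contr_mem {A B : AddSubgroup V} {s : Fin m → R} (hs : ∀ j v, v ∈ A → s j • v ∈ B) {p : ℕ}
    {f : Finset (Fin m) → V} (hf : f ∈ Deg A (p + 1)) : kop 0 s f ∈ Deg B p := by
  constructor
  · intro T hT
    rw [kop_apply]
    refine B.sum_mem fun j _ => ?_
    by_cases hj : j ∈ T
    · rw [cf, if_pos hj]; simp
    · have hc := card_tog_of_notMem hj
      rw [cf, if_neg hj, mul_smul]
      exact sgn_smul_mem _ _ (hs _ _ (hf.1 _ (by omega)))
  · intro T hT
    rw [kop_apply]
    refine Finset.sum_eq_zero fun j _ => ?_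
    by_cases hj : j ∈ T
    · rw [cf, if_pos hj]; simp
    · have hc := card_tog_of_notMem hj
      rw [hf.2 _ (by omega), smul_zero]

/-! ### The combined statement -/

section Combined


/-- The closed elements -/
def clo (Dr : AddSubgroup (V × V)) : AddSubgroup V where
  carrier := {v | (v, (0 : V)) ∈ Dr}
  add_mem' := fun {a b} ha hb => by
    have h1 := Dr.add_mem ha hb
    rwa [Prod.mk_add_mk, add_zero] at h1
  zero_mem' := Dr.zero_mem
  neg_mem' := fun {a} ha => by
    have h1 := Dr.neg_mem ha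
    rwa [Prod.neg_mk, neg_zero] at h1






end Combined

/-! ### Dimensions -/

section Dim

variable {k : Type*} [Field k] [Module k V]

/-- support in degree `p` with values in `A`, as a subspace -/
def DegS (m : ℕ) (A : Submodule k V) (p : ℕ) : Submodule k (Finset (Fin m) → V) where
  carrier := {f | (∀ T, T.card = p → f T ∈ A) ∧ ∀ T, T.card ≠ p → f T = 0}
  add_mem' := by
    rintro f g ⟨h1, h2⟩ ⟨h3, h4⟩
    exact ⟨fun T hT => A.add_mem (h1 T hT) (h3 T hT), fun T hT => by
      rw [Pi.add_apply, h2 T hT, h4 T hT, add_zero]⟩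
  zero_mem' := ⟨fun T _ => A.zero_mem, fun T _ => rfl⟩
  smul_mem' := by
    rintro c f ⟨h1, h2⟩
    exact ⟨fun T hT => A.smul_mem c (h1 T hT), fun T hT => by
      rw [Pi.smul_apply, h2 T hT, smul_zero]⟩


/-- coordinates on `DegS` -/
def degEquiv (m : ℕ) (A : Submodule k V) (p : ℕ) :
    DegS m A p ≃ₗ[k] ({T : Finset (Fin m) // T.card = p} → A) where
  toFun f T := ⟨f.1 T.1, f.2.1 T.1 T.2⟩
  map_add' f g := by funext T; rfl
  map_smul' c f := by funext T; rfl
  invFun g := ⟨fun T => if h : T.card = p then (g ⟨T, h⟩ : V) else 0,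
    ⟨fun T hT => by simp [hT], fun T hT => by simp [hT]⟩⟩
  left_inv f := by
    ext T
    simp only
    split_ifs with h
    · rfl
    · exact (f.2.2 T h).symm
  right_inv g := by
    funext T
    ext
    simp [T.2]

instance degS_finite (A : Submodule k V) [FiniteDimensional k A] (p : ℕ) :
    FiniteDimensional k (DegS m A p) :=
  Module.Finite.equiv (degEquiv m A p).symm







end Dim

end Crest.Agent.R273.KosAb_619
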