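import Mathlib
import Mathlib.RingTheory.Localization.Integral
import Mathlib.RingTheory.Polynomial.Content
import Mathlib.Algebra.Polynomial.FieldDivision
import Mathlib.RingTheory.PrincipalIdealDomain
import Mathlib.Topology.Algebra.Module.Cardinality
import Crest.Agent.R273.LemUB_619
import Mathlib.Topology.Order.Lattice

-- ▼ part R273/Res_145
section

/-!
# R273 (S0416), Lemma U (helper145): suprema of quotients of polynomial families via resultants

`forms_exist` : finitely many linear forms such that one of them is large on `d` given vectors;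
`res_factor`  : `Res(f, g) = a ∏ f(ε_i)` over the roots of `g` in `ℙ¹(ℂ)`;
`sup_res`     : for vectors `P`, `Q` of polynomials of degree `≤ D`, `Q` without common zero on
  `ℙ¹`, the number `M = sup |P|/|Q|` is comparable to `max_j (|c_j| / |c_0|)^(1/j)`, the `c_j`
  being the coefficients of `w^j` in `Res(l₀·(Q, wP), l₁·(Q, wP))`, `l₀, l₁` in a finite set.
-/

set_option autoImplicit false

open Polynomial

namespace Crest.Agent.R273.Res_145

noncomputable section

/-! ### linear forms which are large on given vectors -/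

section Forms

variable {κ : Type} [Fintype κ]

/-- pairing -/
def dot (l ξ : κ → ℂ) : ℂ := ∑ k, l k * ξ k

theorem dot_smul (l ξ : κ → ℂ) (c : ℂ) : dot l (c • ξ) = c * dot l ξ := by
  simp only [dot, Pi.smul_apply, smul_eq_mul, Finset.mul_sum]
  exact Finset.sum_congr rfl fun k _ => by ring

theorem continuous_dot (l : κ → ℂ) : Continuous (dot l) := by
  unfold dot
  exact continuous_finsetSum _ fun k _ => continuous_const.mul (continuous_apply k)

theorem norm_dot_le (l ξ : κ → ℂ) : ‖dot l ξ‖ ≤ (∑ k, ‖l k‖) * ‖ξ‖ := by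
  unfold dot
  rw [Finset.sum_mul]
  refine (norm_sum_le _ _).trans (Finset.sum_le_sum fun k _ => ?_)
  rw [norm_mul]
  exact mul_le_mul_of_nonneg_left (norm_le_pi_norm ξ k) (norm_nonneg _)

/-- moment curve on an arbitrary index type -/
def mom (e : κ ≃ Fin (Fintype.card κ)) (t : ℕ) : κ → ℂ := fun k => (t : ℂ) ^ (e k : ℕ)

/-- a nonzero vector is killed by fewer than `card κ` points of the moment curve -/
theorem mom_zero_card (e : κ ≃ Fin (Fintype.card κ)) {ξ : κ → ℂ} (hξ : ξ ≠ 0) (T : ℕ) :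
    ((Finset.range T).filter fun t => dot (mom e t) ξ = 0).card ≤ Fintype.card κ := by
  classical
  set f : ℂ[X] := ∑ k, C (ξ k) * X ^ (e k : ℕ) with hf
  have hf0 : f ≠ 0 := by
    intro h
    apply hξ
    funext k
    have h1 : f.coeff (e k) = ξ k := by
      rw [hf, finsetSum_coeff]
      simp only [coeff_C_mul, coeff_X_pow]
      rw [Finset.sum_eq_single k]
      · simp
      · intro j _ hj
        rw [if_neg, mul_zero]
        intro h2
        exact hj (e.injective (Fin.ext h2)).symm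
      · simp
    rw [← h1, h]; simp
  have hdeg : f.natDegree ≤ Fintype.card κ := by
    rw [hf]
    refine natDegree_sum_le_of_forall_le _ _ fun k _ => ?_
    refine (natDegree_C_mul_X_pow_le _ _).trans (e k).isLt.le
  have hev : ∀ t : ℕ, f.eval (t : ℂ) = dot (mom e t) ξ := by
    intro t
    rw [hf, eval_finsetSum]
    unfold dot mom
    exact Finset.sum_congr rfl fun k _ => by rw [eval_mul, eval_C, eval_pow, eval_X, mul_comm]
  have hinj : Function.Injective (fun t : ℕ => (t : ℂ)) := Nat.cast_injective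
  calc ((Finset.range T).filter fun t => dot (mom e t) ξ = 0).card
      = (((Finset.range T).filter fun t => dot (mom e t) ξ = 0).image fun t : ℕ => (t : ℂ)).card :=
        (Finset.card_image_of_injective _ hinj).symm
    _ ≤ f.roots.toFinset.card := by
        refine Finset.card_le_card fun z hz => ?_
        obtain ⟨t, ht, rfl⟩ := Finset.mem_image.1 hz
        rw [Multiset.mem_toFinset, mem_roots hf0, IsRoot.def, hev]
        exact (Finset.mem_filter.1 ht).2
    _ ≤ Multiset.card f.roots := Multiset.toFinset_card_le _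
    _ ≤ f.natDegree := card_roots' f
    _ ≤ Fintype.card κ := hdeg

/-- **finitely many linear forms, one of which is large on all of `d` given vectors** -/
theorem forms_exist (κ : Type) [Fintype κ] (d : ℕ) :
    ∃ (S : Finset (κ → ℂ)) (c : ℝ), S.Nonempty ∧ 0 < c ∧ ∀ ξ : Fin d → κ → ℂ, ∃ l ∈ S, ∀ i,
      c * ‖ξ i‖ ≤ ‖dot l (ξ i)‖ := by
  classical
  set e := Fintype.equivFin κ
  set T := d * Fintype.card κ + 1 with hT
  set S : Finset (κ → ℂ) := (Finset.range T).image (mom e) with hS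
  have hSne : S.Nonempty := ⟨mom e 0, Finset.mem_image_of_mem _ (by simp [hT])⟩
  -- positivity for nonzero vectors
  have hpos : ∀ ξ : Fin d → κ → ℂ, (∀ i, ξ i ≠ 0) → ∃ l ∈ S, ∀ i, dot l (ξ i) ≠ 0 := by
    intro ξ hξ
    by_contra hcon
    push Not at hcon
    have h1 : Finset.range T ⊆ Finset.univ.biUnion fun i : Fin d =>
        (Finset.range T).filter fun t => dot (mom e t) (ξ i) = 0 := by
      intro t ht
      obtain ⟨i, hi⟩ := hcon (mom e t) (Finset.mem_image_of_mem _ ht)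
      exact Finset.mem_biUnion.2 ⟨i, Finset.mem_univ _, Finset.mem_filter.2 ⟨ht, hi⟩⟩
    have h2 := Finset.card_le_card h1
    have h3 : (Finset.univ.biUnion fun i : Fin d =>
        (Finset.range T).filter fun t => dot (mom e t) (ξ i) = 0).card ≤
        ∑ _i : Fin d, Fintype.card κ :=
      Finset.card_biUnion_le.trans (Finset.sum_le_sum fun i _ => mom_zero_card e (hξ i) T)
    rw [Finset.card_range] at h2
    simp only [Finset.sum_const, Finset.card_univ, Fintype.card_fin, smul_eq_mul] at h3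
    omega
  -- compactness
  set K : Set (Fin d → κ → ℂ) := Set.univ.pi fun _ => Metric.sphere (0 : κ → ℂ) 1 with hK
  have hKc : IsCompact K := isCompact_univ_pi fun _ => isCompact_sphere _ _
  set g : (Fin d → κ → ℂ) → ℝ := fun ξ => S.sup' hSne fun l => ∏ i, ‖dot l (ξ i)‖ with hg
  have hgc : Continuous g := by
    rw [hg]
    refine Continuous.finset_sup'_apply hSne fun l _ => ?_
    exact continuous_finsetProd _ fun i _ =>
      ((continuous_dot l).comp (continuous_apply i)).norm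
  have hgpos : ∀ ξ ∈ K, 0 < g ξ := by
    intro ξ hξ
    have hne : ∀ i, ξ i ≠ 0 := by
      intro i h0
      have := hξ i (Set.mem_univ i)
      rw [mem_sphere_zero_iff_norm, h0, norm_zero] at this
      exact zero_ne_one this
    obtain ⟨l, hl, hli⟩ := hpos ξ hne
    have h1 : 0 < ∏ i, ‖dot l (ξ i)‖ := Finset.prod_pos fun i _ => norm_pos_iff.2 (hli i)
    exact lt_of_lt_of_le h1 (Finset.le_sup' (fun l => ∏ i, ‖dot l (ξ i)‖) hl)
  obtain ⟨c0, hc0, hc0g⟩ : ∃ c0 : ℝ, 0 < c0 ∧ ∀ ξ ∈ K, c0 ≤ g ξ := by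
    rcases K.eq_empty_or_nonempty with hE | hE
    · exact ⟨1, one_pos, fun ξ hξ => by rw [hE] at hξ; exact hξ.elim⟩
    · obtain ⟨ξ0, h0, hmin⟩ := hKc.exists_isMinOn hE hgc.continuousOn
      exact ⟨g ξ0, hgpos ξ0 h0, fun ξ hξ => hmin hξ⟩
  -- common bound for the forms
  set B : ℝ := 1 + ∑ l ∈ S, ∑ k, ‖l k‖ with hB
  have hB1 : 1 ≤ B := by
    have : 0 ≤ ∑ l ∈ S, ∑ k, ‖l k‖ :=
      Finset.sum_nonneg fun _ _ => Finset.sum_nonneg fun _ _ => norm_nonneg _
    linarith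
  have hBl : ∀ l ∈ S, ∑ k, ‖l k‖ ≤ B := by
    intro l hl
    have : ∑ k, ‖l k‖ ≤ ∑ l ∈ S, ∑ k, ‖l k‖ :=
      Finset.single_le_sum (f := fun l : κ → ℂ => ∑ k, ‖l k‖)
      (fun l _ => Finset.sum_nonneg fun _ _ => norm_nonneg _) hl
    linarith
  refine ⟨S, c0 / B ^ d, hSne, by positivity, fun ξ => ?_⟩
  -- a unit vector, if `κ` is nonempty
  rcases isEmpty_or_nonempty κ with hκ | ⟨⟨k0⟩⟩
  · obtain ⟨l, hl⟩ := hSne
    refine ⟨l, hl, fun i => ?_⟩
    have : ξ i = 0 := Subsingleton.elim _ _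
    rw [this, norm_zero, mul_zero]
    exact norm_nonneg _
  · set u0 : κ → ℂ := Pi.single k0 1
    have hu0 : ‖u0‖ = 1 := by
      simp [u0, Pi.norm_single]
    set η : Fin d → κ → ℂ := fun i => if ξ i = 0 then u0 else ((‖ξ i‖ : ℂ)⁻¹) • ξ i with hη
    have hηK : η ∈ K := by
      intro i _
      rw [mem_sphere_zero_iff_norm]
      simp only [hη]
      split_ifs with h
      · exact hu0
      · rw [norm_smul, norm_inv, Complex.norm_real, norm_norm,
          inv_mul_cancel₀ (norm_ne_zero_iff.2 h)]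
    obtain ⟨l, hl, hlg⟩ := Finset.exists_mem_eq_sup' hSne fun l => ∏ i, ‖dot l (η i)‖
    have h1 : c0 ≤ ∏ i, ‖dot l (η i)‖ := by
      have := hc0g η hηK
      rw [hg] at this
      simp only at this
      rwa [hlg] at this
    refine ⟨l, hl, fun i => ?_⟩
    by_cases hi : ξ i = 0
    · rw [hi, norm_zero, mul_zero]; exact norm_nonneg _
    have hle : ∀ j, ‖dot l (η j)‖ ≤ B := by
      intro j
      refine (norm_dot_le l (η j)).trans ?_
      have : ‖η j‖ = 1 := mem_sphere_zero_iff_norm.1 (hηK j (Set.mem_univ j))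
      rw [this, mul_one]
      exact hBl l hl
    have h2 : ∏ j, ‖dot l (η j)‖ ≤ ‖dot l (η i)‖ * B ^ d := by
      rw [← Finset.mul_prod_erase Finset.univ _ (Finset.mem_univ i)]
      refine mul_le_mul_of_nonneg_left ?_ (norm_nonneg _)
      calc ∏ j ∈ Finset.univ.erase i, ‖dot l (η j)‖ ≤ ∏ _j ∈ Finset.univ.erase i, B :=
            Finset.prod_le_prod (fun _ _ => norm_nonneg _) fun j _ => hle j
        _ = B ^ (Finset.univ.erase i).card := by rw [Finset.prod_const]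
        _ ≤ B ^ d := by
            refine pow_le_pow_right₀ hB1 ?_
            refine (Finset.card_le_card (Finset.erase_subset _ _)).trans ?_
            simp
    have h3 : ‖dot l (η i)‖ = ‖ξ i‖⁻¹ * ‖dot l (ξ i)‖ := by
      simp only [hη, if_neg hi]
      rw [dot_smul, norm_mul, norm_inv, Complex.norm_real, norm_norm]
    have h4 : c0 / B ^ d ≤ ‖dot l (η i)‖ := by
      rw [div_le_iff₀ (by positivity)]
      exact h1.trans h2
    rw [h3] at h4
    have hpos' : 0 < ‖ξ i‖ := norm_pos_iff.2 hi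
    calc c0 / B ^ d * ‖ξ i‖ ≤ ‖ξ i‖⁻¹ * ‖dot l (ξ i)‖ * ‖ξ i‖ :=
          mul_le_mul_of_nonneg_right h4 hpos'.le
      _ = ‖dot l (ξ i)‖ := by field_simp

end Forms

/-! ### points of `ℙ¹` and the factorisation of the resultant -/

/-- value at a point of `ℙ¹` (`none` is the point at infinity) of a polynomial of formal degree
`D` -/
def ev (D : ℕ) : Option ℂ → ℂ[X] → ℂ
  | none, f => f.coeff D
  | some z, f => f.eval z

@[simp] theorem ev_none (D : ℕ) (f : ℂ[X]) : ev D none f = f.coeff D := rfl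
@[simp] theorem ev_some (D : ℕ) (z : ℂ) (f : ℂ[X]) : ev D (some z) f = f.eval z := rfl

theorem ev_add (D : ℕ) (e : Option ℂ) (f g : ℂ[X]) : ev D e (f + g) = ev D e f + ev D e g := by
  cases e <;> simp [ev]

theorem ev_C_mul (D : ℕ) (e : Option ℂ) (c : ℂ) (f : ℂ[X]) : ev D e (C c * f) = c * ev D e f := by
  cases e <;> simp [ev]

theorem ev_sum {ι : Type} (s : Finset ι) (D : ℕ) (e : Option ℂ) (f : ι → ℂ[X]) :
    ev D e (∑ i ∈ s, f i) = ∑ i ∈ s, ev D e (f i) := by
  cases e with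
  | none => simp [ev, finsetSum_coeff]
  | some z => simp [ev, eval_finsetSum]

theorem res_factor {D : ℕ} {g : ℂ[X]} (hg : g.natDegree ≤ D) (hg0 : g ≠ 0) :
    ∃ (a : ℂ) (ε : Fin D → Option ℂ), a ≠ 0 ∧
      (∀ f : ℂ[X], f.natDegree ≤ D → resultant f g D D = a * ∏ i, ev D (ε i) f) ∧
      ∀ z, g.eval z = 0 → ∃ i, ε i = some z := by
  classical
  set k := D - g.natDegree with hk
  have hkD : g.natDegree + k = D := by omega
  set m : Multiset (Option ℂ) := g.roots.map some + Multiset.replicate k none with hm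
  have hsp : g.Splits := IsAlgClosed.splits g
  have hcard : Multiset.card m = D := by
    rw [hm, Multiset.card_add, Multiset.card_map, Multiset.card_replicate,
      ← hsp.natDegree_eq_card_roots, hkD]
  obtain ⟨ε, hε⟩ : ∃ ε : Fin D → Option ℂ, Multiset.map ε Finset.univ.val = m := by
    have hl : m.toList.length = D := by rw [Multiset.length_toList, hcard]
    refine ⟨fun i => m.toList.get (Fin.cast hl.symm i), ?_⟩
    have h1 : Multiset.map (fun i : Fin D => m.toList.get (Fin.cast hl.symm i)) Finset.univ.val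
        = (List.ofFn fun i : Fin D => m.toList.get (Fin.cast hl.symm i) : Multiset (Option ℂ)) := by
      rw [Fin.univ_val_map]
    rw [h1]
    have h2 : (List.ofFn fun i : Fin D => m.toList.get (Fin.cast hl.symm i)) = m.toList := by
      refine List.ext_get (by simp [hl]) fun i h1 h2 => ?_
      simp
    rw [h2, Multiset.coe_toList]
  refine ⟨(-1) ^ (D * g.natDegree) * g.leadingCoeff ^ D, ε, ?_, fun f hf => ?_, fun z hz => ?_⟩
  · exact mul_ne_zero (pow_ne_zero _ (by norm_num)) (pow_ne_zero _ (leadingCoeff_ne_zero.2 hg0))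
  · have h1 : ∏ i, ev D (ε i) f = (m.map fun e => ev D e f).prod := by
      rw [← hε, Multiset.map_map]
      rfl
    have h2 : (m.map fun e => ev D e f).prod = (g.roots.map f.eval).prod * f.coeff D ^ k := by
      rw [hm, Multiset.map_add, Multiset.prod_add, Multiset.map_map, Multiset.map_replicate,
        Multiset.prod_replicate]
      rfl
    have h3 : resultant f g D D = f.coeff D ^ k * resultant f g D g.natDegree := by
      have := resultant_add_right_deg f g D g.natDegree k le_rfl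
      rwa [hkD] at this
    have h4 : resultant f g D g.natDegree = (-1) ^ (D * g.natDegree) *
        (g.leadingCoeff ^ D * (g.roots.map f.eval).prod) := by
      rw [resultant_comm, resultant_eq_prod_eval g f D hf hsp]
    rw [h1, h2, h3, h4]
    ring
  · have h1 : some z ∈ m := by
      rw [hm, Multiset.mem_add]
      left
      exact Multiset.mem_map_of_mem _ ((mem_roots hg0).2 hz)
    rw [← hε] at h1
    obtain ⟨i, -, hi⟩ := Multiset.mem_map.1 h1
    exact ⟨i, hi⟩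

/-- `Res` is, up to sign, symmetric -/
theorem res_symm (f g : ℂ[X]) (D : ℕ) : ‖resultant f g D D‖ = ‖resultant g f D D‖ := by
  rw [resultant_comm, norm_mul, norm_pow, norm_neg, norm_one, one_pow, one_mul]

theorem res_zero_right {f : ℂ[X]} {D : ℕ} (hD : 0 < D) : resultant f 0 D D = 0 := by
  rw [resultant_zero_right, zero_pow hD.ne', zero_mul]

/-- invariance under `SL₂` -/
theorem res_SL2 {R : Type*} [Field R] (f g : R[X]) (D : ℕ) (hf : f.natDegree ≤ D)
    (hg : g.natDegree ≤ D) (a b c d : R) (h : a * d - b * c = 1) :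
    resultant (C a * f + C b * g) (C c * f + C d * g) D D = resultant f g D D := by
  have key : ∀ (f g : R[X]) (_ : f.natDegree ≤ D) (_ : g.natDegree ≤ D) (t : R),
      resultant f (g + f * C t) D D = resultant f g D D := by
    intro f g hf _ t
    exact resultant_add_mul_right f g (C t) D D (by simp) hf
  have key2 : ∀ (f g : R[X]) (_ : f.natDegree ≤ D) (_ : g.natDegree ≤ D) (t : R),
      resultant (f + g * C t) g D D = resultant f g D D := by
    intro f g _ hg t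
    exact resultant_add_mul_left f g (C t) D D (by simp) hg
  have hCf : ∀ (t : R), (C t * f).natDegree ≤ D := fun t => (natDegree_C_mul_le _ _).trans hf
  have hCg : ∀ (t : R), (C t * g).natDegree ≤ D := fun t => (natDegree_C_mul_le _ _).trans hg
  by_cases ha : a = 0
  · -- `b c = -1`
    subst ha
    have hbc : b * c = -1 := by linear_combination -h
    have hb : b ≠ 0 := by rintro rfl; simp at hbc
    have hc : c ≠ 0 := by rintro rfl; simp at hbc
    have e1 : C c * f + C d * g = C c * f + (C b * g) * C (d / b) := by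
      rw [mul_comm (C b * g), ← mul_assoc, ← C_mul, div_mul_cancel₀ d hb]
    rw [C_0, zero_mul, zero_add, e1, key _ _ (hCg b) (hCf c)]
    rw [resultant_C_mul_left, resultant_C_mul_right, resultant_comm]
    have h2 : b ^ D * (c ^ D * ((-1) ^ (D * D) * resultant f g D D))
        = (b * c) ^ D * (-1) ^ (D * D) * resultant f g D D := by rw [mul_pow]; ring
    rw [h2, hbc, ← pow_add]
    have h3 : Even (D + D * D) := by
      have : D + D * D = D * (D + 1) := by ring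
      rw [this]
      exact Nat.even_mul_succ_self D
    rw [h3.neg_one_pow, one_mul]
  · have hd : d = (1 + b * c) / a := by
      rw [eq_div_iff ha]; linear_combination h
    have hF : (C a * f + C b * g).natDegree ≤ D :=
      (natDegree_add_le _ _).trans (max_le (hCf a) (hCg b))
    have e1 : C c * f + C d * g = C a⁻¹ * g + (C a * f + C b * g) * C (c / a) := by
      have e2 : (C a * f + C b * g) * C (c / a) = C c * f + C (b * (c / a)) * g := by
        rw [add_mul, mul_comm (C a * f), ← mul_assoc, ← C_mul, div_mul_cancel₀ c ha,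
          mul_comm (C b * g), ← mul_assoc, ← C_mul, mul_comm (c / a) b]
      rw [e2, hd]
      have e3 : (1 + b * c) / a = a⁻¹ + b * (c / a) := by field_simp
      rw [e3, C_add]
      ring
    have hG : (C a⁻¹ * g).natDegree ≤ D := hCg _
    rw [e1, key _ _ hF hG]
    have e4 : C a * f + C b * g = C a * f + (C a⁻¹ * g) * C (a * b) := by
      rw [mul_comm (C a⁻¹ * g), ← mul_assoc, ← C_mul]
      congr 3
      field_simp
    rw [e4, key2 _ _ (hCf a) hG, resultant_C_mul_left, resultant_C_mul_right, ← mul_assoc,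
      ← mul_pow, mul_inv_cancel₀ ha, one_pow, one_mul]

/-- Cauchy's estimate for the coefficients of a polynomial -/
theorem coeff_bound (r : ℂ[X]) {R B : ℝ} (hR : 0 < R) (h : ∀ w : ℂ, ‖w‖ = R → ‖r.eval w‖ ≤ B)
    (j : ℕ) : ‖r.coeff j‖ * R ^ j ≤ B := by
  have h1 : ∀ (n : ℕ), iteratedDeriv n (fun z => r.eval z) =
      fun z => ((derivative^[n]) r).eval z := by
    intro n
    induction n with
    | zero => simp
    | succ n ih =>
      rw [iteratedDeriv_succ, ih, Function.iterate_succ_apply']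
      funext z
      exact Polynomial.deriv _
  have h2 := Complex.norm_iteratedDeriv_le_of_forall_mem_sphere_norm_le (c := (0 : ℂ)) (R := R)
    (C := B) (f := fun z => r.eval z) j hR
    (r.differentiable.diffContOnCl) (fun z hz => h z (by simpa using hz))
  rw [h1 j] at h2
  have h3 : ((derivative^[j]) r).eval 0 = (j.factorial : ℂ) * r.coeff j := by
    rw [← coeff_zero_eq_eval_zero, coeff_iterate_derivative]
    simp [Nat.descFactorial_self]
  simp only [h3] at h2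
  rw [norm_mul, Complex.norm_natCast] at h2
  have hf : (0 : ℝ) < j.factorial := by exact_mod_cast j.factorial_pos
  have h4 : ‖r.coeff j‖ ≤ B / R ^ j := by
    have h5 : (j.factorial : ℝ) * ‖r.coeff j‖ ≤ (j.factorial : ℝ) * (B / R ^ j) := by
      rw [mul_div_assoc] at h2
      exact h2
    exact le_of_mul_le_mul_left h5 hf
  rwa [le_div_iff₀ (by positivity)] at h4

/-! ### the resultant polynomial in `w` -/

section Resw

variable {G : Type*} [CommRing G] [Algebra ℂ G] {κ κP κQ : Type} [Fintype κ] [Fintype κP]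
  [Fintype κQ]

/-- `∑ l_k F_k` -/
def lin (l : κ → ℂ) (F : κ → G[X]) : G[X] := ∑ k, C (algebraMap ℂ G (l k)) * F k

/-- `l' · Q + w l'' · P` as a polynomial over `G[w]` -/
def lw (P : κP → G[X]) (Q : κQ → G[X]) (l : κQ ⊕ κP → ℂ) : G[X][X] :=
  (lin (fun c => l (Sum.inl c)) Q).map C + C X * (lin (fun b => l (Sum.inr b)) P).map C

/-- the resultant as a polynomial in `w` -/
def resw (D : ℕ) (P : κP → G[X]) (Q : κQ → G[X]) (l0 l1 : κQ ⊕ κP → ℂ) : G[X] :=
  resultant (lw P Q l0) (lw P Q l1) D D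

theorem lin_map {G' : Type*} [CommRing G'] [Algebra ℂ G'] (φ : G →ₐ[ℂ] G') (l : κ → ℂ)
    (F : κ → G[X]) :
    (lin l F).map (φ : G →+* G') = lin l (fun k => (F k).map (φ : G →+* G')) := by
  unfold lin
  rw [Polynomial.map_sum]
  refine Finset.sum_congr rfl fun k _ => ?_
  rw [Polynomial.map_mul, Polynomial.map_C]
  simp

theorem resw_map {G' : Type*} [CommRing G'] [Algebra ℂ G'] (φ : G →ₐ[ℂ] G') (D : ℕ)
    (P : κP → G[X]) (Q : κQ → G[X]) (l0 l1 : κQ ⊕ κP → ℂ) :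
    (resw D P Q l0 l1).map (φ : G →+* G') =
      resw D (fun b => (P b).map (φ : G →+* G')) (fun c => (Q c).map (φ : G →+* G')) l0 l1 := by
  have h : ∀ l, (lw P Q l).map (mapRingHom (φ : G →+* G')) =
      lw (fun b => (P b).map (φ : G →+* G')) (fun c => (Q c).map (φ : G →+* G')) l := by
    intro l
    unfold lw
    rw [Polynomial.map_add, Polynomial.map_mul, Polynomial.map_C, Polynomial.map_map,
      Polynomial.map_map, ← lin_map φ, ← lin_map φ, Polynomial.map_map, Polynomial.map_map]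
    have e1 : (mapRingHom (φ : G →+* G')).comp C = (C : G' →+* G'[X]).comp (φ : G →+* G') := by
      ext x; simp
    rw [e1]
    simp
  unfold resw
  rw [← h, ← h, resultant_map_map]
  rfl

theorem resw_eval (D : ℕ) (P : κP → ℂ[X]) (Q : κQ → ℂ[X]) (l0 l1 : κQ ⊕ κP → ℂ) (w : ℂ) :
    (resw D P Q l0 l1).eval w = resultant
      (lin (fun c => l0 (Sum.inl c)) Q + C w * lin (fun b => l0 (Sum.inr b)) P)
      (lin (fun c => l1 (Sum.inl c)) Q + C w * lin (fun b => l1 (Sum.inr b)) P) D D := by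
  have h : ∀ l, (lw P Q l).map (evalRingHom w) =
      lin (fun c => l (Sum.inl c)) Q + C w * lin (fun b => l (Sum.inr b)) P := by
    intro l
    unfold lw
    rw [Polynomial.map_add, Polynomial.map_mul, Polynomial.map_C, Polynomial.map_map,
      Polynomial.map_map]
    have e1 : (evalRingHom w).comp (C : ℂ →+* ℂ[X]) = RingHom.id ℂ := by ext x; simp
    rw [e1, Polynomial.map_id, Polynomial.map_id]
    simp
  unfold resw
  rw [← h, ← h, resultant_map_map]
  rfl

theorem resw_natDegree (D : ℕ) (P : κP → G[X]) (Q : κQ → G[X]) (l0 l1 : κQ ⊕ κP → ℂ) :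
    (resw D P Q l0 l1).natDegree ≤ D + D := by
  set f0 := lin (fun c => l0 (Sum.inl c)) Q
  set f1 := lin (fun b => l0 (Sum.inr b)) P
  set g0 := lin (fun c => l1 (Sum.inl c)) Q
  set g1 := lin (fun b => l1 (Sum.inr b)) P
  have h : sylvester (lw P Q l0) (lw P Q l1) D D =
      (X : G[X]) • (sylvester f1 g1 D D).map C + (sylvester f0 g0 D D).map C := by
    ext i j : 2
    refine Fin.addCases (fun j => ?_) (fun j => ?_) j
    · simp only [sylvester, Matrix.of_apply, Matrix.add_apply, Matrix.smul_apply, Matrix.map_apply,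
        Fin.addCases_left]
      split_ifs
      · simp only [lw, coeff_add, coeff_C_mul, coeff_map, smul_eq_mul]
        rw [add_comm]
      · simp
    · simp only [sylvester, Matrix.of_apply, Matrix.add_apply, Matrix.smul_apply, Matrix.map_apply,
        Fin.addCases_right]
      split_ifs
      · simp only [lw, coeff_add, coeff_C_mul, coeff_map, smul_eq_mul]
        rw [add_comm]
      · simp
  unfold resw resultant
  rw [h]
  refine (natDegree_det_X_add_C_le _ _).trans ?_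
  simp

end Resw

/-! ### the main estimate -/

section Main

variable {κ κP κQ : Type} [Fintype κ] [Fintype κP] [Fintype κQ] {D : ℕ}

/-- the vector of values of a family -/
def evv (D : ℕ) (e : Option ℂ) (F : κ → ℂ[X]) : κ → ℂ := fun k => ev D e (F k)

theorem ev_lin (e : Option ℂ) (l : κ → ℂ) (F : κ → ℂ[X]) :
    ev D e (lin l F) = dot l (evv D e F) := by
  unfold lin dot evv
  rw [ev_sum]
  exact Finset.sum_congr rfl fun k _ => ev_C_mul D e _ _

theorem lin_natDegree {l : κ → ℂ} {F : κ → ℂ[X]} (hF : ∀ k, (F k).natDegree ≤ D) :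
    (lin l F).natDegree ≤ D := by
  unfold lin
  exact natDegree_sum_le_of_forall_le _ _ fun k _ => (natDegree_C_mul_le _ _).trans (hF k)

/-- half of the comparison: replace the first argument by a sample form in `Q` -/
theorem half_up (hD : 0 < D) {Q : κQ → ℂ[X]} {S' : Finset (κQ → ℂ)} {c : ℝ} (hc : 0 < c)
    (hS' : S'.Nonempty)
    (hS : ∀ ξ : Fin D → κQ → ℂ, ∃ l ∈ S', ∀ i, c * ‖ξ i‖ ≤ ‖dot l (ξ i)‖)
    (hQ : ∀ k, (Q k).natDegree ≤ D)
    {f g : ℂ[X]} (hf : f.natDegree ≤ D) (hg : g.natDegree ≤ D) {B : ℝ} (hB : 0 ≤ B)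
    (hfB : ∀ e, ‖ev D e f‖ ≤ B * ‖evv D e Q‖) :
    ∃ s ∈ S', ‖resultant f g D D‖ ≤ (B / c) ^ D * ‖resultant (lin s Q) g D D‖ := by
  by_cases hg0 : g = 0
  · obtain ⟨s, hs⟩ := hS'
    refine ⟨s, hs, ?_⟩
    rw [hg0, res_zero_right hD, norm_zero]
    positivity
  obtain ⟨a, ε, ha, hfac, -⟩ := res_factor hg hg0
  obtain ⟨s, hs, hsi⟩ := hS fun i => evv D (ε i) Q
  refine ⟨s, hs, ?_⟩
  rw [hfac f hf, hfac _ (lin_natDegree hQ), norm_mul, norm_mul, mul_left_comm]
  refine mul_le_mul_of_nonneg_left ?_ (norm_nonneg a)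
  rw [norm_prod, norm_prod]
  have h1 : (B / c) ^ D = ∏ _i : Fin D, (B / c) := by
    rw [Finset.prod_const, Finset.card_univ, Fintype.card_fin]
  rw [h1, ← Finset.prod_mul_distrib]
  refine Finset.prod_le_prod (fun _ _ => norm_nonneg _) fun i _ => ?_
  refine (hfB (ε i)).trans ?_
  rw [ev_lin, div_mul_eq_mul_div, le_div_iff₀ hc]
  calc B * ‖evv D (ε i) Q‖ * c = B * (c * ‖evv D (ε i) Q‖) := by ring
    _ ≤ B * ‖dot s (evv D (ε i) Q)‖ := mul_le_mul_of_nonneg_left (hsi i) hB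

/-- both arguments -/
theorem full_up (hD : 0 < D) {Q : κQ → ℂ[X]} {S' : Finset (κQ → ℂ)} {c : ℝ} (hc : 0 < c)
    (hS' : S'.Nonempty)
    (hS : ∀ ξ : Fin D → κQ → ℂ, ∃ l ∈ S', ∀ i, c * ‖ξ i‖ ≤ ‖dot l (ξ i)‖)
    (hQ : ∀ k, (Q k).natDegree ≤ D)
    {f g : ℂ[X]} (hf : f.natDegree ≤ D) (hg : g.natDegree ≤ D) {B B' : ℝ} (hB : 0 ≤ B)
    (hB' : 0 ≤ B')
    (hfB : ∀ e, ‖ev D e f‖ ≤ B * ‖evv D e Q‖) (hgB : ∀ e, ‖ev D e g‖ ≤ B' * ‖evv D e Q‖) :
    ∃ s ∈ S', ∃ s' ∈ S', ‖resultant f g D D‖ ≤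
      (B / c) ^ D * ((B' / c) ^ D * ‖resultant (lin s Q) (lin s' Q) D D‖) := by
  obtain ⟨s, hs, h1⟩ := half_up hD hc hS' hS hQ hf hg hB hfB
  obtain ⟨s', hs', h2⟩ := half_up hD hc hS' hS hQ hg (lin_natDegree hQ (l := s)) hB' hgB
  refine ⟨s, hs, s', hs', h1.trans (mul_le_mul_of_nonneg_left ?_ (by positivity))⟩
  rw [res_symm, res_symm (lin s Q)]
  exact h2

/-- a unitary change of two forms after which the second one vanishes at a given point -/
theorem sl2_adjust (hD : 0 < D) {f0 f1 : ℂ[X]} (hf0d : f0.natDegree ≤ D)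
    (hf1d : f1.natDegree ≤ D) (hres : resultant f0 f1 D D ≠ 0) (z0 : ℂ) :
    ∃ a b c d : ℂ, ‖a‖ ≤ 1 ∧ ‖b‖ ≤ 1 ∧ ‖c‖ ≤ 1 ∧ ‖d‖ ≤ 1 ∧ a * d - b * c = 1 ∧
      (C c * f0 + C d * f1).eval z0 = 0 := by
  have hf1ne : f1 ≠ 0 := by
    intro h0
    rw [h0, res_zero_right hD] at hres
    exact hres rfl
  obtain ⟨x0, hx0⟩ : ∃ x0, f0.eval z0 = x0 := ⟨_, rfl⟩
  obtain ⟨x1, hx1⟩ : ∃ x1, f1.eval z0 = x1 := ⟨_, rfl⟩
  have hx : 0 < ‖x0‖ ^ 2 + ‖x1‖ ^ 2 := by
    by_contra hcon
    have h1 : ‖x0‖ ^ 2 + ‖x1‖ ^ 2 ≤ 0 := not_lt.1 hcon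
    have h2 : ‖x0‖ ^ 2 = 0 := le_antisymm (by linarith [sq_nonneg ‖x1‖]) (sq_nonneg _)
    have h3 : ‖x1‖ ^ 2 = 0 := le_antisymm (by linarith [sq_nonneg ‖x0‖]) (sq_nonneg _)
    rw [sq_eq_zero_iff, norm_eq_zero] at h2 h3
    obtain ⟨a, ε, ha, hfac, hroot⟩ := res_factor hf1d hf1ne
    obtain ⟨i, hi⟩ := hroot z0 (hx1.trans h3)
    apply hres
    rw [hfac f0 hf0d]
    refine mul_eq_zero_of_right _ (Finset.prod_eq_zero (Finset.mem_univ i) ?_)
    rw [hi]
    exact hx0.trans h2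
  obtain ⟨N, hN⟩ : ∃ N : ℝ, Real.sqrt (‖x0‖ ^ 2 + ‖x1‖ ^ 2) = N := ⟨_, rfl⟩
  have hNp : 0 < N := hN ▸ Real.sqrt_pos.2 hx
  have hN2 : N * N = ‖x0‖ ^ 2 + ‖x1‖ ^ 2 := hN ▸ Real.mul_self_sqrt hx.le
  have hx0N : ‖x0‖ ≤ N := by
    rw [← hN]
    refine Real.le_sqrt_of_sq_le ?_
    linarith [sq_nonneg ‖x1‖]
  have hx1N : ‖x1‖ ≤ N := by
    rw [← hN]
    refine Real.le_sqrt_of_sq_le ?_
    linarith [sq_nonneg ‖x0‖]
  have hNc : (N : ℂ) ≠ 0 := by exact_mod_cast hNp.ne'
  have hn : ∀ y : ℂ, ‖y‖ ≤ N → ‖y / N‖ ≤ 1 := by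
    intro y hy
    rw [norm_div, Complex.norm_real, Real.norm_of_nonneg hNp.le, div_le_one hNp]
    exact hy
  refine ⟨(starRingEnd ℂ) x0 / N, (starRingEnd ℂ) x1 / N, -x1 / N, x0 / N,
    hn _ (by rw [Complex.norm_conj]; exact hx0N), hn _ (by rw [Complex.norm_conj]; exact hx1N),
    hn _ (by rw [norm_neg]; exact hx1N), hn _ hx0N, ?_, ?_⟩
  · have e1 : (starRingEnd ℂ) x0 * x0 + (starRingEnd ℂ) x1 * x1 = (N : ℂ) * N := by
      rw [Complex.conj_mul', Complex.conj_mul', ← Complex.ofReal_mul, hN2]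
      push_cast
      ring
    field_simp
    linear_combination e1
  · rw [eval_add, eval_mul, eval_mul, eval_C, eval_C, hx0, hx1]
    ring

set_option maxHeartbeats 4000000 in
/-- **Lemma U, one variable step.** -/
theorem sup_res (hD : 0 < D) (κP κQ : Type) [Fintype κP] [Fintype κQ] :
    ∃ (S : Finset (κQ ⊕ κP → ℂ)) (K : ℝ), 0 < K ∧ ∀ (P : κP → ℂ[X]) (Q : κQ → ℂ[X]) (M : ℝ),
      (∀ b, (P b).natDegree ≤ D) → (∀ k, (Q k).natDegree ≤ D) → 0 < M →
      (∀ e, evv D e Q ≠ 0) → (∀ e, ‖evv D e P‖ ≤ M * ‖evv D e Q‖) →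
      (∃ z : ℂ, M * ‖evv D (some z) Q‖ ≤ 2 * ‖evv D (some z) P‖) →
      ∃ ρ : ℝ, 0 < ρ ∧ (∀ l0 ∈ S, ∀ l1 ∈ S, ‖(resw D P Q l0 l1).coeff 0‖ ≤ ρ) ∧
        (∃ l0 ∈ S, ∃ l1 ∈ S, ρ ≤ ‖(resw D P Q l0 l1).coeff 0‖) ∧
        (∀ l0 ∈ S, ∀ l1 ∈ S, ∀ j, ‖(resw D P Q l0 l1).coeff j‖ ≤ K * M ^ j * ρ) ∧
        ∃ l0 ∈ S, ∃ l1 ∈ S, ∃ j, 1 ≤ j ∧ j ≤ D + D ∧
          M ^ j * ρ ≤ K * ‖(resw D P Q l0 l1).coeff j‖ := by
  classical
  obtain ⟨S1, c1, hS1n, hc1, hS1⟩ := forms_exist (κQ ⊕ κP) D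
  obtain ⟨S', c, hS'n, hc, hS'⟩ := forms_exist κQ D
  set emb : (κQ → ℂ) → (κQ ⊕ κP → ℂ) := fun s => Sum.elim s 0 with hemb
  set S : Finset (κQ ⊕ κP → ℂ) := S1 ∪ S'.image emb with hSdef
  have hembS : ∀ s ∈ S', emb s ∈ S := fun s hs =>
    Finset.mem_union_right _ (Finset.mem_image_of_mem _ hs)
  -- bound of the forms
  set B : ℝ := 1 + ∑ l ∈ S, ∑ k, ‖l k‖ with hB
  have hBl : ∀ l ∈ S, ∑ k, ‖l k‖ ≤ B := by
    intro l hl
    have : ∑ k, ‖l k‖ ≤ ∑ l ∈ S, ∑ k, ‖l k‖ :=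
      Finset.single_le_sum (f := fun l : κQ ⊕ κP → ℂ => ∑ k, ‖l k‖)
      (fun l _ => Finset.sum_nonneg fun _ _ => norm_nonneg _) hl
    linarith
  have hB1 : 1 ≤ B := by
    have : 0 ≤ ∑ l ∈ S, ∑ k, ‖l k‖ :=
      Finset.sum_nonneg fun _ _ => Finset.sum_nonneg fun _ _ => norm_nonneg _
    linarith
  have hBQ : ∀ l ∈ S, ∑ k, ‖l (Sum.inl k)‖ ≤ B := by
    intro l hl
    refine le_trans ?_ (hBl l hl)
    rw [Fintype.sum_sum_type]
    have : 0 ≤ ∑ k, ‖l (Sum.inr k)‖ := Finset.sum_nonneg fun _ _ => norm_nonneg _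
    linarith
  have hBP : ∀ l ∈ S, ∑ k, ‖l (Sum.inr k)‖ ≤ B := by
    intro l hl
    refine le_trans ?_ (hBl l hl)
    rw [Fintype.sum_sum_type]
    have : 0 ≤ ∑ k, ‖l (Sum.inl k)‖ := Finset.sum_nonneg fun _ _ => norm_nonneg _
    linarith
  have hBs : ∀ s ∈ S', ∑ k, ‖s k‖ ≤ B := by
    intro s hs
    have := hBQ _ (hembS s hs)
    simpa [hemb] using this
  -- constants
  set C4 : ℝ := (B / c) ^ D * (B / c) ^ D with hC4
  set C1 : ℝ := (2 * B / c) ^ D * (2 * B / c) ^ D with hC1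
  set c3 : ℝ := (c / (2 * B)) ^ D * (c1 ^ D * (1 / 2) * (1 / (2 * B)) ^ D) with hc3
  have hB0 : 0 < B := by linarith
  have hC4p : 0 < C4 := by positivity
  have hC1p : 0 < C1 := by positivity
  have hc3p : 0 < c3 := by positivity
  set R : ℝ := (C4 + 1) / c3 + 2 with hR
  have hR2 : 2 ≤ R := by
    have : 0 ≤ (C4 + 1) / c3 := by positivity
    linarith
  have hR0 : 0 < R := by linarith
  refine ⟨S, C1 + ((D + D : ℕ) : ℝ) * R ^ (D + D) * C4 + 1, by positivity, ?_⟩
  intro P Q M hP hQ hM hne hle ⟨z0, hz0⟩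
  -- the value at `w = 0`
  have hcoeff0 : ∀ l0 l1 : κQ ⊕ κP → ℂ, (resw D P Q l0 l1).coeff 0 =
      resultant (lin (fun k => l0 (Sum.inl k)) Q) (lin (fun k => l1 (Sum.inl k)) Q) D D := by
    intro l0 l1
    rw [coeff_zero_eq_eval_zero, resw_eval, C_0, zero_mul, zero_mul, add_zero, add_zero]
  have hemb0 : ∀ s : κQ → ℂ, (fun k => emb s (Sum.inl k)) = s := fun s => rfl
  -- `ρ'`
  obtain ⟨p, hp, hpmax⟩ := Finset.exists_max_image (S' ×ˢ S')
    (fun p => ‖resultant (lin p.1 Q) (lin p.2 Q) D D‖) (hS'n.product hS'n)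
  obtain ⟨hp1, hp2⟩ := Finset.mem_product.1 hp
  set ρ' : ℝ := ‖resultant (lin p.1 Q) (lin p.2 Q) D D‖ with hρ'
  have hρ'le : ∀ s ∈ S', ∀ s' ∈ S', ‖resultant (lin s Q) (lin s' Q) D D‖ ≤ ρ' :=
    fun s hs s' hs' => hpmax (s, s') (Finset.mem_product.2 ⟨hs, hs'⟩)
  -- positivity of `ρ'`
  have hρ'pos : 0 < ρ' := by
    obtain ⟨s1, hs1, h1⟩ := hS' fun _ => evv D (some 0) Q
    have hD0 : Fin D := ⟨0, hD⟩
    have h2 : lin s1 Q ≠ 0 := by
      intro h0
      have h3 := h1 hD0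
      rw [← ev_lin, h0] at h3
      simp only [ev_some, eval_zero, norm_zero] at h3
      have h4 : 0 < ‖evv D (some 0) Q‖ := norm_pos_iff.2 (hne _)
      have : 0 < c * ‖evv D (some 0) Q‖ := by positivity
      linarith
    obtain ⟨a, ε, ha, hfac, -⟩ := res_factor (lin_natDegree hQ (l := s1)) h2
    obtain ⟨s0, hs0, h3⟩ := hS' fun i => evv D (ε i) Q
    have h4 : resultant (lin s0 Q) (lin s1 Q) D D ≠ 0 := by
      rw [hfac _ (lin_natDegree hQ)]
      refine mul_ne_zero ha (Finset.prod_ne_zero_iff.2 fun i _ => ?_)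
      rw [ev_lin]
      intro h0
      have h5 := h3 i
      rw [h0, norm_zero] at h5
      have h6 : 0 < ‖evv D (ε i) Q‖ := norm_pos_iff.2 (hne _)
      have : 0 < c * ‖evv D (ε i) Q‖ := by positivity
      linarith
    exact lt_of_lt_of_le (norm_pos_iff.2 h4) (hρ'le s0 hs0 s1 hs1)
  -- bound for forms in `Q`
  have hlinQ : ∀ (l : κQ → ℂ) (e : Option ℂ), ‖ev D e (lin l Q)‖ ≤ (∑ k, ‖l k‖) * ‖evv D e Q‖ :=
    fun l e => by rw [ev_lin]; exact norm_dot_le _ _
  -- `ρ`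
  have hSn : S.Nonempty := hS1n.mono Finset.subset_union_left
  obtain ⟨r, hr, hrmax⟩ := Finset.exists_max_image (S ×ˢ S)
    (fun p => ‖(resw D P Q p.1 p.2).coeff 0‖) (hSn.product hSn)
  obtain ⟨hr1, hr2⟩ := Finset.mem_product.1 hr
  set ρ : ℝ := ‖(resw D P Q r.1 r.2).coeff 0‖ with hρ
  have hρle : ∀ l0 ∈ S, ∀ l1 ∈ S, ‖(resw D P Q l0 l1).coeff 0‖ ≤ ρ :=
    fun l0 h0 l1 h1 => hrmax (l0, l1) (Finset.mem_product.2 ⟨h0, h1⟩)
  have hρ'ρ : ρ' ≤ ρ := by
    have := hρle _ (hembS _ hp1) _ (hembS _ hp2)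
    rw [hcoeff0, hemb0, hemb0] at this
    exact this
  have hρC4 : ρ ≤ C4 * ρ' := by
    rw [hρ, hcoeff0]
    obtain ⟨s, hs, s', hs', h1⟩ := full_up hD hc hS'n hS' hQ
      (lin_natDegree hQ (l := fun k => r.1 (Sum.inl k)))
      (lin_natDegree hQ (l := fun k => r.2 (Sum.inl k))) hB0.le hB0.le
      (fun e => (hlinQ _ e).trans (mul_le_mul_of_nonneg_right (hBQ _ hr1) (norm_nonneg _)))
      (fun e => (hlinQ _ e).trans (mul_le_mul_of_nonneg_right (hBQ _ hr2) (norm_nonneg _)))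
    refine h1.trans ?_
    rw [hC4, mul_assoc]
    exact mul_le_mul_of_nonneg_left (mul_le_mul_of_nonneg_left (hρ'le s hs s' hs')
      (by positivity)) (by positivity)
  have hρpos : 0 < ρ := lt_of_lt_of_le hρ'pos hρ'ρ
  have hdeg : ∀ (l : κQ ⊕ κP → ℂ) (w : ℂ), (lin (fun k => l (Sum.inl k)) Q +
      C w * lin (fun b => l (Sum.inr b)) P).natDegree ≤ D := fun l w =>
    (natDegree_add_le _ _).trans (max_le (lin_natDegree hQ)
      ((natDegree_C_mul_le _ _).trans (lin_natDegree hP)))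
  refine ⟨ρ, hρpos, hρle, ⟨r.1, hr1, r.2, hr2, le_refl _⟩, ?_, ?_⟩
  · -- upper bound
    intro l0 hl0 l1 hl1 j
    have hev : ∀ l ∈ S, ∀ w : ℂ, ‖w‖ = 1 / M → ∀ e, ‖ev D e (lin (fun k => l (Sum.inl k)) Q +
        C w * lin (fun b => l (Sum.inr b)) P)‖ ≤ (2 * B) * ‖evv D e Q‖ := by
      intro l hl w hw e
      rw [ev_add, ev_C_mul]
      refine (norm_add_le _ _).trans ?_
      have h1 : ‖ev D e (lin (fun k => l (Sum.inl k)) Q)‖ ≤ B * ‖evv D e Q‖ :=
        (hlinQ _ e).trans (mul_le_mul_of_nonneg_right (hBQ l hl) (norm_nonneg _))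
      have h2 : ‖ev D e (lin (fun b => l (Sum.inr b)) P)‖ ≤ B * (M * ‖evv D e Q‖) := by
        rw [ev_lin]
        refine (norm_dot_le _ _).trans ?_
        exact mul_le_mul (hBP l hl) (hle e) (norm_nonneg _) hB0.le
      rw [norm_mul, hw]
      calc ‖ev D e (lin (fun k => l (Sum.inl k)) Q)‖ +
            1 / M * ‖ev D e (lin (fun b => l (Sum.inr b)) P)‖
          ≤ B * ‖evv D e Q‖ + 1 / M * (B * (M * ‖evv D e Q‖)) :=
            add_le_add h1 (mul_le_mul_of_nonneg_left h2 (by positivity))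
        _ = (2 * B) * ‖evv D e Q‖ := by field_simp; ring
    have hb : ∀ w : ℂ, ‖w‖ = 1 / M → ‖(resw D P Q l0 l1).eval w‖ ≤ C1 * ρ' := by
      intro w hw
      rw [resw_eval]
      obtain ⟨s, hs, s', hs', h1⟩ := full_up hD hc hS'n hS' hQ (hdeg l0 w) (hdeg l1 w)
        (by positivity : (0 : ℝ) ≤ 2 * B) (by positivity : (0 : ℝ) ≤ 2 * B)
        (hev l0 hl0 w hw) (hev l1 hl1 w hw)
      refine h1.trans ?_
      rw [hC1, mul_assoc]
      exact mul_le_mul_of_nonneg_left (mul_le_mul_of_nonneg_left (hρ'le s hs s' hs')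
        (by positivity)) (by positivity)
    have h3 := coeff_bound (resw D P Q l0 l1) (by positivity : 0 < 1 / M) hb j
    have h4 : ‖(resw D P Q l0 l1).coeff j‖ ≤ C1 * ρ' * M ^ j := by
      rw [one_div, inv_pow] at h3
      have hMj : 0 < M ^ j := by positivity
      calc ‖(resw D P Q l0 l1).coeff j‖
          = ‖(resw D P Q l0 l1).coeff j‖ * (M ^ j)⁻¹ * M ^ j := by field_simp
        _ ≤ C1 * ρ' * M ^ j := mul_le_mul_of_nonneg_right h3 hMj.le
    refine h4.trans ?_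
    have h5 : C1 * ρ' * M ^ j ≤ C1 * M ^ j * ρ := by
      have : C1 * ρ' * M ^ j = C1 * M ^ j * ρ' := by ring
      rw [this]
      exact mul_le_mul_of_nonneg_left hρ'ρ (by positivity)
    refine h5.trans ?_
    refine mul_le_mul_of_nonneg_right (mul_le_mul_of_nonneg_right ?_ (by positivity)) hρpos.le
    have : 0 ≤ ((D + D : ℕ) : ℝ) * R ^ (D + D) * C4 := by positivity
    linarith
  · -- lower bound
    set f0 := lin p.1 Q with hf0
    set f1 := lin p.2 Q with hf1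
    have hf0d : f0.natDegree ≤ D := lin_natDegree hQ
    have hf1d : f1.natDegree ≤ D := lin_natDegree hQ
    have hres : resultant f0 f1 D D ≠ 0 := norm_pos_iff.1 hρ'pos
    have hf1ne : f1 ≠ 0 := by
      intro h0
      rw [h0, res_zero_right hD] at hres
      exact hres rfl
    obtain ⟨a, b, c', d, hna, hnb, hnc, hnd, hdet, hF1z⟩ :=
      sl2_adjust hD hf0d hf1d hres z0
    set F0 := C a * f0 + C b * f1 with hF0
    set F1 := C c' * f0 + C d * f1 with hF1
    have hF0d : F0.natDegree ≤ D := (natDegree_add_le _ _).trans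
      (max_le ((natDegree_C_mul_le _ _).trans hf0d) ((natDegree_C_mul_le _ _).trans hf1d))
    have hF1d : F1.natDegree ≤ D := (natDegree_add_le _ _).trans
      (max_le ((natDegree_C_mul_le _ _).trans hf0d) ((natDegree_C_mul_le _ _).trans hf1d))
    have hresF : resultant F0 F1 D D = resultant f0 f1 D D :=
      res_SL2 f0 f1 D hf0d hf1d a b c' d hdet
    have hF1ne : F1 ≠ 0 := by
      intro h0
      rw [h0, res_zero_right hD] at hresF
      exact hres hresF.symm
    have hevf : ∀ (s : κQ → ℂ), s ∈ S' → ∀ e, ‖ev D e (lin s Q)‖ ≤ B * ‖evv D e Q‖ := fun s hs e =>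
      (hlinQ s e).trans (mul_le_mul_of_nonneg_right (hBs s hs) (norm_nonneg _))
    have hevF : ∀ (u v : ℂ), ‖u‖ ≤ 1 → ‖v‖ ≤ 1 → ∀ e, ‖ev D e (C u * f0 + C v * f1)‖ ≤
        (2 * B) * ‖evv D e Q‖ := by
      intro u v hu hv e
      rw [ev_add, ev_C_mul, ev_C_mul]
      refine (norm_add_le _ _).trans ?_
      rw [norm_mul, norm_mul]
      have h1 := hevf _ hp1 e
      have h2 := hevf _ hp2 e
      have h3 : ‖u‖ * ‖ev D e f0‖ ≤ 1 * (B * ‖evv D e Q‖) :=
        mul_le_mul hu h1 (norm_nonneg _) zero_le_one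
      have h4 : ‖v‖ * ‖ev D e f1‖ ≤ 1 * (B * ‖evv D e Q‖) :=
        mul_le_mul hv h2 (norm_nonneg _) zero_le_one
      linarith
    obtain ⟨a1, ε, ha1, hfac, hroot⟩ := res_factor hF1d hF1ne
    obtain ⟨i0, hi0⟩ := hroot z0 hF1z
    -- the parameter
    set w : ℂ := ((R / M : ℝ) : ℂ) with hw
    have hwn : ‖w‖ = R / M := by
      rw [hw, Complex.norm_real, Real.norm_of_nonneg (by positivity)]
    obtain ⟨l, hl, hli⟩ := hS1 fun i => Sum.elim (evv D (ε i) Q) (w • evv D (ε i) P)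
    have hlS : l ∈ S := Finset.mem_union_left _ hl
    set L : ℂ[X] := lin (fun k => l (Sum.inl k)) Q + C w * lin (fun b => l (Sum.inr b)) P with hL
    have hLd : L.natDegree ≤ D := hdeg l w
    have hLev : ∀ i, ev D (ε i) L =
        dot l (Sum.elim (evv D (ε i) Q) (w • evv D (ε i) P)) := by
      intro i
      rw [hL, ev_add, ev_C_mul, ev_lin, ev_lin]
      unfold dot
      rw [Fintype.sum_sum_type]
      simp only [Sum.elim_inl, Sum.elim_inr, Pi.smul_apply, smul_eq_mul, Finset.mul_sum]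
      congr 1
      exact Finset.sum_congr rfl fun k _ => by ring
    have hξQ : ∀ i, ‖evv D (ε i) Q‖ ≤ ‖(Sum.elim (evv D (ε i) Q) (w • evv D (ε i) P) :
        κQ ⊕ κP → ℂ)‖ := by
      intro i
      refine (pi_norm_le_iff_of_nonneg (norm_nonneg _)).2 fun k => ?_
      exact norm_le_pi_norm (Sum.elim (evv D (ε i) Q) (w • evv D (ε i) P) : κQ ⊕ κP → ℂ)
        (Sum.inl k)
    have hξP : ∀ i, ‖w‖ * ‖evv D (ε i) P‖ ≤ ‖(Sum.elim (evv D (ε i) Q) (w • evv D (ε i) P) :
        κQ ⊕ κP → ℂ)‖ := by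
      intro i
      rw [← norm_smul]
      refine (pi_norm_le_iff_of_nonneg (norm_nonneg _)).2 fun k => ?_
      exact norm_le_pi_norm (Sum.elim (evv D (ε i) Q) (w • evv D (ε i) P) : κQ ⊕ κP → ℂ)
        (Sum.inr k)
    have hevL : ∀ i, c1 * ‖evv D (ε i) Q‖ ≤ ‖ev D (ε i) L‖ := by
      intro i
      rw [hLev]
      exact (mul_le_mul_of_nonneg_left (hξQ i) hc1.le).trans (hli i)
    have hevL0 : c1 * (R / 2) * ‖evv D (ε i0) Q‖ ≤ ‖ev D (ε i0) L‖ := by
      rw [hLev]
      refine le_trans ?_ (hli i0)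
      rw [mul_assoc]
      refine mul_le_mul_of_nonneg_left (le_trans ?_ (hξP i0)) hc1.le
      rw [hi0, hwn]
      have h1 : R / 2 * ‖evv D (some z0) Q‖ = (R / (2 * M)) * (M * ‖evv D (some z0) Q‖) := by
        field_simp
      rw [h1]
      calc R / (2 * M) * (M * ‖evv D (some z0) Q‖)
          ≤ R / (2 * M) * (2 * ‖evv D (some z0) P‖) :=
            mul_le_mul_of_nonneg_left hz0 (by positivity)
        _ = R / M * ‖evv D (some z0) P‖ := by field_simp
    -- `|a₁| ∏ |Q(ε_i)|` is large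
    set Pq : ℝ := ∏ i, ‖evv D (ε i) Q‖ with hPq
    have hPq1 : ρ' ≤ ‖a1‖ * ((2 * B) ^ D * Pq) := by
      have h1 : ρ' = ‖a1‖ * ∏ i, ‖ev D (ε i) F0‖ := by
        rw [← norm_prod, ← norm_mul, ← hfac F0 hF0d, hresF]
      rw [h1]
      refine mul_le_mul_of_nonneg_left ?_ (norm_nonneg _)
      have h2 : (2 * B) ^ D = ∏ _i : Fin D, (2 * B) := by simp
      rw [hPq, h2, ← Finset.prod_mul_distrib]
      exact Finset.prod_le_prod (fun _ _ => norm_nonneg _) fun i _ => hevF a b hna hnb (ε i)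
    have hPq2 : c1 ^ D * (R / 2) * Pq ≤ ∏ i, ‖ev D (ε i) L‖ := by
      rw [hPq, ← Finset.mul_prod_erase Finset.univ _ (Finset.mem_univ i0),
        ← Finset.mul_prod_erase Finset.univ (fun i => ‖ev D (ε i) L‖) (Finset.mem_univ i0)]
      have h1 : ∏ i ∈ Finset.univ.erase i0, (c1 * ‖evv D (ε i) Q‖) ≤
          ∏ i ∈ Finset.univ.erase i0, ‖ev D (ε i) L‖ :=
        Finset.prod_le_prod (fun _ _ => by positivity) fun i _ => hevL i
      rw [Finset.prod_mul_distrib, Finset.prod_const] at h1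
      have hcard : (Finset.univ.erase i0).card = D - 1 := by
        rw [Finset.card_erase_of_mem (Finset.mem_univ i0)]
        simp
      rw [hcard] at h1
      have h2 : c1 ^ D = c1 * c1 ^ (D - 1) := by
        rw [← pow_succ', Nat.sub_add_cancel hD]
      have h3 := mul_le_mul hevL0 h1 (by positivity) (norm_nonneg _)
      refine le_trans (le_of_eq ?_) h3
      rw [h2]
      ring
    have hbig : c1 ^ D * (1 / 2) * (1 / (2 * B)) ^ D * (R * ρ') ≤ ‖resultant L F1 D D‖ := by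
      rw [hfac L hLd, norm_mul, norm_prod]
      have h1 : ‖a1‖ * (c1 ^ D * (R / 2) * Pq) ≤ ‖a1‖ * ∏ i, ‖ev D (ε i) L‖ :=
        mul_le_mul_of_nonneg_left hPq2 (norm_nonneg _)
      refine le_trans ?_ h1
      have h2 : (1 / (2 * B)) ^ D * ρ' ≤ ‖a1‖ * Pq := by
        have h3 : (1 / (2 * B)) ^ D * ρ' ≤ (1 / (2 * B)) ^ D * (‖a1‖ * ((2 * B) ^ D * Pq)) :=
          mul_le_mul_of_nonneg_left hPq1 (by positivity)
        refine h3.trans (le_of_eq ?_)
        have h4 : (1 / (2 * B)) ^ D * (2 * B) ^ D = 1 := by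
          rw [← mul_pow, one_div, inv_mul_cancel₀ (by positivity), one_pow]
        calc (1 / (2 * B)) ^ D * (‖a1‖ * ((2 * B) ^ D * Pq))
            = ((1 / (2 * B)) ^ D * (2 * B) ^ D) * (‖a1‖ * Pq) := by ring
          _ = ‖a1‖ * Pq := by rw [h4, one_mul]
      calc c1 ^ D * (1 / 2) * (1 / (2 * B)) ^ D * (R * ρ')
          = (c1 ^ D * (R / 2)) * ((1 / (2 * B)) ^ D * ρ') := by ring
        _ ≤ (c1 ^ D * (R / 2)) * (‖a1‖ * Pq) := mul_le_mul_of_nonneg_left h2 (by positivity)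
        _ = ‖a1‖ * (c1 ^ D * (R / 2) * Pq) := by ring
    -- replace `F1` by a sample form
    obtain ⟨s', hs', h5⟩ := half_up hD hc hS'n hS' hQ hF1d hLd (by positivity : (0 : ℝ) ≤ 2 * B)
      (hevF c' d hnc hnd)
    have h6 : c3 * (R * ρ') ≤ ‖resultant L (lin s' Q) D D‖ := by
      rw [res_symm F1 L, res_symm (lin s' Q) L] at h5
      have h7 := hbig.trans h5
      have h8 : (c / (2 * B)) ^ D * (2 * B / c) ^ D = 1 := by
        rw [← mul_pow]
        have : c / (2 * B) * (2 * B / c) = 1 := by field_simp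
        rw [this, one_pow]
      calc c3 * (R * ρ')
          = (c / (2 * B)) ^ D * (c1 ^ D * (1 / 2) * (1 / (2 * B)) ^ D * (R * ρ')) := by
            rw [hc3]; ring
        _ ≤ (c / (2 * B)) ^ D * ((2 * B / c) ^ D * ‖resultant L (lin s' Q) D D‖) :=
            mul_le_mul_of_nonneg_left h7 (by positivity)
        _ = ‖resultant L (lin s' Q) D D‖ := by rw [← mul_assoc, h8, one_mul]
    have h7 : (resw D P Q l (emb s')).eval w = resultant L (lin s' Q) D D := by
      rw [resw_eval]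
      have e1 : (fun k => emb s' (Sum.inl k)) = s' := rfl
      have e2 : lin (fun b => emb s' (Sum.inr b)) P = 0 := by
        unfold lin
        refine Finset.sum_eq_zero fun b _ => ?_
        simp [hemb]
      rw [e1, e2, mul_zero, add_zero]
    have h8 : (C4 + 1) * ρ' ≤ ‖(resw D P Q l (emb s')).eval w‖ := by
      rw [h7]
      refine le_trans ?_ h6
      have : c3 * R = C4 + 1 + 2 * c3 := by
        rw [hR]; field_simp
      calc (C4 + 1) * ρ' ≤ (C4 + 1 + 2 * c3) * ρ' := by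
            refine mul_le_mul_of_nonneg_right ?_ hρ'pos.le
            linarith
        _ = c3 * (R * ρ') := by rw [← this]; ring
    -- find the coefficient
    set q := resw D P Q l (emb s') with hq
    have hqd : q.natDegree < D + D + 1 := Nat.lt_succ_of_le (resw_natDegree D P Q l (emb s'))
    have h9 : q.eval w = ∑ j ∈ Finset.range (D + D + 1), q.coeff j * w ^ j :=
      eval_eq_sum_range' hqd w
    have h10 : ρ' ≤ ∑ j ∈ Finset.range (D + D), ‖q.coeff (j + 1)‖ * ‖w‖ ^ (j + 1) := by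
      have h11 : ‖q.eval w‖ ≤ ‖q.coeff 0‖ +
          ∑ j ∈ Finset.range (D + D), ‖q.coeff (j + 1)‖ * ‖w‖ ^ (j + 1) := by
        rw [h9, Finset.sum_range_succ']
        refine (norm_add_le _ _).trans ?_
        rw [add_comm]
        refine add_le_add (by simp) ((norm_sum_le _ _).trans (Finset.sum_le_sum fun j _ => ?_))
        rw [norm_mul, norm_pow]
      have h12 : ‖q.coeff 0‖ ≤ C4 * ρ' := (hρle l hlS _ (hembS s' hs')).trans hρC4
      linarith [h8.trans h11]
    have h13 : ∃ j ∈ Finset.range (D + D), ρ' / ((D + D : ℕ) : ℝ) ≤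
        ‖q.coeff (j + 1)‖ * ‖w‖ ^ (j + 1) := by
      by_contra hcon
      push Not at hcon
      have h14 : ∑ j ∈ Finset.range (D + D), ‖q.coeff (j + 1)‖ * ‖w‖ ^ (j + 1) <
          ∑ _j ∈ Finset.range (D + D), ρ' / ((D + D : ℕ) : ℝ) :=
        Finset.sum_lt_sum_of_nonempty (by simp; omega) hcon
      rw [Finset.sum_const, Finset.card_range, nsmul_eq_mul] at h14
      have h15 : ((D + D : ℕ) : ℝ) * (ρ' / ((D + D : ℕ) : ℝ)) = ρ' := by
        have : ((D + D : ℕ) : ℝ) ≠ 0 := by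
          have : 0 < D + D := by omega
          exact_mod_cast this.ne'
        field_simp
      rw [h15] at h14
      linarith
    obtain ⟨j, hj, hjle⟩ := h13
    refine ⟨l, hlS, emb s', hembS s' hs', j + 1, by omega, by
      have := Finset.mem_range.1 hj; omega, ?_⟩
    have hDD : (0 : ℝ) < ((D + D : ℕ) : ℝ) := by
      have : 0 < D + D := by omega
      exact_mod_cast this
    have h16 : M ^ (j + 1) * ρ' ≤ ((D + D : ℕ) : ℝ) * R ^ (D + D) * ‖q.coeff (j + 1)‖ := by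
      rw [hwn, div_pow] at hjle
      rw [div_le_iff₀ hDD] at hjle
      have hMj : 0 < M ^ (j + 1) := by positivity
      have hRj : R ^ (j + 1) ≤ R ^ (D + D) := pow_le_pow_right₀ (by linarith) (by
        have := Finset.mem_range.1 hj; omega)
      calc M ^ (j + 1) * ρ'
          ≤ M ^ (j + 1) * (‖q.coeff (j + 1)‖ * (R ^ (j + 1) / M ^ (j + 1)) *
              ((D + D : ℕ) : ℝ)) := mul_le_mul_of_nonneg_left hjle hMj.le
        _ = ((D + D : ℕ) : ℝ) * R ^ (j + 1) * ‖q.coeff (j + 1)‖ := by field_simp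
        _ ≤ ((D + D : ℕ) : ℝ) * R ^ (D + D) * ‖q.coeff (j + 1)‖ :=
            mul_le_mul_of_nonneg_right (mul_le_mul_of_nonneg_left hRj hDD.le) (norm_nonneg _)
    calc M ^ (j + 1) * ρ ≤ M ^ (j + 1) * (C4 * ρ') :=
          mul_le_mul_of_nonneg_left hρC4 (by positivity)
      _ = C4 * (M ^ (j + 1) * ρ') := by ring
      _ ≤ C4 * (((D + D : ℕ) : ℝ) * R ^ (D + D) * ‖q.coeff (j + 1)‖) :=
          mul_le_mul_of_nonneg_left h16 hC4p.le
      _ = (((D + D : ℕ) : ℝ) * R ^ (D + D) * C4) * ‖q.coeff (j + 1)‖ := by ring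
      _ ≤ (C1 + ((D + D : ℕ) : ℝ) * R ^ (D + D) * C4 + 1) * ‖q.coeff (j + 1)‖ := by
          refine mul_le_mul_of_nonneg_right ?_ (norm_nonneg _)
          linarith

end Main

end

end Crest.Agent.R273.Res_145
private theorem rz_b2fc98d4b6 : type_of% @_root_.Crest.Agent.R273.Res_145.ev.eq_1 := @_root_.Crest.Agent.R273.Res_145.ev.eq_1 -- L216
end

-- ▼ part R273/U2_145
section

/-!
# Lemma U2 in terms of polynomials in the coefficients (helper145, row 273)

`U2`: for vectors of polynomials `P`, `Q` in one variable `z` (formal degree `D`, `Q` without zero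
on the projective line) the number `sup_z ‖P z‖ / ‖Q z‖` is, up to constants and to a power `E`,
the quotient of the norms of two finite families of polynomials in the coefficients of `P`, `Q`.
-/

namespace Crest.Agent.R273.U2_145

open Polynomial Crest.Agent.R273.Res_145

noncomputable section

variable {κP κQ : Type} [Fintype κP] [Fintype κQ] {D : ℕ}

/-! ### the ratio on `ℙ¹` -/

theorem refl_eval {κ : Type} (F : κ → ℂ[X]) (hF : ∀ k, (F k).natDegree ≤ D) {z : ℂ} (hz : z ≠ 0) :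
    (fun k => (F k).eval z) = fun k => (reflect D (F k)).eval z⁻¹ * z ^ D := by
  funext k
  have : Invertible z := invertibleOfNonzero hz
  have := eval₂_reflect_mul_pow (RingHom.id ℂ) z D (F k) (hF k)
  rw [← eval₂_id, ← eval₂_id, ← this]
  simp

theorem norm_refl {κ : Type} [Fintype κ] (F : κ → ℂ[X]) (hF : ∀ k, (F k).natDegree ≤ D) {z : ℂ}
    (hz : z ≠ 0) :
    ‖evv D (some z) F‖ = ‖z‖ ^ D * ‖fun k => (reflect D (F k)).eval z⁻¹‖ := by
  have h : evv D (some z) F = (z ^ D) • fun k => (reflect D (F k)).eval z⁻¹ := by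
    have := refl_eval F hF hz
    unfold evv
    simp only [ev_some]
    rw [this]
    funext k
    simp [mul_comm]
  rw [h, norm_smul, norm_pow]

theorem refl_zero {κ : Type} (F : κ → ℂ[X]) :
    (fun k => (reflect D (F k)).eval 0) = evv D none F := by
  funext k
  rw [← coeff_zero_eq_eval_zero, coeff_reflect, revAt_zero]
  rfl

theorem exists_sup {P : κP → ℂ[X]} {Q : κQ → ℂ[X]} (hP : ∀ b, (P b).natDegree ≤ D)
    (hQ : ∀ k, (Q k).natDegree ≤ D) (hQ0 : ∀ e, evv D e Q ≠ 0) :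
    ∃ M : ℝ, 0 ≤ M ∧ (∀ e, ‖evv D e P‖ ≤ M * ‖evv D e Q‖) ∧
      ∀ M' : ℝ, (∀ z : ℂ, ‖evv D (some z) P‖ ≤ M' * ‖evv D (some z) Q‖) → M ≤ M' := by
  have hpos : ∀ e, 0 < ‖evv D e Q‖ := fun e => norm_pos_iff.2 (hQ0 e)
  have hcont : ∀ {κ : Type} [Fintype κ] (F : κ → ℂ[X]),
      Continuous fun z : ℂ => ‖fun k => (F k).eval z‖ := by
    intro κ _ F
    exact (continuous_pi fun k => (F k).continuous).norm
  set r : ℂ → ℝ := fun z => ‖evv D (some z) P‖ / ‖evv D (some z) Q‖ with hr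
  have hrc : Continuous r := by
    refine Continuous.div ?_ ?_ fun z => (hpos _).ne'
    · exact hcont P
    · exact hcont Q
  set r2 : ℂ → ℝ := fun w => ‖fun k => (reflect D (P k)).eval w‖ /
    ‖fun k => (reflect D (Q k)).eval w‖ with hr2
  have hr2pos : ∀ w, 0 < ‖fun k => (reflect D (Q k)).eval w‖ := by
    intro w
    by_cases hw : w = 0
    · rw [hw, refl_zero]; exact hpos none
    · have h1 := norm_refl Q hQ (inv_ne_zero hw)
      rw [inv_inv] at h1
      have h2 := hpos (some w⁻¹)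
      rw [h1] at h2
      have h3 : (0 : ℝ) < ‖w⁻¹‖ ^ D := pow_pos (norm_pos_iff.2 (inv_ne_zero hw)) _
      exact (pos_iff_pos_of_mul_pos h2).1 h3
  have hr2c : Continuous r2 := (hcont fun k => reflect D (P k)).div (hcont fun k => reflect D (Q k))
    fun w => (hr2pos w).ne'
  have hrr : ∀ w : ℂ, w ≠ 0 → r2 w = r w⁻¹ := by
    intro w hw
    have h3 : (0 : ℝ) < ‖w⁻¹‖ ^ D := pow_pos (norm_pos_iff.2 (inv_ne_zero hw)) _
    simp only [hr, hr2]
    rw [norm_refl P hP (inv_ne_zero hw), norm_refl Q hQ (inv_ne_zero hw), inv_inv,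
      mul_div_mul_left _ _ h3.ne']
  obtain ⟨B1, hB1⟩ := (isCompact_closedBall (0 : ℂ) 1).bddAbove_image hrc.continuousOn
  obtain ⟨B2, hB2⟩ := (isCompact_closedBall (0 : ℂ) 1).bddAbove_image hr2c.continuousOn
  have hbdd : BddAbove (Set.range r) := by
    refine ⟨max B1 B2, ?_⟩
    rintro _ ⟨z, rfl⟩
    by_cases hz : ‖z‖ ≤ 1
    · exact le_max_of_le_left (hB1 ⟨z, by simpa using hz, rfl⟩)
    · push Not at hz
      have hz0 : z ≠ 0 := by
        intro h; rw [h, norm_zero] at hz; linarith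
      have h1 : r z = r2 z⁻¹ := by rw [hrr _ (inv_ne_zero hz0), inv_inv]
      rw [h1]
      refine le_max_of_le_right (hB2 ⟨z⁻¹, ?_, rfl⟩)
      rw [mem_closedBall_zero_iff, norm_inv]
      exact inv_le_one_of_one_le₀ hz.le
  have hr0 : ∀ z, 0 ≤ r z := fun z => div_nonneg (norm_nonneg _) (norm_nonneg _)
  set M := ⨆ z, r z with hM
  have hrM : ∀ z, r z ≤ M := fun z => le_ciSup hbdd z
  refine ⟨M, (hr0 0).trans (hrM 0), ?_, ?_⟩
  · intro e
    cases e with
    | some z => exact (div_le_iff₀ (hpos (some z))).1 (hrM z)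
    | none =>
      have h1 : r2 0 ≤ M := by
        have h2 : Filter.Tendsto r2 (nhdsWithin 0 {0}ᶜ) (nhds (r2 0)) :=
          (hr2c.tendsto 0).mono_left nhdsWithin_le_nhds
        refine le_of_tendsto h2 ?_
        filter_upwards [self_mem_nhdsWithin] with w hw
        rw [hrr w hw]
        exact hrM _
      have h3 : r2 0 = ‖evv D none P‖ / ‖evv D none Q‖ := by
        simp only [hr2]
        rw [refl_zero, refl_zero]
      rw [h3] at h1
      exact (div_le_iff₀ (hpos none)).1 h1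
  · intro M' hM'
    exact ciSup_le fun z => (div_le_iff₀ (hpos (some z))).2 (hM' z)

theorem resw_coeff_zero (P P' : κP → ℂ[X]) (Q : κQ → ℂ[X]) (l0 l1 : κQ ⊕ κP → ℂ) :
    (resw D P Q l0 l1).coeff 0 = (resw D P' Q l0 l1).coeff 0 := by
  rw [coeff_zero_eq_eval_zero, coeff_zero_eq_eval_zero, resw_eval, resw_eval]
  rw [C_0, zero_mul, zero_mul, zero_mul, zero_mul]

/-- `sup_res` with the supremum eliminated -/
theorem sup_res' (hD : 0 < D) (κP κQ : Type) [Fintype κP] [Nonempty κP] [Fintype κQ] :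
    ∃ (S : Finset (κQ ⊕ κP → ℂ)) (K : ℝ), 0 < K ∧ ∀ (P : κP → ℂ[X]) (Q : κQ → ℂ[X]),
      (∀ b, (P b).natDegree ≤ D) → (∀ k, (Q k).natDegree ≤ D) → (∀ e, evv D e Q ≠ 0) →
      ∃ ρ : ℝ, 0 < ρ ∧ (∀ l0 ∈ S, ∀ l1 ∈ S, ‖(resw D P Q l0 l1).coeff 0‖ ≤ ρ) ∧
        (∃ l0 ∈ S, ∃ l1 ∈ S, ρ = ‖(resw D P Q l0 l1).coeff 0‖) ∧
        (∀ M : ℝ, (∀ z : ℂ, ‖evv D (some z) P‖ ≤ M * ‖evv D (some z) Q‖) →
          ∀ l0 ∈ S, ∀ l1 ∈ S, ∀ j, 1 ≤ j → ‖(resw D P Q l0 l1).coeff j‖ ≤ K * M ^ j * ρ) ∧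
        ∃ l0 ∈ S, ∃ l1 ∈ S, ∃ j, 1 ≤ j ∧ j ≤ D + D ∧ ∀ z : ℂ,
          ‖evv D (some z) P‖ ^ j * ρ ≤
            K * ‖(resw D P Q l0 l1).coeff j‖ * ‖evv D (some z) Q‖ ^ j := by
  obtain ⟨S, K, hK, H⟩ := sup_res hD κP κQ
  refine ⟨S, K, hK, ?_⟩
  -- the case of nonzero `P`
  have main : ∀ (P : κP → ℂ[X]) (Q : κQ → ℂ[X]),
      (∀ b, (P b).natDegree ≤ D) → (∀ k, (Q k).natDegree ≤ D) → (∀ e, evv D e Q ≠ 0) → P ≠ 0 →
      ∃ ρ : ℝ, 0 < ρ ∧ (∀ l0 ∈ S, ∀ l1 ∈ S, ‖(resw D P Q l0 l1).coeff 0‖ ≤ ρ) ∧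
        (∃ l0 ∈ S, ∃ l1 ∈ S, ρ = ‖(resw D P Q l0 l1).coeff 0‖) ∧
        (∀ M : ℝ, (∀ z : ℂ, ‖evv D (some z) P‖ ≤ M * ‖evv D (some z) Q‖) →
          ∀ l0 ∈ S, ∀ l1 ∈ S, ∀ j, 1 ≤ j → ‖(resw D P Q l0 l1).coeff j‖ ≤ K * M ^ j * ρ) ∧
        ∃ l0 ∈ S, ∃ l1 ∈ S, ∃ j, 1 ≤ j ∧ j ≤ D + D ∧ ∀ z : ℂ,
          ‖evv D (some z) P‖ ^ j * ρ ≤
            K * ‖(resw D P Q l0 l1).coeff j‖ * ‖evv D (some z) Q‖ ^ j := by
    intro P Q hP hQ hQ0 hP0
    obtain ⟨M0, hM0, h1, h2⟩ := exists_sup hP hQ hQ0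
    have hpos : ∀ e, 0 < ‖evv D e Q‖ := fun e => norm_pos_iff.2 (hQ0 e)
    have hM0' : 0 < M0 := by
      refine lt_of_le_of_ne hM0 fun h0 => hP0 ?_
      funext b
      refine Polynomial.funext fun z => ?_
      have h3 := h1 (some z)
      rw [← h0, zero_mul] at h3
      have h4 := norm_le_zero_iff.1 h3
      have h5 := congrFun h4 b
      simpa [evv] using h5
    have hw : ∃ z : ℂ, M0 * ‖evv D (some z) Q‖ ≤ 2 * ‖evv D (some z) P‖ := by
      by_contra hcon
      push Not at hcon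
      have := h2 (M0 / 2) fun z => by have := hcon z; linarith
      linarith
    obtain ⟨ρ, hρ, g1, ⟨l0, hl0, l1, hl1, g2⟩, g3, k0, hk0, k1, hk1, j, hj1, hj2, g4⟩ :=
      H P Q M0 hP hQ hM0' hQ0 h1 hw
    refine ⟨ρ, hρ, g1, ⟨l0, hl0, l1, hl1, le_antisymm g2 (g1 l0 hl0 l1 hl1)⟩, ?_,
      k0, hk0, k1, hk1, j, hj1, hj2, ?_⟩
    · intro M hM l0 hl0 l1 hl1 j _
      refine (g3 l0 hl0 l1 hl1 j).trans ?_
      have := h2 M hM
      gcongr
    · intro z
      have h3 : ‖evv D (some z) P‖ ^ j ≤ M0 ^ j * ‖evv D (some z) Q‖ ^ j := by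
        rw [← mul_pow]
        exact pow_le_pow_left₀ (norm_nonneg _) (h1 _) _
      calc ‖evv D (some z) P‖ ^ j * ρ ≤ M0 ^ j * ‖evv D (some z) Q‖ ^ j * ρ := by gcongr
        _ = (M0 ^ j * ρ) * ‖evv D (some z) Q‖ ^ j := by ring
        _ ≤ _ := by gcongr
  intro P Q hP hQ hQ0
  by_cases hP0 : P = 0
  · -- compare with an auxiliary nonzero `P'`
    obtain ⟨k, hk⟩ : ∃ k, (Q k).coeff D ≠ 0 := by
      by_contra hcon
      push Not at hcon
      exact hQ0 none (funext fun k => by simp [evv, hcon k])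
    obtain ⟨ρ, hρ, g1, ⟨l0, hl0, l1, hl1, g2⟩, -, -⟩ := main (fun _ => Q k) Q (fun _ => hQ k) hQ hQ0
      (by
        intro h
        obtain ⟨b⟩ := (inferInstance : Nonempty κP)
        have := congrFun h b
        simp only [Pi.zero_apply] at this
        rw [this] at hk
        simp at hk)
    have hz : ∀ l0 l1 j, 1 ≤ j → (resw D P Q l0 l1).coeff j = 0 := by
      intro l0 l1 j hj
      have h1 : (resw D P Q l0 l1) = C ((resw D P Q l0 l1).coeff 0) := by
        refine Polynomial.funext fun w => ?_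
        rw [coeff_zero_eq_eval_zero, resw_eval, eval_C, resw_eval, hP0]
        have : ∀ l : κP → ℂ, lin l (0 : κP → ℂ[X]) = 0 := by
          intro l; unfold lin; simp
        rw [this, this, mul_zero, mul_zero]
      rw [h1, coeff_C, if_neg (by omega)]
    refine ⟨ρ, hρ, fun l0 h0 l1 h1 => ?_, ⟨l0, hl0, l1, hl1, ?_⟩, ?_, l0, hl0, l1, hl1, 1, le_rfl,
      by omega, ?_⟩
    · rw [resw_coeff_zero P (fun _ => Q k)]; exact g1 l0 h0 l1 h1
    · rw [resw_coeff_zero P (fun _ => Q k)]; exact g2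
    · intro M hM l0 _ l1 _ j hj
      rw [hz l0 l1 j hj, norm_zero]
      have h3 : 0 ≤ M := by
        have h4 := hM 0
        rw [hP0] at h4
        have h5 : evv D (some (0 : ℂ)) (0 : κP → ℂ[X]) = 0 := by
          funext b; simp [evv]
        rw [h5, norm_zero] at h4
        have h6 : 0 < ‖evv D (some (0 : ℂ)) Q‖ := norm_pos_iff.2 (hQ0 _)
        exact nonneg_of_mul_nonneg_left h4 h6
      positivity
    · intro z
      have h5 : evv D (some z) P = 0 := by
        rw [hP0]; funext b; simp [evv]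
      rw [h5, norm_zero, hz _ _ 1 le_rfl, norm_zero]
      simp
  · exact main P Q hP hQ hQ0 hP0

/-! ### polynomials in the coefficients -/

/-- the index set of the coefficients -/
abbrev V (D : ℕ) (κP κQ : Type) : Type := (κP × Fin (D + 1)) ⊕ (κQ × Fin (D + 1))

/-- the coefficients of the families `P`, `Q` -/
def cf {G : Type*} [CommRing G] (D : ℕ) (P : κP → G[X]) (Q : κQ → G[X]) : V D κP κQ → G :=
  Sum.elim (fun p => (P p.1).coeff p.2) (fun q => (Q q.1).coeff q.2)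



/-- generic polynomial -/
def gen {κ W : Type} (D : ℕ) (f : κ × Fin (D + 1) → W) (b : κ) : (MvPolynomial W ℂ)[X] :=
  ∑ j : Fin (D + 1), C (MvPolynomial.X (f (b, j))) * X ^ (j : ℕ)

theorem gen_map {κ W : Type} {G : Type*} [CommRing G] [Algebra ℂ G] (f : κ × Fin (D + 1) → W)
    (x : W → G) (F : κ → G[X]) (hF : ∀ k, (F k).natDegree ≤ D)
    (hx : ∀ b (j : Fin (D + 1)), x (f (b, j)) = (F b).coeff j) (b : κ) :
    (gen D f b).map ((MvPolynomial.aeval x : MvPolynomial W ℂ →ₐ[ℂ] G) : MvPolynomial W ℂ →+* G) =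
      F b := by
  unfold gen
  rw [Polynomial.map_sum]
  have h1 : ∀ j : Fin (D + 1), (C (MvPolynomial.X (f (b, j))) * X ^ (j : ℕ) :
      (MvPolynomial W ℂ)[X]).map ((MvPolynomial.aeval x : MvPolynomial W ℂ →ₐ[ℂ] G) :
        MvPolynomial W ℂ →+* G) = C ((F b).coeff j) * X ^ (j : ℕ) := by
    intro j
    rw [Polynomial.map_mul, Polynomial.map_C, Polynomial.map_pow, Polynomial.map_X]
    simp [hx]
  rw [Finset.sum_congr rfl fun j _ => h1 j, Fin.sum_univ_eq_sum_range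
    (fun j => C ((F b).coeff j) * X ^ j) (D + 1)]
  exact (as_sum_range_C_mul_X_pow' (F b) (Nat.lt_succ_of_le (hF b))).symm



theorem exists_norm_eq {κ : Type} [Fintype κ] [Nonempty κ] (x : κ → ℂ) : ∃ k, ‖x k‖ = ‖x‖ := by
  obtain ⟨k, -, hk⟩ := Finset.exists_max_image Finset.univ (fun k => ‖x k‖)
    (Finset.univ_nonempty (α := κ))
  refine ⟨k, le_antisymm (norm_le_pi_norm x k) ?_⟩
  exact (pi_norm_le_iff_of_nonneg (norm_nonneg _)).2 fun i => hk i (Finset.mem_univ _)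




end

end Crest.Agent.R273.U2_145
end

-- ▼ part R273/U2s_145
section

/-!
# The interface `U2Stmt` of helper619 (helper145, row 273)
-/

namespace Crest.Agent.R273.U2s_145

open Polynomial Crest.Agent.R273.Res_145 Crest.Agent.R273.U2_145
open scoped NNReal

noncomputable section

/-- the interface consumed in U3 -/
def U2Stmt : Prop :=
  ∀ (D l m : ℕ), 1 ≤ D → ∃ (J : ℕ) (C : ℝ≥0)
    (R : ℕ → Finset (MvPolynomial ((Fin l ⊕ Fin m) × Fin (D + 1)) ℂ)),
    ∀ (P : Fin l → ℂ[X]) (Q : Fin m → ℂ[X]), (∀ b, (P b).natDegree ≤ D) →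
      (∀ c, (Q c).natDegree ≤ D) → (∃ c, (Q c).coeff D ≠ 0) → (∀ z, ∃ c, (Q c).eval z ≠ 0) →
      let v : (Fin l ⊕ Fin m) × Fin (D + 1) → ℂ := fun i => (Sum.elim P Q i.1).coeff i.2
      let N : ℕ → ℝ≥0 := fun j => (R j).sup fun r => ‖MvPolynomial.eval v r‖₊
      N 0 ≠ 0 ∧
      (∀ M : ℝ≥0, (∀ z, ∀ b, ∃ c, ‖(P b).eval z‖₊ ≤ M * ‖(Q c).eval z‖₊) →
        ∀ j, N j ≤ C * M ^ j * N 0) ∧
      (∀ (M : ℝ≥0) z, (∃ b, ∀ c, M * ‖(Q c).eval z‖₊ ≤ ‖(P b).eval z‖₊) →
        ∃ j, 1 ≤ j ∧ j ≤ J ∧ M ^ j * N 0 ≤ C * N j)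

/-- coefficient of the resultant, in 619's variables -/
def Rh (D l m : ℕ) (l0 l1 : Fin m ⊕ Fin l → ℂ) (j : ℕ) :
    MvPolynomial ((Fin l ⊕ Fin m) × Fin (D + 1)) ℂ :=
  (resw D (gen D (fun p : Fin l × Fin (D + 1) => ((Sum.inl p.1 : Fin l ⊕ Fin m), p.2)))
    (gen D (fun p : Fin m × Fin (D + 1) => ((Sum.inr p.1 : Fin l ⊕ Fin m), p.2))) l0 l1).coeff j

theorem eval_Rh {D l m : ℕ} (P : Fin l → ℂ[X]) (Q : Fin m → ℂ[X])
    (hP : ∀ b, (P b).natDegree ≤ D) (hQ : ∀ k, (Q k).natDegree ≤ D) (l0 l1 : Fin m ⊕ Fin l → ℂ)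
    (j : ℕ) :
    MvPolynomial.eval (fun i : (Fin l ⊕ Fin m) × Fin (D + 1) => (Sum.elim P Q i.1).coeff i.2)
      (Rh D l m l0 l1 j) = (resw D P Q l0 l1).coeff j := by
  set v : (Fin l ⊕ Fin m) × Fin (D + 1) → ℂ := fun i => (Sum.elim P Q i.1).coeff i.2 with hv
  have h := resw_map (MvPolynomial.aeval v :
      MvPolynomial ((Fin l ⊕ Fin m) × Fin (D + 1)) ℂ →ₐ[ℂ] ℂ) D
    (gen D (fun p : Fin l × Fin (D + 1) => ((Sum.inl p.1 : Fin l ⊕ Fin m), p.2)))
    (gen D (fun p : Fin m × Fin (D + 1) => ((Sum.inr p.1 : Fin l ⊕ Fin m), p.2))) l0 l1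
  have e1 := fun b => gen_map (D := D)
    (fun p : Fin l × Fin (D + 1) => ((Sum.inl p.1 : Fin l ⊕ Fin m), p.2)) v P hP
    (fun b j => rfl) b
  have e2 := fun b => gen_map (D := D)
    (fun p : Fin m × Fin (D + 1) => ((Sum.inr p.1 : Fin l ⊕ Fin m), p.2)) v Q hQ
    (fun b j => rfl) b
  simp only [e1, e2] at h
  rw [← h, coeff_map, ← MvPolynomial.coe_aeval_eq_eval]
  rfl

theorem u2Stmt : U2Stmt := by
  classical
  intro D l m hD
  rcases Nat.eq_zero_or_pos l with hl | hl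
  · subst hl
    refine ⟨0, 1, fun j => if j = 0 then {1} else {0}, ?_⟩
    intro P Q _ _ _ _ v N
    have hN0 : N 0 = 1 := by simp [N]
    have hN : ∀ j, j ≠ 0 → N j = 0 := by
      intro j hj; simp [N, hj]
    refine ⟨by rw [hN0]; exact one_ne_zero, ?_, ?_⟩
    · intro M _ j
      rcases Nat.eq_zero_or_pos j with hj | hj
      · subst hj; simp
      · rw [hN j hj.ne']; exact bot_le
    · rintro M z ⟨b, -⟩
      exact b.elim0
  have : Nonempty (Fin l) := ⟨⟨0, hl⟩⟩
  obtain ⟨S, K, hK, H⟩ := sup_res' (D := D) hD (Fin l) (Fin m)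
  refine ⟨D + D, Real.toNNReal (max K 1), fun j => (S ×ˢ S).image fun x => Rh D l m x.1 x.2 j, ?_⟩
  intro P Q hP hQ hQD hQ0 v N
  have hC : ((Real.toNNReal (max K 1) : ℝ≥0) : ℝ) = max K 1 :=
    Real.coe_toNNReal _ (le_max_of_le_right zero_le_one)
  have hQe : ∀ e, evv D e Q ≠ 0 := by
    intro e h
    cases e with
    | some z =>
      obtain ⟨k, hk⟩ := hQ0 z
      exact hk (by simpa [evv] using congrFun h k)
    | none =>
      obtain ⟨k, hk⟩ := hQD
      exact hk (by simpa [evv] using congrFun h k)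
  obtain ⟨ρ, hρ, g1, ⟨l0, hl0, l1, hl1, g2⟩, g3, k0, hk0, k1, hk1, j, hj1, hj2, g4⟩ :=
    H P Q hP hQ hQe
  have hev : ∀ l0 l1 j, MvPolynomial.eval v (Rh D l m l0 l1 j) = (resw D P Q l0 l1).coeff j :=
    fun l0 l1 j => eval_Rh P Q hP hQ l0 l1 j
  have hle : ∀ l0 ∈ S, ∀ l1 ∈ S, ∀ j, ‖(resw D P Q l0 l1).coeff j‖ ≤ (N j : ℝ) := by
    intro l0 h0 l1 h1 j
    rw [← hev]
    exact_mod_cast Finset.le_sup (f := fun r => ‖MvPolynomial.eval v r‖₊)
      (Finset.mem_image_of_mem (fun x : (Fin m ⊕ Fin l → ℂ) × (Fin m ⊕ Fin l → ℂ) =>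
        Rh D l m x.1 x.2 j) (Finset.mem_product.2 ⟨h0, h1⟩ : (l0, l1) ∈ S ×ˢ S))
  have hsup : ∀ (j : ℕ) (B : ℝ≥0), (∀ l0 ∈ S, ∀ l1 ∈ S, ‖(resw D P Q l0 l1).coeff j‖ ≤ (B : ℝ)) →
      N j ≤ B := by
    intro j B hB
    refine Finset.sup_le fun r hr => ?_
    obtain ⟨x, hx, rfl⟩ := Finset.mem_image.1 hr
    rw [Finset.mem_product] at hx
    have := hB _ hx.1 _ hx.2
    rw [← hev] at this
    exact_mod_cast this
  have hN0 : (N 0 : ℝ) = ρ := by
    refine le_antisymm ?_ ?_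
    · have := hsup 0 ⟨ρ, hρ.le⟩ (fun l0 h0 l1 h1 => g1 l0 h0 l1 h1)
      exact_mod_cast this
    · rw [g2]; exact hle _ hl0 _ hl1 0
  have hpos : ∀ e, 0 < ‖evv D e Q‖ := fun e => norm_pos_iff.2 (hQe e)
  refine ⟨?_, ?_, ?_⟩
  · intro h
    rw [h] at hN0
    simp only [NNReal.coe_zero] at hN0
    exact hρ.ne hN0
  · intro M hM j
    have hM' : ∀ z : ℂ, ‖evv D (some z) P‖ ≤ (M : ℝ) * ‖evv D (some z) Q‖ := by
      intro z
      refine (pi_norm_le_iff_of_nonneg (by positivity)).2 fun b => ?_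
      obtain ⟨c, hc⟩ := hM z b
      have hc' : ‖(P b).eval z‖ ≤ (M : ℝ) * ‖(Q c).eval z‖ := by exact_mod_cast hc
      refine hc'.trans (mul_le_mul_of_nonneg_left ?_ M.2)
      exact norm_le_pi_norm (evv D (some z) Q) c
    refine hsup j _ fun l0 h0 l1 h1 => ?_
    push_cast
    rw [hC, hN0]
    rcases Nat.eq_zero_or_pos j with hj | hj
    · subst hj
      rw [pow_zero, mul_one]
      exact (g1 l0 h0 l1 h1).trans (le_mul_of_one_le_left hρ.le (le_max_right _ _))
    · refine (g3 M hM' l0 h0 l1 h1 j hj).trans ?_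
      have : (0 : ℝ) ≤ M := M.2
      have := le_max_left K 1
      gcongr
  · rintro M z ⟨b, hb⟩
    refine ⟨j, hj1, hj2, ?_⟩
    have h1 := g4 z
    have h2 : (M : ℝ) * ‖evv D (some z) Q‖ ≤ ‖evv D (some z) P‖ := by
      have hne : Nonempty (Fin m) := ⟨hQD.choose⟩
      obtain ⟨c, hc⟩ := U2_145.exists_norm_eq (evv D (some z) Q)
      rw [← hc]
      have h3 : (M : ℝ) * ‖(Q c).eval z‖ ≤ ‖(P b).eval z‖ := by exact_mod_cast hb c
      exact h3.trans (norm_le_pi_norm (evv D (some z) P) b)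
    have h3 : ((M : ℝ) * ‖evv D (some z) Q‖) ^ j * ρ ≤
        K * ‖(resw D P Q k0 k1).coeff j‖ * ‖evv D (some z) Q‖ ^ j :=
      (mul_le_mul_of_nonneg_right (pow_le_pow_left₀ (by have := M.2; positivity) h2 j) hρ.le).trans
        h1
    have h4 : 0 < ‖evv D (some z) Q‖ ^ j := pow_pos (hpos _) _
    have h5 : (M : ℝ) ^ j * ρ ≤ K * ‖(resw D P Q k0 k1).coeff j‖ := by
      rw [mul_pow] at h3
      refine le_of_mul_le_mul_right ?_ h4
      calc (M : ℝ) ^ j * ρ * ‖evv D (some z) Q‖ ^ j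
          = (M : ℝ) ^ j * ‖evv D (some z) Q‖ ^ j * ρ := by ring
        _ ≤ _ := h3
    have h6 : (M : ℝ) ^ j * (N 0 : ℝ) ≤ max K 1 * (N j : ℝ) := by
      rw [hN0]
      refine h5.trans ?_
      have h7 := hle _ hk0 _ hk1 j
      have h8 : (0 : ℝ) ≤ max K 1 := le_max_of_le_right zero_le_one
      exact mul_le_mul (le_max_left _ _) h7 (norm_nonneg _) h8
    rw [← hC] at h6
    exact_mod_cast h6

end

end Crest.Agent.R273.U2s_145
end

-- ▼ part R273/LemUD_619
section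

/-!
R273 (S0416), Part A, LEMMA U over a model, file D (helper619): the transcendental step.
-/

set_option autoImplicit false

open Finset
open scoped NNReal

namespace Crest.Agent.R273.LemU_619

universe w

open Polynomial

/-! ### removing the common factor -/

section Gcd

variable {A : Type w} [CommRing A] [IsDomain A]

theorem clear_one (p : (FractionRing A)[X]) : ∃ a : A, a ≠ 0 ∧ ∃ P : A[X],
    P.map (algebraMap A (FractionRing A)) = C (algebraMap A (FractionRing A) a) * p := by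
  obtain ⟨b, hb', hb⟩ := IsLocalization.integerNormalization_spec (nonZeroDivisors A) p
  refine ⟨b, nonZeroDivisors.ne_zero hb', _, hb.trans ?_⟩
  rw [← Polynomial.smul_eq_C_mul]
  ext k
  simp [Algebra.smul_def]

theorem clear_fin (T : Finset (FractionRing A)[X]) : ∃ a : A, a ≠ 0 ∧ ∀ p ∈ T, ∃ P : A[X],
    P.map (algebraMap A (FractionRing A)) = C (algebraMap A (FractionRing A) a) * p := by
  classical
  induction T using Finset.induction with
  | empty => exact ⟨1, one_ne_zero, fun p hp => absurd hp (notMem_empty _)⟩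
  | insert q T _ ih =>
    obtain ⟨a, ha, h⟩ := ih
    obtain ⟨b, hb, Q, hQ⟩ := clear_one q
    refine ⟨a * b, mul_ne_zero ha hb, fun p hp => ?_⟩
    rcases mem_insert.1 hp with rfl | hp
    · refine ⟨C a * Q, ?_⟩
      rw [Polynomial.map_mul, hQ, map_C, map_mul, C_mul]; ring
    · obtain ⟨P, hP⟩ := h p hp
      refine ⟨C b * P, ?_⟩
      rw [Polynomial.map_mul, hP, map_C, map_mul, C_mul]; ring

/-- common factor and Bezout, without denominators -/
theorem gcd_data (S : Finset A[X]) (hS : ∃ f ∈ S, f ≠ 0) :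
    ∃ (a : A) (G : A[X]) (til s : A[X] → A[X]), a ≠ 0 ∧ G ≠ 0 ∧
      (∀ f ∈ S, C a * f = G * til f) ∧ ∑ f ∈ S, s f * til f = C a := by
  classical
  set F := FractionRing A with hF
  set φ : A[X] →+* F[X] := mapRingHom (algebraMap A F) with hφ
  have hinj : Function.Injective φ := map_injective _ (IsFractionRing.injective A F)
  set I : Ideal F[X] := Ideal.span ((S.image φ : Finset F[X]) : Set F[X]) with hI
  obtain ⟨g, hg⟩ : ∃ g, I = Ideal.span {g} := ⟨_, (Ideal.span_singleton_generator I).symm⟩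
  have hdvd : ∀ f ∈ S, ∃ q, φ f = g * q := by
    intro f hf
    have h1 : φ f ∈ I := Ideal.subset_span (mem_coe.2 (mem_image_of_mem _ hf))
    rw [hg, Ideal.mem_span_singleton] at h1
    exact h1
  have hg0 : g ≠ 0 := by
    rintro rfl
    obtain ⟨f, hf, hf0⟩ := hS
    obtain ⟨q, hq⟩ := hdvd f hf
    rw [zero_mul] at hq
    exact hf0 (hinj (by rw [hq, map_zero]))
  -- Bezout
  have hgI : g ∈ I := by rw [hg]; exact Ideal.mem_span_singleton_self g
  have hbez : ∃ s : A[X] → F[X], ∑ f ∈ S, s f * φ f = g := by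
    have h2 : I = Submodule.span F[X] (φ '' (S : Set A[X])) := by
      rw [hI, coe_image]
    rw [h2] at hgI
    obtain ⟨c, hc⟩ := (Submodule.mem_span_image_finset_iff_exists_fun F[X]).1 hgI
    refine ⟨fun f => if h : f ∈ S then c ⟨f, h⟩ else 0, ?_⟩
    rw [← Finset.sum_coe_sort S, ← hc]
    refine Finset.sum_congr rfl fun f _ => ?_
    simp [smul_eq_mul]
  obtain ⟨s, hs⟩ := hbez
  have hq : ∀ f : A[X], ∃ q, f ∈ S → φ f = g * q := by
    intro f
    by_cases hf : f ∈ S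
    · obtain ⟨q, hq⟩ := hdvd f hf
      exact ⟨q, fun _ => hq⟩
    · exact ⟨0, fun h => absurd h hf⟩
  choose q hq using hq
  obtain ⟨a, ha, hclear⟩ := clear_fin (insert g (S.image q ∪ S.image s))
  obtain ⟨G, hG⟩ := hclear g (mem_insert_self _ _)
  have h3 : ∀ f : A[X], ∃ P : A[X], f ∈ S → P.map (algebraMap A F) = C (algebraMap A F a) * q f := by
    intro f
    by_cases hf : f ∈ S
    · obtain ⟨P, hP⟩ := hclear (q f) (mem_insert_of_mem (mem_union_left _ (mem_image_of_mem _ hf)))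
      exact ⟨P, fun _ => hP⟩
    · exact ⟨0, fun h => absurd h hf⟩
  have h4 : ∀ f : A[X], ∃ P : A[X], f ∈ S → P.map (algebraMap A F) = C (algebraMap A F a) * s f := by
    intro f
    by_cases hf : f ∈ S
    · obtain ⟨P, hP⟩ := hclear (s f) (mem_insert_of_mem (mem_union_right _ (mem_image_of_mem _ hf)))
      exact ⟨P, fun _ => hP⟩
    · exact ⟨0, fun h => absurd h hf⟩
  choose til htil using h3
  choose s0 hs0 using h4
  have hCa : φ (C a) = C (algebraMap A F a) := by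
    rw [hφ, coe_mapRingHom, map_C]
  have hG' : φ G = C (algebraMap A F a) * g := hG
  have haF : (C (algebraMap A F a) : F[X]) ≠ 0 := by
    rw [Ne, C_eq_zero]
    intro h
    exact ha ((IsFractionRing.injective A F) (by rw [h, map_zero]))
  refine ⟨a * a, G, til, s0, mul_ne_zero ha ha, ?_, ?_, ?_⟩
  · rintro rfl
    rw [map_zero] at hG'
    exact (mul_ne_zero haF hg0) hG'.symm
  · intro f hf
    refine hinj ?_
    have h5 : φ (til f) = C (algebraMap A F a) * q f := htil f hf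
    rw [C_mul, map_mul, map_mul, map_mul, hCa, hG', h5, hq f hf]; ring
  · refine hinj ?_
    rw [map_sum, C_mul, map_mul, hCa]
    have h6 : ∀ f ∈ S, φ (s0 f * til f) =
        C (algebraMap A F a) * C (algebraMap A F a) * (s f * q f) := by
      intro f hf
      have h5 : φ (til f) = C (algebraMap A F a) * q f := htil f hf
      have h7 : φ (s0 f) = C (algebraMap A F a) * s f := hs0 f hf
      rw [map_mul, h5, h7]; ring
    rw [Finset.sum_congr rfl h6, ← Finset.mul_sum]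
    have h8 : ∑ f ∈ S, s f * q f = 1 := by
      have h9 : g * ∑ f ∈ S, s f * q f = g * 1 := by
        rw [mul_one, Finset.mul_sum]
        conv_rhs => rw [← hs]
        refine Finset.sum_congr rfl fun f hf => ?_
        rw [hq f hf]; ring
      exact mul_left_cancel₀ hg0 h9
    rw [h8, mul_one]

end Gcd

/-! ### growth -/

/-- a bound `|P| ≤ M ∑ |Q_c|` on the whole plane implies `deg P ≤ max deg Q_c`. -/
theorem natDegree_le_of_bound {ι : Type*} (s : Finset ι) {P : ℂ[X]} {Q : ι → ℂ[X]} {n : ℕ}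
    (hQ : ∀ c ∈ s, (Q c).natDegree ≤ n) {M : ℝ}
    (h : ∀ z, ‖P.eval z‖ ≤ M * ∑ c ∈ s, ‖(Q c).eval z‖) : P.natDegree ≤ n := by
  by_contra hcon
  push Not at hcon
  set N := P.natDegree with hN
  have hP0 : P.coeff N ≠ 0 := by
    have : P ≠ 0 := by rintro rfl; simp at hN; omega
    rw [hN]; exact leadingCoeff_ne_zero.2 this
  have hM0 : (0 : ℝ) ≤ |M| := abs_nonneg _
  -- upper bound for Q
  have hub : ∀ t : ℝ, 1 ≤ t → ∀ c ∈ s, ‖(Q c).eval (t : ℂ)‖ ≤
      (∑ k ∈ range (n + 1), ‖(Q c).coeff k‖) * t ^ (N - 1) := by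
    intro t ht c hc
    rw [eval_eq_sum_range' (Nat.lt_succ_of_le (hQ c hc)), Finset.sum_mul]
    refine (norm_sum_le _ _).trans (Finset.sum_le_sum fun k hk => ?_)
    rw [norm_mul, norm_pow, Complex.norm_real, Real.norm_of_nonneg (by linarith)]
    refine mul_le_mul_of_nonneg_left ?_ (norm_nonneg _)
    exact pow_le_pow_right₀ ht (by have := mem_range.1 hk; omega)
  have hlb : ∀ t : ℝ, 1 ≤ t → ‖P.coeff N‖ * t ^ N ≤
      ‖P.eval (t : ℂ)‖ + (∑ k ∈ range N, ‖P.coeff k‖) * t ^ (N - 1) := by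
    intro t ht
    have h1 : P.eval (t : ℂ) = ∑ k ∈ range N, P.coeff k * (t : ℂ) ^ k + P.coeff N * (t : ℂ) ^ N := by
      rw [eval_eq_sum_range, Finset.sum_range_succ]
    have h2 : P.coeff N * (t : ℂ) ^ N = P.eval (t : ℂ) - ∑ k ∈ range N, P.coeff k * (t : ℂ) ^ k := by
      rw [h1]; ring
    have h3 : ‖P.coeff N * (t : ℂ) ^ N‖ = ‖P.coeff N‖ * t ^ N := by
      rw [norm_mul, norm_pow, Complex.norm_real, Real.norm_of_nonneg (by linarith)]
    rw [← h3, h2]
    refine (norm_sub_le _ _).trans (add_le_add le_rfl ?_)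
    rw [Finset.sum_mul]
    refine (norm_sum_le _ _).trans (Finset.sum_le_sum fun k hk => ?_)
    rw [norm_mul, norm_pow, Complex.norm_real, Real.norm_of_nonneg (by linarith)]
    refine mul_le_mul_of_nonneg_left ?_ (norm_nonneg _)
    exact pow_le_pow_right₀ ht (by have := mem_range.1 hk; omega)
  set K : ℝ := |M| * ∑ c ∈ s, ∑ k ∈ range (n + 1), ‖(Q c).coeff k‖ + ∑ k ∈ range N, ‖P.coeff k‖ with hK
  have hfin : ∀ t : ℝ, 1 ≤ t → ‖P.coeff N‖ * t ≤ K := by
    intro t ht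
    have h4 : ‖P.coeff N‖ * t ^ N ≤ K * t ^ (N - 1) := by
      refine (hlb t ht).trans ?_
      rw [hK, add_mul]
      refine add_le_add ((h _).trans ?_) le_rfl
      rw [mul_assoc, Finset.sum_mul]
      refine (mul_le_mul_of_nonneg_right (le_abs_self M)
        (Finset.sum_nonneg fun c _ => norm_nonneg _)).trans ?_
      exact mul_le_mul_of_nonneg_left (Finset.sum_le_sum fun c hc => hub t ht c hc) hM0
    have h5 : t ^ N = t * t ^ (N - 1) := by
      rw [← pow_succ']; congr 1; omega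
    rw [h5, ← mul_assoc] at h4
    exact le_of_mul_le_mul_right h4 (by positivity)
  have hpos : 0 < ‖P.coeff N‖ := norm_pos_iff.2 hP0
  have h6 := hfin (max 1 ((K + 1) / ‖P.coeff N‖)) (le_max_left _ _)
  have h7 : K + 1 ≤ ‖P.coeff N‖ * max 1 ((K + 1) / ‖P.coeff N‖) := by
    calc K + 1 = ‖P.coeff N‖ * ((K + 1) / ‖P.coeff N‖) := by field_simp
      _ ≤ _ := mul_le_mul_of_nonneg_left (le_max_right _ _) hpos.le
  linarith

end Crest.Agent.R273.LemU_619
end

-- ▼ part R273/LemUE_619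

/-!
R273 (S0416), Part A, LEMMA U over a model, file E (helper619): the transcendental step.
-/

set_option autoImplicit false

open Finset
open scoped NNReal

namespace Crest.Agent.R273.LemU_619

universe w

open Polynomial

section Tr

variable {A B : Type w} [CommRing A] [Algebra ℂ A] [CommRing B] [Algebra ℂ B] [Algebra A B]
  [IsScalarTower ℂ A B]

/-- the size of a family of polynomials at `(x, ζ)` -/
noncomputable def nev (x : A →ₐ[ℂ] ℂ) (ζ : ℂ) (t : B → A[X]) (S : Finset B) : ℝ≥0 :=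
  S.sup fun b => ‖ev x ζ (t b)‖₊

omit [CommRing B] [Algebra ℂ B] [Algebra A B] [IsScalarTower ℂ A B] in
theorem le_nev {x : A →ₐ[ℂ] ℂ} {ζ : ℂ} {t : B → A[X]} {S : Finset B} {b : B} (hb : b ∈ S) :
    ‖ev x ζ (t b)‖₊ ≤ nev x ζ t S :=
  Finset.le_sup (f := fun b => ‖ev x ζ (t b)‖₊) hb

omit [CommRing B] [Algebra ℂ B] [Algebra A B] [IsScalarTower ℂ A B] in
theorem continuous_nev (x : A →ₐ[ℂ] ℂ) (t : B → A[X]) (S : Finset B) :
    Continuous fun ζ => nev x ζ t S := by
  unfold nev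
  refine Continuous.finset_sup_apply fun b _ => ?_
  refine Continuous.nnnorm ?_
  simp only [ev_eq_eval]
  exact Polynomial.continuous _

/-- vacuous case -/
theorem stp_vacuous [IsDomain A] {α' β' : Finset B} {g' : B} (hg' : g' ≠ 0) {h : A} (hh : h ≠ 0)
    (hv : ∀ x : A →ₐ[ℂ] ℂ, x h ≠ 0 → ∀ M : ℝ≥0,
      ¬ ∀ x' : B →ₐ[ℂ] ℂ, res A x' = x → x' g' ≠ 0 → nm x' α' ≤ M * nm x' β') :
    ∃ (e : ℕ) (C : ℝ≥0) (α β : Finset A) (h' : B) (h : A), 1 ≤ e ∧ (∃ b ∈ β, b ≠ 0) ∧ g' ∣ h' ∧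
      h' ≠ 0 ∧ h ≠ 0 ∧ ∀ x : A →ₐ[ℂ] ℂ, x h ≠ 0 → nm x β ≠ 0 ∧
        ∀ M : ℝ≥0, (∀ x' : B →ₐ[ℂ] ℂ, res A x' = x → x' h' ≠ 0 → nm x' α' ≤ M * nm x' β') →
          nm x α ≤ C * M ^ e * nm x β ∧
          ∀ x' : B →ₐ[ℂ] ℂ, res A x' = x → x' h' ≠ 0 →
            nm x' α' ^ e * nm x β ≤ C * nm x α * nm x' β' ^ e := by
  refine ⟨1, 1, {1}, {1}, g', h, le_rfl, ⟨1, mem_singleton_self _, one_ne_zero⟩, dvd_rfl, hg', hh, ?_⟩
  intro x hx
  refine ⟨nm_ne_zero (mem_singleton_self 1) (by rw [map_one]; exact one_ne_zero), fun M hM => ?_⟩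
  exact absurd hM (hv x hx M)

/-- The transcendental step. -/
theorem stp_trans [IsDomain A] [IsDomain B] {z : B} (hz : Algebra.adjoin A {z} = ⊤)
    (hzt : Transcendental A z) : Stp A B := by
  classical
  have hsurj : Function.Surjective (aeval (R := A) z) := by
    intro b
    have h1 : b ∈ Algebra.adjoin A {z} := by rw [hz]; exact Algebra.mem_top
    rw [Algebra.adjoin_singleton_eq_range_aeval] at h1
    exact h1
  have hker : ∀ p : A[X], aeval z p = 0 → p = 0 := fun p hp => by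
    by_contra hp0
    exact hzt ⟨p, hp0, hp⟩
  intro α' β' g' hβ' hg'
  choose rep hrep using hsurj
  obtain ⟨b0, hb0, hb0'⟩ := hβ'
  have hrep0 : ∀ b : B, b ≠ 0 → rep b ≠ 0 := by
    intro b hb h0
    exact hb (by rw [← hrep b, h0, map_zero])
  obtain ⟨a, G, til, s, ha, hG, htil, hbez⟩ := gcd_data ((α' ∪ β').image rep)
    ⟨rep b0, mem_image_of_mem _ (mem_union_right _ hb0), hrep0 b0 hb0'⟩
  set t : B → A[X] := fun b => til (rep b) with ht
  have htb : ∀ b ∈ α' ∪ β', C a * rep b = G * t b := fun b hb => htil _ (mem_image_of_mem _ hb)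
  have ht0 : t b0 ≠ 0 := by
    intro h0
    have h1 := htb b0 (mem_union_right _ hb0)
    rw [h0, mul_zero] at h1
    exact (mul_ne_zero (C_ne_zero.2 ha) (hrep0 b0 hb0')) h1
  set DQ := β'.sup fun c => (t c).natDegree with hDQ
  set DP := α'.sup fun b => (t b).natDegree with hDP
  obtain ⟨c1, hc1, hc1D, hc10⟩ : ∃ c1 ∈ β', (t c1).natDegree = DQ ∧ t c1 ≠ 0 := by
    obtain ⟨c1, hc1, h1⟩ := Finset.exists_mem_eq_sup β' ⟨b0, hb0⟩ fun c => (t c).natDegree
    by_cases h2 : t c1 = 0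
    · refine ⟨b0, hb0, ?_, ht0⟩
      have h3 : DQ = 0 := by rw [hDQ, h1]; simp [h2]
      have h4 : (t b0).natDegree ≤ DQ := Finset.le_sup (f := fun c => (t c).natDegree) hb0
      omega
    · exact ⟨c1, hc1, h1.symm, h2⟩
  obtain ⟨pa, hpa, hpaD⟩ : ∃ pa : A, pa ≠ 0 ∧ ∀ x : A →ₐ[ℂ] ℂ, x pa ≠ 0 → ∀ n : ℕ,
      (∀ b ∈ α', ((t b).map (x : A →+* ℂ)).natDegree ≤ n) → DP ≤ n := by
    by_cases h1 : DP = 0
    · exact ⟨1, one_ne_zero, fun x _ n _ => by omega⟩
    · have hne : α'.Nonempty := by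
        rw [nonempty_iff_ne_empty]
        rintro h2
        apply h1
        rw [hDP, h2, sup_empty]; rfl
      obtain ⟨b1, hb1, h2⟩ := Finset.exists_mem_eq_sup α' hne fun c => (t c).natDegree
      have h3 : t b1 ≠ 0 := by
        intro h3
        apply h1
        rw [hDP, h2]; simp [h3]
      refine ⟨(t b1).leadingCoeff, leadingCoeff_ne_zero.2 h3, fun x hx n hn => ?_⟩
      have h4 := hn b1 hb1
      have h5 : ((t b1).map (x : A →+* ℂ)).natDegree = (t b1).natDegree :=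
        natDegree_map_of_leadingCoeff_ne_zero _ hx
      rw [h5] at h4
      rw [hDP, h2]; exact h4
  set qa := (t c1).leadingCoeff with hqa
  have hqa0 : qa ≠ 0 := leadingCoeff_ne_zero.2 hc10
  set h0 : A := a * G.leadingCoeff * (rep g').leadingCoeff * qa * pa with hh0
  have hh0' : h0 ≠ 0 := mul_ne_zero (mul_ne_zero (mul_ne_zero (mul_ne_zero ha
    (leadingCoeff_ne_zero.2 hG)) (leadingCoeff_ne_zero.2 (hrep0 g' hg'))) hqa0) hpa
  -- the facts at a point
  have hxa : ∀ x : A →ₐ[ℂ] ℂ, x h0 ≠ 0 → x a ≠ 0 ∧ x G.leadingCoeff ≠ 0 ∧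
      x (rep g').leadingCoeff ≠ 0 ∧ x qa ≠ 0 ∧ x pa ≠ 0 := by
    intro x hx
    rw [hh0, map_mul, map_mul, map_mul, map_mul] at hx
    exact ⟨left_ne_zero_of_mul (left_ne_zero_of_mul (left_ne_zero_of_mul (left_ne_zero_of_mul hx))),
      right_ne_zero_of_mul (left_ne_zero_of_mul (left_ne_zero_of_mul (left_ne_zero_of_mul hx))),
      right_ne_zero_of_mul (left_ne_zero_of_mul (left_ne_zero_of_mul hx)),
      right_ne_zero_of_mul (left_ne_zero_of_mul hx), right_ne_zero_of_mul hx⟩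
  have hval : ∀ (x' : B →ₐ[ℂ] ℂ) (b : B), x' b = ev (res A x') (x' z) (rep b) := by
    intro x' b
    rw [← apply_aeval, hrep]
  have hval2 : ∀ (x' : B →ₐ[ℂ] ℂ) (b : B), b ∈ α' ∪ β' →
      ‖res A x' a‖₊ * ‖x' b‖₊ = ‖ev (res A x') (x' z) G‖₊ * ‖ev (res A x') (x' z) (t b)‖₊ := by
    intro x' b hb
    rw [hval x' b, ← nnnorm_mul, ← nnnorm_mul, ← map_mul, ← htb b hb, map_mul, ev_C]
  have hnm : ∀ (x' : B →ₐ[ℂ] ℂ) (S : Finset B), S ⊆ α' ∪ β' →
      ‖res A x' a‖₊ * nm x' S = ‖ev (res A x') (x' z) G‖₊ * nev (res A x') (x' z) t S := by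
    intro x' S hS
    unfold nm nev
    rw [NNReal.mul_finset_sup, NNReal.mul_finset_sup]
    exact Finset.sup_congr rfl fun b hb => hval2 x' b (hS hb)
  have hlift : ∀ (x : A →ₐ[ℂ] ℂ) (ζ : ℂ), ∃ x' : B →ₐ[ℂ] ℂ, res A x' = x ∧ x' z = ζ := fun x ζ =>
    exists_lift (fun b => ⟨rep b, hrep b⟩) x ζ fun p hp => by rw [hker p hp, map_zero]
  -- the bound holds on the whole fibre
  have hbd : ∀ x : A →ₐ[ℂ] ℂ, x h0 ≠ 0 → ∀ M : ℝ≥0,
      (∀ x' : B →ₐ[ℂ] ℂ, res A x' = x → x' g' ≠ 0 → nm x' α' ≤ M * nm x' β') →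
      ∀ ζ, nev x ζ t α' ≤ M * nev x ζ t β' := by
    intro x hx M hM ζ
    obtain ⟨x1, x2, x3, x4, x5⟩ := hxa x hx
    set F : ℂ[X] := (G * rep g').map (x : A →+* ℂ) with hF
    have hF0 : F ≠ 0 := by
      rw [hF, Polynomial.map_mul]
      refine mul_ne_zero ?_ ?_
      · exact fun h => x2 (by
          have := congrArg (fun p => p.coeff G.natDegree) h
          simpa using this)
      · exact fun h => x3 (by
          have := congrArg (fun p => p.coeff (rep g').natDegree) h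
          simpa using this)
    have hdense : Dense ({w : ℂ | F.eval w = 0}ᶜ) := by
      refine Set.Countable.dense_compl ℂ ?_
      refine Set.Finite.countable ?_
      refine (F.roots.toFinset.finite_toSet).subset fun w hw => ?_
      rw [mem_coe, Multiset.mem_toFinset, mem_roots hF0]
      exact hw
    have hcl : IsClosed {w : ℂ | nev x w t α' ≤ M * nev x w t β'} :=
      isClosed_le (continuous_nev x t α') (continuous_const.mul (continuous_nev x t β'))
    have hsub : {w : ℂ | F.eval w = 0}ᶜ ⊆ {w : ℂ | nev x w t α' ≤ M * nev x w t β'} := by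
      intro w hw
      have hw' : ev x w G * ev x w (rep g') ≠ 0 := by
        rw [← map_mul, ev_eq_eval]; exact hw
      obtain ⟨x', hx', hx'z⟩ := hlift x w
      have h1 := hM x' hx' (by
        rw [hval x' g', hx', hx'z]; exact right_ne_zero_of_mul hw')
      have h2 := hnm x' α' subset_union_left
      have h3 := hnm x' β' subset_union_right
      rw [hx', hx'z] at h2 h3
      have hGpos : 0 < ‖ev x w G‖₊ := nnnorm_pos.2 (left_ne_zero_of_mul hw')
      refine le_of_mul_le_mul_left ?_ hGpos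
      calc ‖ev x w G‖₊ * nev x w t α' = ‖x a‖₊ * nm x' α' := h2.symm
        _ ≤ ‖x a‖₊ * (M * nm x' β') := mul_le_mul' le_rfl h1
        _ = M * (‖x a‖₊ * nm x' β') := by ring
        _ = ‖ev x w G‖₊ * (M * nev x w t β') := by rw [h3]; ring
    have h4 : ζ ∈ closure ({w : ℂ | F.eval w = 0}ᶜ) := hdense ζ
    exact hcl.closure_subset_iff.2 hsub h4
  have hDQb : ∀ x : A →ₐ[ℂ] ℂ, ∀ c ∈ β', ((t c).map (x : A →+* ℂ)).natDegree ≤ DQ := fun x c hc =>
    natDegree_map_le.trans (Finset.le_sup (f := fun c => (t c).natDegree) hc)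
  have hDPb : ∀ x : A →ₐ[ℂ] ℂ, ∀ c ∈ α', ((t c).map (x : A →+* ℂ)).natDegree ≤ DP := fun x c hc =>
    natDegree_map_le.trans (Finset.le_sup (f := fun c => (t c).natDegree) hc)
  -- case DQ < DP
  by_cases hcase1 : DQ < DP
  · refine stp_vacuous hg' hh0' fun x hx M hM => ?_
    have h1 := hbd x hx M hM
    obtain ⟨x1, x2, x3, x4, x5⟩ := hxa x hx
    have h2 : DP ≤ DQ := by
      refine hpaD x x5 DQ fun b hb => ?_
      refine natDegree_le_of_bound β' (Q := fun c => (t c).map (x : A →+* ℂ)) (M := M)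
        (hDQb x) fun ζ => ?_
      have h3 : ‖ev x ζ (t b)‖₊ ≤ M * ∑ c ∈ β', ‖ev x ζ (t c)‖₊ := by
        refine (le_nev hb).trans ((h1 ζ).trans (mul_le_mul' le_rfl ?_))
        unfold nev
        refine Finset.sup_le fun c hc => ?_
        exact Finset.single_le_sum (f := fun c => ‖ev x ζ (t c)‖₊) (fun _ _ => zero_le) hc
      have h4 := NNReal.coe_le_coe.2 h3
      push_cast at h4
      simpa only [ev_eq_eval] using h4
    omega
  push Not at hcase1
  -- nonvanishing of `Q`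
  have hQ0 : ∀ x : A →ₐ[ℂ] ℂ, x h0 ≠ 0 → ∀ M : ℝ≥0,
      (∀ x' : B →ₐ[ℂ] ℂ, res A x' = x → x' g' ≠ 0 → nm x' α' ≤ M * nm x' β') →
      ∀ ζ, ∃ c ∈ β', ev x ζ (t c) ≠ 0 := by
    intro x hx M hM ζ
    by_contra hcon
    push Not at hcon
    obtain ⟨x1, x2, x3, x4, x5⟩ := hxa x hx
    have h1 : nev x ζ t β' = 0 := by
      refine le_antisymm (Finset.sup_le fun c hc => ?_) zero_le
      rw [hcon c hc, nnnorm_zero]
    have h2 := hbd x hx M hM ζ
    rw [h1, mul_zero] at h2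
    have h3 : ∀ b ∈ α' ∪ β', ev x ζ (t b) = 0 := by
      intro b hb
      rcases mem_union.1 hb with hb | hb
      · exact nnnorm_eq_zero.1 (le_antisymm ((le_nev hb).trans h2) zero_le)
      · exact hcon b hb
    have h4 := congrArg (ev x ζ) hbez
    rw [map_sum, ev_C] at h4
    refine x1 (h4.symm.trans (Finset.sum_eq_zero fun f hf => ?_))
    obtain ⟨b, hb, rfl⟩ := mem_image.1 hf
    rw [map_mul]
    have := h3 b hb
    rw [ht] at this
    rw [this, mul_zero]
  by_cases hcase2 : DQ = 0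
  · -- constants
    have hconst : ∀ b ∈ α' ∪ β', t b = C ((t b).coeff 0) := by
      intro b hb
      refine eq_C_of_natDegree_eq_zero ?_
      rcases mem_union.1 hb with hb | hb
      · have h1 : (t b).natDegree ≤ DP := Finset.le_sup (f := fun c => (t c).natDegree) hb
        omega
      · have h1 : (t b).natDegree ≤ DQ := Finset.le_sup (f := fun c => (t c).natDegree) hb
        omega
    have hnc : ∀ (x : A →ₐ[ℂ] ℂ) (ζ : ℂ) (S : Finset B), S ⊆ α' ∪ β' →
        nm x (S.image fun b => (t b).coeff 0) = nev x ζ t S := by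
      intro x ζ S hS
      unfold nm nev
      rw [Finset.sup_image]
      refine Finset.sup_congr rfl fun b hb => ?_
      rw [hconst b (hS hb), ev_C]
      simp
    have hqac : qa = (t c1).coeff 0 := by
      rw [hqa, leadingCoeff, hc1D, hcase2]
    refine ⟨1, 1, α'.image fun b => (t b).coeff 0, β'.image fun b => (t b).coeff 0, g', h0, le_rfl,
      ⟨_, mem_image_of_mem _ hc1, by rw [← hqac]; exact hqa0⟩, dvd_rfl, hg', hh0', ?_⟩
    intro x hx
    obtain ⟨x1, x2, x3, x4, x5⟩ := hxa x hx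
    refine ⟨nm_ne_zero (mem_image_of_mem (fun b => (t b).coeff 0) hc1) (by
      change x ((t c1).coeff 0) ≠ 0
      rw [← hqac]; exact x4), fun M hM => ⟨?_, ?_⟩⟩
    · rw [hnc x 0 α' subset_union_left, hnc x 0 β' subset_union_right, one_mul, pow_one]
      exact hbd x hx M hM 0
    · intro x' hx' _
      rw [pow_one, pow_one, one_mul]
      have h2 := hnm x' α' subset_union_left
      have h3 := hnm x' β' subset_union_right
      rw [hx'] at h2 h3
      rw [hnc x (x' z) α' subset_union_left, hnc x (x' z) β' subset_union_right]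
      have hapos : 0 < ‖x a‖₊ := nnnorm_pos.2 x1
      refine le_of_mul_le_mul_left (le_of_eq ?_) hapos
      calc ‖x a‖₊ * (nm x' α' * nev x (x' z) t β')
          = (‖x a‖₊ * nm x' α') * nev x (x' z) t β' := by ring
        _ = nev x (x' z) t α' * (‖ev x (x' z) G‖₊ * nev x (x' z) t β') := by rw [h2]; ring
        _ = ‖x a‖₊ * (nev x (x' z) t α' * nm x' β') := by rw [← h3]; ring
  -- the main case
  have hD1 : 1 ≤ DQ := Nat.one_le_iff_ne_zero.2 hcase2
  set l := α'.card with hl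
  set m := β'.card with hm
  obtain ⟨J, C0, R, HR⟩ := U2s_145.u2Stmt DQ l m hD1
  set Pt : Fin l → A[X] := fun i => t (α'.equivFin.symm i : B) with hPt
  set Qt : Fin m → A[X] := fun i => t (β'.equivFin.symm i : B) with hQt
  set vA : (Fin l ⊕ Fin m) × Fin (DQ + 1) → A := fun i => (Sum.elim Pt Qt i.1).coeff i.2 with hvA
  set RA : ℕ → Finset A := fun j => (R j).image fun r => MvPolynomial.aeval vA r with hRA
  have hPex : ∀ b ∈ α', ∃ i, t b = Pt i := fun b hb => ⟨α'.equivFin ⟨b, hb⟩, by simp [hPt]⟩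
  have hQex : ∀ b ∈ β', ∃ i, t b = Qt i := fun b hb => ⟨β'.equivFin ⟨b, hb⟩, by simp [hQt]⟩
  have hPmem : ∀ i, ∃ b ∈ α', t b = Pt i := fun i => ⟨_, (α'.equivFin.symm i).2, rfl⟩
  have hQmem : ∀ i, ∃ b ∈ β', t b = Qt i := fun i => ⟨_, (β'.equivFin.symm i).2, rfl⟩
  -- U2 at a point
  have HU : ∀ x : A →ₐ[ℂ] ℂ, x h0 ≠ 0 → ∀ M : ℝ≥0,
      (∀ x' : B →ₐ[ℂ] ℂ, res A x' = x → x' g' ≠ 0 → nm x' α' ≤ M * nm x' β') →
      nm x (RA 0) ≠ 0 ∧ (∀ j, nm x (RA j) ≤ C0 * M ^ j * nm x (RA 0)) ∧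
      ∀ (M1 : ℝ≥0) (ζ : ℂ), α'.Nonempty → M1 * nev x ζ t β' ≤ nev x ζ t α' →
        ∃ j, 1 ≤ j ∧ j ≤ J ∧ M1 ^ j * nm x (RA 0) ≤ C0 * nm x (RA j) := by
    intro x hx M hM
    obtain ⟨x1, x2, x3, x4, x5⟩ := hxa x hx
    have hN : ∀ j, nm x (RA j) = (R j).sup fun r => ‖MvPolynomial.eval
        (fun i : (Fin l ⊕ Fin m) × Fin (DQ + 1) =>
          (Sum.elim (fun i => (Pt i).map (x : A →+* ℂ)) (fun i => (Qt i).map (x : A →+* ℂ)) i.1).coeff
            i.2) r‖₊ := by
      intro j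
      unfold nm
      rw [hRA, Finset.sup_image]
      refine Finset.sup_congr rfl fun r _ => ?_
      simp only [Function.comp_apply]
      congr 1
      have h5 : x (MvPolynomial.aeval vA r) = MvPolynomial.aeval (fun i => x (vA i)) r := by
        rw [← MvPolynomial.comp_aeval_apply]
      rw [h5, MvPolynomial.aeval_eq_eval]
      congr 1
      congr 1
      funext i
      rcases i with ⟨i | i, k⟩ <;> simp [hvA]
    have HU' := HR (fun i => (Pt i).map (x : A →+* ℂ)) (fun i => (Qt i).map (x : A →+* ℂ))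
      (fun i => by
        obtain ⟨b, hb, hbi⟩ := hPmem i
        change ((Pt i).map (x : A →+* ℂ)).natDegree ≤ DQ
        rw [← hbi]; exact (hDPb x b hb).trans hcase1)
      (fun i => by
        obtain ⟨b, hb, hbi⟩ := hQmem i
        change ((Qt i).map (x : A →+* ℂ)).natDegree ≤ DQ
        rw [← hbi]; exact hDQb x b hb)
      (by
        obtain ⟨i, hi⟩ := hQex c1 hc1
        refine ⟨i, ?_⟩
        change ((Qt i).map (x : A →+* ℂ)).coeff DQ ≠ 0
        rw [← hi, coeff_map, ← hc1D]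
        exact x4)
      (fun ζ => by
        obtain ⟨c, hc, hc0⟩ := hQ0 x hx M hM ζ
        obtain ⟨i, hi⟩ := hQex c hc
        refine ⟨i, ?_⟩
        change ((Qt i).map (x : A →+* ℂ)).eval ζ ≠ 0
        rw [← hi, ← ev_eq_eval]
        exact hc0)
    obtain ⟨u1, u2, u3⟩ := HU'
    simp only [← hN] at u1 u2 u3
    refine ⟨u1, ?_, ?_⟩
    · refine u2 M fun ζ i => ?_
      obtain ⟨b, hb, hbi⟩ := hPmem i
      have h1 := hbd x hx M hM ζ
      obtain ⟨c, hc, hc'⟩ := Finset.exists_mem_eq_sup β' ⟨b0, hb0⟩ fun b => ‖ev x ζ (t b)‖₊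
      obtain ⟨k, hk⟩ := hQex c hc
      refine ⟨k, ?_⟩
      rw [← hbi, ← hk, ← ev_eq_eval, ← ev_eq_eval]
      refine (le_nev hb).trans (h1.trans (mul_le_mul' le_rfl (le_of_eq ?_)))
      exact hc'
    · intro M1 ζ hne h1
      refine u3 M1 ζ ?_
      obtain ⟨b, hb, hb'⟩ := Finset.exists_mem_eq_sup α' hne fun b => ‖ev x ζ (t b)‖₊
      obtain ⟨i, hi⟩ := hPex b hb
      refine ⟨i, fun k => ?_⟩
      obtain ⟨c, hc, hck⟩ := hQmem k
      rw [← hi, ← hck, ← ev_eq_eval, ← ev_eq_eval]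
      refine (mul_le_mul' le_rfl (le_nev hc)).trans (h1.trans (le_of_eq ?_))
      exact hb'
  by_cases hR0 : ∃ r ∈ RA 0, r ≠ 0
  · obtain ⟨r0, hr0, hr0'⟩ := hR0
    obtain ⟨e, α, β, he, hβ, hlcm⟩ := lcm_trick J RA ⟨r0, hr0⟩
    set C1 : ℝ≥0 := max 1 C0 with hC1
    refine ⟨e, C1 ^ e, α, β, g', h0 * r0, he, hβ ⟨r0, hr0, hr0'⟩, dvd_rfl, hg',
      mul_ne_zero hh0' hr0', ?_⟩
    intro x hx
    rw [map_mul] at hx
    have hx0 := left_ne_zero_of_mul hx
    obtain ⟨x1, x2, x3, x4, x5⟩ := hxa x hx0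
    obtain ⟨l1, l2, l3⟩ := hlcm x
    have hnR0 : nm x (RA 0) ≠ 0 := nm_ne_zero hr0 (right_ne_zero_of_mul hx)
    refine ⟨by rw [l1]; exact pow_ne_zero _ hnR0, fun M hM => ?_⟩
    obtain ⟨u1, u2, u3⟩ := HU x hx0 M hM
    constructor
    · refine l2 C1 M (le_max_left _ _) fun j _ _ => ?_
      exact (u2 j).trans (mul_le_mul' (mul_le_mul' (le_max_right _ _) le_rfl) le_rfl)
    · intro x' hx' _
      by_cases hne : α'.Nonempty
      · have h2 := hnm x' α' subset_union_left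
        have h3 := hnm x' β' subset_union_right
        rw [hx'] at h2 h3
        set pP := nev x (x' z) t α' with hpP
        set pQ := nev x (x' z) t β' with hpQ
        have hpQ0 : pQ ≠ 0 := by
          obtain ⟨c, hc, hc0⟩ := hQ0 x hx0 M hM (x' z)
          intro h4
          have h5 := le_nev (x := x) (ζ := x' z) (t := t) hc
          rw [← hpQ, h4] at h5
          exact hc0 (nnnorm_eq_zero.1 (le_antisymm h5 zero_le))
        set M1 := pP / pQ with hM1
        have hM1' : M1 * pQ = pP := div_mul_cancel₀ _ hpQ0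
        obtain ⟨j, hj1, hjJ, hj⟩ := u3 M1 (x' z) hne hM1'.le
        have h4 : M1 ^ e * nm x β ≤ C1 ^ e * nm x α := by
          refine l3 C1 M1 (le_max_left _ _) ⟨j, hj1, hjJ, hj.trans ?_⟩
          exact mul_le_mul' (le_max_right _ _) le_rfl
        have hapos : 0 < ‖x a‖₊ ^ e := pow_pos (nnnorm_pos.2 x1) _
        refine le_of_mul_le_mul_left ?_ hapos
        calc ‖x a‖₊ ^ e * (nm x' α' ^ e * nm x β)
            = (‖x a‖₊ * nm x' α') ^ e * nm x β := by rw [mul_pow]; ring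
          _ = (‖ev x (x' z) G‖₊ * pP) ^ e * nm x β := by rw [h2]
          _ = (‖ev x (x' z) G‖₊ * pQ) ^ e * (M1 ^ e * nm x β) := by
              rw [← hM1', mul_pow, mul_pow, mul_pow]; ring
          _ ≤ (‖ev x (x' z) G‖₊ * pQ) ^ e * (C1 ^ e * nm x α) := mul_le_mul' le_rfl h4
          _ = (‖x a‖₊ * nm x' β') ^ e * (C1 ^ e * nm x α) := by rw [h3]
          _ = ‖x a‖₊ ^ e * (C1 ^ e * nm x α * nm x' β' ^ e) := by rw [mul_pow]; ring
      · rw [not_nonempty_iff_eq_empty] at hne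
        have h1 : nm x' α' = 0 := by rw [hne]; rfl
        rw [h1, zero_pow (by omega), zero_mul]
        exact zero_le
  · push Not at hR0
    refine stp_vacuous hg' hh0' fun x hx M hM => ?_
    refine (HU x hx M hM).1 (le_antisymm (nm_le fun r hr => ?_) zero_le)
    rw [hR0 r hr, map_zero, nnnorm_zero]

end Tr

end Crest.Agent.R273.LemU_619
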