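import Crest.Agent.R273.RetE_155
import Crest.Agent.R273.PW_799
import Crest.Agent.R273.TorBd_422
import Crest.Agent.R273.LogCut_5
import Crest.Agent.R273.NormC_505
import Crest.Agent.R273.YauMax_635

-- ▼ part R273/LeviR_155

/-!
# R273 (S0416), torus step, leaf LEVI-R (helper155)

`Q : RF P` (helper422), `S : FAtl Q.T`, `Sm Q = {k | Q.x k = Q.m}`:
* `U_sub`, `US_eq`  : the open set `U` of the retraction is `US P (Sm Q)`;
* `bb_hol`          : holomorphy of `bb`;
* `hess_compR`      : chain rule of the complex Hessian (different dimensions);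
* `HS_pull`         : `HS P (Sm Q) = Prᵀ (Fubini-Study metric of F) conj Pr`, `Pr` the Jacobian
                      of the retraction;
* `exists_C`        : `C • HS - Prᵀ conj Pr ≥ 0` over compacts of `F`.
-/

set_option autoImplicit false
set_option linter.unusedSectionVars false

open Set Filter Topology Complex
open scoped ContDiff Manifold Matrix ComplexConjugate ComplexOrder

namespace Crest.Agent.R273.LeviR_155

open Crest.Agent.R275 Crest.Agent.R275.Geo Crest.Agent.R275.Core144 Crest.Agent.R275.EDR890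
open Crest.Agent.R273.Defs_333 Crest.Agent.R273.Hess_333 Crest.Agent.R273.HessB_333
open Crest.Agent.R273.HM_333 Crest.Agent.R273.Kah_333 Crest.Agent.R273.FS_333
open Crest.Agent.R273.Map_835 Crest.Agent.R273.PB_835 Crest.Agent.R273.FPB_155
open Crest.Agent.R273.TorFr_422 Crest.Agent.R273.PFlow_522 Crest.Agent.R273.Ret_155
open Crest.Agent.R273.Ret_155.FAtl Crest.Agent.R273.LogA_5

noncomputable section

variable {n : ℕ} {M : Type} [TopologicalSpace M] {A : Atl n M} {P : ProjD A} (Q : RF P)

/-! ### (a) the open set -/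

/-- the columns of weight `m` -/
def Sm : Finset (Fin (P.N + 1)) := Finset.univ.filter fun k => Q.x k = Q.m





/-! ### (b) the Levi form -/


theorem hess_hs {m : ℕ} (u : Cn m → ℝ) (z : Cn m) (a b : Fin m) :
    hess u z a b = Levi_145.hs (Levi_145.cx u) z a b := by
  rw [hess_apply]
  simp only [Levi_145.hs, Crest.Agent.R275.OmT75.dj, wd, wdL, cI_false]
  rw [neg_smul, ← sub_eq_add_neg]
  rfl

/-- chain rule for the complex Hessian -/
theorem hess_compR {m : ℕ} {u : Cn m → ℝ} {T : Cn n → Cn m} {z : Cn n}
    (hT : AnalyticAt ℂ T z) (hu : ContDiffAt ℝ 2 u (T z)) :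
    hess (fun w => u (T w)) z =
      (mt (fderiv ℂ T z))ᵀ * hess u (T z) * (mt (fderiv ℂ T z)).map conj := by
  ext a b
  rw [hess_hs]
  have e : Levi_145.cx (fun w => u (T w)) = fun w => (Levi_145.cx u) (T w) := rfl
  rw [e, Levi_145.hs_comp hT (Levi_145.cx_c2 hu)]
  simp only [Matrix.mul_apply, Matrix.transpose_apply, Matrix.map_apply, Finset.sum_mul, hess_hs]
  rw [Finset.sum_comm]
  refine Finset.sum_congr rfl fun c _ => Finset.sum_congr rfl fun d _ => ?_
  show _ = (fderiv ℂ T z (EuclideanSpace.single a 1)) d * _ *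
    conj ((fderiv ℂ T z (EuclideanSpace.single b 1)) c)
  ring


/-! ### (c) compact sets -/


end

end Crest.Agent.R273.LeviR_155
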