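import Crest.Agent.R275.TorE_812
import Crest.Agent.R275.RetH_666
import Crest.Agent.R273.L2K_774

-- ▼ part R273/TorM_106
section

/-!
# R273, leaf D.9 (helper106): finite rank Fourier mollifiers on the torus

`FN N : SPer d →ₗ SPer d` : the Fourier multiplier `m(|k|/(N+1))`, `m(t) = max 0 (min 1 (2-t))`.

* `nrm_FN_le`      : `‖F_N f‖_s ≤ ‖f‖_s`;
* `tendsto_FN`     : `‖F_N f - f‖_s → 0`;
* `nrm_FN_smooth`  : `‖F_N f‖_s ≤ C(N,s) ‖f‖_0`;
* `FN_eq_sum`      : `F_N` has finite rank;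
* `ip_FN`          : `F_N` is symmetric;
* `comm_FN_le`     : `‖[c ∂_j, F_N] f‖_0 ≤ C(c) ‖f‖_0`, uniformly in `N`;
* `tendsto_comm_FN`: `‖[c ∂_j, F_N] f‖_0 → 0`.
-/

set_option autoImplicit false
set_option linter.unusedSectionVars false
set_option linter.unusedSimpArgs false
set_option linter.unusedVariables false

open MeasureTheory Filter Topology Set Complex
open scoped ContDiff Real

namespace Crest.Agent.R273.TorM_106

open Crest.Agent.R275.Tor812 Crest.Agent.R275.TorE812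

noncomputable section

variable {d : Type} [Fintype d]

/-! ### the length -/

theorem br_add_le (k l : d → ℤ) : br (k + l) ≤ br k + br l := by
  refine (pow_le_pow_iff_left₀ (br_pos _).le (add_nonneg (br_pos _).le (br_pos _).le)
    two_ne_zero).1 ?_
  have h1 : (∑ i, (k i : ℝ) * (l i : ℝ)) ^ 2 ≤ (br k * br l) ^ 2 := by
    rw [mul_pow, br_sq, br_sq]
    refine (Finset.sum_mul_sq_le_sq_mul_sq _ _ _).trans ?_
    refine mul_le_mul ?_ ?_ (Finset.sum_nonneg fun i _ => sq_nonneg _) (wt_pos k).le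
    · unfold wt; linarith
    · unfold wt; linarith
  have h2 : ∑ i, (k i : ℝ) * (l i : ℝ) ≤ br k * br l :=
    le_trans (le_abs_self _) (abs_le_of_sq_le_sq h1 (mul_pos (br_pos k) (br_pos l)).le)
  rw [br_sq, add_sq, br_sq, br_sq]
  have h3 : wt (k + l) = wt k + wt l + 2 * (∑ i, (k i : ℝ) * (l i : ℝ)) - 1 := by
    unfold wt
    rw [Finset.mul_sum]
    have : ∑ i, (((k + l) i : ℤ) : ℝ) ^ 2 =
        ∑ i, (k i : ℝ) ^ 2 + ∑ i, (l i : ℝ) ^ 2 + ∑ i, 2 * ((k i : ℝ) * (l i : ℝ)) := by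
      rw [← Finset.sum_add_distrib, ← Finset.sum_add_distrib]
      refine Finset.sum_congr rfl fun i _ => ?_
      simp only [Pi.add_apply, Int.cast_add]
      ring
    rw [this]
    ring
  rw [h3]
  linarith

theorem br_neg (k : d → ℤ) : br (-k) = br k := by
  unfold br wt; simp

theorem br_sub_le (k l : d → ℤ) : br k ≤ br l + br (k - l) := by
  have := br_add_le l (k - l)
  rwa [add_sub_cancel] at this

theorem abs_br_sub_le (k l : d → ℤ) : |br k - br l| ≤ br (k - l) := by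
  rw [abs_le]
  constructor
  · have := br_sub_le l k
    rw [← br_neg (l - k), neg_sub] at this
    linarith
  · have := br_sub_le k l
    linarith

/-! ### the multiplier -/

/-- the symbol -/
def mN (N : ℕ) (k : d → ℤ) : ℝ := max 0 (min 1 (2 - br k / (N + 1)))

theorem mN_nonneg (N : ℕ) (k : d → ℤ) : 0 ≤ mN N k := le_max_left _ _

theorem mN_le_one (N : ℕ) (k : d → ℤ) : mN N k ≤ 1 := max_le zero_le_one (min_le_left _ _)

theorem N_pos (N : ℕ) : (0 : ℝ) < N + 1 := by positivity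

theorem mN_eq_zero {N : ℕ} {k : d → ℤ} (h : 2 * ((N : ℝ) + 1) ≤ br k) : mN N k = 0 := by
  unfold mN
  apply max_eq_left
  refine (min_le_right _ _).trans ?_
  have : 2 ≤ br k / (N + 1) := by rw [le_div_iff₀ (N_pos N)]; exact h
  linarith

theorem mN_eq_one {N : ℕ} {k : d → ℤ} (h : br k ≤ (N : ℝ) + 1) : mN N k = 1 := by
  unfold mN
  have h1 : br k / (N + 1) ≤ 1 := by rw [div_le_one (N_pos N)]; exact h
  rw [min_eq_left (by linarith)]
  exact max_eq_right zero_le_one


theorem abs_mN_sub_le (N : ℕ) (k l : d → ℤ) : |mN N k - mN N l| ≤ |br k - br l| / (N + 1) := by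
  unfold mN
  rw [max_comm 0, max_comm 0, min_comm 1, min_comm 1]
  refine (abs_max_sub_max_le_abs _ _ _).trans ((abs_min_sub_min_le_max _ _ _ _).trans ?_)
  rw [sub_self, abs_zero, max_eq_left (abs_nonneg _),
    show (2 - br k / (N + 1)) - (2 - br l / (N + 1)) = -((br k - br l) / (N + 1)) by ring,
    abs_neg, abs_div, abs_of_pos (N_pos N)]

/-- the key estimate -/
theorem key_mN (N : ℕ) (k l : d → ℤ) : |mN N l - mN N k| * br l ≤ 4 * br (k - l) := by
  by_cases h : br l ≤ 4 * ((N : ℝ) + 1)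
  · have h1 := abs_mN_sub_le N l k
    have h2 := abs_br_sub_le l k
    rw [← br_neg (l - k), neg_sub] at h2
    have h3 : |mN N l - mN N k| ≤ br (k - l) / (N + 1) :=
      h1.trans (div_le_div_of_nonneg_right h2 (N_pos N).le)
    calc |mN N l - mN N k| * br l ≤ (br (k - l) / (N + 1)) * (4 * ((N : ℝ) + 1)) :=
          mul_le_mul h3 h (br_pos l).le (div_nonneg (br_pos _).le (N_pos N).le)
      _ = 4 * br (k - l) := by field_simp
  · push Not at h
    have h0 : mN N l = 0 := mN_eq_zero (by linarith [N_pos N])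
    by_cases h' : 2 * ((N : ℝ) + 1) ≤ br k
    · rw [h0, mN_eq_zero h']
      simp only [sub_self, abs_zero, zero_mul]
      exact mul_nonneg (by norm_num) (br_pos _).le
    · push Not at h'
      have h2 := br_sub_le l k
      rw [← br_neg (l - k), neg_sub] at h2
      have h3 : |mN N l - mN N k| ≤ 1 := by
        rw [h0, zero_sub, abs_neg, abs_of_nonneg (mN_nonneg N k)]
        exact mN_le_one N k
      calc |mN N l - mN N k| * br l ≤ 1 * br l := mul_le_mul_of_nonneg_right h3 (br_pos l).le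
        _ ≤ 4 * br (k - l) := by linarith [br_pos (k - l)]

theorem pb_mN (N : ℕ) : PB fun k : d → ℤ => ((mN N k : ℝ) : ℂ) :=
  ⟨1, 0, zero_le_one, fun k => by
    rw [pow_zero, mul_one, norm_real, Real.norm_of_nonneg (mN_nonneg N k)]
    exact mN_le_one N k⟩

/-- the mollifier -/
def FN (N : ℕ) : SPer d →ₗ[ℂ] SPer d := mult _ (pb_mN N)

@[simp] theorem fc_FN (N : ℕ) (f : SPer d) (k : d → ℤ) : fc (FN N f) k = (mN N k : ℂ) * fc f k :=
  fc_mult _ _ _ _

theorem nrm_FN_le (s N : ℕ) (f : SPer d) : nrm s (FN N f) ≤ nrm s f := by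
  have := nrm_le_of_coeff (s := s) (t := s) (f := FN N f) (g := f) zero_le_one fun k => ?_
  · simpa using this
  · rw [fc_FN, norm_mul, norm_real, Real.norm_of_nonneg (mN_nonneg N k), one_pow, one_mul,
      mul_pow]
    refine mul_le_mul_of_nonneg_left ?_ (pow_nonneg (wt_pos k).le _)
    exact mul_le_of_le_one_left (sq_nonneg _) (pow_le_one₀ (mN_nonneg N k) (mN_le_one N k))

theorem nrm_FN_sub_le (s N : ℕ) (f : SPer d) :
    nrm s (FN N f - f) ≤ ((N : ℝ) + 1)⁻¹ * nrm (s + 1) f := by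
  refine nrm_le_of_coeff (inv_nonneg.2 (N_pos N).le) fun k => ?_
  rw [fc_sub, fc_FN, show ((mN N k : ℝ) : ℂ) * fc f k - fc f k = ((mN N k - 1 : ℝ) : ℂ) * fc f k by
    push_cast; ring, norm_mul, norm_real, mul_pow, pow_succ (wt k) s]
  have h1 : ‖mN N k - 1‖ ≤ ((N : ℝ) + 1)⁻¹ * br k := by
    by_cases h : br k ≤ (N : ℝ) + 1
    · rw [mN_eq_one h, sub_self, norm_zero]
      exact mul_nonneg (inv_nonneg.2 (N_pos N).le) (br_pos k).le
    · push Not at h
      have h2 : ‖mN N k - 1‖ ≤ 1 := by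
        rw [Real.norm_eq_abs, abs_le]
        constructor <;> linarith [mN_nonneg N k, mN_le_one N k]
      refine h2.trans ?_
      rw [← div_eq_inv_mul, one_le_div (N_pos N)]
      exact h.le
  have h2 : ‖mN N k - 1‖ ^ 2 ≤ ((N : ℝ) + 1)⁻¹ ^ 2 * wt k := by
    have := pow_le_pow_left₀ (norm_nonneg _) h1 2
    rwa [mul_pow, br_sq] at this
  have h3 : 0 ≤ wt k ^ s * ‖fc f k‖ ^ 2 := mul_nonneg (pow_nonneg (wt_pos k).le _) (sq_nonneg _)
  calc wt k ^ s * (‖mN N k - 1‖ ^ 2 * ‖fc f k‖ ^ 2)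
      = ‖mN N k - 1‖ ^ 2 * (wt k ^ s * ‖fc f k‖ ^ 2) := by ring
    _ ≤ (((N : ℝ) + 1)⁻¹ ^ 2 * wt k) * (wt k ^ s * ‖fc f k‖ ^ 2) :=
        mul_le_mul_of_nonneg_right h2 h3
    _ = _ := by ring

theorem tendsto_invN : Tendsto (fun N : ℕ => ((N : ℝ) + 1)⁻¹) atTop (𝓝 0) := by
  simpa [one_div] using (tendsto_one_div_add_atTop_nhds_zero_nat (𝕜 := ℝ))

/-- **strong convergence** -/
theorem tendsto_FN (s : ℕ) (f : SPer d) :
    Tendsto (fun N => nrm s (FN N f - f)) atTop (𝓝 0) := by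
  have h : Tendsto (fun N : ℕ => ((N : ℝ) + 1)⁻¹ * nrm (s + 1) f) atTop (𝓝 0) := by
    simpa using tendsto_invN.mul_const (nrm (s + 1) f)
  exact squeeze_zero (fun N => nrm_nonneg _ _) (fun N => nrm_FN_sub_le s N f) h


/-- the finite set of frequencies of `F_N` -/
def SN (N : ℕ) : Finset (d → ℤ) := (finite_wt_le ((2 * ((N : ℝ) + 1)) ^ 2)).toFinset

theorem mem_SN {N : ℕ} {k : d → ℤ} (h : mN N k ≠ 0) : k ∈ SN N := by
  rw [SN, Set.Finite.mem_toFinset]
  have h1 : br k < 2 * ((N : ℝ) + 1) := by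
    by_contra h'
    exact h (mN_eq_zero (not_lt.1 h'))
  show wt k ≤ _
  rw [← br_sq]
  exact pow_le_pow_left₀ (br_pos k).le h1.le 2

/-- **finite rank** -/
theorem FN_eq_sum (N : ℕ) (f : SPer d) :
    FN N f = ∑ k ∈ SN N, ((mN N k : ℂ) * fc f k) • chS k := by
  classical
  refine fc_inj fun j => ?_
  rw [fc_sum]
  simp_rw [fc_smul, fc_chS]
  simp only [mul_ite, mul_one, mul_zero]
  rw [Finset.sum_ite_eq, fc_FN]
  split_ifs with h
  · rfl
  · have : mN N j = 0 := by
      by_contra h'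
      exact h (mem_SN h')
    rw [this]; simp


theorem pd_FN (N : ℕ) (j : d) (f : SPer d) : pd j (FN N f) = FN N (pd j f) :=
  pd_mult j _ _ f

/-! ### convolution -/

theorem hasSum_fc_mul (c f : SPer d) (k : d → ℤ) :
    HasSum (fun p => fc c p * fc f (k - p)) (fc (c * f) k) := by
  have hb : ∀ p, ‖fc c p * fc f (k - p)‖ ≤ ‖fc c p‖ * ‖desc f‖ := fun p => by
    rw [norm_mul]
    exact mul_le_mul_of_nonneg_left (norm_fc_le _ _) (norm_nonneg _)
  have hs0 : Summable fun p => ‖fc c p‖ := by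
    simpa using summable_fc c 0
  have hs : Summable fun p => fc c p * fc f (k - p) :=
    Summable.of_norm_bounded (hs0.mul_right _) hb
  have h1 : fc (c * f) k = ∑' p, fc c p * fc f (k - p) := by
    rw [fc_eq_integral _ _ 0]
    have h2 : ∀ x : d → ℝ, ch (-k) x * (c * f) x = ∑' p, fc c p * (ch (-(k - p)) x * f x) := by
      intro x
      rw [SPer.mul_apply, ← (hasSum_ch c x).tsum_eq, ← tsum_mul_right, ← tsum_mul_left]
      refine tsum_congr fun p => ?_
      rw [show -(k - p) = -k + p by abel]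
      have h3 : ch (-k + p) x = ch (-k) x * ch p x := by
        unfold ch
        rw [← Complex.exp_add]
        congr 1
        rw [← mul_add, ← Finset.sum_add_distrib]
        congr 1
        refine Finset.sum_congr rfl fun i _ => ?_
        simp only [Pi.add_apply, Int.cast_add]
        ring
      rw [h3]
      ring
    simp_rw [h2]
    rw [← integral_tsum_of_summable_integral_norm]
    · refine tsum_congr fun p => ?_
      rw [integral_const_mul, ← fc_eq_integral]
    · intro p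
      exact (integrable_mul_ch f _ 0).const_mul _
    · refine Summable.of_nonneg_of_le (fun p => integral_nonneg fun x => norm_nonneg _)
        (fun p => ?_) (hs0.mul_right ‖desc f‖)
      have h4 : ∀ x : d → ℝ, ‖fc c p * (ch (-(k - p)) x * f x)‖ ≤ ‖fc c p‖ * ‖desc f‖ := fun x => by
        rw [norm_mul, norm_mul, norm_ch, one_mul]
        exact mul_le_mul_of_nonneg_left (bdd f x) (norm_nonneg _)
      refine (integral_mono_of_nonneg (Eventually.of_forall fun x => norm_nonneg _)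
        (integrable_const _) (Eventually.of_forall h4)).trans (le_of_eq ?_)
      simp [measureReal_def, volume_box]
  rw [h1]
  exact hs.hasSum

/-- **Schur/Young estimate** -/
theorem nrm_zero_le_of_conv {g f : SPer d} {a : (d → ℤ) → ℝ} {w : (d → ℤ) → (d → ℤ) → ℂ}
    (hsum : Summable a) (ha : ∀ p, 0 ≤ a p) (hw : ∀ p k, ‖w p k‖ ≤ a p)
    (h : ∀ k, HasSum (fun p => w p k * fc f (k - p)) (fc g k)) :
    nrm 0 g ≤ (∑' p, a p) * nrm 0 f := by
  have hf := hasSum_nrm_sq 0 f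
  simp only [pow_zero, one_mul] at hf
  have hfs : ∀ p, HasSum (fun k => ‖fc f (k - p)‖ ^ 2) (nrm 0 f ^ 2) := fun p =>
    (Equiv.subRight p).hasSum_iff.2 hf
  have hmem : ∀ p, Memℓp (fun k => w p k * fc f (k - p)) 2 := by
    intro p
    rw [memℓp_gen_iff (by norm_num)]
    simp only [ENNReal.toReal_ofNat, Real.rpow_ofNat]
    refine Summable.of_nonneg_of_le (fun k => by positivity) (fun k => ?_)
      ((hfs p).summable.mul_left (a p ^ 2))
    rw [norm_mul, mul_pow]
    exact mul_le_mul_of_nonneg_right (pow_le_pow_left₀ (norm_nonneg _) (hw p k) 2) (sq_nonneg _)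
  let v : (d → ℤ) → L2Z d := fun p => ⟨fun k => w p k * fc f (k - p), hmem p⟩
  have hv : ∀ p, ‖v p‖ ≤ a p * nrm 0 f := by
    intro p
    have h1 := lp.hasSum_norm (p := 2) (by norm_num) (v p)
    simp only [ENNReal.toReal_ofNat, Real.rpow_ofNat] at h1
    have h2 : ‖v p‖ ^ 2 ≤ a p ^ 2 * nrm 0 f ^ 2 := by
      refine hasSum_le (fun k => ?_) h1 ((hfs p).mul_left (a p ^ 2))
      show ‖w p k * fc f (k - p)‖ ^ 2 ≤ _
      rw [norm_mul, mul_pow]
      exact mul_le_mul_of_nonneg_right (pow_le_pow_left₀ (norm_nonneg _) (hw p k) 2) (sq_nonneg _)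
    rw [← mul_pow] at h2
    exact (pow_le_pow_iff_left₀ (norm_nonneg _) (mul_nonneg (ha p) (nrm_nonneg _ _))
      two_ne_zero).1 h2
  have hsv : Summable fun p => ‖v p‖ :=
    Summable.of_nonneg_of_le (fun p => norm_nonneg _) hv (hsum.mul_right _)
  have hS : HasSum v (∑' p, v p) := (Summable.of_norm hsv).hasSum
  have he : emb 0 g = ∑' p, v p := by
    ext k
    have h1 := (lp.evalCLM ℂ (fun _ : d → ℤ => ℂ) 2 k).hasSum hS
    have h2 : HasSum (fun p => w p k * fc f (k - p)) ((∑' p, v p : L2Z d) k) := h1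
    rw [emb_apply, pow_zero, ofReal_one, one_mul]
    exact (h k).unique h2
  unfold nrm
  rw [he]
  calc ‖∑' p, v p‖ ≤ ∑' p, ‖v p‖ := norm_tsum_le_tsum_norm hsv
    _ ≤ ∑' p, a p * nrm 0 f := hsv.tsum_le_tsum hv (hsum.mul_right _)
    _ = (∑' p, a p) * nrm 0 f := tsum_mul_right

/-! ### commutators -/

/-- the constant in the commutator estimate -/
def cC (c : SPer d) : ℝ := ∑' p, 8 * π * (br p * ‖fc c p‖)

theorem summable_cC (c : SPer d) : Summable fun p => 8 * π * (br p * ‖fc c p‖) := by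
  refine Summable.mul_left _ ?_
  refine Summable.of_nonneg_of_le (fun p => mul_nonneg (br_pos p).le (norm_nonneg _))
    (fun p => ?_) (summable_fc c 1)
  rw [pow_one]
  exact mul_le_mul_of_nonneg_right (br_le_wt p) (norm_nonneg _)

theorem cC_nonneg (c : SPer d) : 0 ≤ cC c :=
  tsum_nonneg fun p => mul_nonneg (by positivity) (mul_nonneg (br_pos p).le (norm_nonneg _))

/-- **commutator estimate**, uniform in `N` -/
theorem comm_FN_le (N : ℕ) (c : SPer d) (j : d) (f : SPer d) :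
    nrm 0 (c * pd j (FN N f) - FN N (c * pd j f)) ≤ cC c * nrm 0 f := by
  refine nrm_zero_le_of_conv (a := fun p => 8 * π * (br p * ‖fc c p‖))
    (w := fun p k => fc c p * (2 * π * I * ((k - p) j : ℂ)) * ((mN N (k - p) - mN N k : ℝ) : ℂ))
    (summable_cC c) (fun p => mul_nonneg (by positivity) (mul_nonneg (br_pos p).le (norm_nonneg _)))
    (fun p k => ?_) (fun k => ?_)
  · rw [norm_mul, norm_mul, norm_real, Real.norm_eq_abs]
    have h1 := key_mN N k (k - p)
    rw [sub_sub_cancel] at h1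
    have h2 : ‖(2 * π * I * (((k - p) j : ℤ) : ℂ) : ℂ)‖ ≤ 2 * π * br (k - p) := by
      have : ‖(2 * π * I * (((k - p) j : ℤ) : ℂ) : ℂ)‖ = 2 * π * |(((k - p) j : ℤ) : ℝ)| := by
        rw [norm_mul, norm_mul, norm_mul, Complex.norm_I, mul_one, Complex.norm_intCast,
          Complex.norm_real, Real.norm_of_nonneg Real.pi_pos.le]
        simp
      rw [this]
      exact mul_le_mul_of_nonneg_left (abs_le_br _ _) (by positivity)
    calc ‖fc c p‖ * ‖(2 * π * I * (((k - p) j : ℤ) : ℂ) : ℂ)‖ * |mN N (k - p) - mN N k|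
        ≤ ‖fc c p‖ * (2 * π * br (k - p)) * |mN N (k - p) - mN N k| := by
          refine mul_le_mul_of_nonneg_right (mul_le_mul_of_nonneg_left h2 (norm_nonneg _))
            (abs_nonneg _)
      _ = ‖fc c p‖ * (2 * π) * (|mN N (k - p) - mN N k| * br (k - p)) := by ring
      _ ≤ ‖fc c p‖ * (2 * π) * (4 * br p) :=
          mul_le_mul_of_nonneg_left h1 (mul_nonneg (norm_nonneg _) (by positivity))
      _ = 8 * π * (br p * ‖fc c p‖) := by ring
  · have h1 := hasSum_fc_mul c (pd j (FN N f)) k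
    have h2 := (hasSum_fc_mul c (pd j f) k).mul_left ((mN N k : ℝ) : ℂ)
    have h3 := h1.sub h2
    rw [fc_sub, fc_FN]
    refine (funext fun p => ?_ : (fun p => fc c p * (2 * π * I * ((k - p) j : ℂ)) *
      ((mN N (k - p) - mN N k : ℝ) : ℂ) * fc f (k - p)) = fun p =>
      fc c p * fc (pd j (FN N f)) (k - p) - ((mN N k : ℝ) : ℂ) * (fc c p * fc (pd j f) (k - p))) ▸ h3
    rw [fc_pd, fc_pd, fc_FN]
    push_cast
    ring




end

end Crest.Agent.R273.TorM_106
end

-- ▼ part R273/FOp_106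
section

/-!
# R273, leaf D.10 (helper106), part 1: first order operators on sections

* `pdM A i p f x` : derivative of `f : M → W` in the real coordinate `p` of the chart `i`;
* `pAmp A j p a`  : derivative of an amplitude;
* `FOp B B'`      : first order differential operators `Sec B →ₗ Sec B'` with smooth coefficients;
* `FOp.T_ext`, `FOp.loc_T` : commutation with `ext` and `loc`;
* `FOp.nS_le`     : `‖T u‖_s ≤ C ‖u‖_{s+1}`.
-/

set_option autoImplicit false
set_option linter.unusedSectionVars false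
set_option linter.unusedSimpArgs false
set_option linter.unusedVariables false

open Set Filter Topology Complex
open scoped ContDiff Matrix ComplexConjugate

namespace Crest.Agent.R273.Mol_106

open Crest.Agent.R275 Crest.Agent.R275.Geo Crest.Agent.R275.Tor812 Crest.Agent.R275.TorS666
  Crest.Agent.R275.C1d194 Crest.Agent.R275.C2812 Crest.Agent.R275.RetC666
  Crest.Agent.R273.L2K_774 Crest.Agent.R273.TorM_106

noncomputable section

variable {n : ℕ} {M : Type} [TopologicalSpace M] {A : Atl n M}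

/-! ### coordinate derivatives -/

/-- derivative in the real coordinate direction `p` of the chart `i` -/
def pdM (A : Atl n M) {W : Type*} [NormedAddCommGroup W] [NormedSpace ℝ W] (i : A.ι) (p : RI n)
    (f : M → W) (x : M) : W :=
  fderiv ℝ (fun z => f ((A.e i).symm z)) (A.e i x) (cc (ev p))

section pdM

variable {W : Type*} [NormedAddCommGroup W] [NormedSpace ℝ W]

theorem pdM_congr {i : A.ι} {f g : M → W} {x : M} (hx : x ∈ (A.e i).source) (h : f =ᶠ[𝓝 x] g)
    (p : RI n) : pdM A i p f x = pdM A i p g x := by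
  unfold pdM
  have h1 : Tendsto (A.e i).symm (𝓝 (A.e i x)) (𝓝 x) := by
    have := (A.e i).symm.continuousAt (x := A.e i x) ((A.e i).map_source hx)
    rwa [ContinuousAt, (A.e i).left_inv hx] at this
  have h2 : (fun z => f ((A.e i).symm z)) =ᶠ[𝓝 (A.e i x)] fun z => g ((A.e i).symm z) :=
    h1.eventually h
  rw [h2.fderiv_eq]

theorem pdM_const (i : A.ι) (p : RI n) (c : W) (x : M) : pdM A i p (fun _ => c) x = 0 := by
  unfold pdM
  simp

theorem pdM_symm {i : A.ι} {z : Cn n} (hz : z ∈ (A.e i).target) (p : RI n) (f : M → W) :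
    pdM A i p f ((A.e i).symm z) = fderiv ℝ (fun w => f ((A.e i).symm w)) z (cc (ev p)) := by
  unfold pdM
  rw [(A.e i).right_inv hz]

theorem SmAt.pdM {i : A.ι} {f : M → W} (hf : A.SmAt i f) (p : RI n) : A.SmAt i (pdM A i p f) := by
  have h1 : ContDiffOn ℝ ∞ (fderiv ℝ (fun z => f ((A.e i).symm z))) (A.e i).target :=
    hf.fderiv_of_isOpen (A.e i).open_target (by simp)
  refine (h1.clm_apply (contDiffOn_const (c := cc (ev p)))).congr fun z hz => ?_
  exact pdM_symm hz p f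

theorem pdM_pi {κ : Type} [Fintype κ] {i : A.ι} {f : M → κ → ℂ}
    (hf : ∀ k, A.SmAt i (fun x => f x k)) {x : M} (hx : x ∈ (A.e i).source) (p : RI n) (k : κ) :
    pdM A i p f x k = pdM A i p (fun y => f y k) x := by
  have hd : DifferentiableAt ℝ (fun z => f ((A.e i).symm z)) (A.e i x) :=
    (Atl.SmAt.pi hf).diffAt hx
  have h : fderiv ℝ (fun z => f ((A.e i).symm z) k) (A.e i x) =
      (ContinuousLinearMap.proj k : (κ → ℂ) →L[ℝ] ℂ).comp
        (fderiv ℝ (fun z => f ((A.e i).symm z)) (A.e i x)) :=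
    ((ContinuousLinearMap.proj k : (κ → ℂ) →L[ℝ] ℂ).hasFDerivAt.comp _ hd.hasFDerivAt).fderiv
  show fderiv ℝ (fun z => f ((A.e i).symm z)) (A.e i x) (cc (ev p)) k =
    fderiv ℝ (fun z => f ((A.e i).symm z) k) (A.e i x) (cc (ev p))
  rw [h]
  rfl

theorem pdM_mul {i : A.ι} {f g : M → ℂ} {x : M}
    (hf : DifferentiableAt ℝ (fun z => f ((A.e i).symm z)) (A.e i x))
    (hg : DifferentiableAt ℝ (fun z => g ((A.e i).symm z)) (A.e i x))
    (hx : x ∈ (A.e i).source) (p : RI n) :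
    pdM A i p (fun y => f y * g y) x = pdM A i p f x * g x + f x * pdM A i p g x := by
  unfold pdM
  have h : fderiv ℝ (fun z => f ((A.e i).symm z) * g ((A.e i).symm z)) (A.e i x) =
      f ((A.e i).symm (A.e i x)) • fderiv ℝ (fun z => g ((A.e i).symm z)) (A.e i x) +
      g ((A.e i).symm (A.e i x)) • fderiv ℝ (fun z => f ((A.e i).symm z)) (A.e i x) :=
    fderiv_mul hf hg
  rw [h, (A.e i).left_inv hx]
  simp only [_root_.add_apply, _root_.smul_apply, smul_eq_mul]
  ring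

theorem pdM_add {i : A.ι} {f g : M → ℂ} {x : M}
    (hf : DifferentiableAt ℝ (fun z => f ((A.e i).symm z)) (A.e i x))
    (hg : DifferentiableAt ℝ (fun z => g ((A.e i).symm z)) (A.e i x)) (p : RI n) :
    pdM A i p (fun y => f y + g y) x = pdM A i p f x + pdM A i p g x := by
  unfold pdM
  have h : fderiv ℝ (fun z => f ((A.e i).symm z) + g ((A.e i).symm z)) (A.e i x) =
      fderiv ℝ (fun z => f ((A.e i).symm z)) (A.e i x) +
      fderiv ℝ (fun z => g ((A.e i).symm z)) (A.e i x) := fderiv_add hf hg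
  rw [h]
  rfl

theorem pdM_sum {i : A.ι} {σ : Type*} (s : Finset σ) {f : σ → M → ℂ} {x : M}
    (hf : ∀ t ∈ s, DifferentiableAt ℝ (fun z => f t ((A.e i).symm z)) (A.e i x)) (p : RI n) :
    pdM A i p (fun y => ∑ t ∈ s, f t y) x = ∑ t ∈ s, pdM A i p (f t) x := by
  unfold pdM
  rw [fderiv_fun_sum hf, _root_.sum_apply]

/-- product rule -/
theorem pdM_mulVec {i : A.ι} {κ κ' : Type} [Fintype κ] [Fintype κ'] {m : M → Matrix κ κ' ℂ}
    {v : M → κ' → ℂ} {x : M} (hm : ∀ k l, A.SmAt i (fun x => m x k l))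
    (hv : ∀ l, A.SmAt i (fun x => v x l)) (hx : x ∈ (A.e i).source) (p : RI n) :
    pdM A i p (fun y => m y *ᵥ v y) x =
      Matrix.of (fun k l => pdM A i p (fun y => m y k l) x) *ᵥ v x + m x *ᵥ pdM A i p v x := by
  funext k
  have h0 : ∀ k, A.SmAt i (fun x => (m x *ᵥ v x) k) := fun k =>
    ContDiffOn.sum fun l _ => (hm k l).mul (hv l)
  rw [pdM_pi h0 hx]
  have h1 : pdM A i p (fun y => (m y *ᵥ v y) k) x = ∑ l, pdM A i p (fun y => m y k l * v y l) x :=
    pdM_sum Finset.univ (fun l _ => ((hm k l).diffAt hx).mul ((hv l).diffAt hx)) p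
  rw [h1]
  simp only [Pi.add_apply, Matrix.mulVec, dotProduct, Matrix.of_apply]
  rw [← Finset.sum_add_distrib]
  refine Finset.sum_congr rfl fun l _ => ?_
  rw [pdM_mul ((hm k l).diffAt hx) ((hv l).diffAt hx) hx, pdM_pi hv hx]

/-- derivative of a function with compact support in the chart -/
theorem IsCF.pdM {i : A.ι} {f : M → ℂ} (hf : IsCF A i f) (p : RI n) :
    IsCF A i (pdM A i p f) := by
  obtain ⟨K, hK, hKs, h0⟩ := hf.supp
  refine ⟨SmAt.pdM hf.sm p, K, hK, hKs, fun x hx hxK => ?_⟩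
  have hc : IsClosed (A.e i '' K) :=
    (hK.image_of_continuousOn ((A.e i).continuousOn.mono hKs)).isClosed
  have hx1 : A.e i x ∉ A.e i '' K := by
    rintro ⟨y, hy, hxy⟩
    have := (A.e i).injOn (hKs hy) hx hxy
    exact hxK (this ▸ hy)
  have hev : (fun z => f ((A.e i).symm z)) =ᶠ[𝓝 (A.e i x)] fun _ => 0 := by
    filter_upwards [hc.isOpen_compl.mem_nhds hx1,
      (A.e i).open_target.mem_nhds ((A.e i).map_source hx)] with z hz hz'
    refine h0 _ ((A.e i).map_target hz') fun hK' => hz ⟨_, hK', (A.e i).right_inv hz'⟩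
  unfold Mol_106.pdM
  rw [hev.fderiv_eq]
  simp

/-- derivatives commute with reading in a chart -/
theorem pd_pz {i : A.ι} {f : M → ℂ} (h : IsCF A i f) (p : RI n) :
    pd p (pz h) = pz (IsCF.pdM h p) := by
  refine SPer.ext fun x => ?_
  have e0 : pd p (pz h) x = fderiv ℝ (rd A i f) (fr x) (ev p) := by
    rw [pz, pd_perz, perz_apply]
  rw [e0]
  set y := fr x with hy
  by_cases hx : y ∈ A.cu i
  · have h1 : rd A i f =ᶠ[𝓝 y] fun w => (fun z => f ((A.e i).symm z)) (ccL n w) := by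
      filter_upwards [(A.isOpen_cu i).mem_nhds hx] with w hw
      exact Geo.rd_of_mem hw
    have hd : DifferentiableAt ℝ (fun z => f ((A.e i).symm z)) (ccL n y) :=
      (h.sm.contDiffAt ((A.e i).open_target.mem_nhds hx)).differentiableAt (by simp)
    have h2 : fderiv ℝ (fun w => (fun z => f ((A.e i).symm z)) (ccL n w)) y =
        (fderiv ℝ (fun z => f ((A.e i).symm z)) (ccL n y)).comp (ccL n) :=
      (hd.hasFDerivAt.comp y (ccL n).hasFDerivAt).fderiv
    rw [h1.fderiv_eq, h2, pz_apply_mem _ (by rw [← hy]; exact hx), ← hy, pdM_symm hx]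
    rfl
  · obtain ⟨K, hK, hKs, h0⟩ := h.supp
    obtain ⟨k1, k2, k3⟩ := rd_supp hK hKs h0
    have h5 : rd A i f =ᶠ[𝓝 y] fun _ => 0 := by
      filter_upwards [k1.isClosed.isOpen_compl.mem_nhds fun hx' => hx (k2 hx')] with w hw
      exact k3 w hw
    rw [h5.fderiv_eq, pz_apply_notMem _ (by rw [← hy]; exact hx)]
    simp

theorem pdM_per {j : A.ι} (F : SPer (RI n)) (p : RI n) {x : M} (hx : x ∈ (A.e j).source) :
    pdM A j p (fun y => F (rc (A.e j y))) x = pd p F (rc (A.e j x)) := by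
  unfold pdM
  have h1 : (fun z => F (rc (A.e j ((A.e j).symm z)))) =ᶠ[𝓝 (A.e j x)]
      fun z => F (Geo.rcL n z) := by
    filter_upwards [(A.e j).open_target.mem_nhds ((A.e j).map_source hx)] with z hz
    rw [(A.e j).right_inv hz]
    rfl
  rw [h1.fderiv_eq]
  have h2 : fderiv ℝ (fun w : Cn n => F (Geo.rcL n w)) (A.e j x) =
      (fderiv ℝ F (Geo.rcL n (A.e j x))).comp (Geo.rcL n) :=
    ((sm_diff F (Geo.rcL n (A.e j x))).hasFDerivAt.comp _ (Geo.rcL n).hasFDerivAt).fderiv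
  rw [h2, pd_apply, ContinuousLinearMap.comp_apply, Geo.rcL_apply, Geo.rcL_apply, rc_cc]

/-- `∂/∂z̄_a` in terms of the real derivatives -/
theorem db_eq_pdM {κ : Type} [Fintype κ] (i : A.ι) (a : Fin n) (f : M → κ → ℂ) (x : M) :
    A.db i a f x = (1 / 2 : ℂ) • (pdM A i (a, 0) f x + I • pdM A i (a, 1) f x) := by
  unfold Atl.db dbj pdM
  rw [cc_ev0, cc_ev1]

end pdM

/-! ### derivative of an amplitude -/

open Classical in
/-- derivative of an amplitude in the real direction `p` -/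
def pAmp (A : Atl n M) (j : A.ι) (p : RI n) {κ κ' : Type} (a : M → Matrix κ κ' ℂ) (x : M) :
    Matrix κ κ' ℂ :=
  if x ∈ tsupport a then Matrix.of (fun k l => pdM A j p (fun y => a y k l) x) else 0

section pAmp

variable {κ κ' : Type} {j : A.ι} {a : M → Matrix κ κ' ℂ}

theorem pAmp_eq {p : RI n} {x : M} (hx : x ∈ (A.e j).source) :
    pAmp A j p a x = Matrix.of (fun k l => pdM A j p (fun y => a y k l) x) := by
  unfold pAmp
  split_ifs with h
  · rfl
  · ext k l
    symm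
    show pdM A j p (fun y => a y k l) x = 0
    have hev : (fun y => a y k l) =ᶠ[𝓝 x] fun _ => 0 := by
      filter_upwards [(isClosed_tsupport a).isOpen_compl.mem_nhds h] with y hy
      rw [amp_zero hy]
      rfl
    rw [pdM_congr hx hev, pdM_const]

theorem isAmp_pAmp (ha : IsAmp A j a) (p : RI n) : IsAmp A j (pAmp A j p a) := by
  refine isAmp_of (fun k l => ?_) ha.cpt (isClosed_tsupport a) ha.sub fun x hx => ?_
  · refine ContDiffOn.congr (SmAt.pdM (ha.sm k l) p) fun z hz => ?_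
    have hz' := (A.e j).map_target hz
    show pAmp A j p a ((A.e j).symm z) k l = _
    rw [pAmp_eq hz']
    rfl
  · unfold pAmp
    rw [if_neg hx]

end pAmp

/-! ### first order operators -/

/-- a first order differential operator with smooth coefficients -/
structure FOp (B B' : FBun A) where
  a : A.ι → RI n → M → Matrix B'.κ B.κ ℂ
  b : A.ι → M → Matrix B'.κ B.κ ℂ
  a_sm : ∀ i p k l, A.SmAt i (fun x => a i p x k l)
  b_sm : ∀ i k l, A.SmAt i (fun x => b i x k l)
  T : Sec B →ₗ[ℂ] Sec B'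
  hT : ∀ (u : Sec B) (i : A.ι), ∀ x ∈ (A.e i).source,
    (T u).1 i x = (∑ p, a i p x *ᵥ pdM A i p (u.1 i) x) + b i x *ᵥ u.1 i x

namespace FOp

variable {B B' : FBun A} (T : FOp B B') {κ₁ : Type} [Fintype κ₁] {j : A.ι}

theorem amp_a (p : RI n) {b : M → Matrix B.κ κ₁ ℂ} (hb : IsAmp A j b) :
    IsAmp A j (fun x => T.a j p x * b x) := isAmp_mul_left hb (T.a_sm j p)

theorem amp_b {b : M → Matrix B.κ κ₁ ℂ} (hb : IsAmp A j b) :
    IsAmp A j (fun x => (∑ p, T.a j p x * pAmp A j p b x) + T.b j x * b x) :=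
  isAmp_add (isAmp_sum _ fun p _ => isAmp_mul_left (isAmp_pAmp hb p) (T.a_sm j p))
    (isAmp_mul_left hb (T.b_sm j))

theorem ampR_a (p : RI n) {m : M → Matrix κ₁ B'.κ ℂ} (hm : IsAmp A j m) :
    IsAmp A j (fun x => m x * T.a j p x) := isAmp_mul_right hm (T.a_sm j p)

theorem ampR_b {m : M → Matrix κ₁ B'.κ ℂ} (hm : IsAmp A j m) :
    IsAmp A j (fun x => m x * T.b j x - ∑ p, pAmp A j p (fun y => m y * T.a j p y) x) :=
  isAmp_sub (isAmp_mul_right hm (T.b_sm j)) (isAmp_sum _ fun p _ => isAmp_pAmp (T.ampR_a p hm) p)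


/-- `T ∘ ext` -/
theorem T_ext {b : M → Matrix B.κ κ₁ ℂ} (hb : IsAmp A j b) (f : κ₁ → SPer (RI n)) :
    T.T (extS B j hb f) = (∑ p, extS B' j (T.amp_a p hb) (fun l => pd p (f l))) +
      extS B' j (T.amp_b hb) f := by
  apply Subtype.ext
  refine Sec.ext_of B' (T.T _).2 (Submodule.coe_mem _) fun x => ?_
  have hsum : ∀ i, ((∑ p, extS B' j (T.amp_a p hb) (fun l => pd p (f l))) +
      extS B' j (T.amp_b hb) f).1 i x = (∑ p, ext B' j (fun x => T.a j p x * b x)
        (fun l => pd p (f l)) i x) + ext B' j (fun x => (∑ p, T.a j p x * pAmp A j p b x) +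
          T.b j x * b x) f i x := by
    intro i
    rw [Submodule.coe_add, Submodule.coe_sum, Pi.add_apply, Pi.add_apply, Finset.sum_apply,
      Finset.sum_apply]
    rfl
  by_cases hx : x ∈ (A.e j).source
  · refine ⟨j, hx, ?_⟩
    rw [T.hT _ j x hx, hsum]
    have hv : ∀ l, A.SmAt j (fun y => (fun l => f l (rc (A.e j y))) l) := fun l => smAt_per j (f l)
    have hev : (extS B j hb f).1 j =ᶠ[𝓝 x] fun y => b y *ᵥ fun l => f l (rc (A.e j y)) := by
      filter_upwards [(A.e j).open_source.mem_nhds hx] with y hy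
      exact ext_self B j hy b f
    have h1 : ∀ p, pdM A j p ((extS B j hb f).1 j) x =
        pAmp A j p b x *ᵥ (fun l => f l (rc (A.e j x)))
          + b x *ᵥ fun l => pd p (f l) (rc (A.e j x)) := by
      intro p
      rw [pdM_congr hx hev, pdM_mulVec hb.sm hv hx, pAmp_eq hx]
      congr 2
      funext l
      rw [pdM_pi (f := fun y => fun l => f l (rc (A.e j y))) hv hx]
      exact pdM_per (f l) p hx
    have h2 : (extS B j hb f).1 j x = b x *ᵥ fun l => f l (rc (A.e j x)) := ext_self B j hx b f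
    rw [h2, ext_self B' j hx]
    simp only [h1, ext_self B' j hx, Matrix.mulVec_add, Matrix.mulVec_mulVec,
      Finset.sum_add_distrib, Matrix.add_mulVec, Matrix.sum_mulVec]
    abel
  · obtain ⟨i, hi⟩ := A.cover x
    refine ⟨i, hi, ?_⟩
    rw [T.hT _ i x hi, hsum]
    have hev : (extS B j hb f).1 i =ᶠ[𝓝 x] fun _ => 0 := by
      filter_upwards [(isClosed_tsupport b).isOpen_compl.mem_nhds fun h => hx (hb.sub h)] with y hy
      exact ext_zero_off B j hy f
    have h1 : ∀ p, pdM A i p ((extS B j hb f).1 i) x = 0 := fun p => by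
      rw [pdM_congr hi hev, pdM_const]
    have h2 : (extS B j hb f).1 i x = 0 := hev.self_of_nhds
    simp only [h1, h2, ext_off' B' j hx, Matrix.mulVec_zero, Finset.sum_const_zero, add_zero]

/-- `loc ∘ T` -/
theorem loc_T {m : M → Matrix κ₁ B'.κ ℂ} (hm : IsAmp A j m) (u : Sec B) (k : κ₁) :
    loc A j m ((T.T u).1 j) k =
      (∑ p, pd p (loc A j (fun x => m x * T.a j p x) (u.1 j) k)) +
      loc A j (fun x => m x * T.b j x - ∑ p, pAmp A j p (fun y => m y * T.a j p y) x) (u.1 j) k := by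
  have hs : ∀ l, A.SmAt j (fun x => u.1 j x l) := u.2.1 j
  have hns : ∀ l, A.SmAt j (fun x => (T.T u).1 j x l) := (T.T u).2.1 j
  have hd := T.ampR_b hm
  refine SPer_ext_chart j (fun x hx => ?_) fun x hx => ?_
  · rw [SPer.add_apply, sper_sum_apply, Geo.loc_notMem hm hns k hx, Geo.loc_notMem hd hs k hx,
      add_zero]
    symm
    refine Finset.sum_eq_zero fun p _ => ?_
    rw [Geo.loc_eq ((T.ampR_a p hm).cf hs k), pd_pz, pz_apply_notMem _ hx]
  · rw [SPer.add_apply, sper_sum_apply, loc_rc hm hns k hx, loc_rc hd hs k hx, T.hT u j x hx]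
    have h1 : ∀ p, pd p (loc A j (fun x => m x * T.a j p x) (u.1 j) k) (rc (A.e j x)) =
        (pAmp A j p (fun y => m y * T.a j p y) x *ᵥ u.1 j x +
          (m x * T.a j p x) *ᵥ pdM A j p (u.1 j) x) k := by
      intro p
      rw [Geo.loc_eq ((T.ampR_a p hm).cf hs k), pd_pz, pz_rc _ hx]
      have h2 := pdM_mulVec (T.ampR_a p hm).sm hs hx p
      rw [pAmp_eq hx, ← h2, pdM_pi (fun k => ((T.ampR_a p hm).cf hs k).sm) hx]
    simp only [h1, Matrix.mulVec_add, Matrix.mulVec_sum, Matrix.mulVec_mulVec, Matrix.sub_mulVec,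
      Matrix.sum_mulVec, Pi.add_apply, Pi.sub_apply, Finset.sum_apply, Finset.sum_add_distrib]
    ring

end FOp

end

end Crest.Agent.R273.Mol_106
end

-- ▼ part R273/MolJ_106

/-!
# R273, leaf D.10 (helper106), part 2: the mollifiers `J_N`

* `JN P B N : Sec B →ₗ[ℂ] Sec B`;
* `nS_JN_le`       (F1b) `‖J_N u‖_s ≤ C ‖u‖_s`, `C` independent of `N`;
* `tendsto_JN`     (F1)  `‖J_N u - u‖_s → 0` for every `s`;
* `FOp.nS_le`      `‖T u‖_s ≤ C ‖u‖_{s+1}`;
* `FOp.comm_le`    (F2b) `‖T (J_N u) - J_N (T u)‖_0 ≤ C ‖u‖_0`, `C` independent of `N`;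
* `FOp.tendsto_comm` (F2) `‖T (J_N u) - J_N (T u)‖_s → 0` for every `s`.
-/

set_option autoImplicit false
set_option linter.unusedSectionVars false
set_option linter.unusedSimpArgs false
set_option linter.unusedVariables false

open Set Filter Topology Complex
open scoped ContDiff Matrix ComplexConjugate

namespace Crest.Agent.R273.Mol_106

open Crest.Agent.R275 Crest.Agent.R275.Geo Crest.Agent.R275.Tor812 Crest.Agent.R275.TorS666
  Crest.Agent.R275.C1d194 Crest.Agent.R275.C2812 Crest.Agent.R275.RetC666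
  Crest.Agent.R273.L2K_774 Crest.Agent.R273.TorM_106

noncomputable section

variable {n : ℕ} {M : Type} [TopologicalSpace M] {A : Atl n M}

/-! ### vectors of periodic functions -/

section torus

variable {κ κ₁ κ₂ : Type} [Fintype κ] [Fintype κ₁] [Fintype κ₂]

/-- `F_N` componentwise -/
def FNv (κ : Type) (n N : ℕ) : (κ → SPer (RI n)) →ₗ[ℂ] (κ → SPer (RI n)) where
  toFun f k := FN N (f k)
  map_add' f g := by funext k; simp
  map_smul' c f := by funext k; simp

@[simp] theorem FNv_apply (N : ℕ) (f : κ → SPer (RI n)) (k : κ) : FNv κ n N f k = FN N (f k) := rfl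

/-- `∂_p` componentwise -/
def pdv (κ : Type) (p : RI n) : (κ → SPer (RI n)) →ₗ[ℂ] (κ → SPer (RI n)) where
  toFun f k := pd p (f k)
  map_add' f g := by funext k; simp
  map_smul' c f := by funext k; simp

@[simp] theorem pdv_apply (p : RI n) (f : κ → SPer (RI n)) (k : κ) : pdv κ p f k = pd p (f k) := rfl

theorem pdv_FNv (p : RI n) (N : ℕ) (f : κ → SPer (RI n)) :
    pdv κ p (FNv κ n N f) = FNv κ n N (pdv κ p f) := by
  funext k
  simp [pd_FN]

theorem nv_FNv_le (s N : ℕ) (f : κ → SPer (RI n)) : nv s (FNv κ n N f) ≤ nv s f :=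
  Finset.sum_le_sum fun k _ => nrm_FN_le s N (f k)

theorem nv_pdv_le (s : ℕ) (p : RI n) (f : κ → SPer (RI n)) :
    nv s (pdv κ p f) ≤ 2 * Real.pi * nv (s + 1) f := by
  unfold nv
  rw [Finset.mul_sum]
  exact Finset.sum_le_sum fun k _ => nrm_pd_le s p (f k)

theorem nv_mulS_le (s : ℕ) (m : Matrix κ₂ κ₁ (SPer (RI n))) :
    ∃ C, 0 ≤ C ∧ ∀ f : κ₁ → SPer (RI n), nv s (mulS m f) ≤ C * nv s f := nrmv_mulS_le s m

theorem tendsto_FNv (s : ℕ) (f : κ → SPer (RI n)) :
    Tendsto (fun N => nv s (FNv κ n N f - f)) atTop (𝓝 0) := by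
  have := tendsto_finsetSum (Finset.univ : Finset κ) fun k _ => tendsto_FN s (f k)
  rw [Finset.sum_const_zero] at this
  exact this

/-- derivative of a matrix of periodic functions -/
def pdm (p : RI n) (m : Matrix κ₂ κ₁ (SPer (RI n))) : Matrix κ₂ κ₁ (SPer (RI n)) :=
  Matrix.of fun k l => pd p (m k l)

theorem pdv_mulS (p : RI n) (m : Matrix κ₂ κ₁ (SPer (RI n))) (f : κ₁ → SPer (RI n)) :
    pdv κ₂ p (mulS m f) = mulS (pdm p m) f + mulS m (pdv κ₁ p f) := by
  funext k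
  rw [Pi.add_apply, pdv_apply, mulS_apply, mulS_apply, mulS_apply, map_sum,
    ← Finset.sum_add_distrib]
  exact Finset.sum_congr rfl fun l _ => by rw [pd_mul]; rfl

/-- **commutator of `C ∂_p` with `F_N`** (matrix form), uniform in `N` -/
theorem nv_comm_le (m : Matrix κ₂ κ₁ (SPer (RI n))) (p : RI n) : ∃ C, 0 ≤ C ∧
    ∀ (N : ℕ) (f : κ₁ → SPer (RI n)),
      nv 0 (mulS m (pdv κ₁ p (FNv κ₁ n N f)) - FNv κ₂ n N (mulS m (pdv κ₁ p f))) ≤
        C * nv 0 f := by
  refine ⟨∑ k, ∑ l, cC (m k l), Finset.sum_nonneg fun k _ => Finset.sum_nonneg fun l _ =>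
    cC_nonneg _, fun N f => ?_⟩
  unfold nv
  rw [Finset.sum_mul]
  refine Finset.sum_le_sum fun k _ => ?_
  have h1 : (mulS m (pdv κ₁ p (FNv κ₁ n N f)) - FNv κ₂ n N (mulS m (pdv κ₁ p f))) k =
      ∑ l, (m k l * pd p (FN N (f l)) - FN N (m k l * pd p (f l))) := by
    rw [Pi.sub_apply, FNv_apply, mulS_apply, mulS_apply, map_sum, ← Finset.sum_sub_distrib]
    rfl
  rw [h1, Finset.sum_mul]
  refine (nrm_sum_le _ _ _).trans (Finset.sum_le_sum fun l _ => ?_)
  refine (comm_FN_le N (m k l) p (f l)).trans ?_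
  exact mul_le_mul_of_nonneg_left (nrm_le_nv 0 f l) (cC_nonneg _)

/-- **commutator of `C` with `∂_p F_N`**, uniform in `N` -/
theorem nv_commD_le (m : Matrix κ₂ κ₁ (SPer (RI n))) (p : RI n) : ∃ C, 0 ≤ C ∧
    ∀ (N : ℕ) (f : κ₁ → SPer (RI n)),
      nv 0 (mulS m (pdv κ₁ p (FNv κ₁ n N f)) - FNv κ₂ n N (pdv κ₂ p (mulS m f))) ≤
        C * nv 0 f := by
  obtain ⟨C, hC0, hC⟩ := nv_comm_le m p
  obtain ⟨D, hD0, hD⟩ := nv_mulS_le 0 (pdm p m)
  refine ⟨C + D, add_nonneg hC0 hD0, fun N f => ?_⟩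
  have h1 : mulS m (pdv κ₁ p (FNv κ₁ n N f)) - FNv κ₂ n N (pdv κ₂ p (mulS m f)) =
      (mulS m (pdv κ₁ p (FNv κ₁ n N f)) - FNv κ₂ n N (mulS m (pdv κ₁ p f))) -
        FNv κ₂ n N (mulS (pdm p m) f) := by
    rw [pdv_mulS, map_add]; abel
  rw [h1, add_mul]
  exact (nv_sub_le _ _ _).trans (add_le_add (hC N f) ((nv_FNv_le _ _ _).trans (hD f)))

end torus

/-! ### families of amplitudes -/

section fam

variable {P : Part A} {κ₁ κ₂ κ₃ : Type} [Fintype κ₁] [Fintype κ₂] [Fintype κ₃]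

theorem ampF_of {b : A.ι → M → Matrix κ₁ κ₂ ℂ} (hb : AmpF P b)
    {c : A.ι → M → Matrix κ₂ κ₃ ℂ} (hc : ∀ j, IsAmp A j (c j))
    (h0 : ∀ j x, x ∉ tsupport (b j) → c j x = 0) : AmpF P c := by
  refine ⟨hc, fun j => (closure_minimal ?_ (isClosed_tsupport _)).trans (hb.sub j)⟩
  intro x hx
  by_contra h
  exact hx (h0 j x h)

theorem ExtFL_eq_sum [Fintype A.ι] (B : FBun A) {b : A.ι → M → Matrix B.κ κ₁ ℂ} (hb : AmpF P b)
    (f : A.ι → κ₁ → SPer (RI n)) : ExtFL B hb f = ∑ j, extS B j (hb.amp j) (f j) := by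
  apply Subtype.ext
  rw [Submodule.coe_sum]
  funext i x
  rw [Finset.sum_apply, Finset.sum_apply]
  exact finsum_eq_sum_of_fintype _

end fam

namespace FOp

variable {B B' : FBun A} (T : FOp B B') {P : Part A} {κ₁ : Type} [Fintype κ₁]

theorem ampF_a (p : RI n) {b : A.ι → M → Matrix B.κ κ₁ ℂ} (hb : AmpF P b) :
    AmpF P (fun j x => T.a j p x * b j x) :=
  ⟨fun j => T.amp_a p (hb.amp j), fun j => (closure_minimal (fun x hx => by
    by_contra h
    exact hx (by
      show T.a j p x * b j x = 0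
      rw [amp_zero h, Matrix.mul_zero])) (isClosed_tsupport _)).trans (hb.sub j)⟩

theorem ampF_b {b : A.ι → M → Matrix B.κ κ₁ ℂ} (hb : AmpF P b) :
    AmpF P (fun j x => (∑ p, T.a j p x * pAmp A j p (b j) x) + T.b j x * b j x) :=
  ⟨fun j => T.amp_b (hb.amp j), fun j => (closure_minimal (fun x hx => by
    by_contra h
    refine hx ?_
    show (∑ p, T.a j p x * pAmp A j p (b j) x) + T.b j x * b j x = 0
    rw [amp_zero h, Matrix.mul_zero, add_zero]
    refine Finset.sum_eq_zero fun p _ => ?_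
    rw [pAmp, if_neg h, Matrix.mul_zero]) (isClosed_tsupport _)).trans (hb.sub j)⟩

theorem ampFR_a (p : RI n) {m : A.ι → M → Matrix κ₁ B'.κ ℂ} (hm : AmpF P m) :
    AmpF P (fun j x => m j x * T.a j p x) :=
  ⟨fun j => T.ampR_a p (hm.amp j), fun j => (closure_minimal (fun x hx => by
    by_contra h
    exact hx (by
      show m j x * T.a j p x = 0
      rw [amp_zero h, Matrix.zero_mul])) (isClosed_tsupport _)).trans (hm.sub j)⟩

theorem ampFR_b {m : A.ι → M → Matrix κ₁ B'.κ ℂ} (hm : AmpF P m) :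
    AmpF P (fun j x => m j x * T.b j x - ∑ p, pAmp A j p (fun y => m j y * T.a j p y) x) :=
  ⟨fun j => T.ampR_b (hm.amp j), fun j => (closure_minimal (fun x hx => by
    by_contra h
    refine hx ?_
    show m j x * T.b j x - ∑ p, pAmp A j p (fun y => m j y * T.a j p y) x = 0
    rw [amp_zero h, Matrix.zero_mul, zero_sub, neg_eq_zero]
    refine Finset.sum_eq_zero fun p _ => ?_
    have h' : x ∉ tsupport (fun y => m j y * T.a j p y) := fun h'' => h
      (closure_minimal (fun y hy => by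
        by_contra h3
        exact hy (by
          show m j y * T.a j p y = 0
          rw [amp_zero h3, Matrix.zero_mul])) (isClosed_tsupport _) h'')
    rw [pAmp, if_neg h']) (isClosed_tsupport _)).trans (hm.sub j)⟩

/-- `T ∘ Ext` -/
theorem T_ExtFL [Fintype A.ι] {b : A.ι → M → Matrix B.κ κ₁ ℂ} (hb : AmpF P b)
    (f : A.ι → κ₁ → SPer (RI n)) :
    T.T (ExtFL B hb f) = (∑ p, ExtFL B' (T.ampF_a p hb) (fun j => pdv κ₁ p (f j))) +
      ExtFL B' (T.ampF_b hb) f := by
  rw [ExtFL_eq_sum, map_sum]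
  simp only [ExtFL_eq_sum, T.T_ext]
  rw [Finset.sum_add_distrib, Finset.sum_comm]
  rfl

/-- `Loc ∘ T` -/
theorem LocF_T {m : A.ι → M → Matrix κ₁ B'.κ ℂ} (hm : AmpF P m) (u : Sec B) (j : A.ι) :
    LocF B' m (T.T u).1 j = (∑ p, pdv κ₁ p (LocF B (fun j x => m j x * T.a j p x) u.1 j)) +
      LocF B (fun j x => m j x * T.b j x - ∑ p, pAmp A j p (fun y => m j y * T.a j p y) x)
        u.1 j := by
  funext k
  rw [Pi.add_apply, Finset.sum_apply]
  exact T.loc_T (hm.amp j) u k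

end FOp

/-! ### the mollifiers -/

section JN

variable [Finite A.ι] (P : Part A) (B : FBun A)

/-- `F_N` on families -/
def FNF (κ : Type) (N : ℕ) : (A.ι → κ → SPer (RI n)) →ₗ[ℂ] (A.ι → κ → SPer (RI n)) where
  toFun f j := FNv κ n N (f j)
  map_add' f g := by funext j; simp
  map_smul' c f := by funext j; simp

@[simp] theorem FNF_apply {κ : Type} (N : ℕ) (f : A.ι → κ → SPer (RI n)) (j : A.ι) :
    FNF (A := A) κ N f j = FNv κ n N (f j) := rfl

theorem nF_FNF_le {κ : Type} [Fintype κ] (s N : ℕ) (f : A.ι → κ → SPer (RI n)) :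
    nF s (FNF (A := A) κ N f) ≤ nF s f := by
  have := Fintype.ofFinite A.ι
  rw [nF_eq, nF_eq]
  exact Finset.sum_le_sum fun j _ => nv_FNv_le s N (f j)

theorem tendsto_FNF {κ : Type} [Fintype κ] (s : ℕ) (f : A.ι → κ → SPer (RI n)) :
    Tendsto (fun N => nF s (FNF (A := A) κ N f - f)) atTop (𝓝 0) := by
  have := Fintype.ofFinite A.ι
  have h := tendsto_finsetSum (Finset.univ : Finset A.ι) fun j _ => tendsto_FNv s (f j)
  simp only [Finset.sum_const_zero] at h
  refine h.congr fun N => ?_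
  rw [nF_eq]
  rfl

/-- **the mollifier** -/
def JN (N : ℕ) : Sec B →ₗ[ℂ] Sec B :=
  ExtFL B (P.amp_chi B.κ) ∘ₗ FNF (A := A) B.κ N ∘ₗ LocFL B (P.amp_psi B.κ)

theorem JN_apply (N : ℕ) (u : Sec B) :
    JN P B N u = ExtFL B (P.amp_chi B.κ) (FNF (A := A) B.κ N (LocFL B (P.amp_psi B.κ) u)) := rfl

theorem ExtFL_LocFL (u : Sec B) :
    ExtFL B (P.amp_chi B.κ) (LocFL B (P.amp_psi B.κ) u) = u := Subtype.ext (ExtF_LocF B P u.2)

/-- (F1b) `J_N` is bounded in every norm, uniformly in `N` -/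
theorem nS_JN_le (s : ℕ) : ∃ C, 0 ≤ C ∧ ∀ (N : ℕ) (u : Sec B),
    nS P B s (JN P B N u) ≤ C * nS P B s u := by
  obtain ⟨C, hC0, hC⟩ := nS_ExtFL_le P (P.amp_chi B.κ) s
  refine ⟨C, hC0, fun N u => (hC _).trans (mul_le_mul_of_nonneg_left ?_ hC0)⟩
  exact nF_FNF_le s N _

/-- (F1) `J_N u → u` in every norm -/
theorem tendsto_JN (s : ℕ) (u : Sec B) :
    Tendsto (fun N => nS P B s (JN P B N u - u)) atTop (𝓝 0) := by
  obtain ⟨C, hC0, hC⟩ := nS_ExtFL_le P (P.amp_chi B.κ) s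
  have h := (tendsto_FNF (A := A) s (LocFL B (P.amp_psi B.κ) u)).const_mul C
  rw [mul_zero] at h
  refine squeeze_zero (fun _ => nS_nonneg _ _ _ _) (fun N => ?_) h
  have h1 : JN P B N u - u = ExtFL B (P.amp_chi B.κ)
      (FNF (A := A) B.κ N (LocFL B (P.amp_psi B.κ) u) - LocFL B (P.amp_psi B.κ) u) := by
    rw [map_sub, ExtFL_LocFL, JN_apply]
  rw [h1]
  exact hC _


end JN

/-! ### first order operators -/

namespace FOp

variable [Finite A.ι] (P : Part A) {B B' : FBun A} (T : FOp B B')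

theorem nS_sum_le {σ : Type*} (B : FBun A) (s : ℕ) (t : Finset σ) (u : σ → Sec B) :
    nS P B s (∑ i ∈ t, u i) ≤ ∑ i ∈ t, nS P B s (u i) := by
  classical
  induction t using Finset.induction_on with
  | empty => simp [nS_zero]
  | insert i t hi ih =>
    rw [Finset.sum_insert hi, Finset.sum_insert hi]
    exact (nS_add_le P B s _ _).trans (add_le_add le_rfl ih)

theorem nF_sum_le {σ κ : Type} [Fintype κ] (s : ℕ) (t : Finset σ)
    (f : σ → A.ι → κ → SPer (RI n)) :
    nF s (∑ i ∈ t, f i) ≤ ∑ i ∈ t, nF s (f i) := by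
  have := Fintype.ofFinite A.ι
  simp only [nF_eq]
  rw [Finset.sum_comm]
  refine Finset.sum_le_sum fun j _ => ?_
  rw [Finset.sum_apply]
  exact nv_sum_le s t _

theorem nF_pdv_le {κ : Type} [Fintype κ] (s : ℕ) (p : RI n) (f : A.ι → κ → SPer (RI n)) :
    nF s (fun j => pdv κ p (f j)) ≤ 2 * Real.pi * nF (s + 1) f := by
  have := Fintype.ofFinite A.ι
  rw [nF_eq, nF_eq, Finset.mul_sum]
  exact Finset.sum_le_sum fun j _ => nv_pdv_le s p (f j)

/-- a first order operator costs one derivative -/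
theorem nS_le (s : ℕ) : ∃ C, 0 ≤ C ∧ ∀ u : Sec B, nS P B' s (T.T u) ≤ C * nS P B (s + 1) u := by
  choose C1 h10 h1 using fun p => nF_LocF_le P (T.ampFR_a p (P.amp_psi B'.κ)) (s + 1)
  obtain ⟨C2, h20, h2⟩ := nF_LocF_le P (T.ampFR_b (P.amp_psi B'.κ)) s
  refine ⟨(∑ p, 2 * Real.pi * C1 p) + C2, add_nonneg (Finset.sum_nonneg fun p _ =>
    mul_nonneg (by positivity) (h10 p)) h20, fun u => ?_⟩
  have e : LocF B' (P.psi B'.κ) (T.T u).1 =
      (∑ p, fun j => pdv B'.κ p (LocF B (fun j x => P.psi B'.κ j x * T.a j p x) u.1 j)) +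
      LocF B (fun j x => P.psi B'.κ j x * T.b j x -
        ∑ p, pAmp A j p (fun y => P.psi B'.κ j y * T.a j p y) x) u.1 := by
    funext j
    rw [T.LocF_T (P.amp_psi B'.κ) u j, Pi.add_apply, Finset.sum_apply]
  show nF s (LocF B' (P.psi B'.κ) (T.T u).1) ≤ _
  rw [e, add_mul, Finset.sum_mul]
  refine (nF_add_le _ _ _).trans (add_le_add ((nF_sum_le _ _ _).trans
    (Finset.sum_le_sum fun p _ => ?_)) ((h2 u).trans ?_))
  · refine (nF_pdv_le s p _).trans ?_
    rw [mul_assoc (2 * Real.pi)]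
    exact mul_le_mul_of_nonneg_left (h1 p u) (by positivity)
  · exact mul_le_mul_of_nonneg_left (nS_mono P B (by omega) u) h20

/-- the amplitude `χ a^p` -/
theorem amp_ca (p : RI n) (j : A.ι) : IsAmp A j (fun x => P.chi B'.κ j x * T.a j p x) :=
  T.ampR_a p ((P.amp_chi B'.κ).amp j)

/-- the commutator of `T` with `J_N` -/
theorem comm_eq (N : ℕ) (u : Sec B) :
    T.T (JN P B N u) - JN P B' N (T.T u) =
      (∑ p, (ExtFL B' (P.amp_chi B'.κ) (fun j =>
          mulS (ampT (T.amp_ca P p j)) (pdv B.κ p (FNv B.κ n N (LocF B (P.psi B.κ) u.1 j))) -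
          FNv B'.κ n N (pdv B'.κ p (mulS (ampT (T.amp_ca P p j)) (LocF B (P.psi B.κ) u.1 j)))) -
        ExtFL B' (T.ampF_a p (P.amp_chi B.κ)) (fun j =>
          mulS (ampT (IsAmp.chi P B j)) (pdv B.κ p (FNv B.κ n N (LocF B (P.psi B.κ) u.1 j))) -
          FNv B.κ n N (pdv B.κ p (mulS (ampT (IsAmp.chi P B j))
            (LocF B (P.psi B.κ) u.1 j)))))) +
      (ExtFL B' (T.ampF_b (P.amp_chi B.κ)) (FNF (A := A) B.κ N (LocFL B (P.amp_psi B.κ) u)) -
        ExtFL B' (P.amp_chi B'.κ) (FNF (A := A) B'.κ N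
          (LocFL B (T.ampFR_b (P.amp_psi B'.κ)) u))) := by
  have := Fintype.ofFinite A.ι
  have hcolC : ∀ j x, ((P.χ j x : ℝ) : ℂ) * ((P.ψ j x : ℝ) : ℂ) = ((P.ψ j x : ℝ) : ℂ) := by
    intro j x; rw [← ofReal_mul, P.chi_mul_psi]
  set g : A.ι → B.κ → SPer (RI n) := LocF B (P.psi B.κ) u.1 with hg
  -- `X g = g`
  have hX : ∀ j, mulS (ampT (IsAmp.chi P B j)) (g j) = g j := by
    intro j
    show mulS _ (loc A j (P.psi B.κ j) (u.1 j)) = loc A j (P.psi B.κ j) (u.1 j)
    rw [mulS_loc (IsAmp.chi P B j) ((P.amp_psi B.κ).amp j) (u.2.1 j)]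
    congr 1
    funext x
    simp only [Part.psi, Part.chi, Matrix.smul_mul, Matrix.one_mul, smul_smul]
    rw [hcolC]
  -- `C g = Loc (ψ a) u`
  have hC : ∀ p j, mulS (ampT (T.amp_ca P p j)) (g j) =
      LocF B (fun j x => P.psi B'.κ j x * T.a j p x) u.1 j := by
    intro p j
    show mulS _ (loc A j (P.psi B.κ j) (u.1 j)) = loc A j (fun x => P.psi B'.κ j x * T.a j p x)
      (u.1 j)
    rw [mulS_loc (T.amp_ca P p j) ((P.amp_psi B.κ).amp j) (u.2.1 j)]
    congr 1
    funext x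
    simp only [Part.psi, Part.chi, Matrix.smul_mul, Matrix.one_mul, Matrix.mul_smul,
      Matrix.mul_one, smul_smul]
    rw [mul_comm, hcolC]
  -- `Ext(χ) C = Ext(a χ) X`
  have hE : ∀ p (f : A.ι → B.κ → SPer (RI n)),
      ExtFL B' (P.amp_chi B'.κ) (fun j => mulS (ampT (T.amp_ca P p j)) (f j)) =
      ExtFL B' (T.ampF_a p (P.amp_chi B.κ)) (fun j => mulS (ampT (IsAmp.chi P B j)) (f j)) := by
    intro p f
    apply Subtype.ext
    show ExtF B' (P.chi B'.κ) (fun j => mulS (ampT (T.amp_ca P p j)) (f j)) =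
      ExtF B' (fun j x => T.a j p x * P.chi B.κ j x)
        (fun j => mulS (ampT (IsAmp.chi P B j)) (f j))
    rw [ExtF_mulS B' (b := P.chi B'.κ) (c := fun j x => P.chi B'.κ j x * T.a j p x)
      (fun j => T.amp_ca P p j), ExtF_mulS B' (b := fun j x => T.a j p x * P.chi B.κ j x)
      (c := P.chi B.κ) (fun j => IsAmp.chi P B j)]
    congr 1
    funext j x
    simp only [Part.chi, Matrix.smul_mul, Matrix.one_mul, Matrix.mul_smul, Matrix.mul_one]
  have e1 : T.T (JN P B N u) = (∑ p, ExtFL B' (T.ampF_a p (P.amp_chi B.κ))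
      (fun j => pdv B.κ p (FNv B.κ n N (g j)))) +
      ExtFL B' (T.ampF_b (P.amp_chi B.κ)) (FNF (A := A) B.κ N (LocFL B (P.amp_psi B.κ) u)) := by
    rw [JN_apply, T.T_ExtFL]
    rfl
  have e2 : JN P B' N (T.T u) = (∑ p, ExtFL B' (P.amp_chi B'.κ)
      (fun j => FNv B'.κ n N (pdv B'.κ p (mulS (ampT (T.amp_ca P p j)) (g j))))) +
      ExtFL B' (P.amp_chi B'.κ) (FNF (A := A) B'.κ N
          (LocFL B (T.ampFR_b (P.amp_psi B'.κ)) u)) := by
    rw [JN_apply]
    have h1 : FNF (A := A) B'.κ N (LocFL B' (P.amp_psi B'.κ) (T.T u)) =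
        (∑ p, fun j => FNv B'.κ n N (pdv B'.κ p (mulS (ampT (T.amp_ca P p j)) (g j)))) +
        FNF (A := A) B'.κ N (LocFL B (T.ampFR_b (P.amp_psi B'.κ)) u) := by
      funext j
      rw [Pi.add_apply, Finset.sum_apply, FNF_apply, FNF_apply]
      have h2 : LocFL B' (P.amp_psi B'.κ) (T.T u) j = _ := T.LocF_T (P.amp_psi B'.κ) u j
      rw [h2, map_add, map_sum]
      simp only [hC]
      rfl
    rw [h1, map_add, map_sum]
  rw [e1, e2]
  have e3 : ∀ p, ExtFL B' (P.amp_chi B'.κ) (fun j =>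
          mulS (ampT (T.amp_ca P p j)) (pdv B.κ p (FNv B.κ n N (g j))) -
          FNv B'.κ n N (pdv B'.κ p (mulS (ampT (T.amp_ca P p j)) (g j)))) =
      ExtFL B' (P.amp_chi B'.κ) (fun j =>
          mulS (ampT (T.amp_ca P p j)) (pdv B.κ p (FNv B.κ n N (g j)))) -
      ExtFL B' (P.amp_chi B'.κ) (fun j =>
          FNv B'.κ n N (pdv B'.κ p (mulS (ampT (T.amp_ca P p j)) (g j)))) := by
    intro p
    rw [← map_sub]
    rfl
  have e4 : ∀ p, ExtFL B' (T.ampF_a p (P.amp_chi B.κ)) (fun j =>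
          mulS (ampT (IsAmp.chi P B j)) (pdv B.κ p (FNv B.κ n N (g j))) -
          FNv B.κ n N (pdv B.κ p (mulS (ampT (IsAmp.chi P B j)) (g j)))) =
      ExtFL B' (T.ampF_a p (P.amp_chi B.κ)) (fun j =>
          mulS (ampT (IsAmp.chi P B j)) (pdv B.κ p (FNv B.κ n N (g j)))) -
      ExtFL B' (T.ampF_a p (P.amp_chi B.κ)) (fun j => pdv B.κ p (FNv B.κ n N (g j))) := by
    intro p
    rw [← map_sub]
    congr 1
    funext j
    rw [Pi.sub_apply, hX, pdv_FNv]
  have e5 : (∑ p, (ExtFL B' (P.amp_chi B'.κ) (fun j =>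
          mulS (ampT (T.amp_ca P p j)) (pdv B.κ p (FNv B.κ n N (g j))) -
          FNv B'.κ n N (pdv B'.κ p (mulS (ampT (T.amp_ca P p j)) (g j)))) -
        ExtFL B' (T.ampF_a p (P.amp_chi B.κ)) (fun j =>
          mulS (ampT (IsAmp.chi P B j)) (pdv B.κ p (FNv B.κ n N (g j))) -
          FNv B.κ n N (pdv B.κ p (mulS (ampT (IsAmp.chi P B j)) (g j)))))) =
      (∑ p, ExtFL B' (T.ampF_a p (P.amp_chi B.κ)) (fun j => pdv B.κ p (FNv B.κ n N (g j)))) -
      ∑ p, ExtFL B' (P.amp_chi B'.κ) (fun j =>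
          FNv B'.κ n N (pdv B'.κ p (mulS (ampT (T.amp_ca P p j)) (g j)))) := by
    rw [← Finset.sum_sub_distrib]
    refine Finset.sum_congr rfl fun p _ => ?_
    rw [e3, e4, hE]
    abel
  rw [e5]
  abel

/-- (F2b) **the commutators `[T, J_N]` are bounded in `L²`, uniformly in `N`** -/
theorem comm_le : ∃ C, 0 ≤ C ∧ ∀ (N : ℕ) (u : Sec B),
    nS P B' 0 (T.T (JN P B N u) - JN P B' N (T.T u)) ≤ C * nS P B 0 u := by
  have := Fintype.ofFinite A.ι
  obtain ⟨C1, h10, h1⟩ := nS_ExtFL_le P (P.amp_chi B'.κ) 0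
  choose C2 h20 h2 using fun p => nS_ExtFL_le P (T.ampF_a p (P.amp_chi B.κ)) 0
  obtain ⟨C3, h30, h3⟩ := nS_ExtFL_le P (T.ampF_b (P.amp_chi B.κ)) 0
  obtain ⟨C4, h40, h4⟩ := nF_LocF_le P (T.ampFR_b (P.amp_psi B'.κ)) 0
  choose D1 d10 d1 using fun (p : RI n) (j : A.ι) => nv_commD_le (ampT (T.amp_ca P p j)) p
  choose D2 d20 d2 using fun (p : RI n) (j : A.ι) => nv_commD_le (ampT (IsAmp.chi P B j)) p
  refine ⟨(∑ p, (C1 * ∑ j, D1 p j + C2 p * ∑ j, D2 p j)) + (C3 + C1 * C4), ?_, fun N u => ?_⟩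
  · refine add_nonneg (Finset.sum_nonneg fun p _ => add_nonneg ?_ ?_) (by positivity)
    · exact mul_nonneg h10 (Finset.sum_nonneg fun j _ => d10 p j)
    · exact mul_nonneg (h20 p) (Finset.sum_nonneg fun j _ => d20 p j)
  rw [T.comm_eq P N u, add_mul, add_mul, Finset.sum_mul]
  refine (nS_add_le P B' 0 _ _).trans (add_le_add ((nS_sum_le P B' 0 _ _).trans
    (Finset.sum_le_sum fun p _ => ?_)) ((nS_sub_le P B' 0 _ _).trans (add_le_add ?_ ?_)))
  · rw [add_mul, mul_assoc, mul_assoc]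
    refine (nS_sub_le P B' 0 _ _).trans (add_le_add ((h1 _).trans ?_) ((h2 p _).trans ?_))
    · refine mul_le_mul_of_nonneg_left ?_ h10
      rw [nF_eq, Finset.sum_mul]
      refine Finset.sum_le_sum fun j _ => (d1 p j N _).trans ?_
      exact mul_le_mul_of_nonneg_left (nv_le_nF 0 _ j) (d10 p j)
    · refine mul_le_mul_of_nonneg_left ?_ (h20 p)
      rw [nF_eq, Finset.sum_mul]
      refine Finset.sum_le_sum fun j _ => (d2 p j N _).trans ?_
      exact mul_le_mul_of_nonneg_left (nv_le_nF 0 _ j) (d20 p j)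
  · exact (h3 _).trans (mul_le_mul_of_nonneg_left (nF_FNF_le 0 N _) h30)
  · refine (h1 _).trans ?_
    rw [mul_assoc]
    exact mul_le_mul_of_nonneg_left ((nF_FNF_le 0 N _).trans (h4 u)) h10

/-- (F2) **the commutators `[T, J_N]` tend to zero** -/
theorem tendsto_comm (s : ℕ) (u : Sec B) :
    Tendsto (fun N => nS P B' s (T.T (JN P B N u) - JN P B' N (T.T u))) atTop (𝓝 0) := by
  obtain ⟨C, hC0, hC⟩ := T.nS_le P s
  have h1 := (tendsto_JN P B (s + 1) u).const_mul C
  have h2 := h1.add (tendsto_JN P B' s (T.T u))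
  rw [mul_zero, add_zero] at h2
  refine squeeze_zero (fun _ => nS_nonneg _ _ _ _) (fun N => ?_) h2
  have h3 : T.T (JN P B N u) - JN P B' N (T.T u) =
      T.T (JN P B N u - u) - (JN P B' N (T.T u) - T.T u) := by
    rw [map_sub]; abel
  rw [h3]
  exact (nS_sub_le P B' s _ _).trans (add_le_add (hC _) le_rfl)

end FOp

end

end Crest.Agent.R273.Mol_106
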