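import Crest.Agent.R273.OTA_34
import Crest.Agent.R273.TwE_34
import Crest.Agent.R271.Bd2_741
import Crest.Agent.R276.EngU_29

-- ▼ part R273/OTB_34
section

/-!
# Row 273, Ohsawa–Takegoshi: the twisting functions and the curvature estimate (helper34)

`σ = A - t`, `η = σ + log σ`, `ψ = - log η`, `q = 1 + 4(σ+1)²/η`, `t = log (|h|² e^{-Ψ} + ε²)`:
`Bt c W ψ q ≥ (1/η) E |β|²/u²`.
-/

set_option autoImplicit false
set_option linter.unusedSectionVars false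

noncomputable section

open Set Filter Topology ComplexConjugate

namespace Crest.Agent.R273.OTB_34

open Crest.Agent.R271.Ho51 Crest.Agent.R271 Crest.Agent.R273.OTA_34 Crest.Agent.R273.TwA_34

/-! ### one variable -/

/-- `η(t) = σ + log σ`, `σ = A - t` -/
def et (A t : ℝ) : ℝ := (A - t) + Real.log (A - t)

/-- `ψ(t) = - log η` -/
def gg (A t : ℝ) : ℝ := -Real.log (et A t)

/-- `ψ'` -/
def gg1 (A t : ℝ) : ℝ := (1 + (A - t)⁻¹) / et A t

/-- `ψ''` -/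
def gg2 (A t : ℝ) : ℝ := ((A - t)⁻¹) ^ 2 / et A t + (1 + (A - t)⁻¹) ^ 2 / (et A t) ^ 2

lemma et_ge {A t : ℝ} (h : 1 ≤ A - t) : A - t ≤ et A t := by
  unfold et
  have := Real.log_nonneg h
  linarith

lemma et_pos {A t : ℝ} (h : 1 ≤ A - t) : 0 < et A t := by
  have := et_ge h
  linarith

lemma et_le {A t : ℝ} (h : 1 ≤ A - t) : et A t ≤ 2 * (A - t) := by
  unfold et
  have := Real.log_le_sub_one_of_pos (show 0 < A - t by linarith)
  linarith

lemma hasDerivAt_sub (A t : ℝ) : HasDerivAt (fun t : ℝ => A - t) (-1) t := by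
  simpa using (hasDerivAt_id t).const_sub A

lemma hasDerivAt_inv_sub {A t : ℝ} (h : 1 ≤ A - t) :
    HasDerivAt (fun t : ℝ => (A - t)⁻¹) (((A - t)⁻¹) ^ 2) t := by
  have h0 : (A - t) ≠ 0 := by intro h'; linarith
  have h1 := (hasDerivAt_sub A t).inv h0
  rw [neg_neg, one_div, ← inv_pow] at h1
  exact h1

lemma hasDerivAt_et {A t : ℝ} (h : 1 ≤ A - t) : HasDerivAt (et A) (-(1 + (A - t)⁻¹)) t := by
  have h0 : (A - t) ≠ 0 := by intro h'; linarith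
  have h1 := (hasDerivAt_sub A t).add ((hasDerivAt_sub A t).log h0)
  have h2 : HasDerivAt (et A) (-1 + -1 / (A - t)) t := h1
  convert h2 using 1
  field_simp
  ring

lemma hasDerivAt_gg {A t : ℝ} (h : 1 ≤ A - t) : HasDerivAt (gg A) (gg1 A t) t := by
  have h1 := ((hasDerivAt_et h).log (et_pos h).ne').neg
  have h2 : HasDerivAt (gg A) (-(-(1 + (A - t)⁻¹) / et A t)) t := h1
  convert h2 using 1
  unfold gg1
  ring

lemma hasDerivAt_gg1 {A t : ℝ} (h : 1 ≤ A - t) : HasDerivAt (gg1 A) (gg2 A t) t := by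
  have h1 := ((hasDerivAt_inv_sub h).const_add 1).div (hasDerivAt_et h) (et_pos h).ne'
  have h2 : HasDerivAt (gg1 A) ((((A - t)⁻¹) ^ 2 * et A t -
    (1 + (A - t)⁻¹) * -(1 + (A - t)⁻¹)) / (et A t) ^ 2) t := h1
  convert h2 using 1
  unfold gg2
  have := et_pos h
  field_simp
  ring

lemma contDiffAt_et {A t : ℝ} (h : 1 ≤ A - t) : ContDiffAt ℝ (⊤ : ℕ∞) (et A) t := by
  have h0 : (A - t) ≠ 0 := by intro h'; linarith
  unfold et
  exact (contDiffAt_const.sub contDiffAt_id).add ((contDiffAt_const.sub contDiffAt_id).log h0)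

lemma contDiffAt_gg {A t : ℝ} (h : 1 ≤ A - t) : ContDiffAt ℝ (⊤ : ℕ∞) (gg A) t := by
  unfold gg
  exact ((contDiffAt_et h).log (et_pos h).ne').neg

lemma contDiffAt_gg1 {A t : ℝ} (h : 1 ≤ A - t) : ContDiffAt ℝ (⊤ : ℕ∞) (gg1 A) t := by
  have h0 : (A - t) ≠ 0 := by intro h'; linarith
  unfold gg1
  exact (contDiffAt_const.add ((contDiffAt_const.sub contDiffAt_id).inv h0)).div
    (contDiffAt_et h) (et_pos h).ne'

/-- `q` -/
def qt (A t : ℝ) : ℝ := 1 + 4 * (A - t + 1) ^ 2 / et A t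

lemma contDiffAt_qt {A t : ℝ} (h : 1 ≤ A - t) : ContDiffAt ℝ (⊤ : ℕ∞) (qt A) t := by
  unfold qt
  exact contDiffAt_const.add ((contDiffAt_const.mul
    (((contDiffAt_const.sub contDiffAt_id).add contDiffAt_const).pow 2)).div
    (contDiffAt_et h) (et_pos h).ne')

lemma qt_ge {A t : ℝ} (h : 1 ≤ A - t) : 2 ≤ qt A t := by
  have h1 := et_le h
  have h2 := et_pos h
  have h3 : 1 ≤ 4 * (A - t + 1) ^ 2 / et A t := by
    rw [le_div_iff₀ h2]
    nlinarith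
  unfold qt
  linarith

lemma et_qt {A t : ℝ} (h : 1 ≤ A - t) : et A t * qt A t ≤ 6 * (A - t + 1) ^ 2 := by
  have h1 := et_le h
  have h2 := et_pos h
  have h3 : et A t * qt A t = et A t + 4 * (A - t + 1) ^ 2 := by
    unfold qt
    field_simp
  rw [h3]
  nlinarith

/-- the real inequality behind the curvature estimate -/
lemma real_ineq {σ η a c L LW P X r : ℝ} (hσ : 1 ≤ σ) (hη : σ ≤ η) (ha : 2 / σ ≤ a)
    (hL : 0 ≤ L) (hW : a * L ≤ LW) (hP : 0 ≤ P) (hX : 0 ≤ X) (hr0 : 0 ≤ r) (hr1 : r ≤ 1)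
    (hc2 : c ≤ 2) (hc : (c - 1) * (2 * (σ + 1) ^ 2) ≤ η) :
    X / η ≤ LW + ((σ⁻¹ ^ 2 / η + (1 + σ⁻¹) ^ 2 / η ^ 2) * P + ((1 + σ⁻¹) / η) * (-r * L + X)) -
      c * ((1 + 4 * (σ + 1) ^ 2 / η) / (1 + 4 * (σ + 1) ^ 2 / η - 1)) *
        (((1 + σ⁻¹) / η) ^ 2 * P) := by
  have hσ0 : 0 < σ := by linarith
  have hη0 : 0 < η := by linarith
  have hs1 : 0 < σ + 1 := by linarith
  have e1 : (1 + 4 * (σ + 1) ^ 2 / η) / (1 + 4 * (σ + 1) ^ 2 / η - 1) =
      1 + η / (4 * (σ + 1) ^ 2) := by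
    field_simp
    ring
  rw [e1]
  have e2 : (σ⁻¹ ^ 2 / η + (1 + σ⁻¹) ^ 2 / η ^ 2) * P -
      c * (1 + η / (4 * (σ + 1) ^ 2)) * (((1 + σ⁻¹) / η) ^ 2 * P) =
      (η - (c - 1) * (σ + 1) ^ 2 - c * η / 4) / (σ ^ 2 * η ^ 2) * P := by
    field_simp
    ring
  have h1 : 0 ≤ (η - (c - 1) * (σ + 1) ^ 2 - c * η / 4) / (σ ^ 2 * η ^ 2) * P := by
    apply mul_nonneg _ hP
    apply div_nonneg _ (by positivity)
    nlinarith
  have h2 : (1 + σ⁻¹) / η ≤ a := by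
    refine le_trans ?_ ha
    rw [div_le_div_iff₀ hη0 hσ0]
    have : (1 + σ⁻¹) * σ = σ + 1 := by field_simp
    nlinarith
  have h3 : 0 ≤ (1 + σ⁻¹) / η := by positivity
  have h4 : ((1 + σ⁻¹) / η) * (r * L) ≤ LW := by
    calc ((1 + σ⁻¹) / η) * (r * L) ≤ a * (1 * L) := by
          apply mul_le_mul h2 (mul_le_mul_of_nonneg_right hr1 hL) (by positivity)
          exact h3.trans h2
      _ ≤ LW := by linarith
  have h5 : X / η ≤ ((1 + σ⁻¹) / η) * X := by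
    rw [div_mul_eq_mul_div]
    apply div_le_div_of_nonneg_right _ hη0.le
    have : 0 ≤ σ⁻¹ := by positivity
    nlinarith
  nlinarith

/-! ### on the Riemann domain -/

variable {n : ℕ} {M : Type*} [TopologicalSpace M] [RDom n M] {h : M → ℂ} {Ψ W : M → ℝ}
  {ε A a c : ℝ}

/-- the twisting function `ψ` -/
def ps (A : ℝ) (h : M → ℂ) (Ψ : M → ℝ) (ε : ℝ) (x : M) : ℝ := gg A (tt h Ψ ε x)

/-- the twisting function `q` -/
def qs (A : ℝ) (h : M → ℂ) (Ψ : M → ℝ) (ε : ℝ) (x : M) : ℝ := qt A (tt h Ψ ε x)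

lemma exp_tt (hε : 0 < ε) (x : M) :
    Real.exp (tt h Ψ ε x) = ‖h x‖ ^ 2 * Real.exp (-Ψ x) + ε ^ 2 := by
  unfold tt
  rw [Real.exp_sub, Real.exp_log (uu_pos hε x), Real.exp_neg]
  unfold uu
  have := Real.exp_pos (Ψ x)
  field_simp

lemma tt_le (hε : 0 < ε) (hε1 : ε ≤ 1) (hs : ∀ x, ‖h x‖ ^ 2 ≤ Real.exp (Ψ x)) (x : M) :
    tt h Ψ ε x ≤ 1 := by
  have h1 := exp_tt (h := h) (Ψ := Ψ) hε x
  have h2 : ‖h x‖ ^ 2 * Real.exp (-Ψ x) ≤ 1 := by
    rw [Real.exp_neg, ← div_eq_mul_inv]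
    exact (div_le_one (Real.exp_pos _)).2 (hs x)
  have h3 : Real.exp (tt h Ψ ε x) ≤ Real.exp 1 := by
    have : (2 : ℝ) ≤ Real.exp 1 := by
      have := Real.add_one_le_exp 1; linarith
    nlinarith
  exact Real.exp_le_exp.1 h3

lemma le_tt (hε : 0 < ε) (x : M) : Real.log (ε ^ 2) ≤ tt h Ψ ε x := by
  have h1 := exp_tt (h := h) (Ψ := Ψ) hε x
  rw [← Real.exp_le_exp, h1, Real.exp_log (by positivity)]
  have : 0 ≤ ‖h x‖ ^ 2 * Real.exp (-Ψ x) := by positivity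
  linarith

lemma sm_ps (hh : Sm h) (hΨ : Sm Ψ) (hε : 0 < ε) (hA : ∀ x, 1 ≤ A - tt h Ψ ε x) :
    Sm (ps A h Ψ ε) := Sm.comp_at (g := gg A) (sm_tt hh hΨ hε) fun x => contDiffAt_gg (hA x)

lemma sm_qs (hh : Sm h) (hΨ : Sm Ψ) (hε : 0 < ε) (hA : ∀ x, 1 ≤ A - tt h Ψ ε x) :
    Sm (qs A h Ψ ε) := Sm.comp_at (g := qt A) (sm_tt hh hΨ hε) fun x => contDiffAt_qt (hA x)

lemma lev_ps (hh : W792.Hol h) (hΨ : Sm Ψ) (hε : 0 < ε) (hA : ∀ x, 1 < A - tt h Ψ ε x)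
    (x : M) (w : Fin n → ℂ) :
    W792.lev (ps A h Ψ ε) x w = gg2 A (tt h Ψ ε x) * ‖pz (tt h Ψ ε) x w‖ ^ 2 +
      gg1 A (tt h Ψ ε x) * W792.lev (tt h Ψ ε) x w := by
  have hev : ∀ᶠ t in 𝓝 (tt h Ψ ε x), 1 < A - t :=
    (continuous_const.sub continuous_id).continuousAt.eventually_const_lt (hA x)
  have h1 := W792.lev_comp (g := gg A) (g' := gg1 A) (g'' := gg2 A (tt h Ψ ε x))
    (sm_tt hh.sm hΨ hε) x (hev.mono fun t ht => hasDerivAt_gg ht.le)
    (hasDerivAt_gg1 (hA x).le) w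
    (Sm.comp_at (g := gg1 A) (sm_tt hh.sm hΨ hε) fun y => contDiffAt_gg1 (hA y).le)
  rw [← dsq_eq]
  exact h1

lemma pz_ps (hh : W792.Hol h) (hΨ : Sm Ψ) (hε : 0 < ε) (hA : ∀ x, 1 < A - tt h Ψ ε x)
    (x : M) (w : Fin n → ℂ) :
    pz (ps A h Ψ ε) x w = (gg1 A (tt h Ψ ε x) : ℝ) * pz (tt h Ψ ε) x w :=
  pz_comp (sm_tt hh.sm hΨ hε) x (hasDerivAt_gg (hA x).le) w

/-- **curvature estimate** -/
theorem Bt_ge (hh : W792.Hol h) (hΨ : Sm Ψ) (hW : Sm W) (hε : 0 < ε)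
    (hA : ∀ x, 1 < A - tt h Ψ ε x) (hAa : ∀ x, 2 ≤ a * (A - tt h Ψ ε x))
    (hΨ0 : ∀ x w, 0 ≤ W792.lev Ψ x w) (hWΨ : ∀ x w, a * W792.lev Ψ x w ≤ W792.lev W x w)
    (hc2 : c ≤ 2) (hc : ∀ x, (c - 1) * (2 * (A - tt h Ψ ε x + 1) ^ 2) ≤ et A (tt h Ψ ε x))
    (x : M) (w : Fin n → ℂ) :
    (ε ^ 2 * Real.exp (Ψ x)) * ‖bb h Ψ x w‖ ^ 2 / (uu h Ψ ε x) ^ 2 / et A (tt h Ψ ε x) ≤
      Bt c W (ps A h Ψ ε) (qs A h Ψ ε) x w := by
  have hps : Sm (ps A h Ψ ε) := sm_ps hh.sm hΨ hε fun x => (hA x).le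
  have hσ := (hA x).le
  have hσ0 : 0 < A - tt h Ψ ε x := by linarith
  have hu := uu_pos (h := h) (Ψ := Ψ) hε x
  have h1 := real_ineq (σ := A - tt h Ψ ε x) (η := et A (tt h Ψ ε x)) (a := a) (c := c)
    (L := W792.lev Ψ x w) (LW := W792.lev W x w) (P := ‖pz (tt h Ψ ε) x w‖ ^ 2)
    (X := (ε ^ 2 * Real.exp (Ψ x)) * ‖bb h Ψ x w‖ ^ 2 / (uu h Ψ ε x) ^ 2)
    (r := ‖h x‖ ^ 2 / uu h Ψ ε x) hσ (et_ge hσ)
    (by rw [div_le_iff₀ hσ0]; exact hAa x) (hΨ0 x w) (hWΨ x w) (by positivity) (by positivity)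
    (by positivity) (by
      rw [div_le_one hu]
      unfold uu
      have : 0 ≤ ε ^ 2 * Real.exp (Ψ x) := by positivity
      linarith) hc2 (hc x)
  refine h1.trans (le_of_eq ?_)
  unfold Bt
  rw [W792.Levi_eq_lev (hW.add hps), W792.lev_add hW hps, lev_ps hh hΨ hε hA, lev_tt hh hΨ hε,
    sum_dz hps, pz_ps hh hΨ hε hA, norm_mul, mul_pow, Complex.norm_real, Real.norm_eq_abs, sq_abs]
  rfl

end Crest.Agent.R273.OTB_34
end
end

-- ▼ part R273/OTC_34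
section

/-!
# Row 273, Ohsawa–Takegoshi: the cut-off function and the application of the engine (helper34)
-/

set_option autoImplicit false
set_option linter.unusedSectionVars false

noncomputable section

open Set Filter Topology ComplexConjugate MeasureTheory
open scoped ENNReal

namespace Crest.Agent.R273.OTC_34

open Crest.Agent.R271.Ho51 Crest.Agent.R271 Crest.Agent.R273.OTA_34 Crest.Agent.R273.TwA_34
  Crest.Agent.R273.OTB_34

/-- bound for the derivative of the smooth transition -/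
def Cst : ℝ := (H868.exists_deriv_st_bound).choose

lemma Cst_nonneg : 0 ≤ Cst := (H868.exists_deriv_st_bound).choose_spec.1

lemma deriv_st_sq (t : ℝ) : (deriv Real.smoothTransition t) ^ 2 ≤ Cst :=
  (H868.exists_deriv_st_bound).choose_spec.2.1 t

lemma deriv_st_zero {t : ℝ} (ht : 1 < t) : deriv Real.smoothTransition t = 0 := by
  have : Real.smoothTransition =ᶠ[𝓝 t] fun _ => 1 := by
    filter_upwards [lt_mem_nhds ht] with s hs
    exact Real.smoothTransition.one_of_one_le (le_of_lt hs)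
  rw [this.deriv_eq]; simp

/-- the cut-off function of `t` -/
def vt (ε t : ℝ) : ℝ := 1 - Real.smoothTransition (Real.exp t / ε ^ 2 - 1)

/-- its derivative -/
def vt1 (ε t : ℝ) : ℝ :=
  -(deriv Real.smoothTransition (Real.exp t / ε ^ 2 - 1) * (Real.exp t / ε ^ 2))

lemma contDiff_vt (ε : ℝ) : ContDiff ℝ (⊤ : ℕ∞) (vt ε) := by
  unfold vt
  exact contDiff_const.sub (Real.smoothTransition.contDiff.comp
    (((Real.contDiff_exp.of_le le_top).div_const _).sub contDiff_const))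

lemma hasDerivAt_vt (ε t : ℝ) : HasDerivAt (vt ε) (vt1 ε t) t := by
  have hst : ContDiff ℝ (⊤ : ℕ∞) Real.smoothTransition := Real.smoothTransition.contDiff
  have h1 : HasDerivAt Real.smoothTransition
      (deriv Real.smoothTransition (Real.exp t / ε ^ 2 - 1)) (Real.exp t / ε ^ 2 - 1) :=
    (hst.differentiable (by simp) _).hasDerivAt
  have h2 : HasDerivAt (fun t : ℝ => Real.exp t / ε ^ 2 - 1) (Real.exp t / ε ^ 2) t :=
    ((Real.hasDerivAt_exp t).div_const _).sub_const _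
  exact (HasDerivAt.comp t h1 h2).const_sub 1

lemma vt_mem (ε t : ℝ) : 0 ≤ vt ε t ∧ vt ε t ≤ 1 := by
  have h1 := Real.smoothTransition.nonneg (Real.exp t / ε ^ 2 - 1)
  have h2 := Real.smoothTransition.le_one (Real.exp t / ε ^ 2 - 1)
  unfold vt
  constructor <;> linarith

variable {n : ℕ} {M : Type*} [TopologicalSpace M] [RDom n M] {h f : M → ℂ} {Ψ Φ : M → ℝ}
  {ε A a c δ : ℝ}

lemma arg_eq (hε : 0 < ε) (x : M) :
    Real.exp (tt h Ψ ε x) / ε ^ 2 - 1 = ‖h x‖ ^ 2 * Real.exp (-Ψ x) / ε ^ 2 := by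
  rw [exp_tt hε]
  have : ε ≠ 0 := hε.ne'
  field_simp
  ring

lemma vt_eq_zero (hε : 0 < ε) {x : M} (hx : ¬ (‖h x‖ ^ 2 ≤ ε ^ 2 * Real.exp (Ψ x))) :
    vt ε (tt h Ψ ε x) = 0 := by
  unfold vt
  rw [arg_eq hε, Real.smoothTransition.one_of_one_le, sub_self]
  push Not at hx
  rw [le_div_iff₀ (by positivity), Real.exp_neg, ← div_eq_mul_inv, le_div_iff₀ (Real.exp_pos _)]
  linarith

lemma vt1_eq_zero (hε : 0 < ε) {x : M} (hx : ¬ (‖h x‖ ^ 2 ≤ ε ^ 2 * Real.exp (Ψ x))) :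
    vt1 ε (tt h Ψ ε x) = 0 := by
  unfold vt1
  rw [arg_eq hε, deriv_st_zero, zero_mul, neg_zero]
  push Not at hx
  rw [lt_div_iff₀ (by positivity), Real.exp_neg, ← div_eq_mul_inv, lt_div_iff₀ (Real.exp_pos _)]
  linarith

lemma vt1_sq_le (hε : 0 < ε) {x : M} (hx : ‖h x‖ ^ 2 ≤ ε ^ 2 * Real.exp (Ψ x)) :
    vt1 ε (tt h Ψ ε x) ^ 2 ≤ 4 * Cst := by
  have h1 : Real.exp (tt h Ψ ε x) / ε ^ 2 ≤ 2 := by
    have := arg_eq (h := h) (Ψ := Ψ) hε x
    have h2 : ‖h x‖ ^ 2 * Real.exp (-Ψ x) / ε ^ 2 ≤ 1 := by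
      rw [div_le_one (by positivity), Real.exp_neg, ← div_eq_mul_inv, div_le_iff₀ (Real.exp_pos _)]
      exact hx
    linarith
  have h2 : 0 ≤ Real.exp (tt h Ψ ε x) / ε ^ 2 := by positivity
  unfold vt1
  rw [neg_sq, mul_pow]
  have h3 := deriv_st_sq (Real.exp (tt h Ψ ε x) / ε ^ 2 - 1)
  have h4 : (Real.exp (tt h Ψ ε x) / ε ^ 2) ^ 2 ≤ 4 := by nlinarith
  calc _ ≤ Cst * 4 := mul_le_mul h3 h4 (by positivity) Cst_nonneg
    _ = 4 * Cst := by ring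

lemma vt_zero (hε : 0 < ε) {x : M} (hx : h x = 0) : vt ε (tt h Ψ ε x) = 1 := by
  unfold vt
  rw [arg_eq hε, hx]
  simp

/-- the smooth extension `G = ϑ f` -/
def GG (h f : M → ℂ) (Ψ : M → ℝ) (ε : ℝ) (x : M) : ℂ := ((vt ε (tt h Ψ ε x) : ℝ) : ℂ) * f x

lemma sm_vt (hh : Sm h) (hΨ : Sm Ψ) (hε : 0 < ε) : Sm (fun x => vt ε (tt h Ψ ε x)) :=
  Sm.comp (contDiff_vt ε) (sm_tt hh hΨ hε)

lemma sm_GG (hh : Sm h) (hf : Sm f) (hΨ : Sm Ψ) (hε : 0 < ε) : Sm (GG h f Ψ ε) :=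
  (sm_vt hh hΨ hε).ofReal.mul hf

lemma sum_db_GG (hh : Sm h) (hf : W792.Hol f) (hΨ : Sm Ψ) (hε : 0 < ε) (x : M) (w : Fin n → ℂ) :
    ∑ j, db j (GG h f Ψ ε) x * conj (w j) =
      f x * (vt1 ε (tt h Ψ ε x) : ℝ) * conj (pz (tt h Ψ ε) x w) := by
  have ht := sm_tt hh hΨ hε
  have h1 : ∀ j, db j (GG h f Ψ ε) x =
      (vt1 ε (tt h Ψ ε x) : ℝ) * conj (dz j (fun y => (tt h Ψ ε y : ℂ)) x) * f x := by
    intro j
    unfold GG
    rw [db_mul (sm_vt hh hΨ hε).ofReal hf.sm, db_hol hf, mul_zero, add_zero,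
      db_comp_real ht (sm_vt hh hΨ hε) x (hasDerivAt_vt ε _), db_ofReal ht]
  simp only [h1]
  rw [← sum_dz ht, map_sum, Finset.mul_sum]
  refine Finset.sum_congr rfl fun j _ => ?_
  rw [map_mul]
  ring

/-- the constant `κ` -/
def kk (A : ℝ) (h f : M → ℂ) (Ψ : M → ℝ) (ε : ℝ) (x : M) : ℝ :=
  ‖f x‖ ^ 2 * vt1 ε (tt h Ψ ε x) ^ 2 * ‖h x‖ ^ 2 * et A (tt h Ψ ε x) /
    (ε ^ 2 * Real.exp (Ψ x))

/-- the regularised singular weight -/
def Wd (h : M → ℂ) (Φ : M → ℝ) (δ : ℝ) (x : M) : ℝ := Φ x + Real.log (‖h x‖ ^ 2 + δ ^ 2)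

lemma sm_Wd (hh : Sm h) (hΦ : Sm Φ) (hδ : 0 < δ) : Sm (Wd h Φ δ) :=
  hΦ.add (sm_log ((W792.Hol.sm_normSq hh).add (Sm.const (δ ^ 2))) fun x => by positivity)

lemma lev_Wd (hh : W792.Hol h) (hΦ : Sm Φ) (hδ : 0 < δ) (x : M) (w : Fin n → ℂ) :
    W792.lev Φ x w ≤ W792.lev (Wd h Φ δ) x w := by
  have hu : Sm (fun x => ‖h x‖ ^ 2 + δ ^ 2) := (W792.Hol.sm_normSq hh.sm).add (Sm.const (δ ^ 2))
  have hu0 : ∀ x, 0 < ‖h x‖ ^ 2 + δ ^ 2 := fun x => by positivity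
  unfold Wd
  rw [W792.lev_add hΦ (sm_log hu hu0), lev_log hu hu0,
    W792.lev_add (W792.Hol.sm_normSq hh.sm) (Sm.const (δ ^ 2)), W792.lev_const,
    W792.lev_normSq hh, pz_add (W792.Hol.sm_normSq hh.sm) (Sm.const (δ ^ 2)), pz_normSq hh]
  have h2 : pz (fun _ : M => δ ^ 2) x w = 0 := by
    unfold pz; rw [D_const]; simp
  rw [h2, add_zero, add_zero, norm_mul, RCLike.norm_conj, mul_pow]
  have h3 : 0 ≤ ‖D h x w‖ ^ 2 / (‖h x‖ ^ 2 + δ ^ 2) -
      ‖h x‖ ^ 2 * ‖D h x w‖ ^ 2 / (‖h x‖ ^ 2 + δ ^ 2) ^ 2 := by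
    have := hu0 x
    have e : ‖D h x w‖ ^ 2 / (‖h x‖ ^ 2 + δ ^ 2) -
        ‖h x‖ ^ 2 * ‖D h x w‖ ^ 2 / (‖h x‖ ^ 2 + δ ^ 2) ^ 2 =
        δ ^ 2 * ‖D h x w‖ ^ 2 / (‖h x‖ ^ 2 + δ ^ 2) ^ 2 := by
      field_simp
      ring
    rw [e]; positivity
  linarith

/-- the integrand of the engine -/
lemma kk_le (hε : 0 < ε) (hδ : 0 < δ) (hA : ∀ x, 1 ≤ A - tt h Ψ ε x) (x : M) :
    kk A h f Ψ ε x * Real.exp (ps A h Ψ ε x - Wd h Φ δ x) ≤
      (4 * Cst / ε ^ 2) * ({x | ‖h x‖ ^ 2 ≤ ε ^ 2 * Real.exp (Ψ x)}.indicator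
        (fun x => ‖f x‖ ^ 2 * Real.exp (-(Φ x + Ψ x))) x) := by
  have hη := et_pos (hA x)
  have hδ2 : 0 < ‖h x‖ ^ 2 + δ ^ 2 := by positivity
  have e1 : Real.exp (ps A h Ψ ε x - Wd h Φ δ x) =
      (et A (tt h Ψ ε x))⁻¹ * (Real.exp (-Φ x) * (‖h x‖ ^ 2 + δ ^ 2)⁻¹) := by
    unfold ps gg Wd
    rw [show -Real.log (et A (tt h Ψ ε x)) - (Φ x + Real.log (‖h x‖ ^ 2 + δ ^ 2)) =
      -Real.log (et A (tt h Ψ ε x)) + (-Φ x + -Real.log (‖h x‖ ^ 2 + δ ^ 2)) by ring,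
      Real.exp_add, Real.exp_add, Real.exp_neg, Real.exp_log hη,
      Real.exp_neg (Real.log (‖h x‖ ^ 2 + δ ^ 2)), Real.exp_log hδ2]
  by_cases hx : ‖h x‖ ^ 2 ≤ ε ^ 2 * Real.exp (Ψ x)
  · rw [indicator_of_mem (show x ∈ {x | ‖h x‖ ^ 2 ≤ ε ^ 2 * Real.exp (Ψ x)} from hx), e1]
    have h1 := vt1_sq_le hε hx
    have hE := Real.exp_pos (Ψ x)
    have e2 : kk A h f Ψ ε x * ((et A (tt h Ψ ε x))⁻¹ *
        (Real.exp (-Φ x) * (‖h x‖ ^ 2 + δ ^ 2)⁻¹)) =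
        (vt1 ε (tt h Ψ ε x) ^ 2 / ε ^ 2) * (‖h x‖ ^ 2 / (‖h x‖ ^ 2 + δ ^ 2)) *
          (‖f x‖ ^ 2 * Real.exp (-(Φ x + Ψ x))) := by
      unfold kk
      rw [neg_add, Real.exp_add, Real.exp_neg (Ψ x)]
      field_simp
    rw [e2]
    refine mul_le_mul_of_nonneg_right ?_ (by positivity)
    have h3 : ‖h x‖ ^ 2 / (‖h x‖ ^ 2 + δ ^ 2) ≤ 1 := by
      rw [div_le_one hδ2]; nlinarith [sq_nonneg δ]
    calc _ ≤ (4 * Cst / ε ^ 2) * 1 := by
          apply mul_le_mul _ h3 (by positivity) (by have := Cst_nonneg; positivity)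
          exact div_le_div_of_nonneg_right h1 (by positivity)
      _ = _ := mul_one _
  · rw [indicator_of_notMem (show x ∉ {x | ‖h x‖ ^ 2 ≤ ε ^ 2 * Real.exp (Ψ x)} from hx), mul_zero]
    have : kk A h f Ψ ε x = 0 := by
      unfold kk
      rw [vt1_eq_zero hε hx]
      simp
    rw [this, zero_mul]

/-- the pointwise bound of `∂̄G` -/
lemma db_le (hh : W792.Hol h) (hf : W792.Hol f) (hΨ : Sm Ψ) (hΦ : Sm Φ) (hε : 0 < ε)
    (hδ : 0 < δ) (hA : ∀ x, 1 < A - tt h Ψ ε x) (hAa : ∀ x, 2 ≤ a * (A - tt h Ψ ε x))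
    (hΨ0 : ∀ x w, 0 ≤ W792.lev Ψ x w) (hWΨ : ∀ x w, a * W792.lev Ψ x w ≤ W792.lev Φ x w)
    (hc2 : c ≤ 2) (hc : ∀ x, (c - 1) * (2 * (A - tt h Ψ ε x + 1) ^ 2) ≤ et A (tt h Ψ ε x))
    (x : M) (w : Fin n → ℂ) :
    ‖∑ j, db j (GG h f Ψ ε) x * conj (w j)‖ ^ 2 ≤
      kk A h f Ψ ε x * Bt c (Wd h Φ δ) (ps A h Ψ ε) (qs A h Ψ ε) x w := by
  have h1 := Bt_ge (W := Wd h Φ δ) hh hΨ (sm_Wd hh.sm hΦ hδ) hε hA hAa hΨ0
    (fun x w => (hWΨ x w).trans (lev_Wd hh hΦ hδ x w)) hc2 hc x w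
  have hη := et_pos (hA x).le
  have hu := uu_pos (h := h) (Ψ := Ψ) hε x
  have hE := Real.exp_pos (Ψ x)
  have hk0 : 0 ≤ kk A h f Ψ ε x := by unfold kk; positivity
  rw [sum_db_GG hh.sm hf hΨ hε, norm_mul, norm_mul, mul_pow, mul_pow, Complex.norm_real,
    RCLike.norm_conj, Real.norm_eq_abs, sq_abs, norm_pz_tt hh hΨ hε]
  refine le_trans (le_of_eq ?_) (mul_le_mul_of_nonneg_left h1 hk0)
  unfold kk
  field_simp

lemma Bt_nonneg (hh : W792.Hol h) (hΨ : Sm Ψ) (hΦ : Sm Φ) (hε : 0 < ε)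
    (hδ : 0 < δ) (hA : ∀ x, 1 < A - tt h Ψ ε x) (hAa : ∀ x, 2 ≤ a * (A - tt h Ψ ε x))
    (hΨ0 : ∀ x w, 0 ≤ W792.lev Ψ x w) (hWΨ : ∀ x w, a * W792.lev Ψ x w ≤ W792.lev Φ x w)
    (hc2 : c ≤ 2) (hc : ∀ x, (c - 1) * (2 * (A - tt h Ψ ε x + 1) ^ 2) ≤ et A (tt h Ψ ε x))
    (x : M) (w : Fin n → ℂ) :
    0 ≤ Bt c (Wd h Φ δ) (ps A h Ψ ε) (qs A h Ψ ε) x w := by
  have h1 := Bt_ge (W := Wd h Φ δ) hh hΨ (sm_Wd hh.sm hΦ hδ) hε hA hAa hΨ0
    (fun x w => (hWΨ x w).trans (lev_Wd hh hΦ hδ x w)) hc2 hc x w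
  have hη := et_pos (hA x).le
  refine le_trans ?_ h1
  positivity

end Crest.Agent.R273.OTC_34
end
end

-- ▼ part R273/OTD_34
section

/-!
# Row 273: the Ohsawa–Takegoshi–Manivel extension theorem on Riemann domains, `ε`-form (helper34)

`M` a Riemann domain with smooth strictly psh exhaustion; `h, f` holomorphic, `|h|² ≤ e^Ψ`,
`Levi Φ ≥ a Levi Ψ ≥ 0`, `0 < a ≤ 1`, `0 < ε ≤ 1`.  If
`∫_{|h|² ≤ ε² e^Ψ} |f|² e^{-Φ-Ψ} ≤ ε² K`, there is `F` holomorphic with `F = f` on `{h = 0}` and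
`∫ |F|² e^{-Φ-Ψ} ≤ Cot a * K`.
-/

set_option autoImplicit false
set_option linter.unusedSectionVars false

noncomputable section

open Set Filter Topology ComplexConjugate MeasureTheory
open scoped ENNReal

namespace Crest.Agent.R273.OTD_34

open Crest.Agent.R271.Ho51 Crest.Agent.R271 Crest.Agent.R273.OTA_34 Crest.Agent.R273.TwA_34
  Crest.Agent.R273.OTB_34 Crest.Agent.R273.OTC_34

variable {n : ℕ} {M : Type*} [TopologicalSpace M] [T2Space M] [SecondCountableTopology M]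
  [RDom n M] [MeasurableSpace M] [BorelSpace M] {μ : Measure M}

/-- `|h|^{-2}` is not integrable near a zero of the holomorphic function `h`. -/
theorem not_int (hμ : IsLeb μ) {h : M → ℂ} (hh : Ho51.Hol h) {x0 : M} (h0 : h x0 = 0)
    {U : Set M} (hU : U ∈ 𝓝 x0) :
    ∫⁻ x in U, (ENNReal.ofReal (‖h x‖ ^ 2))⁻¹ ∂μ = ∞ := by
  have hhc : Continuous h := (hol_of _ hh).sm.continuous
  set e := ch x0 with he
  have hce : IsCh e := isCh_ch x0
  have hx0 : x0 ∈ e.source := mem_ch x0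
  have hz0 : cp x0 ∈ e.target := hce.cp_mem hx0
  have hs0 : e.symm (cp x0) = x0 := hce.symm_cp hx0
  -- a closed ball in the chart, inside `U`
  have hcont : ContinuousAt e.symm (cp x0) := e.symm.continuousAt (by simpa using hz0)
  have hev1 : ∀ᶠ z in 𝓝 (cp x0), z ∈ e.target := e.open_target.mem_nhds hz0
  have hev2 : ∀ᶠ z in 𝓝 (cp x0), e.symm z ∈ U := hcont.eventually_mem (by rw [hs0]; exact hU)
  have hev : ∀ᶠ z in 𝓝 (cp x0), z ∈ e.target ∧ e.symm z ∈ U := hev1.and hev2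
  obtain ⟨r, hr, hB⟩ := Metric.nhds_basis_closedBall.eventually_iff.1 hev
  set B : Set (Fin n → ℂ) := Metric.closedBall (cp x0) r with hBdef
  have hBc : IsCompact B := isCompact_closedBall _ _
  have hBt : B ⊆ e.target := fun z hz => (hB hz).1
  have hSU : e.symm '' B ⊆ U := by
    rintro _ ⟨z, hz, rfl⟩
    exact (hB hz).2
  have hm : Measurable (fun x => (ENNReal.ofReal (‖h x‖ ^ 2))⁻¹) :=
    ((hhc.norm.pow 2).measurable.ennreal_ofReal).inv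
  have h1 := T7a297.lintegral_ball_le hμ hce hBc hBt hm
  have h2 : ∫⁻ y in B, (ENNReal.ofReal (‖h (e.symm y)‖ ^ 2))⁻¹ = ∞ := by
    -- translate
    set t : (Fin n → ℂ) → ℂ := fun ζ => h (e.symm (cp x0 + ζ)) with ht
    have hdo : DifferentiableOn ℂ (h ∘ e.symm) e.target := hh e hce
    have han : AnalyticAt ℂ (h ∘ e.symm) (cp x0) :=
      Crest.Agent.R266.SCV.analyticOnNhd_of_differentiableOn e.open_target hdo _ hz0
    have htan : AnalyticAt ℂ t 0 := by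
      have h3 : AnalyticAt ℂ (fun ζ : Fin n → ℂ => cp x0 + ζ) 0 :=
        analyticAt_const.add analyticAt_id
      have h4 : AnalyticAt ℂ (h ∘ e.symm) ((fun ζ : Fin n → ℂ => cp x0 + ζ) 0) := by
        simpa using han
      exact h4.comp h3
    have ht0 : t 0 = 0 := by simp only [ht, add_zero, hs0, h0]
    have htr : ∫⁻ y in B, (ENNReal.ofReal (‖h (e.symm y)‖ ^ 2))⁻¹ =
        ∫⁻ ζ in Metric.closedBall (0 : Fin n → ℂ) r, (ENNReal.ofReal (‖t ζ‖ ^ 2))⁻¹ := by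
      have hmp : MeasurePreserving (fun ζ : Fin n → ℂ => cp x0 + ζ) volume volume :=
        measurePreserving_add_left volume (cp x0)
      have hpre : (fun ζ : Fin n → ℂ => cp x0 + ζ) ⁻¹' B = Metric.closedBall 0 r := by
        ext ζ
        simp [hBdef, Metric.mem_closedBall, dist_eq_norm]
      rw [← hpre, hmp.setLIntegral_comp_preimage_emb
        (MeasurableEquiv.addLeft (cp x0)).measurableEmbedding
        (fun y => (ENNReal.ofReal (‖h (e.symm y)‖ ^ 2))⁻¹)]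
    rw [htr]
    by_cases hz : ∀ᶠ ζ in 𝓝 (0 : Fin n → ℂ), t ζ = 0
    · obtain ⟨r', hr', hsub⟩ := Metric.mem_nhds_iff.1 (hz.and (Metric.closedBall_mem_nhds 0 hr))
      refine top_unique ?_
      calc (∞ : ℝ≥0∞) = ∫⁻ _ in Metric.ball (0 : Fin n → ℂ) r', ∞ := by
            rw [setLIntegral_const, ENNReal.top_mul]
            exact (Metric.measure_ball_pos volume 0 hr').ne'
        _ ≤ ∫⁻ ζ in Metric.ball (0 : Fin n → ℂ) r', (ENNReal.ofReal (‖t ζ‖ ^ 2))⁻¹ := by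
            refine setLIntegral_mono' measurableSet_ball fun ζ hζ => ?_
            rw [(hsub hζ).1]
            simp
        _ ≤ _ := lintegral_mono_set fun ζ hζ => (hsub hζ).2
    · have h5 := Bd741.not_integrable_zero t t htan htan ht0 hz
        (Eventually.of_forall fun ζ h => h) _ (Metric.closedBall_mem_nhds 0 hr)
      refine top_unique ?_
      rw [← h5]
      exact lintegral_mono_set inter_subset_left
  refine top_unique ?_
  rw [← h2]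
  exact h1.trans (lintegral_mono_set hSU)

/-- the constant `A` -/
def Aa (a : ℝ) : ℝ := 2 / a + 1

/-- the constant of the theorem -/
def Cot (a : ℝ) : ℝ := 48 * (Aa a + 1) ^ 2 * Cst + 2

variable {h f : M → ℂ} {Ψ Φ : M → ℝ} {ε a : ℝ}

/-- main step: solution with the singular weight -/
theorem ot_sing (hμ : IsLeb μ) {ρ : M → ℝ} (hρ : Sm ρ)
    (hcpt : ∀ t : ℝ, IsCompact {x | ρ x ≤ t}) (hL : ∀ x w, nsq w ≤ Levi ρ x w)
    (hh : W792.Hol h) (hf : W792.Hol f) (hΨ : Sm Ψ) (hΦ : Sm Φ)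
    (hs : ∀ x, ‖h x‖ ^ 2 ≤ Real.exp (Ψ x)) (ha : 0 < a) (ha1 : a ≤ 1)
    (hΨ0 : ∀ x w, 0 ≤ Levi Ψ x w) (hΦΨ : ∀ x w, a * Levi Ψ x w ≤ Levi Φ x w)
    (hε : 0 < ε) (hε1 : ε ≤ 1) {K : ℝ≥0∞} (hKt : K ≠ ∞)
    (hK : ∫⁻ x in {x | ‖h x‖ ^ 2 ≤ ε ^ 2 * Real.exp (Ψ x)},
      ENNReal.ofReal (‖f x‖ ^ 2 * Real.exp (-(Φ x + Ψ x))) ∂μ ≤ ENNReal.ofReal (ε ^ 2) * K) :
    ∃ F : M → ℂ, Ho51.Hol F ∧
      ∫⁻ x, ENNReal.ofReal (‖F x - GG h f Ψ ε x‖ ^ 2) *
        (ENNReal.ofReal (Real.exp (-Φ x) /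
          (et (Aa a) (tt h Ψ ε x) * qt (Aa a) (tt h Ψ ε x))) *
          (ENNReal.ofReal (‖h x‖ ^ 2))⁻¹) ∂μ ≤ ENNReal.ofReal (4 * Cst) * K := by
  set A := Aa a with hAdef
  have htle := tt_le (h := h) (Ψ := Ψ) hε hε1 hs
  have h2a : 2 ≤ 2 / a := by
    rw [le_div_iff₀ ha]; linarith
  have hA1 : ∀ x, 2 / a ≤ A - tt h Ψ ε x := fun x => by
    have := htle x
    simp only [hAdef, Aa]; linarith
  have hA : ∀ x, 1 < A - tt h Ψ ε x := fun x => by linarith [hA1 x]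
  have hAa : ∀ x, 2 ≤ a * (A - tt h Ψ ε x) := fun x => by
    have h1 := mul_le_mul_of_nonneg_left (hA1 x) ha.le
    have h2 : a * (2 / a) = 2 := by field_simp
    linarith
  -- the constant `c`
  set S : ℝ := A - Real.log (ε ^ 2) with hS
  have hSx : ∀ x, A - tt h Ψ ε x ≤ S := fun x => by
    have := le_tt (h := h) (Ψ := Ψ) hε x
    simp only [hS]; linarith
  by_cases hne : Nonempty M
  swap
  · refine ⟨fun _ => 0, fun e _ => differentiableOn_const _, ?_⟩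
    have : IsEmpty M := not_nonempty_iff.1 hne
    rw [lintegral_of_isEmpty]
    exact zero_le
  have hS1 : 1 < S := by
    obtain ⟨x⟩ := hne
    exact (hA x).trans_le (hSx x)
  set c : ℝ := 1 + 1 / (2 * (S + 1) ^ 2) with hcdef
  have hSp : 0 < 2 * (S + 1) ^ 2 := by positivity
  have hc1 : 1 < c := by
    have : 0 < 1 / (2 * (S + 1) ^ 2) := by positivity
    linarith
  have hc2 : c ≤ 2 := by
    have : 1 / (2 * (S + 1) ^ 2) ≤ 1 := by
      rw [div_le_one hSp]; nlinarith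
    linarith
  have hc : ∀ x, (c - 1) * (2 * (A - tt h Ψ ε x + 1) ^ 2) ≤ et A (tt h Ψ ε x) := by
    intro x
    have h1 := et_ge (hA x).le
    have h2 := hSx x
    have h3 := hA x
    have h4 : (c - 1) * (2 * (A - tt h Ψ ε x + 1) ^ 2) ≤ 1 := by
      have e1 : c - 1 = 1 / (2 * (S + 1) ^ 2) := by rw [hcdef]; ring
      rw [e1, div_mul_eq_mul_div, one_mul, div_le_one hSp]
      have : (A - tt h Ψ ε x + 1) ^ 2 ≤ (S + 1) ^ 2 := by
        apply pow_le_pow_left₀ (by linarith) (by linarith)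
      linarith
    linarith
  have hΨ0' : ∀ x w, 0 ≤ W792.lev Ψ x w := fun x w => by
    rw [← W792.Levi_eq_lev hΨ]; exact hΨ0 x w
  have hΦΨ' : ∀ x w, a * W792.lev Ψ x w ≤ W792.lev Φ x w := fun x w => by
    rw [← W792.Levi_eq_lev hΨ, ← W792.Levi_eq_lev hΦ]; exact hΦΨ x w
  -- the sequence `δ_k`
  set δ : ℕ → ℝ := fun k => 1 / ((k : ℝ) + 1) with hδdef
  have hδ : ∀ k, 0 < δ k := fun k => by simp only [hδdef]; positivity
  have hδanti : ∀ k, δ (k + 1) ≤ δ k := fun k => by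
    simp only [hδdef]
    apply one_div_le_one_div_of_le (by positivity)
    push_cast; linarith
  have hps : Sm (ps A h Ψ ε) := sm_ps hh.sm hΨ hε fun x => (hA x).le
  have hqs : Sm (qs A h Ψ ε) := sm_qs hh.sm hΨ hε fun x => (hA x).le
  have hq2 : ∀ x, 2 ≤ qs A h Ψ ε x := fun x => qt_ge (hA x).le
  -- the bound of the right-hand side
  have hms : MeasurableSet {x | ‖h x‖ ^ 2 ≤ ε ^ 2 * Real.exp (Ψ x)} :=
    (isClosed_le (hh.sm.continuous.norm.pow 2)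
      (continuous_const.mul (Real.continuous_exp.comp hΨ.continuous))).measurableSet
  have hrhs : ∀ k, ∫⁻ x, ENNReal.ofReal (kk A h f Ψ ε x *
      Real.exp (ps A h Ψ ε x - Wd h Φ (δ k) x)) ∂μ ≤ ENNReal.ofReal (4 * Cst) * K := by
    intro k
    calc _ ≤ ∫⁻ x, ENNReal.ofReal (4 * Cst / ε ^ 2) *
          {x | ‖h x‖ ^ 2 ≤ ε ^ 2 * Real.exp (Ψ x)}.indicator
            (fun x => ENNReal.ofReal (‖f x‖ ^ 2 * Real.exp (-(Φ x + Ψ x)))) x ∂μ := by
          refine lintegral_mono fun x => ?_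
          refine (ENNReal.ofReal_le_ofReal (kk_le hε (hδ k) (fun x => (hA x).le) x)).trans
            (le_of_eq ?_)
          rw [ENNReal.ofReal_mul (by have := Cst_nonneg; positivity)]
          congr 1
          by_cases hx : x ∈ {x | ‖h x‖ ^ 2 ≤ ε ^ 2 * Real.exp (Ψ x)}
          · rw [indicator_of_mem hx, indicator_of_mem hx]
          · rw [indicator_of_notMem hx, indicator_of_notMem hx, ENNReal.ofReal_zero]
      _ = ENNReal.ofReal (4 * Cst / ε ^ 2) *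
          ∫⁻ x in {x | ‖h x‖ ^ 2 ≤ ε ^ 2 * Real.exp (Ψ x)},
            ENNReal.ofReal (‖f x‖ ^ 2 * Real.exp (-(Φ x + Ψ x))) ∂μ := by
          rw [lintegral_const_mul' _ _ ENNReal.ofReal_ne_top, lintegral_indicator hms]
      _ ≤ ENNReal.ofReal (4 * Cst / ε ^ 2) * (ENNReal.ofReal (ε ^ 2) * K) := by gcongr
      _ = ENNReal.ofReal (4 * Cst) * K := by
          rw [← mul_assoc, ← ENNReal.ofReal_mul (by have := Cst_nonneg; positivity)]
          congr 2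
          field_simp
  choose F hF hFb using fun k : ℕ => TwE_34.twE hμ hρ hcpt hL hc1
    (sm_Wd hh.sm hΦ (hδ k)) hps hqs hq2
    (fun x w => Bt_nonneg hh hΨ hΦ hε (hδ k) hA hAa hΨ0' hΦΨ' hc2 hc x w)
    (sm_GG hh.sm hf.sm hΨ hε)
    (fun x w => db_le hh hf hΨ hΦ hε (hδ k) hA hAa hΨ0' hΦΨ' hc2 hc x w) (hrhs k)
  -- the weights of the limit argument
  set φ : ℕ → M → ℝ := fun k x => Wd h Φ (δ k) x - ps A h Ψ ε x + Real.log (qs A h Ψ ε x)
    with hφ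
  have hq0 : ∀ x, 0 < qs A h Ψ ε x := fun x => by have := hq2 x; linarith
  have hexp : ∀ k x, Real.exp (-φ k x) =
      Real.exp (ps A h Ψ ε x - Wd h Φ (δ k) x) / qs A h Ψ ε x := by
    intro k x
    simp only [hφ]
    rw [show -(Wd h Φ (δ k) x - ps A h Ψ ε x + Real.log (qs A h Ψ ε x)) =
      (ps A h Ψ ε x - Wd h Φ (δ k) x) - Real.log (qs A h Ψ ε x) by ring,
      Real.exp_sub (ps A h Ψ ε x - Wd h Φ (δ k) x), Real.exp_log (hq0 x)]
  have hexp2 : ∀ k x, Real.exp (-φ k x) = Real.exp (-Φ x) /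
      (et A (tt h Ψ ε x) * qt A (tt h Ψ ε x)) * (‖h x‖ ^ 2 + δ k ^ 2)⁻¹ := by
    intro k x
    rw [hexp]
    have hη := et_pos (hA x).le
    have hd : 0 < ‖h x‖ ^ 2 + δ k ^ 2 := by have := hδ k; positivity
    have e1 : Real.exp (ps A h Ψ ε x - Wd h Φ (δ k) x) =
        (et A (tt h Ψ ε x))⁻¹ * (Real.exp (-Φ x) * (‖h x‖ ^ 2 + δ k ^ 2)⁻¹) := by
      unfold ps gg Wd
      rw [show -Real.log (et A (tt h Ψ ε x)) - (Φ x + Real.log (‖h x‖ ^ 2 + δ k ^ 2)) =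
        -Real.log (et A (tt h Ψ ε x)) + (-Φ x + -Real.log (‖h x‖ ^ 2 + δ k ^ 2)) by ring,
        Real.exp_add, Real.exp_add, Real.exp_neg, Real.exp_log hη,
        Real.exp_neg (Real.log (‖h x‖ ^ 2 + δ k ^ 2)), Real.exp_log hd]
    rw [e1]
    have := hq0 x
    unfold qs at *
    field_simp
  have hanti : ∀ k x, φ (k + 1) x ≤ φ k x := by
    intro k x
    simp only [hφ, Wd]
    have h1 := hδ (k + 1)
    have h2 := hδanti k
    have h3 : Real.log (‖h x‖ ^ 2 + δ (k + 1) ^ 2) ≤ Real.log (‖h x‖ ^ 2 + δ k ^ 2) := by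
      apply Real.log_le_log (by positivity)
      have := pow_le_pow_left₀ h1.le h2 2
      linarith
    linarith
  have hφc : ∀ k, Continuous (φ k) := fun k =>
    ((sm_Wd hh.sm hΦ (hδ k)).continuous.sub hps.continuous).add
      (hqs.continuous.log fun x => (hq0 x).ne')
  have hK1 : ENNReal.ofReal (4 * Cst) * K ≠ ∞ := ENNReal.mul_ne_top ENNReal.ofReal_ne_top hKt
  obtain ⟨F0, hF0, -, hb⟩ := TwL_34.limit_hol hμ ρ hρ.continuous hcpt φ hφc hanti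
    (GG h f Ψ ε) (sm_GG hh.sm hf.sm hΨ hε).continuous F hF _ hK1 (fun k => by
      refine (setLIntegral_le_lintegral _ _).trans ?_
      simpa only [hexp] using hFb k)
  refine ⟨F0, hF0, le_trans (lintegral_mono fun x => ?_) hb⟩
  gcongr
  -- the supremum dominates the singular weight
  have hη := et_pos (hA x).le
  have hq := hq0 x
  set m : ℝ := Real.exp (-Φ x) / (et A (tt h Ψ ε x) * qt A (tt h Ψ ε x)) with hm
  have hm0 : 0 < m := by
    have : 0 < qt A (tt h Ψ ε x) := hq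
    positivity
  have hδlim : Tendsto (fun k => δ k) atTop (𝓝 0) := tendsto_one_div_add_atTop_nhds_zero_nat
  have hlim : Tendsto (fun k => ENNReal.ofReal m * (ENNReal.ofReal (‖h x‖ ^ 2 + δ k ^ 2))⁻¹) atTop
      (𝓝 (ENNReal.ofReal m * (ENNReal.ofReal (‖h x‖ ^ 2))⁻¹)) := by
    refine ENNReal.Tendsto.const_mul ?_ (Or.inr ENNReal.ofReal_ne_top)
    refine (tendsto_inv_iff).2 ?_
    refine (ENNReal.continuous_ofReal.tendsto _).comp ?_
    have := (hδlim.pow 2).const_add (‖h x‖ ^ 2)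
    simpa using this
  refine le_of_tendsto' hlim fun k => ?_
  refine le_trans (le_of_eq ?_) (le_iSup (fun k => ENNReal.ofReal (Real.exp (-φ k x))) k)
  have hd : 0 < ‖h x‖ ^ 2 + δ k ^ 2 := by have := hδ k; positivity
  rw [hexp2, ENNReal.ofReal_mul hm0.le, ENNReal.ofReal_inv_of_pos hd]

/-- `F = f` on `{h = 0}` -/
theorem eq_on_zero (hμ : IsLeb μ) (hh : W792.Hol h) (hf : W792.Hol f) (hΨ : Sm Ψ) (hΦ : Sm Φ)
    (hε : 0 < ε) {A : ℝ} (hA : ∀ x, 1 < A - tt h Ψ ε x) {F : M → ℂ} (hF : Ho51.Hol F) {K : ℝ≥0∞}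
    (hK : K ≠ ∞)
    (hb : ∫⁻ x, ENNReal.ofReal (‖F x - GG h f Ψ ε x‖ ^ 2) *
        (ENNReal.ofReal (Real.exp (-Φ x) /
          (et A (tt h Ψ ε x) * qt A (tt h Ψ ε x))) *
          (ENNReal.ofReal (‖h x‖ ^ 2))⁻¹) ∂μ ≤ K) {x0 : M} (hx0 : h x0 = 0) :
    F x0 = f x0 := by
  by_contra hne
  have hG0 : GG h f Ψ ε x0 = f x0 := by
    unfold GG
    rw [vt_zero hε hx0]; simp
  have hFc : Continuous F := (hol_of _ hF).sm.continuous
  have hGc : Continuous (GG h f Ψ ε) := (sm_GG hh.sm hf.sm hΨ hε).continuous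
  have htc : Continuous (tt h Ψ ε) := (sm_tt hh.sm hΨ hε).continuous
  have hec : Continuous (fun x => et A (tt h Ψ ε x)) := by
    rw [continuous_iff_continuousAt]
    intro x
    exact ContinuousAt.comp (contDiffAt_et (hA x).le).continuousAt htc.continuousAt
  have hqc : Continuous (fun x => qt A (tt h Ψ ε x)) := by
    rw [continuous_iff_continuousAt]
    intro x
    exact ContinuousAt.comp (g := qt A) (contDiffAt_qt (hA x).le).continuousAt htc.continuousAt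
  have hep : ∀ x, 0 < et A (tt h Ψ ε x) := fun x => et_pos (hA x).le
  have hqp : ∀ x, 0 < qt A (tt h Ψ ε x) := fun x => by have := qt_ge (hA x).le; linarith
  set g : M → ℝ := fun x => ‖F x - GG h f Ψ ε x‖ ^ 2 *
    (Real.exp (-Φ x) / (et A (tt h Ψ ε x) * qt A (tt h Ψ ε x))) with hg
  have hgc : Continuous g := ((hFc.sub hGc).norm.pow 2).mul
    ((Real.continuous_exp.comp hΦ.continuous.neg).div (hec.mul hqc)
      fun x => (mul_pos (hep x) (hqp x)).ne')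
  have hg0 : 0 < g x0 := by
    have h1 : 0 < ‖F x0 - GG h f Ψ ε x0‖ := by
      rw [norm_pos_iff, hG0]
      exact sub_ne_zero.2 hne
    have h2 := hep x0
    have h3 := hqp x0
    simp only [hg]; positivity
  have hU : {x | g x0 / 2 < g x} ∈ 𝓝 x0 :=
    hgc.continuousAt.eventually_const_lt (show g x0 / 2 < g x0 by linarith)
  have h1 := not_int hμ ((hol_iff h).2 hh) hx0 hU
  have hUm : MeasurableSet {x | g x0 / 2 < g x} :=
    (isOpen_lt continuous_const hgc).measurableSet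
  have h2 : ENNReal.ofReal (g x0 / 2) *
      ∫⁻ x in {x | g x0 / 2 < g x}, (ENNReal.ofReal (‖h x‖ ^ 2))⁻¹ ∂μ ≤ K := by
    rw [← lintegral_const_mul' _ _ ENNReal.ofReal_ne_top]
    refine le_trans ?_ hb
    refine le_trans (setLIntegral_mono' hUm (g := fun x =>
      ENNReal.ofReal (‖F x - GG h f Ψ ε x‖ ^ 2) *
        (ENNReal.ofReal (Real.exp (-Φ x) /
          (et A (tt h Ψ ε x) * qt A (tt h Ψ ε x))) *
          (ENNReal.ofReal (‖h x‖ ^ 2))⁻¹)) fun x hx => ?_) (setLIntegral_le_lintegral _ _)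
    rw [← mul_assoc, ← ENNReal.ofReal_mul (by positivity)]
    gcongr
    exact (le_of_lt hx)
  rw [h1, ENNReal.mul_top (by simpa using hg0)] at h2
  exact hK (top_unique h2)

/-- elementary bound -/
lemma s_bound {B s : ℝ} (hB : 2 ≤ B) (hs0 : 0 < s) (hs1 : s ≤ 1) :
    s * (B - Real.log s) ^ 2 ≤ B ^ 2 := by
  have hl : Real.log s ≤ 0 := Real.log_nonpos hs0.le hs1
  set y := -Real.log s with hy
  have hy0 : 0 ≤ y := by linarith
  have hse : s = Real.exp (-y) := by rw [hy, neg_neg, Real.exp_log hs0]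
  have h1 : B + y ≤ B * Real.exp (y / 2) := by
    have := Real.add_one_le_exp (y / 2)
    nlinarith
  have h2 : (B + y) ^ 2 ≤ B ^ 2 * Real.exp y := by
    calc (B + y) ^ 2 ≤ (B * Real.exp (y / 2)) ^ 2 := pow_le_pow_left₀ (by linarith) h1 2
      _ = B ^ 2 * Real.exp y := by
        rw [mul_pow, ← Real.exp_nat_mul]
        congr 2
        push_cast; ring
  have e : B - Real.log s = B + y := by rw [hy]; ring
  rw [e, hse]
  calc Real.exp (-y) * (B + y) ^ 2 ≤ Real.exp (-y) * (B ^ 2 * Real.exp y) :=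
        mul_le_mul_of_nonneg_left h2 (Real.exp_pos _).le
    _ = B ^ 2 := by
        rw [mul_comm (B ^ 2), ← mul_assoc, ← Real.exp_add]; simp

end Crest.Agent.R273.OTD_34
end
end

-- ▼ part R273/OTE_34
section

/-!
# Row 273 / 276: the Ohsawa–Takegoshi–Manivel extension theorem, `ε`-form, final (helper34)

`ot_eps`: `h, f` holomorphic, `|h|² ≤ e^Ψ`, `a Levi Ψ ≤ Levi Φ`, `0 ≤ Levi Ψ`, `0 < a ≤ 1`,
`0 < ε ≤ 1`, `∫_{|h|² ≤ ε² e^Ψ} |f|² e^{-Φ-Ψ} ≤ ε² K` give `F` holomorphic with `F = f` on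
`{h = 0}`, `∫ |F|² e^{-Φ-Ψ} ≤ Cot a * K`.
-/

set_option autoImplicit false
set_option linter.unusedSectionVars false

noncomputable section

open Set Filter Topology ComplexConjugate MeasureTheory
open scoped ENNReal

namespace Crest.Agent.R273.OTE_34

open Crest.Agent.R271.Ho51 Crest.Agent.R271 Crest.Agent.R273.OTA_34 Crest.Agent.R273.TwA_34
  Crest.Agent.R273.OTB_34 Crest.Agent.R273.OTC_34 Crest.Agent.R273.OTD_34

variable {n : ℕ} {M : Type*} [TopologicalSpace M] [T2Space M] [SecondCountableTopology M]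
  [RDom n M] [MeasurableSpace M] [BorelSpace M] {μ : Measure M}

variable {h f : M → ℂ} {Ψ Φ : M → ℝ} {ε a : ℝ}

lemma Aa_ge (ha : 0 < a) (ha1 : a ≤ 1) : 3 ≤ Aa a := by
  unfold Aa
  have : 2 ≤ 2 / a := by rw [le_div_iff₀ ha]; linarith
  linarith

lemma Aa_sub (hε : 0 < ε) (hε1 : ε ≤ 1) (hs : ∀ x, ‖h x‖ ^ 2 ≤ Real.exp (Ψ x)) (ha : 0 < a)
    (ha1 : a ≤ 1) (x : M) : 1 < Aa a - tt h Ψ ε x := by
  have := tt_le (h := h) (Ψ := Ψ) hε hε1 hs x
  have := Aa_ge ha ha1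
  linarith

lemma Cot_nonneg (a : ℝ) : 0 ≤ Cot a := by
  unfold Cot
  have := Cst_nonneg
  positivity

/-- the singular weight dominates the weak weight -/
lemma weak_le (hε : 0 < ε) (hε1 : ε ≤ 1) (hs : ∀ x, ‖h x‖ ^ 2 ≤ Real.exp (Ψ x)) (ha : 0 < a)
    (ha1 : a ≤ 1) {x : M} (hx : h x ≠ 0) :
    Real.exp (-(Φ x + Ψ x)) ≤ 6 * (Aa a + 1) ^ 2 * (Real.exp (-Φ x) /
          (et (Aa a) (tt h Ψ ε x) * qt (Aa a) (tt h Ψ ε x)) * (‖h x‖ ^ 2)⁻¹) := by
  have hA := Aa_sub hε hε1 hs ha ha1 x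
  have h3 := Aa_ge ha ha1
  have h1 := et_qt hA.le
  have hη := et_pos hA.le
  have hq : 0 < qt (Aa a) (tt h Ψ ε x) := by have := qt_ge hA.le; linarith
  have hh2 : 0 < ‖h x‖ ^ 2 := by positivity
  set s : ℝ := ‖h x‖ ^ 2 * Real.exp (-Ψ x) with hsdef
  have hs0 : 0 < s := by positivity
  have hs1 : s ≤ 1 := by
    rw [hsdef, Real.exp_neg, ← div_eq_mul_inv]
    exact (div_le_one (Real.exp_pos _)).2 (hs x)
  have htl : Real.log s ≤ tt h Ψ ε x := by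
    rw [← Real.exp_le_exp, Real.exp_log hs0, exp_tt hε]
    have : 0 < ε ^ 2 := by positivity
    linarith
  have h4 := s_bound (B := Aa a + 1) (by linarith) hs0 hs1
  have h5 : (Aa a - tt h Ψ ε x + 1) ^ 2 ≤ (Aa a + 1 - Real.log s) ^ 2 := by
    apply pow_le_pow_left₀ (by linarith) (by linarith)
  have h6 : s * (et (Aa a) (tt h Ψ ε x) * qt (Aa a) (tt h Ψ ε x)) ≤ 6 * (Aa a + 1) ^ 2 := by
    calc s * (et (Aa a) (tt h Ψ ε x) * qt (Aa a) (tt h Ψ ε x))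
        ≤ s * (6 * (Aa a - tt h Ψ ε x + 1) ^ 2) := by gcongr
      _ ≤ s * (6 * (Aa a + 1 - Real.log s) ^ 2) := by gcongr
      _ = 6 * (s * (Aa a + 1 - Real.log s) ^ 2) := by ring
      _ ≤ 6 * (Aa a + 1) ^ 2 := by linarith
  have e1 : Real.exp (-(Φ x + Ψ x)) = Real.exp (-Φ x) * (‖h x‖ ^ 2)⁻¹ * s := by
    rw [hsdef, neg_add, Real.exp_add]
    field_simp
  rw [e1]
  have e2 : 6 * (Aa a + 1) ^ 2 * (Real.exp (-Φ x) /
      (et (Aa a) (tt h Ψ ε x) * qt (Aa a) (tt h Ψ ε x)) * (‖h x‖ ^ 2)⁻¹) =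
      Real.exp (-Φ x) * (‖h x‖ ^ 2)⁻¹ * (6 * (Aa a + 1) ^ 2 /
      (et (Aa a) (tt h Ψ ε x) * qt (Aa a) (tt h Ψ ε x))) := by
    field_simp
  rw [e2]
  refine mul_le_mul_of_nonneg_left ?_ (by positivity)
  rw [le_div_iff₀ (by positivity)]
  exact h6

lemma norm_GG_le (hε : 0 < ε) (x : M) :
    ‖GG h f Ψ ε x‖ ^ 2 * Real.exp (-(Φ x + Ψ x)) ≤
      {x | ‖h x‖ ^ 2 ≤ ε ^ 2 * Real.exp (Ψ x)}.indicator
        (fun x => ‖f x‖ ^ 2 * Real.exp (-(Φ x + Ψ x))) x := by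
  by_cases hx : x ∈ {x | ‖h x‖ ^ 2 ≤ ε ^ 2 * Real.exp (Ψ x)}
  · rw [indicator_of_mem hx]
    refine mul_le_mul_of_nonneg_right ?_ (Real.exp_pos _).le
    unfold GG
    have h1 := vt_mem ε (tt h Ψ ε x)
    rw [norm_mul, Complex.norm_real, Real.norm_eq_abs, abs_of_nonneg h1.1]
    have h2 : vt ε (tt h Ψ ε x) * ‖f x‖ ≤ 1 * ‖f x‖ :=
      mul_le_mul_of_nonneg_right h1.2 (norm_nonneg _)
    rw [one_mul] at h2
    exact pow_le_pow_left₀ (mul_nonneg h1.1 (norm_nonneg _)) h2 2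
  · rw [indicator_of_notMem hx]
    unfold GG
    rw [vt_eq_zero hε hx]
    simp

/-- **Ohsawa–Takegoshi–Manivel, `ε`-form** -/
theorem ot_eps (hμ : IsLeb μ) {ρ : M → ℝ} (hρ : Sm ρ)
    (hcpt : ∀ t : ℝ, IsCompact {x | ρ x ≤ t}) (hL : ∀ x w, nsq w ≤ Levi ρ x w)
    (hh : W792.Hol h) (hf : W792.Hol f) (hΨ : Sm Ψ) (hΦ : Sm Φ)
    (hs : ∀ x, ‖h x‖ ^ 2 ≤ Real.exp (Ψ x)) (ha : 0 < a) (ha1 : a ≤ 1)
    (hΨ0 : ∀ x w, 0 ≤ Levi Ψ x w) (hΦΨ : ∀ x w, a * Levi Ψ x w ≤ Levi Φ x w)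
    (hε : 0 < ε) (hε1 : ε ≤ 1) {K : ℝ≥0∞}
    (hK : ∫⁻ x in {x | ‖h x‖ ^ 2 ≤ ε ^ 2 * Real.exp (Ψ x)},
      ENNReal.ofReal (‖f x‖ ^ 2 * Real.exp (-(Φ x + Ψ x))) ∂μ ≤ ENNReal.ofReal (ε ^ 2) * K) :
    ∃ F : M → ℂ, W792.Hol F ∧ (∀ x, h x = 0 → F x = f x) ∧
      ∫⁻ x, ENNReal.ofReal (‖F x‖ ^ 2 * Real.exp (-(Φ x + Ψ x))) ∂μ ≤
        ENNReal.ofReal (Cot a) * K := by
  have hms : MeasurableSet {x | ‖h x‖ ^ 2 ≤ ε ^ 2 * Real.exp (Ψ x)} :=
    (isClosed_le (hh.sm.continuous.norm.pow 2)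
      (continuous_const.mul (Real.continuous_exp.comp hΨ.continuous))).measurableSet
  by_cases hKt : K = ∞
  · refine ⟨f, hf, fun _ _ => rfl, ?_⟩
    have h0 : 0 < Cot a := by
      unfold Cot
      have := Cst_nonneg
      positivity
    rw [hKt, ENNReal.mul_top (by simpa using h0)]
    exact le_top
  obtain ⟨F, hF, hb⟩ := ot_sing hμ hρ hcpt hL hh hf hΨ hΦ hs ha ha1 hΨ0 hΦΨ hε hε1 hKt hK
  have hKC : ENNReal.ofReal (4 * Cst) * K ≠ ∞ := ENNReal.mul_ne_top ENNReal.ofReal_ne_top hKt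
  have hz : ∀ x, h x = 0 → F x = f x := fun x hx =>
    eq_on_zero hμ hh hf hΨ hΦ hε (Aa_sub hε hε1 hs ha ha1) hF hKC hb hx
  refine ⟨F, hol_of _ hF, hz, ?_⟩
  have hA := Aa_sub (h := h) (Ψ := Ψ) hε hε1 hs ha ha1
  set c6 : ℝ := 6 * (Aa a + 1) ^ 2 with hc6
  have hc60 : 0 ≤ c6 := by positivity
  have hpt : ∀ x, ENNReal.ofReal (‖F x‖ ^ 2 * Real.exp (-(Φ x + Ψ x))) ≤
      ENNReal.ofReal (2 * c6) * (ENNReal.ofReal (‖F x - GG h f Ψ ε x‖ ^ 2) *
        (ENNReal.ofReal (Real.exp (-Φ x) /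
          (et (Aa a) (tt h Ψ ε x) * qt (Aa a) (tt h Ψ ε x))) *
          (ENNReal.ofReal (‖h x‖ ^ 2))⁻¹)) +
      ENNReal.ofReal 2 * {x | ‖h x‖ ^ 2 ≤ ε ^ 2 * Real.exp (Ψ x)}.indicator
        (fun x => ENNReal.ofReal (‖f x‖ ^ 2 * Real.exp (-(Φ x + Ψ x)))) x := by
    intro x
    have hG := norm_GG_le (h := h) (f := f) (Ψ := Ψ) (Φ := Φ) hε x
    have hind : {x | ‖h x‖ ^ 2 ≤ ε ^ 2 * Real.exp (Ψ x)}.indicator
        (fun x => ENNReal.ofReal (‖f x‖ ^ 2 * Real.exp (-(Φ x + Ψ x)))) x =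
        ENNReal.ofReal ({x | ‖h x‖ ^ 2 ≤ ε ^ 2 * Real.exp (Ψ x)}.indicator
        (fun x => ‖f x‖ ^ 2 * Real.exp (-(Φ x + Ψ x))) x) := by
      by_cases hx : x ∈ {x | ‖h x‖ ^ 2 ≤ ε ^ 2 * Real.exp (Ψ x)}
      · rw [indicator_of_mem hx, indicator_of_mem hx]
      · rw [indicator_of_notMem hx, indicator_of_notMem hx, ENNReal.ofReal_zero]
    rw [hind]
    set E := Real.exp (-(Φ x + Ψ x)) with hE
    have hE0 : 0 < E := Real.exp_pos _
    by_cases hx : h x = 0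
    · have hG0 : GG h f Ψ ε x = f x := by
        unfold GG
        rw [vt_zero hε hx]; simp
      have hmem : x ∈ {x | ‖h x‖ ^ 2 ≤ ε ^ 2 * Real.exp (Ψ x)} := by
        have h0 : 0 ≤ ε ^ 2 * Real.exp (Ψ x) := by positivity
        change ‖h x‖ ^ 2 ≤ ε ^ 2 * Real.exp (Ψ x)
        rw [hx, norm_zero]
        simpa using h0
      refine le_trans ?_ le_add_self
      rw [indicator_of_mem hmem, hz x hx, ← ENNReal.ofReal_mul (by norm_num)]
      apply ENNReal.ofReal_le_ofReal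
      have : 0 ≤ ‖f x‖ ^ 2 * E := by positivity
      linarith
    · have hw := weak_le (h := h) (Ψ := Ψ) (Φ := Φ) hε hε1 hs ha ha1 hx
      have hη := et_pos (hA x).le
      have hq : 0 < qt (Aa a) (tt h Ψ ε x) := by have := qt_ge (hA x).le; linarith
      have hh2 : 0 < ‖h x‖ ^ 2 := by positivity
      set m : ℝ := Real.exp (-Φ x) / (et (Aa a) (tt h Ψ ε x) * qt (Aa a) (tt h Ψ ε x)) with hm
      have hm0 : 0 < m := by positivity
      rw [← ENNReal.ofReal_inv_of_pos hh2, ← ENNReal.ofReal_mul hm0.le,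
        ← ENNReal.ofReal_mul (by positivity), ← ENNReal.ofReal_mul (by positivity),
        ← ENNReal.ofReal_mul (by norm_num),
        ← ENNReal.ofReal_add (by positivity) (by
          refine mul_nonneg (by norm_num) (le_trans ?_ hG)
          positivity)]
      apply ENNReal.ofReal_le_ofReal
      have h1 : ‖F x‖ ^ 2 ≤ 2 * ‖F x - GG h f Ψ ε x‖ ^ 2 + 2 * ‖GG h f Ψ ε x‖ ^ 2 := by
        have h2 : ‖F x‖ ≤ ‖F x - GG h f Ψ ε x‖ + ‖GG h f Ψ ε x‖ := by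
          simpa using norm_add_le (F x - GG h f Ψ ε x) (GG h f Ψ ε x)
        have h3 := pow_le_pow_left₀ (norm_nonneg _) h2 2
        nlinarith [sq_nonneg (‖F x - GG h f Ψ ε x‖ - ‖GG h f Ψ ε x‖)]
      have hw' : ‖F x - GG h f Ψ ε x‖ ^ 2 * E ≤
          ‖F x - GG h f Ψ ε x‖ ^ 2 * (c6 * (m * (‖h x‖ ^ 2)⁻¹)) :=
        mul_le_mul_of_nonneg_left hw (by positivity)
      have h4 := mul_le_mul_of_nonneg_right h1 hE0.le
      nlinarith
  refine (lintegral_mono hpt).trans ?_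
  rw [lintegral_add_right, lintegral_const_mul' _ _ ENNReal.ofReal_ne_top,
    lintegral_const_mul' _ _ ENNReal.ofReal_ne_top, lintegral_indicator hms]
  · calc _ ≤ ENNReal.ofReal (2 * c6) * (ENNReal.ofReal (4 * Cst) * K) +
          ENNReal.ofReal 2 * (ENNReal.ofReal (ε ^ 2) * K) := by gcongr
      _ ≤ ENNReal.ofReal (2 * c6) * (ENNReal.ofReal (4 * Cst) * K) +
          ENNReal.ofReal 2 * (ENNReal.ofReal 1 * K) := by
          gcongr
          nlinarith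
      _ = ENNReal.ofReal (Cot a) * K := by
          have := Cst_nonneg
          rw [ENNReal.ofReal_one, one_mul, ← mul_assoc, ← ENNReal.ofReal_mul (by positivity),
            ← add_mul, ← ENNReal.ofReal_add (by positivity) (by norm_num)]
          congr 2
          rw [hc6]; unfold Cot; ring
  · refine Measurable.const_mul ?_ _
    refine Measurable.indicator ?_ hms
    exact (((hf.sm.continuous.norm.pow 2).mul (Real.continuous_exp.comp
      (hΦ.continuous.add hΨ.continuous).neg)).measurable).ennreal_ofReal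

end Crest.Agent.R273.OTE_34
end
end

-- ▼ part R273/OTU_34

/-!
# Rows 273 / 276: Ohsawa–Takegoshi with a psh weight (helper34, on helper29's tools)

`ot_psh` : weight `e^{-Φ-Ψ-u}`, `u` psh (`PSH`), only local tube estimates on `f`;
`otb` : weight `e^{-Φ-Ψ}/b`, `LPsh b`.
-/

set_option autoImplicit false
set_option linter.unusedSectionVars false
set_option linter.style.haveILetI false

noncomputable section

open Set Filter Topology MeasureTheory ComplexConjugate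
open scoped ENNReal

namespace Crest.Agent.R273.OTU_34

open Crest.Agent.R271 Crest.Agent.R271.Ho51 Crest.Agent.R273.OTA_34 Crest.Agent.R273.OTD_34
  Crest.Agent.R273.OTE_34 Crest.Agent.R273.Reg_844
  Crest.Agent.R276.SubL_29 Crest.Agent.R276.LimW_29 Crest.Agent.R276.EngU_29
open Crest.Agent.R271.W792 (lev)
open TopologicalSpace (Opens)

variable {n : ℕ} {M : Type*} [TopologicalSpace M] [RDom n M]

/-- the tube of radius `ε` -/
def tube (h : M → ℂ) (Ψ : M → ℝ) (ρ : M → ℝ) (c ε : ℝ) : Set M :=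
  {x | ‖h x‖ ^ 2 ≤ ε ^ 2 * Real.exp (Ψ x) ∧ ρ x ≤ c}

variable [T2Space M] [SecondCountableTopology M] [MeasurableSpace M] [BorelSpace M]
  {μ : Measure M}

/-- the local tube hypothesis -/
def TubeB (μ : Measure M) (h f : M → ℂ) (Ψ Φ ρ u : M → ℝ) (K : ℝ≥0∞) : Prop :=
  ∀ (c : ℝ) (φ : M → ℝ), ContinuousOn φ {x | ρ x ≤ c} → (∀ x, ρ x ≤ c → u x ≤ φ x) →
    ∀ K', K < K' → ∀ᶠ ε in 𝓝[>] (0 : ℝ), ∫⁻ x in tube h Ψ ρ c ε,
      ENNReal.ofReal (‖f x‖ ^ 2 * Real.exp (-(Φ x + Ψ x + φ x))) ∂μ ≤ ENNReal.ofReal (ε ^ 2) * K'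

variable {h f : M → ℂ} {Ψ Φ ρ u : M → ℝ} {a : ℝ} {K : ℝ≥0∞}

lemma continuousAt_of_contDiffAt {φ : M → ℝ} {x : M}
    (h1 : ContDiffAt ℝ (⊤ : ℕ∞) (φ ∘ (ch x).symm) (cp x)) : ContinuousAt φ x := by
  have h2 : ContinuousAt (fun y => (φ ∘ (ch x).symm) (cp y)) x :=
    ContinuousAt.comp (g := φ ∘ (ch x).symm) h1.continuousAt cp_cont.continuousAt
  exact h2.congr (eventually_eq_comp (isCh_ch x) (mem_ch x) φ).symm

/-- one sublevel domain -/
theorem ot_step (hμ : IsLeb μ) (hρ : Sm ρ) (hcpt : ∀ t : ℝ, IsCompact {x | ρ x ≤ t})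
    (hL : ∀ x w, nsq w ≤ Levi ρ x w) (k : ℝ) (hh : W792.Hol h) (hf : W792.Hol f)
    (hΨ : Sm Ψ) (hΦ : Sm Φ) (hs : ∀ x, ‖h x‖ ^ 2 ≤ Real.exp (Ψ x)) (ha : 0 < a) (ha1 : a ≤ 1)
    (hΨ0 : ∀ x w, 0 ≤ Levi Ψ x w) (hΦΨ : ∀ x w, a * Levi Ψ x w ≤ Levi Φ x w)
    (hu : PSH u) (hKt : K ≠ ∞) (htube : TubeB μ h f Ψ Φ ρ u K) :
    ∃ F : M → ℂ, HolOn F {x | ρ x < k} ∧ (∀ x, ρ x < k → h x = 0 → F x = f x) ∧
      ∫⁻ x in {x | ρ x < k}, ENNReal.ofReal (‖F x - 0‖ ^ 2) *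
        ENNReal.ofReal (Real.exp (-(Φ x + Ψ x)) * Real.exp (-u x)) ∂μ ≤
          ENNReal.ofReal (Cot a) * K := by
  obtain ⟨U₀, φ, hU₀, hCU, hφs, hφl, hφa, hφg, hφt⟩ := exists_reg hu (hcpt k)
  set U : Opens M := sub ρ hρ.continuous k with hU
  letI := rdO U
  have hUU₀ : ∀ x : U, x.1 ∈ U₀ := fun x => hCU (show ρ x.1 ≤ k from (show ρ x.1 < k from x.2).le)
  have hμU : IsLeb (μ.comap (Subtype.val : U → M)) := isLeb_res U hμ
  have hΦU : Sm (fun y : U => Φ y.1) := sm_res U hΦ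
  have hΨU : Sm (fun y : U => Ψ y.1) := sm_res U hΨ
  have hhU : W792.Hol (fun y : U => h y.1) := hol_of _ (hol_res U ((hol_iff h).2 hh))
  have hfU : W792.Hol (fun y : U => f y.1) := hol_of _ (hol_res U ((hol_iff f).2 hf))
  have hφU : ∀ j, Sm (fun y : U => φ j y.1) := fun j =>
    sm_res' U fun x hx => hφs j x (hCU (show ρ x ≤ k from (show ρ x < k from hx).le))
  have hC0 := Cot_nonneg a
  have hstep : ∀ j : ℕ, ∃ F : U → ℂ, Hol F ∧ (∀ x : U, h x.1 = 0 → F x = f x.1) ∧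
      ∫⁻ x : U, ENNReal.ofReal (‖F x‖ ^ 2 * Real.exp (-((Φ x.1 + φ j x.1) + Ψ x.1)))
        ∂(μ.comap (Subtype.val : U → M)) ≤
          ENNReal.ofReal (Cot a) * (K + ENNReal.ofReal (1 / ((j : ℝ) + 1))) := by
    intro j
    have hj : (0 : ℝ) < 1 / ((j : ℝ) + 1) := by positivity
    have hlt : K < K + ENNReal.ofReal (1 / ((j : ℝ) + 1)) :=
      ENNReal.lt_add_right hKt (ENNReal.ofReal_pos.2 hj).ne'
    have hev := htube k (φ j) (fun x hx =>
      (continuousAt_of_contDiffAt (hφs j x (hCU hx))).continuousWithinAt)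
      (fun x hx => hφg j x (hCU hx)) _ hlt
    have hev1 : ∀ᶠ ε in 𝓝[>] (0 : ℝ), ε ≤ 1 :=
      nhdsWithin_le_nhds (Iic_mem_nhds zero_lt_one)
    obtain ⟨ε, ⟨hε1, hε2⟩, hε0⟩ := ((hev.and hev1).and self_mem_nhdsWithin).exists
    obtain ⟨F, hF, hF0, hFb⟩ := ot_eps (a := a) (ε := ε) (μ := μ.comap (Subtype.val : U → M)) hμU
      (sm_rhoA hρ k) (isCompact_rhoA hρ.continuous hcpt k) (Levi_rhoA hρ hL k) hhU hfU hΨU
      (hΦU.add (hφU j)) (fun x => hs x.1) ha ha1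
      (fun x w => by rw [Levi_res U Ψ x w]; exact hΨ0 x.1 w)
      (fun x w => by
        have h2 : Levi (fun y : U => Φ y.1 + φ j y.1) x w =
          Levi (fun y : U => Φ y.1) x w + Levi (fun y : U => φ j y.1) x w :=
            Levi_add hΦU (hφU j) x w
        have h3 : Levi (fun y : U => Φ y.1) x w = Levi Φ x.1 w := Levi_res U Φ x w
        have h4 : 0 ≤ Levi (fun y : U => φ j y.1) x w := by
          rw [W792.Levi_eq_lev (hφU j), lev_res]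
          exact hφl j x.1 (hUU₀ x) w
        have h5 : Levi (fun y : U => Ψ y.1) x w = Levi Ψ x.1 w := Levi_res U Ψ x w
        rw [h2, h3, h5]
        have := hΦΨ x.1 w
        linarith) hε0 hε2 (K := K + ENNReal.ofReal (1 / ((j : ℝ) + 1))) (by
        refine le_trans ?_ hε1
        have hms : MeasurableSet {x : M | ‖h x‖ ^ 2 ≤ ε ^ 2 * Real.exp (Ψ x)} :=
          (isClosed_le (hh.sm.continuous.norm.pow 2)
            (continuous_const.mul (Real.continuous_exp.comp hΨ.continuous))).measurableSet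
        have hmsU : MeasurableSet {x : U | ‖h x.1‖ ^ 2 ≤ ε ^ 2 * Real.exp (Ψ x.1)} :=
          hms.preimage measurable_subtype_coe
        set g : M → ℝ≥0∞ := fun x =>
          ENNReal.ofReal (‖f x‖ ^ 2 * Real.exp (-(Φ x + Ψ x + φ j x))) with hg
        calc ∫⁻ x in {x : U | ‖h x.1‖ ^ 2 ≤ ε ^ 2 * Real.exp (Ψ x.1)},
              ENNReal.ofReal (‖f x.1‖ ^ 2 * Real.exp (-((Φ x.1 + φ j x.1) + Ψ x.1)))
                ∂(μ.comap (Subtype.val : U → M))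
            = ∫⁻ x : U, ({x : M | ‖h x‖ ^ 2 ≤ ε ^ 2 * Real.exp (Ψ x)}.indicator g) x.1
                ∂(μ.comap (Subtype.val : U → M)) := by
              rw [← lintegral_indicator hmsU]
              refine lintegral_congr fun x => ?_
              by_cases hx : ‖h x.1‖ ^ 2 ≤ ε ^ 2 * Real.exp (Ψ x.1)
              · rw [indicator_of_mem (show x ∈ {x : U | ‖h x.1‖ ^ 2 ≤ ε ^ 2 * Real.exp (Ψ x.1)}
                  from hx), indicator_of_mem
                  (show x.1 ∈ {x : M | ‖h x‖ ^ 2 ≤ ε ^ 2 * Real.exp (Ψ x)} from hx)]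
                simp only [hg]
                congr 3
                ring
              · rw [indicator_of_notMem
                  (show x ∉ {x : U | ‖h x.1‖ ^ 2 ≤ ε ^ 2 * Real.exp (Ψ x.1)} from hx),
                  indicator_of_notMem
                  (show x.1 ∉ {x : M | ‖h x‖ ^ 2 ≤ ε ^ 2 * Real.exp (Ψ x)} from hx)]
          _ = ∫⁻ x in (U : Set M), ({x : M | ‖h x‖ ^ 2 ≤ ε ^ 2 * Real.exp (Ψ x)}.indicator g) x
                ∂μ := lintegral_res U _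
          _ = ∫⁻ x in {x : M | ‖h x‖ ^ 2 ≤ ε ^ 2 * Real.exp (Ψ x)} ∩ (U : Set M), g x ∂μ := by
              rw [lintegral_indicator hms, Measure.restrict_restrict hms]
          _ ≤ ∫⁻ x in tube h Ψ ρ k ε, g x ∂μ := by
              refine lintegral_mono_set ?_
              rintro x ⟨hx1, hx2⟩
              exact ⟨hx1, (show ρ x < k from hx2).le⟩)
    exact ⟨F, (hol_iff F).2 hF, hF0, hFb⟩
  choose F hFh hF0 hFb using hstep
  -- limit on `U`
  obtain ⟨F0, hF0h, hlim, hb0⟩ := limW' (Ω := fun _ => (univ : Set U)) (G := fun _ => (0 : ℂ)) hμU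
    (fun _ => isOpen_univ)
    (fun _ _ _ => le_rfl) (fun C _ => ⟨0, subset_univ C⟩) continuous_const
    (fun k => HolOn.of_hol (hFh k) univ)
    (W := fun k x => ENNReal.ofReal (Real.exp (-(Φ x.1 + Ψ x.1)) * Real.exp (-φ k x.1)))
    (fun x k k' hkk' => ENNReal.ofReal_le_ofReal (mul_le_mul_of_nonneg_left
      (Real.exp_le_exp.2 (neg_le_neg (hφa x.1 (hUU₀ x) hkk'))) (Real.exp_pos _).le))
    (fun k => by
      have h1 : Continuous (fun x : U => Real.exp (-(Φ x.1 + Ψ x.1)) * Real.exp (-φ k x.1)) :=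
        (Real.continuous_exp.comp (hΦU.continuous.add hΨU.continuous).neg).mul
          (Real.continuous_exp.comp (hφU k).continuous.neg)
      exact h1.measurable.ennreal_ofReal)
    (fun x => by
      have h1 : Continuous (fun x : U => Real.exp (-(Φ x.1 + Ψ x.1)) * Real.exp (-φ 0 x.1)) :=
        (Real.continuous_exp.comp (hΦU.continuous.add hΨU.continuous).neg).mul
          (Real.continuous_exp.comp (hφU 0).continuous.neg)
      have h2 : 0 < Real.exp (-(Φ x.1 + Ψ x.1)) * Real.exp (-φ 0 x.1) :=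
        mul_pos (Real.exp_pos _) (Real.exp_pos _)
      refine ⟨0, ENNReal.ofReal (Real.exp (-(Φ x.1 + Ψ x.1)) * Real.exp (-φ 0 x.1) / 2),
        ENNReal.ofReal_pos.2 (by positivity), ?_⟩
      filter_upwards [h1.continuousAt.eventually (lt_mem_nhds (half_lt_self h2))] with y hy
      exact ENNReal.ofReal_le_ofReal hy.le)
    (K := ENNReal.ofReal (Cot a) * K) (ENNReal.mul_ne_top ENNReal.ofReal_ne_top hKt)
    (fun K' hK' => by
      have h1 : Tendsto (fun j : ℕ => ENNReal.ofReal (Cot a) *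
          (K + ENNReal.ofReal (1 / ((j : ℝ) + 1)))) atTop (𝓝 (ENNReal.ofReal (Cot a) * K)) := by
        refine ENNReal.Tendsto.const_mul ?_ (Or.inr ENNReal.ofReal_ne_top)
        have h2 : Tendsto (fun j : ℕ => ENNReal.ofReal (1 / ((j : ℝ) + 1))) atTop (𝓝 0) := by
          have := (ENNReal.continuous_ofReal.tendsto 0).comp
            (tendsto_one_div_add_atTop_nhds_zero_nat (𝕜 := ℝ))
          rwa [ENNReal.ofReal_zero] at this
        simpa using h2.const_add K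
      have h3 : (hyperfilter ℕ : Filter ℕ) ≤ atTop := by
        rw [← Nat.cofinite_eq_atTop]
        exact hyperfilter_le_cofinite
      filter_upwards [h3 (h1.eventually (gt_mem_nhds hK'))] with j hj
      refine le_trans (le_trans (le_of_eq ?_) (hFb j)) (le_of_lt hj)
      rw [Measure.restrict_univ]
      refine lintegral_congr fun x => ?_
      rw [← ENNReal.ofReal_mul (by positivity), sub_zero]
      congr 1
      rw [show -(Φ x.1 + φ j x.1 + Ψ x.1) = -(Φ x.1 + Ψ x.1) + -φ j x.1 by ring, Real.exp_add])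
  -- back to `M`
  classical
  refine ⟨fun x => if hx : x ∈ U then F0 ⟨x, hx⟩ else 0, ?_, ?_, ?_⟩
  · intro e he z hz
    have hzU : e.symm z ∈ U := hz.2
    refine (differentiableAt_of_hol U hF0h (F' := fun x => if hx : x ∈ U then F0 ⟨x, hx⟩ else 0)
      (fun x => ?_) he hz.1 hzU).differentiableWithinAt
    rw [dif_pos x.2]
  · intro x hx hx0
    beta_reduce
    rw [dif_pos (show x ∈ U from hx)]
    have h1 := hlim ⟨x, hx⟩
    have h2 : (fun j => F j ⟨x, hx⟩) = fun _ => f x := by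
      funext j
      exact hF0 j ⟨x, hx⟩ hx0
    rw [h2] at h1
    exact (tendsto_nhds_unique tendsto_const_nhds h1).symm
  · have h1 := lintegral_res (U := U) (μ := μ) (fun x => ENNReal.ofReal
      (‖(if hx : x ∈ U then F0 ⟨x, hx⟩ else 0) - 0‖ ^ 2) *
        ENNReal.ofReal (Real.exp (-(Φ x + Ψ x)) * Real.exp (-u x)))
    refine le_trans (le_of_eq ?_) hb0
    refine h1.symm.trans ?_
    refine lintegral_congr fun x => ?_
    rw [dif_pos x.2]
    congr 1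
    -- the supremum
    have h2 : Tendsto (fun k => ENNReal.ofReal (Real.exp (-(Φ x.1 + Ψ x.1)) *
        Real.exp (-φ k x.1))) atTop (𝓝 (ENNReal.ofReal (Real.exp (-(Φ x.1 + Ψ x.1)) *
        Real.exp (-u x.1)))) :=
      (ENNReal.continuous_ofReal.tendsto _).comp
        (((Real.continuous_exp.tendsto _).comp (hφt x.1 (hUU₀ x)).neg).const_mul _)
    refine (tendsto_nhds_unique (tendsto_atTop_iSup ?_) h2).symm
    intro k k' hkk'
    exact ENNReal.ofReal_le_ofReal (mul_le_mul_of_nonneg_left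
      (Real.exp_le_exp.2 (neg_le_neg (hφa x.1 (hUU₀ x) hkk'))) (Real.exp_pos _).le)

/-- **Ohsawa–Takegoshi with a psh weight** -/
theorem ot_psh (hμ : IsLeb μ) (hρ : Sm ρ) (hcpt : ∀ t : ℝ, IsCompact {x | ρ x ≤ t})
    (hL : ∀ x w, nsq w ≤ Levi ρ x w) (hh : W792.Hol h) (hf : W792.Hol f)
    (hΨ : Sm Ψ) (hΦ : Sm Φ) (hs : ∀ x, ‖h x‖ ^ 2 ≤ Real.exp (Ψ x)) (ha : 0 < a) (ha1 : a ≤ 1)
    (hΨ0 : ∀ x w, 0 ≤ Levi Ψ x w) (hΦΨ : ∀ x w, a * Levi Ψ x w ≤ Levi Φ x w)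
    (hu : PSH u) (hKt : K ≠ ∞) (htube : TubeB μ h f Ψ Φ ρ u K) :
    ∃ F : M → ℂ, Hol F ∧ (∀ x, h x = 0 → F x = f x) ∧
      ∫⁻ x, ENNReal.ofReal (‖F x‖ ^ 2) *
        ENNReal.ofReal (Real.exp (-(Φ x + Ψ x)) * Real.exp (-u x)) ∂μ ≤
          ENNReal.ofReal (Cot a) * K := by
  choose F hF hF0 hFb using fun k : ℕ =>
    ot_step hμ hρ hcpt hL (k : ℝ) hh hf hΨ hΦ hs ha ha1 hΨ0 hΦΨ hu hKt htube
  have hcont : Continuous (fun x => Real.exp (-(Φ x + Ψ x))) :=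
    Real.continuous_exp.comp (hΦ.continuous.add hΨ.continuous).neg
  obtain ⟨F0, hF0h, hlim, hb⟩ := limW (Ω := fun k : ℕ => {x | ρ x < (k : ℝ)})
    (G := fun _ => (0 : ℂ)) hμ
    (fun k => isOpen_lt hρ.continuous continuous_const)
    (fun k k' hkk' x hx => lt_of_lt_of_le (show ρ x < (k : ℝ) from hx)
      (by exact_mod_cast hkk' : (k : ℝ) ≤ (k' : ℝ)))
    (exhaust hρ.continuous) continuous_const hF
    (W := fun _ x => ENNReal.ofReal (Real.exp (-(Φ x + Ψ x)) * Real.exp (-u x)))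
    (fun x _ _ _ => le_rfl)
    (fun _ => (hcont.measurable.mul
      (Real.measurable_exp.comp hu.usc.measurable.neg)).ennreal_ofReal)
    (fun x => by
      have h2 : 0 < Real.exp (-(Φ x + Ψ x)) := Real.exp_pos _
      refine ⟨0, ENNReal.ofReal (Real.exp (-(Φ x + Ψ x)) / 2 * Real.exp (-(u x + 1))),
        ENNReal.ofReal_pos.2 (by positivity), ?_⟩
      filter_upwards [hcont.continuousAt.eventually (lt_mem_nhds (half_lt_self h2)),
        hu.usc x (u x + 1) (by linarith)] with y hy1 hy2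
      refine ENNReal.ofReal_le_ofReal (mul_le_mul hy1.le (Real.exp_le_exp.2 (by linarith))
        (Real.exp_pos _).le (Real.exp_pos _).le))
    (K := ENNReal.ofReal (Cot a) * K) (ENNReal.mul_ne_top ENNReal.ofReal_ne_top hKt)
    (fun k => hFb k)
  refine ⟨F0, hF0h, fun x hx => ?_, le_trans (le_of_eq ?_) hb⟩
  · have h1 := hlim x
    obtain ⟨m, hm⟩ := exists_nat_gt (ρ x)
    have h3 : (hyperfilter ℕ : Filter ℕ) ≤ atTop := by
      rw [← Nat.cofinite_eq_atTop]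
      exact hyperfilter_le_cofinite
    have h2 : (fun j => F j x) =ᶠ[(hyperfilter ℕ : Filter ℕ)] fun _ => f x := by
      filter_upwards [h3 (eventually_ge_atTop m)] with j hj
      exact hF0 j x (hm.trans_le (by exact_mod_cast hj)) hx
    exact (tendsto_nhds_unique (tendsto_const_nhds.congr' h2.symm) h1).symm
  · simp only [iSup_const, sub_zero]

/-- **Ohsawa–Takegoshi with a singular psh weight** `1/b` -/
theorem otb (hμ : IsLeb μ) (hρ : Sm ρ) (hcpt : ∀ t : ℝ, IsCompact {x | ρ x ≤ t})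
    (hL : ∀ x w, nsq w ≤ Levi ρ x w) (hh : W792.Hol h) (hf : W792.Hol f)
    (hΨ : Sm Ψ) (hΦ : Sm Φ) (hs : ∀ x, ‖h x‖ ^ 2 ≤ Real.exp (Ψ x)) (ha : 0 < a) (ha1 : a ≤ 1)
    (hΨ0 : ∀ x w, 0 ≤ Levi Ψ x w) (hΦΨ : ∀ x w, a * Levi Ψ x w ≤ Levi Φ x w)
    {b : M → ℝ} (hb : LPsh b) (hKt : K ≠ ∞)
    (htube : ∀ δ : ℝ, 0 < δ → TubeB μ h f Ψ Φ ρ (fun x => Real.log (b x + δ)) K) :
    ∃ F : M → ℂ, Hol F ∧ (∀ x, h x = 0 → F x = f x) ∧
      ∫⁻ x, ENNReal.ofReal (‖F x‖ ^ 2 * Real.exp (-(Φ x + Ψ x))) / ENNReal.ofReal (b x) ∂μ ≤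
          ENNReal.ofReal (Cot a) * K := by
  have hδ : ∀ k : ℕ, (0 : ℝ) < 1 / ((k : ℝ) + 1) := fun k => by positivity
  have hmono : ∀ x {k k' : ℕ}, k ≤ k' → (b x + 1 / ((k : ℝ) + 1))⁻¹ ≤
      (b x + 1 / ((k' : ℝ) + 1))⁻¹ := by
    intro x k k' hkk'
    have h1 := hb.nonneg x
    have h2 := hδ k'
    have h3 : 1 / ((k' : ℝ) + 1) ≤ 1 / ((k : ℝ) + 1) := by
      apply one_div_le_one_div_of_le (by positivity)
      have : (k : ℝ) ≤ k' := by exact_mod_cast hkk'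
      linarith
    exact inv_anti₀ (by positivity) (by linarith)
  choose F hF hF0 hFb using fun k : ℕ =>
    ot_psh hμ hρ hcpt hL hh hf hΨ hΦ hs ha ha1 hΨ0 hΦΨ (hb.psh _ (hδ k)) hKt (htube _ (hδ k))
  have hcont : Continuous (fun x => Real.exp (-(Φ x + Ψ x))) :=
    Real.continuous_exp.comp (hΦ.continuous.add hΨ.continuous).neg
  have hbm : ∀ k : ℕ, UpperSemicontinuous (fun x => Real.log (b x + 1 / ((k : ℝ) + 1))) :=
    fun k => (hb.psh _ (hδ k)).usc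
  obtain ⟨F0, hF0h, hlim, hbd⟩ := limW (Ω := fun _ : ℕ => (univ : Set M)) (G := fun _ => (0 : ℂ)) hμ
    (fun _ => isOpen_univ) (fun _ _ _ => le_rfl) (fun C _ => ⟨0, subset_univ C⟩) continuous_const
    (fun k => HolOn.of_hol (hF k) univ)
    (W := fun k x => ENNReal.ofReal (Real.exp (-(Φ x + Ψ x)) *
      Real.exp (-Real.log (b x + 1 / ((k : ℝ) + 1)))))
    (fun x k k' hkk' => by
      refine ENNReal.ofReal_le_ofReal (mul_le_mul_of_nonneg_left ?_ (Real.exp_pos _).le)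
      rw [exp_neg_log (hb.nonneg x) (hδ k), exp_neg_log (hb.nonneg x) (hδ k')]
      exact hmono x hkk')
    (fun k => (hcont.measurable.mul
      (Real.measurable_exp.comp (hbm k).measurable.neg)).ennreal_ofReal)
    (fun x => by
      have h2 : 0 < Real.exp (-(Φ x + Ψ x)) := Real.exp_pos _
      set u : M → ℝ := fun x => Real.log (b x + 1 / (((0 : ℕ) : ℝ) + 1)) with hu
      refine ⟨0, ENNReal.ofReal (Real.exp (-(Φ x + Ψ x)) / 2 * Real.exp (-(u x + 1))),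
        ENNReal.ofReal_pos.2 (by positivity), ?_⟩
      filter_upwards [hcont.continuousAt.eventually (lt_mem_nhds (half_lt_self h2)),
        hbm 0 x (u x + 1) (by simp only [hu]; linarith)] with y hy1 hy2
      exact ENNReal.ofReal_le_ofReal (mul_le_mul hy1.le (Real.exp_le_exp.2 (neg_le_neg hy2.le))
        (Real.exp_pos _).le (Real.exp_pos _).le))
    (K := ENNReal.ofReal (Cot a) * K) (ENNReal.mul_ne_top ENNReal.ofReal_ne_top hKt)
    (fun k => by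
      rw [Measure.restrict_univ]
      simpa only [sub_zero] using hFb k)
  refine ⟨F0, hF0h, fun x hx => ?_, le_trans (le_of_eq ?_) hbd⟩
  · have h1 := hlim x
    have h2 : (fun j => F j x) = fun _ => f x := by
      funext j
      exact hF0 j x hx
    rw [h2] at h1
    exact (tendsto_nhds_unique tendsto_const_nhds h1).symm
  refine lintegral_congr fun x => ?_
  have h1 : ∀ k : ℕ, ENNReal.ofReal (Real.exp (-(Φ x + Ψ x)) *
      Real.exp (-Real.log (b x + 1 / ((k : ℝ) + 1)))) =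
      ENNReal.ofReal (Real.exp (-(Φ x + Ψ x))) *
        ENNReal.ofReal ((b x + 1 / ((k : ℝ) + 1))⁻¹) := by
    intro k
    rw [exp_neg_log (hb.nonneg x) (hδ k), ENNReal.ofReal_mul (Real.exp_pos _).le]
  simp only [h1]
  rw [← ENNReal.mul_iSup, iSup_inv_eq (hb.nonneg x), ENNReal.ofReal_mul (by positivity),
    ENNReal.div_eq_inv_mul, sub_zero]
  ring

end Crest.Agent.R273.OTU_34
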