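import Crest.Agent.R271.Engine_51
import Crest.Agent.R271.NonInt_821
import Crest.Agent.R273.Pen_93
import Crest.Agent.R271.G3a_792
import Crest.Agent.R273.PsiB_844

-- ▼ part R273/PsiE_145
section

/-!
# R273, A-PSI: the engine step (helper145)

On a Riemann domain `M` with a strictly plurisubharmonic exhaustion: `u`, `p1` smooth
plurisubharmonic, `∫ e^{-p1} < ∞`, `y_1, ..., y_N` holomorphic, `b` a function on `ℂ^N`, continuous
at the points `y(x)`, with `b(y) ≤ u + C`.  Then for every `x0` and `m` there is a holomorphic `F`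
with `F(x0) = 1` and
`∫ |F|² e^{-(m u + p1 + (n+1) log(1+|y|²))} ≤ C(x0) e^{m (C + 1 - b(y(x0)))}`.
-/

set_option autoImplicit false
set_option linter.unusedSectionVars false

noncomputable section

open Set Filter Topology MeasureTheory ComplexConjugate Metric
open scoped ENNReal

namespace Crest.Agent.R273.PsiE_145

open Crest.Agent.R271 Crest.Agent.R271.Ho51
open Crest.Agent.R271.W792 (lev lev_lg lev_lg_ge lev_lg_nonneg nS nS_nonneg sm_nS nT nT_nonneg nA
  nA_le lg sm_lg Levi_eq_lev D_nS lev_add lev_const_mul lg_antitone)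
open Crest.Agent.R273.Pen_93 (w_hol dbw dbw_eq hol_cont hol_sub hol_const)

variable {n N : ℕ} {M : Type} [TopologicalSpace M] [RDom n M]

/-! ### the cut-off function -/

/-- `1` on `(-∞, ε/2]`, `0` on `[ε, ∞)` -/
def cut (ε s : ℝ) : ℝ := Real.smoothTransition ((ε - s) / (ε / 2))

theorem contDiff_cut (ε : ℝ) : ContDiff ℝ (⊤ : ℕ∞) (cut ε) := by
  unfold cut
  exact Real.smoothTransition.contDiff.comp (by fun_prop)

theorem cut_one {ε s : ℝ} (hε : 0 < ε) (h : s ≤ ε / 2) : cut ε s = 1 := by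
  unfold cut
  refine Real.smoothTransition.one_of_one_le ?_
  rw [le_div_iff₀ (by positivity)]
  linarith

theorem cut_zero {ε s : ℝ} (hε : 0 < ε) (h : ε ≤ s) : cut ε s = 0 := by
  unfold cut
  refine Real.smoothTransition.zero_of_nonpos ?_
  exact div_nonpos_of_nonpos_of_nonneg (by linarith) (by positivity)

theorem cut_nonneg (ε s : ℝ) : 0 ≤ cut ε s := Real.smoothTransition.nonneg _

theorem cut_le_one (ε s : ℝ) : cut ε s ≤ 1 := Real.smoothTransition.le_one _

theorem deriv_cut {ε s : ℝ} (hε : 0 < ε) (h : deriv (cut ε) s ≠ 0) : ε / 2 ≤ s ∧ s ≤ ε := by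
  constructor
  · by_contra hcon
    push Not at hcon
    refine h ?_
    have h1 : cut ε =ᶠ[𝓝 s] fun _ => (1 : ℝ) := by
      filter_upwards [eventually_lt_nhds hcon] with t ht
      exact cut_one hε ht.le
    rw [h1.deriv_eq, deriv_const]
  · by_contra hcon
    push Not at hcon
    refine h ?_
    have h1 : cut ε =ᶠ[𝓝 s] fun _ => (0 : ℝ) := by
      filter_upwards [eventually_gt_nhds hcon] with t ht
      exact cut_zero hε ht.le
    rw [h1.deriv_eq, deriv_const]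

theorem exists_deriv_bound {ε : ℝ} (hε : 0 < ε) :
    ∃ A : ℝ, 0 ≤ A ∧ ∀ s, |deriv (cut ε) s| ≤ A := by
  have hc : Continuous (deriv (cut ε)) := (contDiff_cut ε).continuous_deriv (by simp)
  obtain ⟨A, hA⟩ := (isCompact_Icc (a := ε / 2) (b := ε)).bddAbove_image hc.abs.continuousOn
  refine ⟨max A 0, le_max_right _ _, fun s => ?_⟩
  by_cases h : deriv (cut ε) s = 0
  · rw [h, abs_zero]; exact le_max_right _ _
  · exact le_max_of_le_left (hA ⟨s, deriv_cut hε h, rfl⟩)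

/-! ### functions of `∑ |f_j|²` -/

theorem dbw_nS {ι : Type*} [Fintype ι] {f : ι → M → ℂ} (hf : ∀ j, W792.Hol (f j)) {g : ℝ → ℝ}
    (hg : ContDiff ℝ (⊤ : ℕ∞) g) (x : M) (w : Fin n → ℂ) :
    dbw (fun x => ((g (nS f x) : ℝ) : ℂ)) x w =
      ((deriv g (nS f x) : ℝ) : ℂ) * conj (nA f x w) := by
  have hd : HasDerivAt g (deriv g (nS f x)) (nS f x) :=
    (hg.differentiable (by simp)).differentiableAt.hasDerivAt
  have hsm : Sm (fun x => g (nS f x)) := (sm_nS fun j => (hf j).sm).comp hg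
  have h1 : ∀ v, D (fun x => ((g (nS f x) : ℝ) : ℂ)) x v =
      ((deriv g (nS f x) * (2 * (nA f x v).re) : ℝ) : ℂ) := by
    intro v
    have h2 := D_ofReal hsm x v
    have h3 := D_comp_real (sm_nS fun j => (hf j).sm) x hd v
    have h4 : D (nS f) x v = 2 * (nA f x v).re := D_nS (fun j => (hf j).sm) x v
    rw [h2, h3, h4]
  have hI : nA f x (Complex.I • w) = Complex.I * nA f x w := by
    unfold nA
    rw [Finset.mul_sum]
    refine Finset.sum_congr rfl fun j _ => ?_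
    rw [(hf j).cl]; ring
  unfold dbw
  rw [h1, h1, hI]
  set A := nA f x w with hA
  have h5 : (Complex.I * A).re = -A.im := by simp
  rw [h5]
  apply Complex.ext
  · simp only [Complex.mul_re, Complex.add_re, Complex.add_im, Complex.ofReal_re, Complex.ofReal_im,
      Complex.I_re, Complex.I_im, Complex.conj_re,
      Complex.conj_im, Complex.mul_im, Complex.one_re, Complex.one_im, Complex.div_re,
      Complex.div_im]
    norm_num
    ring
  · simp only [Complex.mul_re, Complex.add_re, Complex.add_im, Complex.ofReal_re, Complex.ofReal_im,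
      Complex.I_re, Complex.I_im, Complex.conj_re,
      Complex.conj_im, Complex.mul_im, Complex.one_re, Complex.one_im, Complex.div_re,
      Complex.div_im]
    norm_num
    ring

/-- the functions `y_j - y_j(x0)` -/
def sh (y : Fin N → M → ℂ) (x0 : M) (j : Fin N) (x : M) : ℂ := y j x - y j x0

theorem sh_hol {y : Fin N → M → ℂ} (hy : ∀ j, Hol (y j)) (x0 : M) (j : Fin N) :
    Hol (sh y x0 j) := hol_sub (hy j) (hol_const _)

theorem nT_sh {y : Fin N → M → ℂ} (hy : ∀ j, Hol (y j)) (x0 x : M) (w : Fin n → ℂ) :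
    nT (sh y x0) x w = nT y x w := by
  unfold nT
  refine Finset.sum_congr rfl fun j _ => ?_
  have h1 : D (sh y x0 j) x = D (y j) x := by
    have := D_sub (w_hol (hy j)).sm (Sm.const (M := M) (y j x0)) x
    rw [D_const, sub_zero] at this
    exact this
  rw [h1]

theorem nS_sh_self (y : Fin N → M → ℂ) (x0 : M) : nS (sh y x0) x0 = 0 := by
  simp [nS, sh]

omit [TopologicalSpace M] [RDom n M] in
theorem nS_le_sh (y : Fin N → M → ℂ) (x0 x : M) : nS y x ≤ 2 * (nS y x0 + nS (sh y x0) x) := by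
  unfold nS sh
  rw [← Finset.sum_add_distrib, Finset.mul_sum]
  refine Finset.sum_le_sum fun j _ => ?_
  have h1 : ‖y j x‖ ≤ ‖y j x0‖ + ‖y j x - y j x0‖ := by
    have := norm_add_le (y j x0) (y j x - y j x0)
    rwa [add_sub_cancel] at this
  nlinarith [norm_nonneg (y j x), norm_nonneg (y j x0), norm_nonneg (y j x - y j x0),
    sq_nonneg (‖y j x0‖ - ‖y j x - y j x0‖)]

omit [TopologicalSpace M] [RDom n M] in
theorem sh_le_nS (y : Fin N → M → ℂ) (x0 x : M) : nS (sh y x0) x ≤ 2 * (nS y x0 + nS y x) := by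
  unfold nS sh
  rw [← Finset.sum_add_distrib, Finset.mul_sum]
  refine Finset.sum_le_sum fun j _ => ?_
  have h1 : ‖y j x - y j x0‖ ≤ ‖y j x‖ + ‖y j x0‖ := norm_sub_le _ _
  nlinarith [norm_nonneg (y j x), norm_nonneg (y j x0), norm_nonneg (y j x - y j x0),
    sq_nonneg (‖y j x0‖ - ‖y j x‖)]

/-! ### the weights -/

/-- `m u + p1 + log(1 + |y|²)` -/
def W0 (u p1 : M → ℝ) (y : Fin N → M → ℂ) (m : ℕ) (x : M) : ℝ :=
  m * u x + p1 x + lg y 1 x

/-- the regularised weights -/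
def Wk (u p1 : M → ℝ) (y : Fin N → M → ℂ) (m : ℕ) (x0 : M) (k : ℕ) (x : M) : ℝ :=
  W0 u p1 y m x + n * lg (sh y x0) (1 / ((k : ℝ) + 1)) x

section weights

variable {u p1 : M → ℝ} {y : Fin N → M → ℂ}

theorem del_pos (k : ℕ) : (0 : ℝ) < 1 / ((k : ℝ) + 1) := by positivity

theorem pos1 (y : Fin N → M → ℂ) (x : M) : 0 < nS y x + 1 := by
  have := nS_nonneg y x
  positivity

theorem posk (y : Fin N → M → ℂ) (k : ℕ) (x : M) : 0 < nS y x + 1 / ((k : ℝ) + 1) := by
  have := nS_nonneg y x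
  have := del_pos k
  positivity

theorem sm_lg1 (hy : ∀ j, Hol (y j)) : Sm (lg y 1) :=
  sm_lg (fun j => (w_hol (hy j)).sm) (pos1 y)

theorem sm_lgk (hy : ∀ j, Hol (y j)) (x0 : M) (k : ℕ) : Sm (lg (sh y x0) (1 / ((k : ℝ) + 1))) :=
  sm_lg (fun j => (w_hol (sh_hol hy x0 j)).sm) (posk _ k)

theorem sm_mu (hu : Sm u) (m : ℕ) : Sm (fun x => (m : ℝ) * u x) := (Sm.const _).mulR hu

theorem sm_W0 (hu : Sm u) (hp : Sm p1) (hy : ∀ j, Hol (y j)) (m : ℕ) : Sm (W0 u p1 y m) :=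
  ((sm_mu hu m).add hp).add (sm_lg1 hy)

theorem sm_Wk (hu : Sm u) (hp : Sm p1) (hy : ∀ j, Hol (y j)) (m : ℕ) (x0 : M) (k : ℕ) :
    Sm (Wk (n := n) u p1 y m x0 k) :=
  (sm_W0 hu hp hy m).add ((Sm.const _).mulR (sm_lgk hy x0 k))

theorem Wk_anti (u p1 : M → ℝ) (y : Fin N → M → ℂ) (m : ℕ) (x0 x : M) :
    Antitone fun k => Wk (n := n) u p1 y m x0 k x := by
  intro k l hkl
  unfold Wk
  have h1 : lg (sh y x0) (1 / ((l : ℝ) + 1)) x ≤ lg (sh y x0) (1 / ((k : ℝ) + 1)) x := by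
    refine lg_antitone _ ?_ x (posk _ l x)
    apply one_div_le_one_div_of_le (by positivity)
    have : (k : ℝ) ≤ l := by exact_mod_cast hkl
    linarith
  have h2 := mul_le_mul_of_nonneg_left h1 (Nat.cast_nonneg (α := ℝ) n)
  simp only
  linarith

theorem Levi_Wk (hu : Sm u) (hu0 : ∀ x w, 0 ≤ Levi u x w) (hp : Sm p1)
    (hp0 : ∀ x w, 0 ≤ Levi p1 x w) (hy : ∀ j, Hol (y j)) (m : ℕ) (x0 : M) (k : ℕ) (x : M)
    (w : Fin n → ℂ) :
    nT y x w / (nS y x + 1) ^ 2 ≤ Levi (Wk (n := n) u p1 y m x0 k) x w := by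
  rw [Levi_eq_lev (sm_Wk hu hp hy m x0 k)]
  have h1 : lev (Wk (n := n) u p1 y m x0 k) x w =
      m * lev u x w + lev p1 x w + lev (lg y 1) x w +
        n * lev (lg (sh y x0) (1 / ((k : ℝ) + 1))) x w := by
    unfold Wk W0
    rw [lev_add (((sm_mu hu m).add hp).add (sm_lg1 hy)) ((Sm.const _).mulR (sm_lgk hy x0 k)),
      lev_add ((sm_mu hu m).add hp) (sm_lg1 hy), lev_add (sm_mu hu m) hp,
      lev_const_mul hu, lev_const_mul (sm_lgk hy x0 k)]
  rw [h1]
  have h2 := lev_lg_ge (fun j => w_hol (hy j)) (pos1 y) x w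
  have h3 := lev_lg_nonneg (fun j => w_hol (sh_hol hy x0 j)) (del_pos k).le (posk (sh y x0) k) x w
  have h4 : 0 ≤ (n : ℝ) * lev (lg (sh y x0) (1 / ((k : ℝ) + 1))) x w := by positivity
  have h5 := hu0 x w
  rw [Levi_eq_lev hu] at h5
  have h6 := hp0 x w
  rw [Levi_eq_lev hp] at h6
  have h7 : 0 ≤ (m : ℝ) * lev u x w := by positivity
  rw [one_mul] at h2
  linarith

theorem Levi_Wk_nonneg (hu : Sm u) (hu0 : ∀ x w, 0 ≤ Levi u x w) (hp : Sm p1)
    (hp0 : ∀ x w, 0 ≤ Levi p1 x w) (hy : ∀ j, Hol (y j)) (m : ℕ) (x0 : M) (k : ℕ) (x : M)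
    (w : Fin n → ℂ) : 0 ≤ Levi (Wk (n := n) u p1 y m x0 k) x w := by
  refine le_trans ?_ (Levi_Wk hu hu0 hp hp0 hy m x0 k x w)
  have := nT_nonneg y x w
  positivity

/-- the cut-off function on `M` -/
def G (ε : ℝ) (y : Fin N → M → ℂ) (x0 : M) (x : M) : ℂ := ((cut ε (nS (sh y x0) x) : ℝ) : ℂ)

theorem sm_G (ε : ℝ) (hy : ∀ j, Hol (y j)) (x0 : M) : Sm (G ε y x0) :=
  ((sm_nS fun j => (w_hol (sh_hol hy x0 j)).sm).comp (contDiff_cut ε)).ofReal

/-- the bound of `∂̄ G` -/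
def kap (ε : ℝ) (y : Fin N → M → ℂ) (x0 : M) (x : M) : ℝ :=
  (deriv (cut ε) (nS (sh y x0) x)) ^ 2 * nS (sh y x0) x * (nS y x + 1) ^ 2

theorem db_G (ε : ℝ) (hu : Sm u) (hu0 : ∀ x w, 0 ≤ Levi u x w) (hp : Sm p1)
    (hp0 : ∀ x w, 0 ≤ Levi p1 x w) (hy : ∀ j, Hol (y j)) (m : ℕ) (x0 : M) (k : ℕ) (x : M)
    (w : Fin n → ℂ) :
    ‖∑ j, db j (G ε y x0) x * conj (w j)‖ ^ 2 ≤
      kap ε y x0 x * Levi (Wk (n := n) u p1 y m x0 k) x w := by
  rw [dbw_eq]
  unfold G
  rw [dbw_nS (fun j => w_hol (sh_hol hy x0 j)) (contDiff_cut ε), norm_mul, Complex.norm_conj,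
    Complex.norm_real, Real.norm_eq_abs, mul_pow, sq_abs]
  have h1 := nA_le (sh y x0) x w
  rw [nT_sh hy] at h1
  have h2 := Levi_Wk hu hu0 hp hp0 hy m x0 k x w
  have h3 : 0 < (nS y x + 1) ^ 2 := pow_pos (pos1 y x) 2
  rw [div_le_iff₀ h3] at h2
  have h4 := nS_nonneg (sh y x0) x
  unfold kap
  calc (deriv (cut ε) (nS (sh y x0) x)) ^ 2 * ‖nA (sh y x0) x w‖ ^ 2
      ≤ (deriv (cut ε) (nS (sh y x0) x)) ^ 2 * (nS (sh y x0) x *
        (Levi (Wk (n := n) u p1 y m x0 k) x w * (nS y x + 1) ^ 2)) := by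
        gcongr
        exact h1.trans (mul_le_mul_of_nonneg_left h2 h4)
    _ = _ := by ring

theorem exp_lg {ι : Type*} [Fintype ι] (f : ι → M → ℂ) (δ : ℝ) (x : M) (h : 0 < nS f x + δ)
    (a : ℕ) : Real.exp (-((a : ℝ) * lg f δ x)) = ((nS f x + δ) ^ a)⁻¹ := by
  unfold lg
  rw [Real.exp_neg, Real.exp_nat_mul, Real.exp_log h]

theorem exp_Wk (u p1 : M → ℝ) (y : Fin N → M → ℂ) (m : ℕ) (x0 : M) (k : ℕ) (x : M) :
    Real.exp (-Wk (n := n) u p1 y m x0 k x) = Real.exp (-(m * u x)) * Real.exp (-p1 x) *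
      (nS y x + 1)⁻¹ * ((nS (sh y x0) x + 1 / ((k : ℝ) + 1)) ^ n)⁻¹ := by
  have h1 := exp_lg y 1 x (pos1 y x) 1
  have h2 := exp_lg (sh y x0) (1 / ((k : ℝ) + 1)) x (posk _ k x) n
  rw [Nat.cast_one, one_mul, pow_one] at h1
  unfold Wk W0
  rw [neg_add, neg_add, neg_add, Real.exp_add, Real.exp_add, Real.exp_add, h1, h2]

/-- the final weight `m u + p1 + (n+1) log(1+|y|²)` -/
def V (u p1 : M → ℝ) (y : Fin N → M → ℂ) (m : ℕ) (x : M) : ℝ :=
  m * u x + p1 x + ((n + 1 : ℕ) : ℝ) * lg y 1 x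

theorem exp_V (u p1 : M → ℝ) (y : Fin N → M → ℂ) (m : ℕ) (x : M) :
    Real.exp (-V (n := n) u p1 y m x) = Real.exp (-(m * u x)) * Real.exp (-p1 x) *
      ((nS y x + 1) ^ (n + 1))⁻¹ := by
  have h1 := exp_lg y 1 x (pos1 y x) (n + 1)
  unfold V
  rw [neg_add, neg_add, Real.exp_add, Real.exp_add, h1]

theorem cont_V (hu : Sm u) (hp : Sm p1) (hy : ∀ j, Hol (y j)) (m : ℕ) :
    Continuous (V (n := n) u p1 y m) := by
  unfold V
  exact (((sm_mu hu m).add hp).continuous).add (continuous_const.mul (sm_lg1 hy).continuous)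

/-- comparison of the final weight with `W_0` -/
theorem exp_V_le (u p1 : M → ℝ) (y : Fin N → M → ℂ) (m : ℕ) (x0 x : M) :
    Real.exp (-V (n := n) u p1 y m x) ≤
      (2 * (1 + nS y x0)) ^ n * Real.exp (-Wk (n := n) u p1 y m x0 0 x) := by
  rw [exp_V, exp_Wk]
  have h1 := pos1 y x
  have h2 := nS_nonneg y x
  have h3 := nS_nonneg y x0
  have h4 := nS_nonneg (sh y x0) x
  have h5 := sh_le_nS y x0 x
  have h6 : nS (sh y x0) x + 1 / (((0 : ℕ) : ℝ) + 1) ≤ 2 * (1 + nS y x0) * (nS y x + 1) := by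
    norm_num
    nlinarith
  have h7 : 0 < nS (sh y x0) x + 1 / (((0 : ℕ) : ℝ) + 1) := posk _ 0 x
  have h8 : ((nS y x + 1) ^ n)⁻¹ ≤ (2 * (1 + nS y x0)) ^ n *
      ((nS (sh y x0) x + 1 / (((0 : ℕ) : ℝ) + 1)) ^ n)⁻¹ := by
    rw [← div_eq_mul_inv, le_div_iff₀ (by positivity), inv_mul_le_iff₀ (by positivity), ← mul_pow]
    refine pow_le_pow_left₀ h7.le ?_ n
    linarith
  calc Real.exp (-(m * u x)) * Real.exp (-p1 x) * ((nS y x + 1) ^ (n + 1))⁻¹
      = Real.exp (-(m * u x)) * Real.exp (-p1 x) * (nS y x + 1)⁻¹ * ((nS y x + 1) ^ n)⁻¹ := by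
        rw [pow_succ, mul_inv]; ring
    _ ≤ Real.exp (-(m * u x)) * Real.exp (-p1 x) * (nS y x + 1)⁻¹ *
        ((2 * (1 + nS y x0)) ^ n * ((nS (sh y x0) x + 1 / (((0 : ℕ) : ℝ) + 1)) ^ n)⁻¹) := by
        gcongr
    _ = _ := by ring

end weights

/-! ### the engine -/

section engine

variable [T2Space M] [SecondCountableTopology M] [MeasurableSpace M] [BorelSpace M] {μ : Measure M}
  {u p1 : M → ℝ} {y : Fin N → M → ℂ}

theorem sh_bound (hy : ∀ j, Hol (y j)) (x0 : M) : ∃ K1 : ℝ, 0 < K1 ∧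
    ∀ᶠ z in 𝓝 (cp x0), nS (sh y x0) ((ch x0).symm z) ≤ K1 * ‖z - cp x0‖ ^ 2 := by
  set e := ch x0
  set Φ : (Fin n → ℂ) → (Fin N → ℂ) := fun z j => y j (e.symm z) with hΦ
  have hd : DifferentiableAt ℂ Φ (cp x0) := by
    refine differentiableAt_pi.2 fun j => ?_
    exact (hy j e (isCh_ch x0)).differentiableAt
      (e.open_target.mem_nhds ((isCh_ch x0).cp_mem (mem_ch x0)))
  obtain ⟨K, hK, hb⟩ := hd.isBigO_sub.exists_pos
  refine ⟨(N + 1) * K ^ 2, by positivity, ?_⟩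
  filter_upwards [hb.bound] with z hz
  have h0 : Φ (cp x0) = fun j => y j x0 := by
    funext j
    simp only [hΦ]
    rw [(isCh_ch x0).symm_cp (mem_ch x0)]
  have h1 : nS (sh y x0) (e.symm z) ≤ N * ‖Φ z - Φ (cp x0)‖ ^ 2 := by
    unfold nS
    calc ∑ j, ‖sh y x0 j (e.symm z)‖ ^ 2 ≤ ∑ _j : Fin N, ‖Φ z - Φ (cp x0)‖ ^ 2 := by
          refine Finset.sum_le_sum fun j _ => ?_
          have h2 : sh y x0 j (e.symm z) = (Φ z - Φ (cp x0)) j := by
            rw [h0]; rfl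
          rw [h2]
          exact pow_le_pow_left₀ (norm_nonneg _) (norm_le_pi_norm _ j) 2
      _ = _ := by simp
  have h3 : ‖Φ z - Φ (cp x0)‖ ^ 2 ≤ K ^ 2 * ‖z - cp x0‖ ^ 2 := by
    rw [← mul_pow]
    exact pow_le_pow_left₀ (norm_nonneg _) hz 2
  calc nS (sh y x0) (e.symm z) ≤ N * ‖Φ z - Φ (cp x0)‖ ^ 2 := h1
    _ ≤ N * (K ^ 2 * ‖z - cp x0‖ ^ 2) := by gcongr
    _ ≤ (N + 1) * (K ^ 2 * ‖z - cp x0‖ ^ 2) := by
        have : 0 ≤ K ^ 2 * ‖z - cp x0‖ ^ 2 := by positivity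
        nlinarith
    _ = _ := by ring

theorem symm_tendsto (x0 : M) : Tendsto (ch x0).symm (𝓝 (cp x0)) (𝓝 x0) := by
  have := (ch x0).symm.continuousAt (x := cp x0)
    (by simpa using (isCh_ch x0).cp_mem (mem_ch x0))
  rwa [ContinuousAt, (isCh_ch x0).symm_cp (mem_ch x0)] at this

theorem G_eq_one {ε : ℝ} (hε : 0 < ε) (y : Fin N → M → ℂ) (x0 x : M)
    (h : nS (sh y x0) x ≤ ε / 2) : G ε y x0 x = 1 := by
  unfold G
  rw [cut_one hε h, Complex.ofReal_one]

/-- the value at `x0` is prescribed by the singularity of the weight -/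
theorem eval_one (hμ : IsLeb μ) (hn : 1 ≤ n) (hu : Sm u) (hp : Sm p1) (hy : ∀ j, Hol (y j))
    {ε : ℝ} (hε : 0 < ε) (m : ℕ) (x0 : M) {F : M → ℂ} (hF : Hol F) {K : ℝ≥0∞} (hK : K ≠ ⊤)
    (h : ∫⁻ x, ENNReal.ofReal (‖F x - G ε y x0 x‖ ^ 2) *
      (⨆ k, ENNReal.ofReal (Real.exp (-Wk (n := n) u p1 y m x0 k x))) ∂μ ≤ K) : F x0 = 1 := by
  by_contra hne
  set e := ch x0 with he
  set z0 : Fin n → ℂ := cp x0 with hz0
  have he' : IsCh e := isCh_ch x0
  have ht := symm_tendsto x0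
  obtain ⟨K1, hK1, hb1⟩ := sh_bound hy x0
  have hc0 : 0 < ‖F x0 - 1‖ ^ 2 := by
    have : 0 < ‖F x0 - 1‖ := norm_pos_iff.2 (sub_ne_zero.2 hne)
    positivity
  set c0 := ‖F x0 - 1‖ ^ 2 / 2 with hc0d
  have hc0' : 0 < c0 := by positivity
  have hcF : Continuous fun x => ‖F x - 1‖ ^ 2 := ((hol_cont hF).sub continuous_const).norm.pow 2
  have e1 : ∀ᶠ z in 𝓝 z0, c0 < ‖F (e.symm z) - 1‖ ^ 2 :=
    ht.eventually ((hcF.tendsto x0).eventually (lt_mem_nhds (by rw [hc0d]; linarith)))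
  have hcS : Continuous (nS (sh y x0)) := (sm_nS fun j => (w_hol (sh_hol hy x0 j)).sm).continuous
  have e2 : ∀ᶠ z in 𝓝 z0, nS (sh y x0) (e.symm z) < ε / 2 := by
    refine ht.eventually ((hcS.tendsto x0).eventually (gt_mem_nhds ?_))
    rw [nS_sh_self]; positivity
  have hcW : Continuous (W0 u p1 y m) := (sm_W0 hu hp hy m).continuous
  have e3 : ∀ᶠ z in 𝓝 z0, W0 u p1 y m (e.symm z) < W0 u p1 y m x0 + 1 :=
    ht.eventually ((hcW.tendsto x0).eventually (gt_mem_nhds (by linarith)))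
  have e4 : ∀ᶠ z in 𝓝 z0, z ∈ e.target := e.open_target.mem_nhds (he'.cp_mem (mem_ch x0))
  obtain ⟨r, hr, hB⟩ := Metric.nhds_basis_closedBall.mem_iff.1
    (((e1.and e2).and (e3.and hb1)).and e4 : ∀ᶠ z in 𝓝 z0, _)
  have hBt : closedBall z0 r ⊆ e.target := fun z hz => (hB hz).2
  set f : M → ℝ≥0∞ := fun x => ENNReal.ofReal (‖F x - G ε y x0 x‖ ^ 2) *
      (⨆ k, ENNReal.ofReal (Real.exp (-Wk (n := n) u p1 y m x0 k x))) with hf
  have hfm : Measurable f := by
    refine Measurable.mul ?_ (Measurable.iSup fun k => ?_)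
    · exact ((((hol_cont hF).sub (sm_G ε hy x0).continuous).norm.pow 2)).measurable.ennreal_ofReal
    · exact (Real.continuous_exp.comp (sm_Wk hu hp hy m x0 k).continuous.neg).measurable.ennreal_ofReal
  set c1 : ℝ := c0 * (Real.exp (-(W0 u p1 y m x0 + 1)) * ((2 * K1) ^ n)⁻¹) with hc1
  have hc1p : 0 < c1 := by positivity
  have hlow : ∀ z ∈ closedBall z0 r, z ≠ z0 →
      ENNReal.ofReal c1 * (ENNReal.ofReal ‖z - z0‖) ^ (-((2 * n : ℕ) : ℝ)) ≤ f (e.symm z) := by
    intro z hz hzne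
    obtain ⟨⟨⟨g1, g2⟩, g3, g4⟩, -⟩ := hB hz
    have hpos : 0 < ‖z - z0‖ := norm_pos_iff.2 (sub_ne_zero.2 hzne)
    set t := K1 * ‖z - z0‖ ^ 2 with htd
    have htpos : 0 < t := by positivity
    obtain ⟨k, hk⟩ := exists_nat_one_div_lt htpos
    have hs : nS (sh y x0) (e.symm z) + 1 / ((k : ℝ) + 1) ≤ 2 * t := by linarith
    have hspos := posk (sh y x0) k (e.symm z)
    have hexp : Real.exp (-(W0 u p1 y m x0 + 1)) * ((2 * t) ^ n)⁻¹ ≤
        Real.exp (-Wk (n := n) u p1 y m x0 k (e.symm z)) := by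
      have h5 : Real.exp (-Wk (n := n) u p1 y m x0 k (e.symm z)) =
          Real.exp (-W0 u p1 y m (e.symm z)) *
            ((nS (sh y x0) (e.symm z) + 1 / ((k : ℝ) + 1)) ^ n)⁻¹ := by
        unfold Wk
        rw [neg_add, Real.exp_add, exp_lg _ _ _ hspos]
      rw [h5]
      refine mul_le_mul (Real.exp_le_exp.2 (by linarith)) ?_ (by positivity) (Real.exp_pos _).le
      exact inv_anti₀ (pow_pos hspos n) (pow_le_pow_left₀ hspos.le hs n)
    have h6 : ENNReal.ofReal c1 * (ENNReal.ofReal ‖z - z0‖) ^ (-((2 * n : ℕ) : ℝ)) =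
        ENNReal.ofReal c0 * ENNReal.ofReal
          (Real.exp (-(W0 u p1 y m x0 + 1)) * ((2 * t) ^ n)⁻¹) := by
      rw [ENNReal.ofReal_rpow_of_pos hpos, ← ENNReal.ofReal_mul hc1p.le,
        ← ENNReal.ofReal_mul hc0'.le]
      congr 1
      rw [Real.rpow_neg (norm_nonneg _), Real.rpow_natCast, hc1, htd]
      have : (2 * (K1 * ‖z - z0‖ ^ 2)) ^ n = (2 * K1) ^ n * ‖z - z0‖ ^ (2 * n) := by
        rw [← mul_assoc, mul_pow, ← pow_mul]
      rw [this, mul_inv]
      ring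
    rw [h6, hf]
    refine mul_le_mul' (ENNReal.ofReal_le_ofReal ?_)
      ((ENNReal.ofReal_le_ofReal hexp).trans (le_iSup (fun k => ENNReal.ofReal
        (Real.exp (-Wk (n := n) u p1 y m x0 k (e.symm z)))) k))
    rw [G_eq_one hε y x0 _ g2.le]
    exact g1.le
  have h1 : ∫⁻ z in closedBall z0 r, f (e.symm z) ≤ K :=
    (T7a297.lintegral_ball_le hμ he' (isCompact_closedBall z0 r) hBt hfm).trans
      ((setLIntegral_le_lintegral _ _).trans h)
  have : Nonempty (Fin n) := ⟨⟨0, hn⟩⟩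
  have hae : ∀ᵐ z ∂(volume : Measure (Fin n → ℂ)), z ≠ z0 := by
    have : volume ({z0} : Set (Fin n → ℂ)) = 0 := measure_singleton z0
    exact measure_eq_zero_iff_ae_notMem.1 this
  have h2 : ∫⁻ z in ball z0 r, ENNReal.ofReal c1 *
      (ENNReal.ofReal ‖z - z0‖) ^ (-((2 * n : ℕ) : ℝ)) ≤ K := by
    calc _ ≤ ∫⁻ z in closedBall z0 r, ENNReal.ofReal c1 *
          (ENNReal.ofReal ‖z - z0‖) ^ (-((2 * n : ℕ) : ℝ)) :=
          lintegral_mono_set ball_subset_closedBall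
      _ ≤ ∫⁻ z in closedBall z0 r, f (e.symm z) := by
          refine setLIntegral_mono_ae' isClosed_closedBall.measurableSet ?_
          filter_upwards [hae] with z hz hzB
          exact hlow z hzB hz
      _ ≤ K := h1
  have h3 : ∫⁻ z in ball z0 r, ENNReal.ofReal c1 *
      (ENNReal.ofReal ‖z - z0‖) ^ (-((2 * n : ℕ) : ℝ)) = ⊤ := by
    have hfr : Module.finrank ℝ (Fin n → ℂ) = 2 * n := by
      rw [Module.finrank_pi_fintype]
      simp [Complex.finrank_real_complex, mul_comm]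
    have h4 := L934.lintegral_ball_norm_eq_top (V := Fin n → ℂ) (volume : Measure (Fin n → ℂ))
      (by rw [hfr]; omega) hr
    rw [hfr] at h4
    have h5 : ∫⁻ z in ball z0 r, (ENNReal.ofReal ‖z - z0‖) ^ (-((2 * n : ℕ) : ℝ)) =
        ∫⁻ z in ball (0 : Fin n → ℂ) r, (ENNReal.ofReal ‖z‖) ^ (-((2 * n : ℕ) : ℝ)) := by
      have h6 := (measurePreserving_sub_right (volume : Measure (Fin n → ℂ)) z0)
      have h7 : ball z0 r = (fun z => z - z0) ⁻¹' ball 0 r := by
        ext z; simp [dist_eq_norm]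
      rw [h7]
      exact h6.setLIntegral_comp_preimage measurableSet_ball
        (((ENNReal.measurable_ofReal.comp measurable_norm)).pow_const _)
    rw [lintegral_const_mul _ ?_, h5, h4, ENNReal.mul_top]
    · exact (ENNReal.ofReal_pos.2 hc1p).ne'
    · exact ((ENNReal.measurable_ofReal.comp
        (measurable_norm.comp (measurable_id.sub_const z0)))).pow_const _
  rw [h3] at h2
  exact hK (top_le_iff.1 h2)

theorem norm_sq_split (a b : ℂ) : ‖a‖ ^ 2 ≤ 2 * ‖a - b‖ ^ 2 + 2 * ‖b‖ ^ 2 := by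
  have h3 : ‖a‖ ≤ ‖a - b‖ + ‖b‖ := by
    have := norm_add_le (a - b) b
    rwa [sub_add_cancel] at this
  nlinarith [norm_nonneg a, norm_nonneg (a - b), norm_nonneg b, sq_nonneg (‖a - b‖ - ‖b‖)]

/-- **the lower bound** -/
theorem lower (hμ : IsLeb μ) (hn : 1 ≤ n) {ρ : M → ℝ} (hρ : Sm ρ)
    (hρc : ∀ c, IsCompact {x | ρ x ≤ c}) (hρL : ∀ x w, nsq w ≤ Levi ρ x w)
    (hu : Sm u) (hu0 : ∀ x w, 0 ≤ Levi u x w) (hp : Sm p1) (hp0 : ∀ x w, 0 ≤ Levi p1 x w)
    (hpI : ∫⁻ x, ENNReal.ofReal (Real.exp (-p1 x)) ∂μ ≠ ⊤) (hy : ∀ j, Hol (y j))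
    {b : (Fin N → ℂ) → ℝ} {x0 : M} (hb : ContinuousAt b (fun j => y j x0)) {C : ℝ}
    (hC : ∀ x, b (fun j => y j x) ≤ u x + C) :
    ∃ A : ℝ, 0 < A ∧ ∀ m : ℕ, ∃ F : M → ℂ, Hol F ∧ F x0 = 1 ∧
      ∫⁻ x, ENNReal.ofReal (‖F x‖ ^ 2 * Real.exp (-V (n := n) u p1 y m x)) ∂μ ≤
        ENNReal.ofReal (A * Real.exp (m * (C + 1 - b (fun j => y j x0)))) := by
  set b0 := b (fun j => y j x0) with hb0
  obtain ⟨δ, hδ, hbδ⟩ := Metric.mem_nhds_iff.1
    (hb.eventually (lt_mem_nhds (show b0 - 1 < b (fun j => y j x0) by rw [← hb0]; linarith)))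
  set ε : ℝ := (δ / 2) ^ 2 with hεd
  have hε : 0 < ε := by positivity
  -- lower bound for `u` on the support of the cut-off function
  have hul : ∀ x, nS (sh y x0) x ≤ ε → b0 - 1 - C ≤ u x := by
    intro x hx
    have h1 : (fun j => y j x) ∈ ball (fun j => y j x0) δ := by
      rw [mem_ball, dist_pi_lt_iff hδ]
      intro j
      rw [dist_eq_norm]
      have h2 : ‖y j x - y j x0‖ ^ 2 ≤ ε := by
        refine le_trans ?_ hx
        exact Finset.single_le_sum (f := fun j => ‖sh y x0 j x‖ ^ 2) (fun _ _ => by positivity)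
          (Finset.mem_univ j)
      have h3 : ‖y j x - y j x0‖ ≤ δ / 2 := by
        rw [hεd] at h2
        exact (pow_le_pow_iff_left₀ (norm_nonneg _) (by positivity) two_ne_zero).1 h2
      linarith
    have h4 : b0 - 1 < b (fun j => y j x) := hbδ h1
    have h5 := hC x
    linarith
  obtain ⟨D0, hD0, hD⟩ := exists_deriv_bound hε
  set Y0 : ℝ := 2 * (nS y x0 + ε) with hY0
  have hY0p : 0 ≤ Y0 := by have := nS_nonneg y x0; positivity
  set A1 : ℝ := D0 ^ 2 * ε * (Y0 + 1) ^ 2 * ((ε / 2) ^ n)⁻¹ with hA1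
  have hA1p : 0 ≤ A1 := by positivity
  set I := ∫⁻ x, ENNReal.ofReal (Real.exp (-p1 x)) ∂μ with hI
  set c2 : ℝ := (2 * (1 + nS y x0)) ^ n with hc2
  have hc2p : 0 ≤ c2 := by have := nS_nonneg y x0; positivity
  refine ⟨4 * c2 * A1 * I.toReal + 2 * I.toReal + 1, by positivity, fun m => ?_⟩
  set T : ℝ := Real.exp (m * (C + 1 - b0)) with hT
  have hTp : 0 < T := Real.exp_pos _
  have hexpu : ∀ x, nS (sh y x0) x ≤ ε → Real.exp (-(m * u x)) ≤ T := by
    intro x hx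
    refine Real.exp_le_exp.2 ?_
    have h1 := hul x hx
    have h2 : (0 : ℝ) ≤ m := Nat.cast_nonneg m
    nlinarith
  -- the bound for the right-hand side
  have hkap : ∀ k x, kap ε y x0 x * Real.exp (-Wk (n := n) u p1 y m x0 k x) ≤
      A1 * T * Real.exp (-p1 x) := by
    intro k x
    by_cases hd : deriv (cut ε) (nS (sh y x0) x) = 0
    · unfold kap
      rw [hd]
      simp only [ne_eq, OfNat.ofNat_ne_zero, not_false_eq_true, zero_pow, zero_mul]
      positivity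
    · obtain ⟨h1, h2⟩ := deriv_cut hε hd
      rw [exp_Wk]
      unfold kap
      have h3 := nS_nonneg y x
      have h4 : nS y x ≤ Y0 := (nS_le_sh y x0 x).trans (by rw [hY0]; linarith)
      have h5 : (deriv (cut ε) (nS (sh y x0) x)) ^ 2 ≤ D0 ^ 2 := by
        rw [← sq_abs]
        exact pow_le_pow_left₀ (abs_nonneg _) (hD _) 2
      have h6 := nS_nonneg (sh y x0) x
      have h7 : ((nS (sh y x0) x + 1 / ((k : ℝ) + 1)) ^ n)⁻¹ ≤ ((ε / 2) ^ n)⁻¹ := by
        refine inv_anti₀ (by positivity) (pow_le_pow_left₀ (by positivity) ?_ n)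
        have := del_pos k
        linarith
      have h8 : (nS y x + 1)⁻¹ ≤ 1 := inv_le_one_of_one_le₀ (by linarith)
      have h9 := hexpu x h2
      calc (deriv (cut ε) (nS (sh y x0) x)) ^ 2 * nS (sh y x0) x * (nS y x + 1) ^ 2 *
            (Real.exp (-(m * u x)) * Real.exp (-p1 x) * (nS y x + 1)⁻¹ *
              ((nS (sh y x0) x + 1 / ((k : ℝ) + 1)) ^ n)⁻¹)
          ≤ D0 ^ 2 * ε * (Y0 + 1) ^ 2 * (T * Real.exp (-p1 x) * 1 * ((ε / 2) ^ n)⁻¹) := by
            gcongr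
        _ = _ := by rw [hA1]; ring
  set K : ℝ≥0∞ := ENNReal.ofReal (A1 * T) * I with hK
  have hKtop : K ≠ ⊤ := ENNReal.mul_ne_top ENNReal.ofReal_ne_top hpI
  have hpm : Measurable fun x => ENNReal.ofReal (Real.exp (-p1 x)) :=
    (Real.continuous_exp.comp hp.continuous.neg).measurable.ennreal_ofReal
  obtain ⟨F, hF, hFK⟩ := engineP n M μ hμ ρ hρ hρc hρL (Wk (n := n) u p1 y m x0)
    (sm_Wk hu hp hy m x0) (Wk_anti u p1 y m x0) (Levi_Wk_nonneg hu hu0 hp hp0 hy m x0)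
    (G ε y x0) (sm_G ε hy x0) (fun _ => kap ε y x0) (db_G ε hu hu0 hp hp0 hy m x0) K
    (fun k => by
      rw [hK, ← lintegral_const_mul _ hpm]
      refine lintegral_mono fun x => ?_
      rw [← ENNReal.ofReal_mul (by positivity)]
      exact ENNReal.ofReal_le_ofReal (hkap k x))
  refine ⟨F, hF, eval_one hμ hn hu hp hy hε m x0 hF
    (ENNReal.mul_ne_top (by simp) hKtop) hFK, ?_⟩
  -- the norm
  have hFc := hol_cont hF
  have hGc := (sm_G ε hy x0).continuous
  have hVc := cont_V (n := n) hu hp hy m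
  have hpt : ∀ x, ENNReal.ofReal (‖F x‖ ^ 2 * Real.exp (-V (n := n) u p1 y m x)) ≤
      ENNReal.ofReal (2 * c2) * (ENNReal.ofReal (‖F x - G ε y x0 x‖ ^ 2) *
        ⨆ k, ENNReal.ofReal (Real.exp (-Wk (n := n) u p1 y m x0 k x))) +
      ENNReal.ofReal (2 * T) * ENNReal.ofReal (Real.exp (-p1 x)) := by
    intro x
    have h1 : ‖F x‖ ^ 2 * Real.exp (-V (n := n) u p1 y m x) ≤
        2 * c2 * (‖F x - G ε y x0 x‖ ^ 2 * Real.exp (-Wk (n := n) u p1 y m x0 0 x)) +
          2 * T * Real.exp (-p1 x) := by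
      have h2 := norm_sq_split (F x) (G ε y x0 x)
      have h3 := exp_V_le (n := n) u p1 y m x0 x
      have h4 : ‖G ε y x0 x‖ ^ 2 * Real.exp (-V (n := n) u p1 y m x) ≤ T * Real.exp (-p1 x) := by
        by_cases hx : nS (sh y x0) x ≤ ε
        · rw [exp_V]
          have h5 : ‖G ε y x0 x‖ ^ 2 ≤ 1 := by
            unfold G
            rw [Complex.norm_real, Real.norm_eq_abs, abs_of_nonneg (cut_nonneg _ _)]
            exact pow_le_one₀ (cut_nonneg _ _) (cut_le_one _ _)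
          have h6 := nS_nonneg y x
          have h7 : ((nS y x + 1) ^ (n + 1))⁻¹ ≤ 1 :=
            inv_le_one_of_one_le₀ (one_le_pow₀ (by linarith))
          have h8 := hexpu x hx
          calc ‖G ε y x0 x‖ ^ 2 * (Real.exp (-(m * u x)) * Real.exp (-p1 x) *
                ((nS y x + 1) ^ (n + 1))⁻¹) ≤ 1 * (T * Real.exp (-p1 x) * 1) := by
                gcongr
            _ = _ := by ring
        · push Not at hx
          unfold G
          rw [cut_zero hε hx.le]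
          simp only [Complex.ofReal_zero, norm_zero, ne_eq, OfNat.ofNat_ne_zero,
            not_false_eq_true, zero_pow, zero_mul]
          positivity
      calc ‖F x‖ ^ 2 * Real.exp (-V (n := n) u p1 y m x)
          ≤ (2 * ‖F x - G ε y x0 x‖ ^ 2 + 2 * ‖G ε y x0 x‖ ^ 2) *
            Real.exp (-V (n := n) u p1 y m x) := by gcongr
        _ = 2 * (‖F x - G ε y x0 x‖ ^ 2 * Real.exp (-V (n := n) u p1 y m x)) +
            2 * (‖G ε y x0 x‖ ^ 2 * Real.exp (-V (n := n) u p1 y m x)) := by ring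
        _ ≤ 2 * (‖F x - G ε y x0 x‖ ^ 2 * (c2 * Real.exp (-Wk (n := n) u p1 y m x0 0 x))) +
            2 * (T * Real.exp (-p1 x)) := by gcongr
        _ = _ := by ring
    refine (ENNReal.ofReal_le_ofReal h1).trans ?_
    rw [ENNReal.ofReal_add (by positivity) (by positivity), ENNReal.ofReal_mul (by positivity),
      ENNReal.ofReal_mul (by positivity), ENNReal.ofReal_mul (by positivity)]
    refine add_le_add ?_ (le_of_eq (ENNReal.ofReal_mul (by positivity)))
    gcongr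
    exact le_iSup (fun k => ENNReal.ofReal (Real.exp (-Wk (n := n) u p1 y m x0 k x))) 0
  have hfin : ∫⁻ x, ENNReal.ofReal (‖F x‖ ^ 2 * Real.exp (-V (n := n) u p1 y m x)) ∂μ ≤
      ENNReal.ofReal (2 * c2) * (2 * K) + ENNReal.ofReal (2 * T) * I := by
    refine (lintegral_mono hpt).trans ?_
    rw [lintegral_add_right _ (hpm.const_mul _), lintegral_const_mul _ hpm,
      lintegral_const_mul' _ _ ENNReal.ofReal_ne_top]
    gcongr
  refine hfin.trans ?_
  have hIr : I = ENNReal.ofReal I.toReal := (ENNReal.ofReal_toReal hpI).symm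
  have h2 : (2 : ℝ≥0∞) = ENNReal.ofReal 2 := by simp
  have hIp : 0 ≤ I.toReal := ENNReal.toReal_nonneg
  rw [hK, hIr, h2, ← ENNReal.ofReal_mul (by positivity), ← ENNReal.ofReal_mul (by positivity),
    ← ENNReal.ofReal_mul (by positivity), ← ENNReal.ofReal_mul (by positivity),
    ← ENNReal.ofReal_add (by positivity) (by positivity), ENNReal.toReal_ofReal hIp]
  apply ENNReal.ofReal_le_ofReal
  nlinarith

end engine

end Crest.Agent.R273.PsiE_145
end
end

-- ▼ part R273/Psi_145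

/-!
# R273, A-PSI: the plurisubharmonic weight `Psi` (helper145)

`psi`: on a Riemann domain with the data of `PsiE_145`, if moreover
* (Ub) `inf` of `u` over the fibres of `y` is `≤ b(y) + C`,
* (RK) holomorphic functions square integrable with respect to the weights `m u + p1 +
  (n+1) log (1+|y|²)` are constant on the fibres of `y`,
then there is `Psi` plurisubharmonic with `|Psi - b(y)| ≤ C + 2`.

`psi_YD`: the same for `u = e (j0 phiL - log |lam|²)`, `b = log (B' / B)`, in the form of `AsmA_73`.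
-/

set_option autoImplicit false
set_option linter.unusedSectionVars false

noncomputable section

open Set Filter Topology MeasureTheory ComplexConjugate Metric
open scoped ENNReal

namespace Crest.Agent.R273.Psi_145

open Crest.Agent.R271 Crest.Agent.R271.Ho51
open Crest.Agent.R271.W792 (lev nS nS_nonneg sm_nS lg sm_lg Levi_eq_lev lev_add lev_const_mul)
open Crest.Agent.R273.Pen_93 (w_hol hol_cont hol_mul hol_const Bf Bf_pos Bf_cont Pf)
open Crest.Agent.R273.PsiE_145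
open Crest.Agent.R273.Reg_844 (PSH exists_psh_near)

variable {n N : ℕ} {M : Type} [TopologicalSpace M] [RDom n M] [T2Space M]
  [SecondCountableTopology M] [MeasurableSpace M] [BorelSpace M] {μ : Measure M}
  {u p1 : M → ℝ} {y : Fin N → M → ℂ}

/-- **the upper bound** -/
theorem upper (hμ : IsLeb μ) (hu : Sm u) (hp : Sm p1) (hy : ∀ j, Hol (y j)) (x : M) {η : ℝ}
    (hη : 0 < η) :
    ∃ A : ℝ, 0 < A ∧ ∀ᶠ x' in 𝓝 x, ∀ (m : ℕ) (F : M → ℂ) (K : ℝ), Hol F → 0 ≤ K →
      ∫⁻ x, ENNReal.ofReal (‖F x‖ ^ 2 * Real.exp (-V (n := n) u p1 y m x)) ∂μ ≤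
        ENNReal.ofReal K →
      ‖F x'‖ ^ 2 ≤ A * K * Real.exp (m * (u x + η)) := by
  set e := ch x with he
  have he' : IsCh e := isCh_ch x
  set z0 : Fin n → ℂ := cp x with hz0
  have ht := symm_tendsto x
  set q : M → ℝ := fun x => p1 x + ((n + 1 : ℕ) : ℝ) * lg y 1 x with hq
  have hqc : Continuous q := hp.continuous.add (continuous_const.mul (sm_lg1 hy).continuous)
  have huc : Continuous u := hu.continuous
  have e1 : ∀ᶠ z in 𝓝 z0, u (e.symm z) < u x + η :=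
    ht.eventually ((huc.tendsto x).eventually (gt_mem_nhds (by linarith)))
  have e2 : ∀ᶠ z in 𝓝 z0, q (e.symm z) < q x + 1 :=
    ht.eventually ((hqc.tendsto x).eventually (gt_mem_nhds (by linarith)))
  have e4 : ∀ᶠ z in 𝓝 z0, z ∈ e.target := e.open_target.mem_nhds (he'.cp_mem (mem_ch x))
  obtain ⟨r', hr', hB⟩ := Metric.nhds_basis_closedBall.mem_iff.1
    ((e1.and e2).and e4 : ∀ᶠ z in 𝓝 z0, _)
  set r := r' / 2 with hrd
  have hr : 0 < r := by positivity
  have hBt : closedBall z0 r' ⊆ e.target := fun z hz => (hB hz).2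
  set v := volume (closedBall (0 : Fin n → ℂ) r) with hv
  have hv0 : v ≠ 0 := (measure_closedBall_pos volume _ hr).ne'
  have hvt : v ≠ ⊤ := measure_closedBall_lt_top.ne
  have hvr : 0 < v.toReal := ENNReal.toReal_pos hv0 hvt
  refine ⟨v.toReal⁻¹ * Real.exp (q x + 1), by positivity, ?_⟩
  have hcp : ∀ᶠ x' in 𝓝 x, cp x' ∈ ball z0 r :=
    (cp_cont.tendsto x).eventually (ball_mem_nhds z0 hr)
  filter_upwards [e.open_source.mem_nhds (mem_ch x), hcp] with x' hx' hxb m F K hF hK hI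
  have hsub : closedBall (cp x') r ⊆ closedBall z0 r' := by
    refine closedBall_subset_closedBall' ?_
    have := mem_ball.1 hxb
    rw [hrd] at this ⊢
    linarith
  have h1 := Montel297.volume_mul_enorm_sq_le (f := F ∘ e.symm) (x := cp x') (r := r)
    e.open_target (hF e he') (hsub.trans hBt)
  have h2 : (F ∘ e.symm) (cp x') = F x' := by
    show F (e.symm (cp x')) = F x'
    rw [he'.symm_cp hx']
  have h3 : volume (closedBall (cp x') r) = v := Measure.addHaar_closedBall_center volume _ r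
  rw [h2, h3] at h1
  have hFm : Measurable fun x => ENNReal.ofReal (‖F x‖ ^ 2 *
      Real.exp (-V (n := n) u p1 y m x)) :=
    (((hol_cont hF).norm.pow 2).mul
      (Real.continuous_exp.comp (cont_V (n := n) hu hp hy m).neg)).measurable.ennreal_ofReal
  set T : ℝ := Real.exp (m * (u x + η) + (q x + 1)) with hT
  have h4 : ∫⁻ z in closedBall (cp x') r, ‖(F ∘ e.symm) z‖ₑ ^ 2 ≤
      ENNReal.ofReal T * ENNReal.ofReal K := by
    calc ∫⁻ z in closedBall (cp x') r, ‖(F ∘ e.symm) z‖ₑ ^ 2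
        ≤ ∫⁻ z in closedBall z0 r', ‖(F ∘ e.symm) z‖ₑ ^ 2 := lintegral_mono_set hsub
      _ ≤ ∫⁻ z in closedBall z0 r', ENNReal.ofReal T * ENNReal.ofReal (‖F (e.symm z)‖ ^ 2 *
          Real.exp (-V (n := n) u p1 y m (e.symm z))) := by
          refine setLIntegral_mono' isClosed_closedBall.measurableSet fun z hz => ?_
          obtain ⟨⟨g1, g2⟩, -⟩ := hB hz
          rw [← ofReal_norm, ← ENNReal.ofReal_pow (norm_nonneg _),
            ← ENNReal.ofReal_mul (Real.exp_pos _).le]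
          refine ENNReal.ofReal_le_ofReal ?_
          have g3 : V (n := n) u p1 y m (e.symm z) ≤ m * (u x + η) + (q x + 1) := by
            have g4 : V (n := n) u p1 y m (e.symm z) = m * u (e.symm z) + q (e.symm z) := by
              simp only [V, hq]; ring
            rw [g4]
            have g5 : (0 : ℝ) ≤ m := Nat.cast_nonneg m
            nlinarith
          have g6 : 1 ≤ T * Real.exp (-V (n := n) u p1 y m (e.symm z)) := by
            rw [hT, ← Real.exp_add]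
            exact Real.one_le_exp (by linarith)
          have g7 : 0 ≤ ‖F (e.symm z)‖ ^ 2 := by positivity
          show ‖F (e.symm z)‖ ^ 2 ≤ _
          nlinarith
      _ = ENNReal.ofReal T * ∫⁻ z in closedBall z0 r', ENNReal.ofReal (‖F (e.symm z)‖ ^ 2 *
          Real.exp (-V (n := n) u p1 y m (e.symm z))) :=
          lintegral_const_mul' _ _ ENNReal.ofReal_ne_top
      _ ≤ ENNReal.ofReal T * ENNReal.ofReal K := by
          gcongr
          exact (T7a297.lintegral_ball_le hμ he' (isCompact_closedBall z0 r') hBt hFm).trans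
            ((setLIntegral_le_lintegral _ _).trans hI)
  have h5 : v * ‖F x'‖ₑ ^ 2 ≤ ENNReal.ofReal (T * K) := by
    rw [ENNReal.ofReal_mul (Real.exp_pos _).le]
    exact h1.trans h4
  have h6 : v.toReal * ‖F x'‖ ^ 2 ≤ T * K := by
    have h7 := ENNReal.toReal_mono ENNReal.ofReal_ne_top h5
    rwa [ENNReal.toReal_mul, ENNReal.toReal_pow, toReal_enorm,
      ENNReal.toReal_ofReal (mul_nonneg (Real.exp_pos _).le hK)] at h7
  have h8 : ‖F x'‖ ^ 2 ≤ v.toReal⁻¹ * (T * K) := by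
    rw [← div_eq_inv_mul, le_div_iff₀ hvr]
    linarith
  refine h8.trans (le_of_eq ?_)
  rw [hT, Real.exp_add]
  ring

/-- **A-PSI** -/
theorem psi (hμ : IsLeb μ) (hn : 1 ≤ n) {ρ : M → ℝ} (hρ : Sm ρ)
    (hρc : ∀ c, IsCompact {x | ρ x ≤ c}) (hρL : ∀ x w, nsq w ≤ Levi ρ x w)
    (hu : Sm u) (hu0 : ∀ x w, 0 ≤ Levi u x w) (hp : Sm p1) (hp0 : ∀ x w, 0 ≤ Levi p1 x w)
    (hpI : ∫⁻ x, ENNReal.ofReal (Real.exp (-p1 x)) ∂μ ≠ ⊤) (hy : ∀ j, Hol (y j))
    {b : (Fin N → ℂ) → ℝ} (hb : ∀ x, ContinuousAt b (fun j => y j x)) {C : ℝ}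
    (Ua : ∀ x, b (fun j => y j x) ≤ u x + C)
    (Ub : ∀ (x : M) (c : ℝ), (∀ x', (∀ j, y j x' = y j x) → c ≤ u x') →
      c ≤ b (fun j => y j x) + C)
    (RK : ∀ (m : ℕ) (F : M → ℂ), Hol F →
      ∫⁻ x, ENNReal.ofReal (‖F x‖ ^ 2 * Real.exp (-V (n := n) u p1 y m x)) ∂μ < ⊤ →
      ∀ x x', (∀ j, y j x' = y j x) → F x' = F x) :
    ∃ Ψ : M → ℝ, PSH Ψ ∧ ∀ x, |Ψ x - b (fun j => y j x)| ≤ C + 2 := by
  have hPc : Continuous fun x => b (fun j => y j x) := by
    rw [continuous_iff_continuousAt]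
    intro x
    exact ContinuousAt.comp (g := b) (hb x)
      (continuousAt_pi.2 fun j => (hol_cont (hy j)).continuousAt)
  obtain ⟨Ψ, h1, h2⟩ := exists_psh_near (P := fun x => b (fun j => y j x)) hPc (C := C + 2) (by
    intro x0
    obtain ⟨A, hA, hF⟩ := lower hμ hn hρ hρc hρL hu hu0 hp hp0 hpI hy (hb x0) Ua
    choose F hF1 hF2 hF3 using hF
    set b0 := b (fun j => y j x0) with hb0
    set T : ℕ → ℝ := fun k => A * Real.exp (k * (C + 1 - b0)) with hT
    have hTp : ∀ k, 0 < T k := fun k => by positivity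
    have hsq : ∀ k, 0 < Real.sqrt (T k) := fun k => Real.sqrt_pos.2 (hTp k)
    set w : ℕ → M → ℂ := fun k x => (((Real.sqrt (T k))⁻¹ : ℝ) : ℂ) * F k x with hw
    have hw1 : ∀ k, Hol (w k) := fun k => hol_mul (hol_const _) (hF1 k)
    have hw2 : ∀ k x, ‖w k x‖ ^ 2 = (T k)⁻¹ * ‖F k x‖ ^ 2 := by
      intro k x
      simp only [hw]
      rw [norm_mul, Complex.norm_real, Real.norm_eq_abs, abs_of_pos (inv_pos.2 (hsq k)), mul_pow,
        inv_pow, Real.sq_sqrt (hTp k).le]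
    have hw3 : ∀ k, ∫⁻ x, ENNReal.ofReal (‖w k x‖ ^ 2 *
        Real.exp (-V (n := n) u p1 y k x)) ∂μ ≤ ENNReal.ofReal 1 := by
      intro k
      calc ∫⁻ x, ENNReal.ofReal (‖w k x‖ ^ 2 * Real.exp (-V (n := n) u p1 y k x)) ∂μ
          = ∫⁻ x, ENNReal.ofReal (T k)⁻¹ * ENNReal.ofReal (‖F k x‖ ^ 2 *
              Real.exp (-V (n := n) u p1 y k x)) ∂μ := by
            refine lintegral_congr fun x => ?_
            rw [← ENNReal.ofReal_mul (inv_pos.2 (hTp k)).le, hw2]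
            congr 1
            ring
        _ = ENNReal.ofReal (T k)⁻¹ * ∫⁻ x, ENNReal.ofReal (‖F k x‖ ^ 2 *
              Real.exp (-V (n := n) u p1 y k x)) ∂μ :=
            lintegral_const_mul' _ _ ENNReal.ofReal_ne_top
        _ ≤ ENNReal.ofReal (T k)⁻¹ * ENNReal.ofReal (T k) := by
            gcongr
            exact hF3 k
        _ = ENNReal.ofReal 1 := by
            rw [← ENNReal.ofReal_mul (inv_pos.2 (hTp k)).le, inv_mul_cancel₀ (hTp k).ne']
    refine ⟨w, hw1, ?_, ?_, ?_⟩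
    · -- locally uniform upper bound
      intro x
      obtain ⟨B, hB, h3⟩ := upper hμ hu hp hy x (η := 1) one_pos
      refine ⟨(u x + 1) + max (Real.log B) 0, ?_⟩
      filter_upwards [h3] with x' hx' k hk
      have h4 := hx' k (w k) 1 (hw1 k) zero_le_one (hw3 k)
      refine h4.trans ?_
      have hk1 : (1 : ℝ) ≤ k := by exact_mod_cast hk
      have h5 : B ≤ Real.exp (k * max (Real.log B) 0) := by
        rw [← Real.log_le_iff_le_exp hB]
        have h6 : Real.log B ≤ max (Real.log B) 0 := le_max_left _ _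
        have h7 : 0 ≤ max (Real.log B) 0 := le_max_right _ _
        nlinarith
      calc B * 1 * Real.exp (k * (u x + 1)) ≤ Real.exp (k * max (Real.log B) 0) *
            Real.exp (k * (u x + 1)) := by rw [mul_one]; gcongr
        _ = _ := by rw [← Real.exp_add]; ring_nf
    · -- pointwise upper bound
      intro x c hc
      have h3 : ∃ x', (∀ j, y j x' = y j x) ∧ u x' < c - 1 := by
        by_contra hcon
        push Not at hcon
        have := Ub x (c - 1) hcon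
        linarith
      obtain ⟨x', hx', hux⟩ := h3
      obtain ⟨B, hB, h4⟩ := upper hμ hu hp hy x' (η := 1 / 2) (by norm_num)
      have h5 := h4.self_of_nhds
      have h6 : ∀ᶠ k : ℕ in atTop, Real.log B ≤ (k : ℝ) * (1 / 2) := by
        have : Tendsto (fun k : ℕ => (k : ℝ) * (1 / 2)) atTop atTop :=
          tendsto_natCast_atTop_atTop.atTop_mul_const (by norm_num)
        exact this.eventually_ge_atTop _
      filter_upwards [h6] with k hk
      have h7 := h5 k (w k) 1 (hw1 k) zero_le_one (hw3 k)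
      have h8 : w k x' = w k x := RK k (w k) (hw1 k)
        ((hw3 k).trans_lt ENNReal.ofReal_lt_top) x x' hx'
      rw [h8, mul_one] at h7
      refine h7.trans ?_
      have h9 : B ≤ Real.exp (k * (1 / 2)) := (Real.log_le_iff_le_exp hB).1 hk
      have hk0 : (0 : ℝ) ≤ k := Nat.cast_nonneg k
      calc B * Real.exp (k * (u x' + 1 / 2)) ≤ Real.exp (k * (1 / 2)) *
            Real.exp (k * (u x' + 1 / 2)) := by gcongr
        _ = Real.exp (k * (u x' + 1)) := by rw [← Real.exp_add]; ring_nf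
        _ ≤ Real.exp (k * c) := Real.exp_le_exp.2 (by nlinarith)
    · -- lower bound at `x0`
      intro c hc
      have h6 : ∀ᶠ k : ℕ in atTop, Real.log A ≤ (k : ℝ) := by
        exact tendsto_natCast_atTop_atTop.eventually_ge_atTop _
      refine Eventually.frequently ?_
      filter_upwards [h6] with k hk
      rw [hw2, hF2, norm_one, one_pow, mul_one, hT]
      have h9 : A ≤ Real.exp k := (Real.log_le_iff_le_exp hA).1 hk
      have hk0 : (0 : ℝ) ≤ k := Nat.cast_nonneg k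
      rw [le_inv_comm₀ (Real.exp_pos _) (by positivity), ← Real.exp_neg]
      calc A * Real.exp (k * (C + 1 - b0)) ≤ Real.exp k * Real.exp (k * (C + 1 - b0)) := by
            gcongr
        _ = Real.exp (k * (C + 2 - b0)) := by rw [← Real.exp_add]; ring_nf
        _ ≤ Real.exp (-(k * c)) := Real.exp_le_exp.2 (by nlinarith))
  refine ⟨Ψ, h1, fun x => ?_⟩
  have := h2 x
  rw [abs_le]
  constructor <;> linarith

/-! ### the form of `AsmA_73` -/

section YD

variable {φL φK : M → ℝ} {lam : M → ℂ} {j0 e : ℕ}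

/-- `u = e (j0 φL - log |lam|²)` -/
def uY (φL : M → ℝ) (lam : M → ℂ) (j0 e : ℕ) (x : M) : ℝ :=
  ((j0 * e : ℕ) : ℝ) * φL x + (-(e : ℝ)) * lg (fun _ : Unit => lam) 0 x

theorem lam_pos (h0 : ∀ x, lam x ≠ 0) (x : M) : 0 < nS (fun _ : Unit => lam) x + 0 := by
  have : 0 < ‖lam x‖ := norm_pos_iff.mpr (h0 x)
  simp [nS]; positivity

theorem sm_uY (hφ : Sm φL) (hl : Hol lam) (h0 : ∀ x, lam x ≠ 0) (j0 e : ℕ) :
    Sm (uY φL lam j0 e) :=
  ((Sm.const _).mulR hφ).add ((Sm.const _).mulR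
    (sm_lg (fun _ => (w_hol hl).sm) (lam_pos h0)))

theorem Levi_uY (hφ : Sm φL) (hφ0 : ∀ x w, 0 ≤ Levi φL x w) (hl : Hol lam)
    (h0 : ∀ x, lam x ≠ 0) (j0 e : ℕ) (x : M) (w : Fin n → ℂ) :
    0 ≤ Levi (uY φL lam j0 e) x w := by
  have hs := sm_lg (fun _ : Unit => (w_hol hl).sm) (lam_pos h0)
  rw [Levi_eq_lev (sm_uY hφ hl h0 j0 e)]
  unfold uY
  rw [lev_add ((Sm.const _).mulR hφ) ((Sm.const _).mulR hs), lev_const_mul hφ, lev_const_mul hs,
    G792.lev_lg_unit (w_hol hl) h0, mul_zero, add_zero]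
  have h1 := hφ0 x w
  rw [Levi_eq_lev hφ] at h1
  positivity

theorem exp_uY (h0 : ∀ x, lam x ≠ 0) (x : M) :
    Real.exp (-uY φL lam j0 e x) = ‖lam x‖ ^ (2 * e) * Real.exp (-(j0 * e * φL x)) := by
  have hpos : 0 < ‖lam x‖ := norm_pos_iff.mpr (h0 x)
  unfold uY lg
  rw [G792.nS_unit, add_zero, neg_add, Real.exp_add, mul_comm]
  congr 1
  · rw [neg_mul, neg_neg, Real.exp_nat_mul, Real.exp_log (by positivity), ← pow_mul]
  · push_cast
    rfl

/-- the quotient of the two families -/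
theorem psi_YD (hμ : IsLeb μ) (hn : 1 ≤ n) {ρ : M → ℝ} (hρ : Sm ρ)
    (hρc : ∀ c, IsCompact {x | ρ x ≤ c}) (hρL : ∀ x w, nsq w ≤ Levi ρ x w)
    (hφ : Sm φL) (hφ0 : ∀ x w, 0 ≤ Levi φL x w) (hp : Sm φK) (hp0 : ∀ x w, 0 ≤ Levi φK x w)
    (hpI : ∫⁻ x, ENNReal.ofReal (Real.exp (-φK x)) ∂μ ≠ ⊤)
    (hl : Hol lam) (h0 : ∀ x, lam x ≠ 0) (hy : ∀ j, Hol (y j)) (he : 0 < e)
    {p p' : ℕ → MvPolynomial (Fin N) ℂ} {m m' : ℕ}
    (hp1 : ∀ x, MvPolynomial.eval (fun j => y j x) (p 0) ≠ 0)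
    (hp1' : ∀ x, MvPolynomial.eval (fun j => y j x) (p' 0) ≠ 0)
    (Ua : ∃ C : ℝ, ∀ x, ‖lam x‖ ^ (2 * e) * Real.exp (-(j0 * e * φL x)) *
      Bf (fun j x => MvPolynomial.eval (fun i => y i x) (p' j)) m' x ≤
        C * Bf (fun j x => MvPolynomial.eval (fun i => y i x) (p j)) m x)
    (Ub : ∃ C : ℝ, ∀ (x : M) (Mb : ℝ), (∀ x', (∀ j, y j x' = y j x) →
        ‖lam x'‖ ^ 2 * Real.exp (-(j0 * φL x')) ≤ Mb) →
      Bf (fun j x => MvPolynomial.eval (fun i => y i x) (p j)) m x ≤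
        C * Mb ^ e * Bf (fun j x => MvPolynomial.eval (fun i => y i x) (p' j)) m' x)
    (RK : ∀ (k i : ℕ) (F : M → ℂ), Hol F →
      ∫⁻ x, ENNReal.ofReal (‖F x‖ ^ 2 * ‖lam x‖ ^ (2 * k) *
        Real.exp (-(j0 * k * φL x + φK x)) * ((1 + ∑ j, ‖y j x‖ ^ 2) ^ i)⁻¹) ∂μ < ⊤ →
      ∀ x x', (∀ j, y j x' = y j x) → F x' = F x) :
    ∃ Ψ : M → ℝ, PSH Ψ ∧ ∃ C : ℝ, ∀ x,
      |Ψ x - (Real.log (Bf (fun j x => MvPolynomial.eval (fun i => y i x) (p' j)) m' x) -
        Real.log (Bf (fun j x => MvPolynomial.eval (fun i => y i x) (p j)) m x))| ≤ C := by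
  obtain ⟨C1, hC1⟩ := Ua
  obtain ⟨C2, hC2⟩ := Ub
  set c : ℕ → M → ℂ := fun j x => MvPolynomial.eval (fun i => y i x) (p j) with hc
  set c' : ℕ → M → ℂ := fun j x => MvPolynomial.eval (fun i => y i x) (p' j) with hc'
  have hB : ∀ x, 0 < Bf c m x := Bf_pos hp1 m
  have hB' : ∀ x, 0 < Bf c' m' x := Bf_pos hp1' m'
  set β : (ℕ → MvPolynomial (Fin N) ℂ) → ℕ → (Fin N → ℂ) → ℝ := fun p m v =>
    ∑ j : Fin (m + 1), ‖MvPolynomial.eval v (p j)‖ ^ 2 with hβ
  set b : (Fin N → ℂ) → ℝ := fun v => Real.log (β p' m' v) - Real.log (β p m v) with hbd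
  have hbB : ∀ x, b (fun j => y j x) = Real.log (Bf c' m' x) - Real.log (Bf c m x) := fun x => rfl
  have hβc : ∀ p m, Continuous (β p m) := by
    intro p m
    refine continuous_finsetSum _ fun j _ => ?_
    exact ((MvPolynomial.continuous_eval (p j)).norm).pow 2
  set C := max (Real.log (max C1 1)) (Real.log (max C2 1)) with hCd
  obtain ⟨Ψ, h1, h2⟩ := psi (n := n) hμ hn hρ hρc hρL (sm_uY hφ hl h0 j0 e)
    (Levi_uY hφ hφ0 hl h0 j0 e) hp hp0 hpI hy (b := b) (C := C)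
    (fun x => by
      refine ContinuousAt.sub ?_ ?_
      · exact (hβc p' m').continuousAt.log (hB' x).ne'
      · exact (hβc p m).continuousAt.log (hB x).ne')
    (fun x => by
      rw [hbB]
      have h3 := hC1 x
      rw [← exp_uY h0] at h3
      have h4 : Real.exp (-uY φL lam j0 e x) * Bf c' m' x ≤ max C1 1 * Bf c m x :=
        h3.trans (mul_le_mul_of_nonneg_right (le_max_left _ _) (hB x).le)
      have h5 : 0 < max C1 1 := lt_max_of_lt_right one_pos
      have h6 := Real.log_le_log (mul_pos (Real.exp_pos _) (hB' x)) h4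
      rw [Real.log_mul (Real.exp_pos _).ne' (hB' x).ne', Real.log_exp,
        Real.log_mul h5.ne' (hB x).ne'] at h6
      have h7 : Real.log (max C1 1) ≤ C := le_max_left _ _
      linarith)
    (fun x t ht => by
      rw [hbB]
      have hee : (0 : ℝ) < e := by exact_mod_cast he
      have h3 := hC2 x (Real.exp (-(t / e))) (fun x' hx' => by
        have h4 := ht x' hx'
        have hpos : 0 < ‖lam x'‖ := norm_pos_iff.mpr (h0 x')
        have h5 : Real.exp (-uY φL lam j0 e x') =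
            (‖lam x'‖ ^ 2 * Real.exp (-(j0 * φL x'))) ^ e := by
          rw [exp_uY h0, mul_pow, ← pow_mul, ← Real.exp_nat_mul]
          ring_nf
        have h6 : (‖lam x'‖ ^ 2 * Real.exp (-(j0 * φL x'))) ^ e ≤ Real.exp (-(t / e)) ^ e := by
          rw [← h5, ← Real.exp_nat_mul]
          refine Real.exp_le_exp.2 ?_
          have : (e : ℝ) * -(t / e) = -t := by field_simp
          rw [this]
          linarith
        exact (pow_le_pow_iff_left₀ (by positivity) (Real.exp_pos _).le he.ne').1 h6)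
      rw [← Real.exp_nat_mul] at h3
      have h7 : (e : ℝ) * -(t / e) = -t := by field_simp
      rw [h7] at h3
      have h4 : Bf c m x ≤ max C2 1 * Real.exp (-t) * Bf c' m' x := by
        refine h3.trans ?_
        have := (hB' x).le
        have := le_max_left C2 1
        gcongr
      have h5 : 0 < max C2 1 := lt_max_of_lt_right one_pos
      have h6 := Real.log_le_log (hB x) h4
      rw [Real.log_mul (mul_pos h5 (Real.exp_pos _)).ne' (hB' x).ne',
        Real.log_mul h5.ne' (Real.exp_pos _).ne', Real.log_exp] at h6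
      have h8 : Real.log (max C2 1) ≤ C := le_max_right _ _
      linarith)
    (fun k F hF hI x x' hx => by
      refine RK (k * e) (n + 1) F hF (lt_of_le_of_lt (le_of_eq ?_) hI) x x' hx
      refine lintegral_congr fun x => ?_
      congr 1
      rw [exp_V]
      have h3 : Real.exp (-((k : ℝ) * uY φL lam j0 e x)) =
          (‖lam x‖ ^ (2 * e) * Real.exp (-(j0 * e * φL x))) ^ k := by
        rw [← exp_uY h0, ← Real.exp_nat_mul]
        ring_nf
      have h4 : nS y x + 1 = 1 + ∑ j, ‖y j x‖ ^ 2 := by unfold nS; ring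
      have h5 : Real.exp (-((j0 : ℝ) * ((k * e : ℕ) : ℝ) * φL x + φK x)) =
          Real.exp (-(j0 * e * φL x)) ^ k * Real.exp (-φK x) := by
        rw [← Real.exp_nat_mul, ← Real.exp_add]
        push_cast
        ring_nf
      rw [h3, h4, h5, mul_pow, ← pow_mul]
      have h6 : 2 * e * k = 2 * (k * e) := by ring
      rw [h6]
      ring)
  exact ⟨Ψ, h1, C + 2, fun x => by have := h2 x; rwa [hbB] at this⟩

end YD

end Crest.Agent.R273.Psi_145
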