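import Crest.Agent.R273.SteinF_794
import Crest.Agent.R273.Beta_769
import Crest.Agent.R273.AsmA_73

-- ▼ part R273/YDx1_945
section

/-!
# R273 (S0416), Part A, HALF 2 (helper945): the Stein domain, Jacobian absorbed in the divisor

* `shr D hu`    : same coordinates, the divisor `D.t` replaced by `D.t * u`
* `exists_D`    : `D : StD A P` with `1 ≤ D.m`, `D.S.U = nz D.t`, prescribed first coordinates,
                  contained in the nonvanishing loci of given sections, with frames of given bundles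
-/

set_option autoImplicit false
set_option linter.unusedSectionVars false

open Set Filter Topology
open scoped ContDiff

namespace Crest.Agent.R273.YDx1_945

open Crest.Agent.R275.Geo Crest.Agent.R275.Core144 Crest.Agent.R273.SteinA_794
open Crest.Agent.R273.SteinC_794 Crest.Agent.R273.SteinD_794 Crest.Agent.R273.SteinE_794
open Crest.Agent.R273.SteinF_794
open Crest.Agent.R273.Defs_333 (ProjD)
open Crest.Agent.R273.FS_333 (lb sec isHS_sec exists_sec_ne sec_eq)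
open Crest.Agent.R273.TD3_733 (D2)

noncomputable section

variable {n : ℕ} {M : Type} [TopologicalSpace M] {A : Atl n M} {P : ProjD A}

/-- nonvanishing locus of a product -/
theorem nz_mul {L L' : LB A} {s t : A.ι → M → ℂ} (hs : IsHS L univ s) (ht : IsHS L' univ t) :
    nz (s * t) = nz s ∩ nz t := by
  ext x
  obtain ⟨i, hi⟩ := A.cover x
  rw [mem_nz (hs.mul ht) hi, mem_inter_iff, mem_nz hs hi, mem_nz ht hi]
  exact mul_ne_zero_iff

/-- shrinking a Stein complement, same coordinates -/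
def shr (D : StD A P) {j : ℕ} {u : A.ι → M → ℂ} (hu : IsHS (lb P ^ j) univ u) : StD A P where
  q := D.q
  m := D.m + j
  t := D.t * u
  ht := by rw [pow_add]; exact D.ht.mul hu
  l0 := D.l0
  sub0 := (nz_mul_left D.ht hu).trans D.sub0
  subq := fun k => (nz_mul_left D.ht hu).trans (D.subq k)

section

variable (D : StD A P) {j : ℕ} {u : A.ι → M → ℂ} (hu : IsHS (lb P ^ j) univ u)

@[simp] theorem shr_q : (shr D hu).q = D.q := rfl
@[simp] theorem shr_m : (shr D hu).m = D.m + j := rfl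
@[simp] theorem shr_t : (shr D hu).t = D.t * u := rfl
@[simp] theorem shr_l0 : (shr D hu).l0 = D.l0 := rfl


theorem shr_U : (shr D hu).S.U = D.S.U ∩ nz u := by
  ext x
  obtain ⟨i, hi⟩ := A.cover x
  rw [(shr D hu).mem_U hi, mem_inter_iff, D.mem_U hi, mem_nz hu hi]
  show D.t i x * u i x * jd A _ _ i x ≠ 0 ↔ D.t i x * jd A _ _ i x ≠ 0 ∧ u i x ≠ 0
  simp only [ne_eq, mul_eq_zero, not_or, shr_q]
  tauto

/-- shrinking keeps `S.U = nz t` -/
theorem shr_hU (hU : D.S.U = nz D.t) : (shr D hu).S.U = nz (shr D hu).t := by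
  rw [shr_U, hU, shr_t, nz_mul D.ht hu]

end

/-- **the Stein domain of HALF 2** -/
theorem exists_D [CompactSpace M] [T2Space M] [ConnectedSpace M] [Finite A.ι] (Pt : Part A)
    (hD : D2 A) (P : ProjD A) {κ : Type} [Fintype κ] (Lr : κ → LB A) (sr : κ → A.ι → M → ℂ)
    (hsr : ∀ k, IsHS (Lr k) univ (sr k)) (hsz : ∀ k, Nz0 A (sr k))
    {κ' : Type} [Fintype κ'] (Lf : κ' → LB A) {b : ℕ} (q : Fin b → QS A) {i1 : A.ι} {x1 : M}
    (hx1 : x1 ∈ (A.e i1).source) (hqt : ∀ k, (q k).t i1 x1 ≠ 0)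
    (hLI : LinearIndependent ℂ fun k => df A i1 (q k).fn x1) :
    ∃ (hb : b ≤ n) (D : StD A P), 1 ≤ D.m ∧ D.S.U = nz D.t ∧
      (∀ k : Fin b, D.q (Fin.castLE hb k) = q k) ∧
      D.S.U.Nonempty ∧ (∀ k, D.S.U ⊆ nz (sr k)) ∧ (∀ k, D.S.U ⊆ nz (q k).t) ∧
      D.S.U ⊆ nz (lin P D.l0) ∧
      ∀ j, ∃ σ, IsHS (Lf j) D.S.U σ ∧ ∀ i, ∀ x ∈ (A.e i).source, x ∈ D.S.U → σ i x ≠ 0 := by
  obtain ⟨hb, D, hq, hne, h1, h2, h3, h4⟩ :=
    exists_geom Pt hD P Lr sr hsr hsz Lf q hx1 hqt hLI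
  set J : A.ι → M → ℂ := jd A (fun k => (D.q k).s) (fun k => (D.q k).t) with hJ
  have hJS : IsHS (KB A * ∏ k, (D.q k).B ^ 2) univ J :=
    isHS_jd (fun k => (D.q k).hs) fun k => (D.q k).ht
  obtain ⟨x0, hx0⟩ := hne
  obtain ⟨i0, hi0⟩ := A.cover x0
  obtain ⟨m0, hm0⟩ := Crest.Agent.R273.SerE_945.gg_proj Pt hD P (KB A * ∏ k, (D.q k).B ^ 2)⁻¹
  obtain ⟨w, hw, hw0⟩ := hm0 (m0 + 1) (by omega) x0
  have hu : IsHS (lb P ^ (m0 + 1)) univ (J * w) := by
    have h := hJS.mul hw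
    rwa [mul_inv_cancel_left] at h
  have hDU : D.S.U = nz D.t ∩ nz J := by
    rw [D.U_eq]
    exact nz_mul D.ht hJS
  have hU' : (shr D hu).S.U = D.S.U ∩ nz w := by
    rw [shr_U, nz_mul hJS hw, hDU]
    ext x
    simp only [mem_inter_iff]
    tauto
  have hsub : (shr D hu).S.U ⊆ D.S.U := by rw [hU']; exact inter_subset_left
  refine ⟨hb, shr D hu, ?_, ?_, hq, ⟨x0, ?_⟩, fun k => hsub.trans (h1 k),
    fun k => hsub.trans (h2 k), hsub.trans h3, fun j => ?_⟩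
  · rw [shr_m]; omega
  · rw [hU', shr_t, nz_mul D.ht hu, nz_mul hJS hw, hDU]
    ext x
    simp only [mem_inter_iff]
    tauto
  · rw [hU']
    exact ⟨hx0, (mem_nz hw hi0).2 (hw0 i0 hi0)⟩
  · obtain ⟨σ, hσ, hσ0⟩ := h4 j
    refine ⟨σ, ⟨fun i => (hσ.hol i).mono hsub, fun i x hx => hσ.off i x hx,
      fun i j x hx hxU => hσ.tr i j x hx (hsub hxU)⟩, fun i x hx hxU => hσ0 i x hx (hsub hxU)⟩

end

end Crest.Agent.R273.YDx1_945
end

-- ▼ part R273/YDx3_945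
section

/-!
# R273 (S0416), Part A, HALF 2 (helper945): common denominators for elements of `FF`
-/

set_option autoImplicit false
set_option linter.unusedSectionVars false

open Set Filter Topology Complex
open scoped ContDiff Matrix ComplexConjugate

namespace Crest.Agent.R273.YDx3_945

open Crest.Agent.R275.Geo Crest.Agent.R275.Core144 Crest.Agent.R275.GC293
open Crest.Agent.R273.Rigid769 Crest.Agent.R273.Mer769 Crest.Agent.R273.FF769
open Crest.Agent.R273.Cram_747 (TS KP tns tns_TS mnr tns_ne_zero)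
open Crest.Agent.R273.Fock_243 (FI Gam)
open Crest.Agent.R273.Defs_333 (ProjD)
open Crest.Agent.R273.FS_333 (lb sec isHS_sec exists_sec_ne sec_eq)

noncomputable section

variable {n : ℕ} {M : Type} [TopologicalSpace M] {A : Atl n M}
variable {ρ : Type} [Fintype ρ] [DecidableEq ρ]

theorem bp_lin {s t : Fin n → A.ι → M → ℂ} (S : ρ → FI n) {τ u : A.ι → M → (ρ → FI n) → ℂ}
    {i : A.ι} {x : M} {c : ℂ} (h : τ i x = c • u i x) : bp s t S τ i x = c * bp s t S u i x := by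
  unfold bp
  rw [h, Matrix.mulVec_smul]
  rfl

/-- **A-BETA**, pointwise version -/
theorem exists_beta' [ConnectedSpace M] (P : ProjD A) {τ' : A.ι → M → (ρ → FI n) → ℂ} {N' : LB A}
    (hτ' : TS ρ N' τ') (h0 : τ' ≠ 0) :
    ∃ (m : ℕ) (β : (A.ι → M → (ρ → FI n) → ℂ) →ₗ[ℂ] (A.ι → M → ℂ)),
      (∀ (N : LB A) (τ : A.ι → M → (ρ → FI n) → ℂ), TS ρ N τ → IsHS (N * (lb P) ^ m) univ (β τ)) ∧
      (∀ (g : Mer A) (τ u : A.ι → M → (ρ → FI n) → ℂ), Rel g τ u → RelS g (β τ) (β u)) ∧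
      (∀ (τ u : A.ι → M → (ρ → FI n) → ℂ) (i : A.ι) (x : M) (c : ℂ), τ i x = c • u i x →
        β τ i x = c * β u i x) ∧
      β τ' ≠ 0 := by
  obtain ⟨i, x, hi, hx⟩ := ts_nz hτ' h0
  obtain ⟨s, t, hs, ht, hdet⟩ := exists_frame P hi
  obtain ⟨S, hS⟩ := bp_ne hdet hx
  refine ⟨2 * ∑ a, (S a).card, bpL s t S, fun N τ hτ => isHS_bp hs ht S hτ,
    fun g τ u h => relS_bp S h, fun τ u i x c h => bp_lin S h, fun h => hS ?_⟩
  exact congrFun (congrFun h i) x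

/-- a nonzero section of a line bundle is nonzero somewhere -/
theorem exists_ne {N : LB A} {t : A.ι → M → ℂ} (ht : IsHS N univ t) (h0 : t ≠ 0) :
    ∃ i, ∃ x ∈ (A.e i).source, t i x ≠ 0 := by
  by_contra hcon
  push Not at hcon
  refine h0 ?_
  funext i x
  by_cases hx : x ∈ (A.e i).source
  · exact hcon i x hx
  · exact ht.off i x hx

/-- **common denominators**: finitely many elements of `FF` are quotients of sections of one line
bundle `L ^ b * O ^ m` -/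
theorem exists_frac [ConnectedSpace M] (P : ProjD A) {L : LB A} {w0 : A.ι → M → (ρ → FI n) → ℂ}
    {a : ℕ} (hw : TS ρ (L ^ a) w0) (h0 : w0 ≠ 0) {N : ℕ} (y : Fin N → Mer A)
    (hy : ∀ l, y l ∈ FF hw h0) :
    ∃ (σ : Type) (_ : Fintype σ) (_ : DecidableEq σ) (_ : Nonempty σ) (b m : ℕ)
      (t0 : A.ι → M → (σ × ρ → FI n) → ℂ) (τ : Fin N → A.ι → M → (σ × ρ → FI n) → ℂ)
      (t : A.ι → M → ℂ) (s : Fin N → A.ι → M → ℂ),
      WW L w0 σ b t0 ∧ (∀ l, WW L w0 σ b (τ l)) ∧ (∀ l, Rel (y l) (τ l) t0) ∧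
      IsHS (L ^ b * lb P ^ m) univ t ∧ t ≠ 0 ∧ (∀ l, IsHS (L ^ b * lb P ^ m) univ (s l)) ∧
      (∀ l, RelS (y l) (s l) t) ∧ ∀ i x, t0 i x = 0 → t i x = 0 := by
  obtain ⟨σ, i1, i2, i3, b, t0, τ, ht0, hne, hτ, hr⟩ :=
    exists_common hw h0 Finset.univ y fun l _ => hy l
  obtain ⟨m, β, h1, h2, h3, h4⟩ := exists_beta' P ht0.ts hne
  refine ⟨σ, i1, i2, i3, b, m, t0, τ, β t0, fun l => β (τ l), ht0,
    fun l => hτ l (Finset.mem_univ l), fun l => hr l (Finset.mem_univ l), h1 _ _ ht0.ts, h4,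
    fun l => h1 _ _ (hτ l (Finset.mem_univ l)).ts, fun l => h2 _ _ _ (hr l (Finset.mem_univ l)),
    fun i x hx => ?_⟩
  have h5 := h3 t0 t0 i x 0 (by rw [hx, smul_zero])
  rw [h5, zero_mul]

end

end Crest.Agent.R273.YDx3_945
end

-- ▼ part R273/YDx5_945

/-!
# R273 (S0416), Part A, HALF 2 (helper945): the structure of all choices before Lemma U

`HD P L` : Cramer families, the field `FF` with generators `g_0 … g_b` (`g_0 … g_{b-1}` a
transcendence basis, `g_b` a primitive element), common denominators, sections `sa, sb` with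
`λ = sb / sa`, the Stein complement `D` with first coordinates `g_0 … g_{b-1}`, a frame `σ` of `L`.
-/

set_option autoImplicit false
set_option linter.unusedSectionVars false

open Set Filter Topology Complex MeasureTheory
open scoped ContDiff Matrix ENNReal

namespace Crest.Agent.R273.YDx5_945

open Crest.Agent.R275.Geo Crest.Agent.R275.Core144 Crest.Agent.R275.GC293
open Crest.Agent.R273.SteinA_794
open Crest.Agent.R273.SteinB_794 Crest.Agent.R273.SteinC_794 Crest.Agent.R273.SteinD_794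
open Crest.Agent.R273.SteinE_794 Crest.Agent.R273.SteinF_794
open Crest.Agent.R273.Defs_333 (ProjD HM HM.wt HM.Semipos HasSec)
open Crest.Agent.R273.FS_333 (lb sec isHS_sec)
open Crest.Agent.R273.Mer769 Crest.Agent.R273.FF769
open Crest.Agent.R273.Cram_747 (TS)
open Crest.Agent.R273.Fock_243 (FI)
open Crest.Agent.R273.YDx1_945 Crest.Agent.R273.YDx3_945
open Crest.Agent.R271.Ho51 (Hol)

noncomputable section

variable {n : ℕ} {M : Type} [TopologicalSpace M] {A : Atl n M}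

/-- all the choices of HALF 2 before Lemma U -/
structure HD [ConnectedSpace M] (P : ProjD A) (L : LB A) where
  /-- the Cramer families -/
  r : ℕ
  K : Set ℕ
  Kinf : K.Infinite
  w : ℕ → A.ι → M → (Fin r → FI n) → ℂ
  ts : ∀ k ∈ K, TS (Fin r) (L ^ k) (w k)
  ne : ∀ k ∈ K, w k ≠ 0
  prp : ∀ k ∈ K, ∀ l ∈ K, Cram_747.Prp (w k) (w l)
  /-- `λ = w_{a+j0} / w_a` -/
  a : ℕ
  j0 : ℕ
  j0_pos : 0 < j0
  ha : a ∈ K
  hb : a + j0 ∈ K
  /-- the field `FF` -/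
  b : ℕ
  b_pos : 1 ≤ b
  g : Fin (b + 1) → Mer A
  R : MvPolynomial (Fin (b + 1)) ℂ
  indep : AlgebraicIndependent ℂ fun k : Fin b => g k.castSucc
  gen : IntermediateField.adjoin ℂ (Set.range g) = FF (ts a ha) (ne a ha)
  R0 : MvPolynomial.aeval g R = 0
  R1 : MvPolynomial.aeval g (MvPolynomial.pderiv (Fin.last b) R) ≠ 0
  /-- common denominators -/
  κ : Type
  [fκ : Fintype κ]
  [dκ : DecidableEq κ]
  [nκ : Nonempty κ]
  bb : ℕ
  mm : ℕ
  t0 : A.ι → M → (κ × Fin r → FI n) → ℂ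
  τ : Fin (b + 1) → A.ι → M → (κ × Fin r → FI n) → ℂ
  t : A.ι → M → ℂ
  s : Fin (b + 1) → A.ι → M → ℂ
  ht0 : WW L (w a) κ bb t0
  hτ : ∀ l, WW L (w a) κ bb (τ l)
  relτ : ∀ l, Rel (g l) (τ l) t0
  ht : IsHS (L ^ bb * lb P ^ mm) univ t
  hs : ∀ l, IsHS (L ^ bb * lb P ^ mm) univ (s l)
  rels : ∀ l, RelS (g l) (s l) t
  t0t : ∀ i x, t0 i x = 0 → t i x = 0
  /-- the sections `⟨β, w_a⟩`, `⟨β, w_{a+j0}⟩` -/
  m : ℕ
  sa : A.ι → M → ℂ
  sb : A.ι → M → ℂ
  hsa : IsHS (L ^ a * lb P ^ m) univ sa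
  hsb : IsHS (L ^ (a + j0) * lb P ^ m) univ sb
  hab : ∀ i x F, sb i x * w a i x F = sa i x * w (a + j0) i x F
  sa0 : ∀ i x, w a i x = 0 → sa i x = 0
  sb0 : ∀ i x, w (a + j0) i x = 0 → sb i x = 0
  /-- the Stein complement -/
  D : StD A P
  hm : 1 ≤ D.m
  hU : D.S.U = nz D.t
  hn : b ≤ n
  hq : ∀ k : Fin b, D.q (Fin.castLE hn k) =
    ⟨L ^ bb * lb P ^ mm, s k.castSucc, t, hs k.castSucc, ht⟩
  Une : D.S.U.Nonempty
  Ut : D.S.U ⊆ nz t
  Usa : D.S.U ⊆ nz sa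
  Usb : D.S.U ⊆ nz sb
  /-- frame of `L` -/
  σ : A.ι → M → ℂ
  hσ : IsHS L D.S.U σ
  σ0 : ∀ i, ∀ x ∈ (A.e i).source, x ∈ D.S.U → σ i x ≠ 0

attribute [instance] HD.fκ HD.dκ HD.nκ

namespace HD

variable [ConnectedSpace M] {P : ProjD A} {L : LB A} (X : HD P L)

/-- the generators of `FF` as functions -/
def y (l : Fin (X.b + 1)) : M → ℂ := qt (X.s l) X.t

/-- `λ` in the frame `σ ^ j0` -/
def lam (x : M) : ℂ :=
  X.sb (A.cover x).choose x / (X.σ (A.cover x).choose x ^ X.j0 * X.sa (A.cover x).choose x)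

theorem y_hol (l : Fin (X.b + 1)) (i : A.ι) : HolAt A i X.D.S.U (X.y l) :=
  (qt_hol (X.hs l) X.ht i).mono X.Ut

/-- `s_l = y_l t` -/
theorem y_rel (l : Fin (X.b + 1)) {i : A.ι} {x : M} (hx : x ∈ (A.e i).source)
    (hxU : x ∈ X.D.S.U) : X.s l i x = X.y l x * X.t i x := by
  have h0 : X.t i x ≠ 0 := (mem_nz X.ht hx).1 (X.Ut hxU)
  show _ = qt (X.s l) X.t x * _
  rw [qt_eq (X.hs l) X.ht hx, div_mul_cancel₀ _ h0]

theorem y_ev (l : Fin (X.b + 1)) {x : M} (hxU : x ∈ X.D.S.U) :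
    x ∈ reg (X.g l) ∧ ev (X.g l) x = X.y l x :=
  (X.rels l).ev_qt (X.hs l) X.ht (X.Ut hxU)

/-- `τ_l = y_l t_0` -/
theorem τ_rel (l : Fin (X.b + 1)) {i : A.ι} {x : M} (hx : x ∈ (A.e i).source)
    (hxU : x ∈ X.D.S.U) (F : X.κ × Fin X.r → FI n) :
    X.τ l i x F = X.y l x * X.t0 i x F := by
  obtain ⟨h1, h2⟩ := X.y_ev l hxU
  rw [← h2]
  exact X.relτ l i x hx h1 F

theorem t0_ne {i : A.ι} {x : M} (hx : x ∈ (A.e i).source) (hxU : x ∈ X.D.S.U) :
    X.t0 i x ≠ 0 := fun h => (mem_nz X.ht hx).1 (X.Ut hxU) (X.t0t i x h)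

theorem wa_ne {i : A.ι} {x : M} (hx : x ∈ (A.e i).source) (hxU : x ∈ X.D.S.U) :
    X.w X.a i x ≠ 0 := fun h => (mem_nz X.hsa hx).1 (X.Usa hxU) (X.sa0 i x h)

theorem wb_ne {i : A.ι} {x : M} (hx : x ∈ (A.e i).source) (hxU : x ∈ X.D.S.U) :
    X.w (X.a + X.j0) i x ≠ 0 := fun h => (mem_nz X.hsb hx).1 (X.Usb hxU) (X.sb0 i x h)

theorem sa_ne {i : A.ι} {x : M} (hx : x ∈ (A.e i).source) (hxU : x ∈ X.D.S.U) :
    X.sa i x ≠ 0 := (mem_nz X.hsa hx).1 (X.Usa hxU)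

theorem sb_ne {i : A.ι} {x : M} (hx : x ∈ (A.e i).source) (hxU : x ∈ X.D.S.U) :
    X.sb i x ≠ 0 := (mem_nz X.hsb hx).1 (X.Usb hxU)

/-- **the section relation of `λ`** -/
theorem rel {i : A.ι} {x : M} (hx : x ∈ (A.e i).source) (hxU : x ∈ X.D.S.U) :
    X.sb i x = X.lam x * X.σ i x ^ X.j0 * X.sa i x := by
  set j := (A.cover x).choose with hj
  have hjx : x ∈ (A.e j).source := (A.cover x).choose_spec
  have hd : X.σ j x ^ X.j0 * X.sa j x ≠ 0 :=
    mul_ne_zero (pow_ne_zero _ (X.σ0 j x hjx hxU)) (X.sa_ne hjx hxU)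
  have h1 : X.lam x * (X.σ j x ^ X.j0 * X.sa j x) = X.sb j x := div_mul_cancel₀ _ hd
  have h2 := X.hsb.tr i j x ⟨hx, hjx⟩ (mem_univ x)
  have h3 := X.hsa.tr i j x ⟨hx, hjx⟩ (mem_univ x)
  have h4 := X.hσ.tr i j x ⟨hx, hjx⟩ hxU
  rw [h2, h3, h4, ← h1]
  simp only [LB.mul_g, Crest.Agent.R273.HM_333.LB_pow_g]
  rw [pow_add]
  ring

/-- the tensor relation of `λ` -/
theorem relw {i : A.ι} {x : M} (hx : x ∈ (A.e i).source) (hxU : x ∈ X.D.S.U)
    (F : Fin X.r → FI n) :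
    X.w (X.a + X.j0) i x F = X.lam x * X.σ i x ^ X.j0 * X.w X.a i x F := by
  have h1 := X.hab i x F
  rw [X.rel hx hxU] at h1
  refine mul_left_cancel₀ (X.sa_ne hx hxU) ?_
  rw [← h1]
  ring

theorem lam_ne {x : M} (hxU : x ∈ X.D.S.U) : X.lam x ≠ 0 := by
  obtain ⟨i, hi⟩ := A.cover x
  intro h
  have h1 := X.rel hi hxU
  rw [h, zero_mul, zero_mul] at h1
  exact X.sb_ne hi hxU h1

theorem lam_hol (i : A.ι) : HolAt A i X.D.S.U X.lam := by
  have h1 : HolAt A i X.D.S.U fun x => X.sb i x * (X.σ i x ^ X.j0 * X.sa i x)⁻¹ :=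
    ((X.hsb.hol i).mono (subset_univ _)).mul
      ((((X.hσ.hol i).pow _).mul ((X.hsa.hol i).mono (subset_univ _))).inv
        fun x hx hxU => mul_ne_zero (pow_ne_zero _ (X.σ0 i x hx hxU)) (X.sa_ne hx hxU))
  refine h1.congr fun x hx hxU => ?_
  have hd : X.σ i x ^ X.j0 * X.sa i x ≠ 0 :=
    mul_ne_zero (pow_ne_zero _ (X.σ0 i x hx hxU)) (X.sa_ne hx hxU)
  show X.sb i x * _ = X.lam x
  rw [X.rel hx hxU, mul_assoc (X.lam x), mul_assoc (X.lam x), mul_inv_cancel₀ hd, mul_one]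

/-- **the last shrink** -/
def shr {j : ℕ} {H : A.ι → M → ℂ} (hH : IsHS (lb P ^ j) univ H)
    (hne : (X.D.S.U ∩ nz H).Nonempty) : HD P L :=
  have hsub : (YDx1_945.shr X.D hH).S.U ⊆ X.D.S.U := by
    rw [shr_U]; exact inter_subset_left
  { X with
    D := YDx1_945.shr X.D hH
    hm := le_trans X.hm (Nat.le_add_right _ _)
    hU := shr_hU X.D hH X.hU
    hn := X.hn
    hq := X.hq
    Une := by rw [shr_U]; exact hne
    Ut := hsub.trans X.Ut
    Usa := hsub.trans X.Usa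
    Usb := hsub.trans X.Usb
    hσ := ⟨fun i => (X.hσ.hol i).mono hsub, fun i x hx => X.hσ.off i x hx,
      fun i j x hx hxU => X.hσ.tr i j x hx (hsub hxU)⟩
    σ0 := fun i x hx hxU => X.σ0 i x hx (hsub hxU) }

section

variable {j : ℕ} {H : A.ι → M → ℂ} (hH : IsHS (lb P ^ j) univ H)
  (hne : (X.D.S.U ∩ nz H).Nonempty)

@[simp] theorem shr_D : (X.shr hH hne).D = YDx1_945.shr X.D hH := rfl
@[simp] theorem shr_y (l : Fin (X.b + 1)) : (X.shr hH hne).y l = X.y l := rfl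
@[simp] theorem shr_lam : (X.shr hH hne).lam = X.lam := rfl
@[simp] theorem shr_σ : (X.shr hH hne).σ = X.σ := rfl
@[simp] theorem shr_j0 : (X.shr hH hne).j0 = X.j0 := rfl
@[simp] theorem shr_b : (X.shr hH hne).b = X.b := rfl

theorem shr_DU : (X.shr hH hne).D.S.U = X.D.S.U ∩ nz H := shr_U X.D hH

end

end HD

end

end Crest.Agent.R273.YDx5_945
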