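import Crest.Agent.R273.LemUC_619
import Crest.Agent.R273.LemUE_619
import Mathlib.Analysis.SpecialFunctions.Sqrt
import Crest.Agent.R273.ChowM_313
import Crest.Agent.R273.AsmA_73
import Crest.Agent.R273.SteinF_794
import Crest.Agent.R273.PenAlg_93
import Crest.Agent.R273.SerE_945
import Crest.Agent.R273.SteinE_794
import Crest.Agent.R273.LemUA_619
import Crest.Agent.R273.SteinL_794
import Crest.Agent.R273.FFb_769
import Crest.Agent.R271.H1_51
import Mathlib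
import Crest.Agent.R273.FFi_101
import Crest.Agent.R273.Beta_769
import Crest.Agent.R273.YDx5_945
import Crest.Agent.R273.ChowQ_313
import Crest.Agent.R273.D13_505

-- ▼ part R273/LemU_619
section

/-!
R273 (S0416), Part A, LEMMA U over a model (helper619): the size of a bounded ratio of two families on
the fibres of an algebraic map is, up to constants and a power, the ratio of two families of functions
on the base.
-/

set_option autoImplicit false

open Finset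
open scoped NNReal

namespace Crest.Agent.R273.LemU_619

universe w

/-- size of a finite family of polynomials at a point -/
noncomputable def pnm {s : ℕ} (y : Fin s → ℂ) (c : Finset (MvPolynomial (Fin s) ℂ)) : ℝ≥0 :=
  c.sup fun p => ‖MvPolynomial.eval y p‖₊

theorem le_pnm {s : ℕ} {y : Fin s → ℂ} {c : Finset (MvPolynomial (Fin s) ℂ)}
    {p : MvPolynomial (Fin s) ℂ} (hp : p ∈ c) : ‖MvPolynomial.eval y p‖₊ ≤ pnm y c :=
  Finset.le_sup (f := fun p => ‖MvPolynomial.eval y p‖₊) hp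

theorem stp_one (A B : Type w) [CommRing A] [IsDomain A] [Algebra ℂ A] [Algebra.FiniteType ℂ A]
    [CommRing B] [IsDomain B] [Algebra ℂ B] [Algebra A B] [IsScalarTower ℂ A B] (z : B)
    (hinj : Function.Injective (algebraMap A B)) (hz : Algebra.adjoin A {z} = ⊤) : Stp A B := by
  by_cases h : IsAlgebraic A z
  · exact stp_alg hinj hz h
  · exact stp_trans hz h

theorem stp_all (A B : Type w) [CommRing A] [IsDomain A] [Algebra ℂ A] [Algebra.FiniteType ℂ A]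
    [CommRing B] [IsDomain B] [Algebra ℂ B] [Algebra.FiniteType ℂ B] [Algebra A B]
    [IsScalarTower ℂ A B] (hinj : Function.Injective (algebraMap A B)) : Stp A B := by
  obtain ⟨S, hS⟩ := (inferInstance : Algebra.FiniteType ℂ B).out
  refine Stp.of_gen (fun A B _ _ _ _ _ _ _ _ _ z => stp_one A B z) S.card A B
    (fun i => (S.equivFin.symm i : B)) hinj ?_
  have hr : Set.range (fun i => (S.equivFin.symm i : B)) = (S : Set B) := by
    ext b
    constructor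
    · rintro ⟨i, rfl⟩; exact (S.equivFin.symm i).2
    · intro hb
      exact ⟨S.equivFin ⟨b, hb⟩, by simp⟩
  rw [hr, eq_top_iff]
  intro b _
  have hb : b ∈ Algebra.adjoin ℂ (S : Set B) := by rw [hS]; exact Algebra.mem_top
  have hle : Algebra.adjoin ℂ (S : Set B) ≤ (Algebra.adjoin A (S : Set B)).restrictScalars ℂ :=
    Algebra.adjoin_le fun y hy => (Subalgebra.mem_restrictScalars ℂ).2 (Algebra.subset_adjoin hy)
  exact (Subalgebra.mem_restrictScalars ℂ).1 (hle hb)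

/-- LEMMA U over a model. -/
theorem lemU {B : Type w} [CommRing B] [IsDomain B] [Algebra ℂ B] [Algebra.FiniteType ℂ B] {s : ℕ}
    (u : Fin s → B) (α β : Finset B) (hβ : ∃ b ∈ β, b ≠ 0) {g : B} (hg : g ≠ 0) :
    ∃ (e : ℕ) (C : ℝ≥0) (c c' : Finset (MvPolynomial (Fin s) ℂ)) (h : B), 1 ≤ e ∧
      (∃ p ∈ c', MvPolynomial.aeval u p ≠ 0) ∧ g ∣ h ∧ h ≠ 0 ∧
      ∀ x : B →ₐ[ℂ] ℂ, x h ≠ 0 → pnm (fun i => x (u i)) c' ≠ 0 ∧
        ∀ M : ℝ≥0, (∀ x' : B →ₐ[ℂ] ℂ, (∀ i, x' (u i) = x (u i)) → x' h ≠ 0 →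
          nm x' α ≤ M * nm x' β) →
          pnm (fun i => x (u i)) c ≤ C * M ^ e * pnm (fun i => x (u i)) c' ∧
          ∀ x' : B →ₐ[ℂ] ℂ, (∀ i, x' (u i) = x (u i)) → x' h ≠ 0 →
            nm x' α ^ e * pnm (fun i => x (u i)) c' ≤
              C * pnm (fun i => x (u i)) c * nm x' β ^ e := by
  classical
  set A : Subalgebra ℂ B := Algebra.adjoin ℂ (Set.range u) with hA
  have hft : Algebra.FiniteType ℂ A := (Subalgebra.fg_iff_finiteType A).1
    ⟨univ.image u, by rw [coe_image, coe_univ, Set.image_univ]⟩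
  obtain ⟨e, C, α0, β0, h', h, he, hβ0, hgh, hh', hh, H⟩ :=
    stp_all A B Subtype.val_injective α β g hβ hg
  have hpoly : ∀ a : A, ∃ p : MvPolynomial (Fin s) ℂ, MvPolynomial.aeval u p = (a : B) := by
    intro a
    have h1 : (a : B) ∈ Algebra.adjoin ℂ (Set.range u) := a.2
    rw [Algebra.adjoin_range_eq_range_aeval] at h1
    exact h1
  choose P hP using hpoly
  have hval : ∀ (x : B →ₐ[ℂ] ℂ) (a : A), MvPolynomial.eval (fun i => x (u i)) (P a) = res A x a := by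
    intro x a
    rw [res_apply]
    change _ = x (a : B)
    rw [← hP a, MvPolynomial.comp_aeval_apply, MvPolynomial.aeval_eq_eval]
  have hnm : ∀ (x : B →ₐ[ℂ] ℂ) (S : Finset A),
      pnm (fun i => x (u i)) (S.image P) = nm (res A x) S := by
    intro x S
    unfold pnm nm
    rw [Finset.sup_image]
    refine Finset.sup_congr rfl fun a _ => ?_
    rw [Function.comp_apply, hval]
  have hres : ∀ x x' : B →ₐ[ℂ] ℂ, res A x' = res A x ↔ ∀ i, x' (u i) = x (u i) := by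
    intro x x'
    constructor
    · intro h1 i
      have hu : u i ∈ A := Algebra.subset_adjoin ⟨i, rfl⟩
      have h2 := congrArg (fun f : A →ₐ[ℂ] ℂ => f ⟨u i, hu⟩) h1
      exact h2
    · intro h1
      ext a
      rw [← hval, ← hval]
      congr 2
      funext i
      exact h1 i
  refine ⟨e, C, α0.image P, β0.image P, h' * (h : B), he, ?_, hgh.mul_right _,
    mul_ne_zero hh' fun h0 => hh (Subtype.ext h0), ?_⟩
  · obtain ⟨b, hb, hb0⟩ := hβ0
    exact ⟨P b, mem_image_of_mem _ hb, by rw [hP]; exact fun h0 => hb0 (Subtype.ext h0)⟩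
  intro x hx
  rw [map_mul] at hx
  obtain ⟨H1, H2⟩ := H (res A x) (right_ne_zero_of_mul hx)
  refine ⟨by rw [hnm]; exact H1, fun M hM => ?_⟩
  have hbig : ∀ x' : B →ₐ[ℂ] ℂ, res A x' = res A x → x' h' ≠ 0 → x' (h' * (h : B)) ≠ 0 := by
    intro x' hx' hx'h
    rw [map_mul]
    refine mul_ne_zero hx'h ?_
    have h3 := congrArg (fun f : A →ₐ[ℂ] ℂ => f h) hx'
    have h4 : x' (h : B) = x (h : B) := h3
    rw [h4]
    exact right_ne_zero_of_mul hx
  obtain ⟨H3, H4⟩ := H2 M fun x' hx' hx'h => hM x' ((hres x x').1 hx') (hbig x' hx' hx'h)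
  rw [hnm, hnm]
  refine ⟨H3, fun x' hx' hx'h => H4 x' ((hres x x').2 hx') ?_⟩
  rw [map_mul] at hx'h
  exact left_ne_zero_of_mul hx'h

end Crest.Agent.R273.LemU_619
end

-- ▼ part R273/LemUF_619
section

/-!
R273 (S0416), Part A, LEMMA U (helper619): the form used by the master file of Part A. `X` is the set of
points of the geometric model, `E x` the evaluation at `x`, `Q x` the square of the size of `λ`.
-/

set_option autoImplicit false

open Finset
open scoped NNReal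

namespace Crest.Agent.R273.LemU_619

universe w

/-- enumeration of a finite set starting with a given element -/
theorem exists_enum {T : Type*} (c : Finset T) {p0 : T} (h0 : p0 ∈ c) :
    ∃ (m : ℕ) (p : ℕ → T), p 0 = p0 ∧ (∀ j, p j ∈ c) ∧ ∀ q ∈ c, ∃ j, j ≤ m ∧ p j = q := by
  classical
  refine ⟨c.card, fun j => if h : 0 < j ∧ j ≤ c.card then
    (c.equivFin.symm ⟨j - 1, by omega⟩ : T) else p0, by simp, ?_, ?_⟩
  · intro j
    dsimp only
    by_cases h : 0 < j ∧ j ≤ c.card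
    · rw [dif_pos h]; exact (c.equivFin.symm _).2
    · rw [dif_neg h]; exact h0
  · intro q hq
    have hk := (c.equivFin ⟨q, hq⟩).2
    refine ⟨(c.equivFin ⟨q, hq⟩ : ℕ) + 1, hk, ?_⟩
    dsimp only
    rw [dif_pos ⟨Nat.succ_pos _, hk⟩]
    simp

/-- the sum of squares and the sup -/
theorem sum_sq_bounds {s : ℕ} (y : Fin s → ℂ) {c : Finset (MvPolynomial (Fin s) ℂ)} {m : ℕ}
    {p : ℕ → MvPolynomial (Fin s) ℂ} (hp : ∀ j, p j ∈ c) (hq : ∀ q ∈ c, ∃ j, j ≤ m ∧ p j = q) :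
    (pnm y c : ℝ) ^ 2 ≤ ∑ j : Fin (m + 1), ‖MvPolynomial.eval y (p j)‖ ^ 2 ∧
    ∑ j : Fin (m + 1), ‖MvPolynomial.eval y (p j)‖ ^ 2 ≤ (m + 1) * (pnm y c : ℝ) ^ 2 := by
  constructor
  · obtain ⟨q, hqc, hq1⟩ := Finset.exists_mem_eq_sup c ⟨p 0, hp 0⟩ fun p => ‖MvPolynomial.eval y p‖₊
    obtain ⟨j, hj, hj'⟩ := hq q hqc
    have h1 : (pnm y c : ℝ) = ‖MvPolynomial.eval y (p j)‖ := by
      unfold pnm
      rw [hq1, hj']; rfl
    rw [h1]
    set k : Fin (m + 1) := ⟨j, Nat.lt_succ_of_le hj⟩ with hk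
    have hkj : (k : ℕ) = j := rfl
    set f : ℕ → ℝ := fun j => ‖MvPolynomial.eval y (p j)‖ ^ 2 with hf
    have h2 : ∀ i ∈ (univ : Finset (Fin (m + 1))), 0 ≤ f i := fun i _ => by
      rw [hf]; exact sq_nonneg _
    have h3 : f k ≤ ∑ i : Fin (m + 1), f i := Finset.single_le_sum h2 (mem_univ k)
    rw [hkj] at h3
    exact h3
  · have h2 : ∀ j : Fin (m + 1), ‖MvPolynomial.eval y (p j)‖ ^ 2 ≤ (pnm y c : ℝ) ^ 2 := by
      intro j
      have h3 : ‖MvPolynomial.eval y (p j)‖ ≤ (pnm y c : ℝ) := by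
        exact_mod_cast le_pnm (y := y) (hp j)
      exact pow_le_pow_left₀ (norm_nonneg _) h3 2
    calc ∑ j : Fin (m + 1), ‖MvPolynomial.eval y (p j)‖ ^ 2
        ≤ ∑ j : Fin (m + 1), (pnm y c : ℝ) ^ 2 := Finset.sum_le_sum fun j _ => h2 j
      _ = (m + 1) * (pnm y c : ℝ) ^ 2 := by
          rw [Finset.sum_const, card_univ, Fintype.card_fin, nsmul_eq_mul]; push_cast; ring

/-- LEMMA U on a geometric model. `hE`: every point of the algebra outside `g = 0` is a geometric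
point; `hq1`, `hq2`: `Q` is comparable to the square of the ratio; `hbd`: `Q` is bounded on the generic
fibres. -/
theorem model {X : Type*} {B : Type w} [CommRing B] [IsDomain B] [Algebra ℂ B]
    [Algebra.FiniteType ℂ B] (E : X → (B →ₐ[ℂ] ℂ)) {s : ℕ} (u : Fin s → B) (α β : Finset B)
    (hα : ∃ a ∈ α, a ≠ 0) (hβ : ∃ b ∈ β, b ≠ 0) {g : B} (hg : g ≠ 0)
    (hE : ∀ χ : B →ₐ[ℂ] ℂ, χ g ≠ 0 → ∃ x, E x = χ) (Q : X → ℝ) (hQ : ∀ x, 0 ≤ Q x) {K : ℝ}
    (hK : 0 < K)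
    (hq1 : ∀ x, E x g ≠ 0 → (nm (E x) α : ℝ) ^ 2 ≤ K * Q x * (nm (E x) β : ℝ) ^ 2)
    (hq2 : ∀ x, E x g ≠ 0 → Q x * (nm (E x) β : ℝ) ^ 2 ≤ K * (nm (E x) α : ℝ) ^ 2)
    (hbd : ∃ g0 : B, g0 ≠ 0 ∧ ∀ x, E x g0 ≠ 0 → ∃ b : ℝ, ∀ x', (∀ l, E x' (u l) = E x (u l)) →
      E x' g0 ≠ 0 → Q x' ≤ b) :
    ∃ (e : ℕ) (p p' : ℕ → MvPolynomial (Fin s) ℂ) (m m' : ℕ) (h : B), 0 < e ∧ g ∣ h ∧ h ≠ 0 ∧
      (∀ x, E x h ≠ 0 → MvPolynomial.eval (fun l => E x (u l)) (p 0) ≠ 0) ∧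
      (∀ x, E x h ≠ 0 → MvPolynomial.eval (fun l => E x (u l)) (p' 0) ≠ 0) ∧
      (∃ C : ℝ, 0 < C ∧ ∀ x, E x h ≠ 0 →
        Q x ^ e * ∑ j : Fin (m' + 1), ‖MvPolynomial.eval (fun l => E x (u l)) (p' j)‖ ^ 2 ≤
          C * ∑ j : Fin (m + 1), ‖MvPolynomial.eval (fun l => E x (u l)) (p j)‖ ^ 2) ∧
      (∃ C : ℝ, 0 < C ∧ ∀ x, E x h ≠ 0 → ∀ b : ℝ, 0 ≤ b →
        (∀ x', E x' h ≠ 0 → (∀ l, E x' (u l) = E x (u l)) → Q x' ≤ b) →
          ∑ j : Fin (m + 1), ‖MvPolynomial.eval (fun l => E x (u l)) (p j)‖ ^ 2 ≤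
            C * b ^ e *
              ∑ j : Fin (m' + 1), ‖MvPolynomial.eval (fun l => E x (u l)) (p' j)‖ ^ 2) := by
  classical
  obtain ⟨g0, hg0, hbd⟩ := hbd
  obtain ⟨b0, hb0, hb0'⟩ := hβ
  obtain ⟨a0, ha0, ha0'⟩ := hα
  set gg : B := g * g0 * b0 with hgg
  have hgg0 : gg ≠ 0 := mul_ne_zero (mul_ne_zero hg hg0) hb0'
  obtain ⟨e, C, c, c', h, he, ⟨q0', hq0', hq0''⟩, ⟨kk, hkk⟩, hh, H⟩ :=
    lemU u α β ⟨b0, hb0, hb0'⟩ hgg0
  have hsplit : ∀ x : B →ₐ[ℂ] ℂ, x h ≠ 0 → x g ≠ 0 ∧ x g0 ≠ 0 ∧ x b0 ≠ 0 := by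
    intro x hx
    rw [hkk, hgg, map_mul, map_mul, map_mul] at hx
    exact ⟨left_ne_zero_of_mul (left_ne_zero_of_mul (left_ne_zero_of_mul hx)),
      right_ne_zero_of_mul (left_ne_zero_of_mul (left_ne_zero_of_mul hx)),
      right_ne_zero_of_mul (left_ne_zero_of_mul hx)⟩
  -- from a bound of `Q` to a bound of the ratio
  have hMof : ∀ (x : B →ₐ[ℂ] ℂ) (b : ℝ), 0 ≤ b → (∀ x' : X, (∀ l, E x' (u l) = x (u l)) →
      E x' h ≠ 0 → Q x' ≤ b) → ∀ x' : B →ₐ[ℂ] ℂ, (∀ i, x' (u i) = x (u i)) → x' h ≠ 0 →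
        nm x' α ≤ Real.toNNReal (Real.sqrt (K * b)) * nm x' β := by
    intro x b hb hx x' hx' hx'h
    obtain ⟨x1, rfl⟩ := hE x' (hsplit x' hx'h).1
    have h1 := hx x1 hx' hx'h
    have h2 := hq1 x1 (hsplit _ hx'h).1
    have h3 : (nm (E x1) α : ℝ) ^ 2 ≤ (Real.sqrt (K * b) * (nm (E x1) β : ℝ)) ^ 2 := by
      rw [mul_pow, Real.sq_sqrt (mul_nonneg hK.le hb)]
      refine h2.trans (mul_le_mul_of_nonneg_right ?_ (by positivity))
      exact mul_le_mul_of_nonneg_left h1 hK.le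
    have h4 := abs_le_of_sq_le_sq h3 (by positivity)
    rw [← NNReal.coe_le_coe, NNReal.coe_mul, Real.coe_toNNReal _ (Real.sqrt_nonneg _)]
    exact (abs_le.1 h4).2
  -- the numerator family is not zero
  obtain ⟨q0, hq0, hq0n⟩ : ∃ q ∈ c, MvPolynomial.aeval u q ≠ 0 := by
    by_contra hcon
    push Not at hcon
    obtain ⟨χ, hχ⟩ := exists_point (mul_ne_zero hh ha0')
    rw [map_mul] at hχ
    have hχh := left_ne_zero_of_mul hχ
    obtain ⟨hc'0, H1⟩ := H χ hχh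
    obtain ⟨x, rfl⟩ := hE χ (hsplit χ hχh).1
    obtain ⟨b, hb⟩ := hbd x (hsplit _ hχh).2.1
    have hM := hMof (E x) (max b 0) (le_max_right _ _) fun x' hx' hx'h =>
      (hb x' hx' (hsplit _ hx'h).2.1).trans (le_max_left _ _)
    have h1 := (H1 _ hM).2 (E x) (fun _ => rfl) hχh
    have h2 : pnm (fun i => E x (u i)) c = 0 := by
      refine le_antisymm (Finset.sup_le fun q hq => ?_) zero_le
      have h3 : MvPolynomial.eval (fun i => E x (u i)) q = E x (MvPolynomial.aeval u q) := by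
        rw [MvPolynomial.comp_aeval_apply, MvPolynomial.aeval_eq_eval]
      rw [h3, hcon q hq, map_zero, nnnorm_zero]
    rw [h2, mul_zero, zero_mul] at h1
    have h4 : nm (E x) α ^ e * pnm (fun i => E x (u i)) c' = 0 := le_antisymm h1 zero_le
    exact mul_ne_zero (pow_ne_zero _ (nm_ne_zero ha0 (right_ne_zero_of_mul hχ))) hc'0 h4
  obtain ⟨m, p, hp0, hpc, hpm⟩ := exists_enum c hq0
  obtain ⟨m', p', hp0', hpc', hpm'⟩ := exists_enum c' hq0'
  have hev : ∀ (x : B →ₐ[ℂ] ℂ) q, MvPolynomial.eval (fun i => x (u i)) q =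
      x (MvPolynomial.aeval u q) := by
    intro x q
    rw [MvPolynomial.comp_aeval_apply, MvPolynomial.aeval_eq_eval]
  set hf : B := h * (MvPolynomial.aeval u q0 * MvPolynomial.aeval u q0') with hhf
  have hhf0 : hf ≠ 0 := mul_ne_zero hh (mul_ne_zero hq0n hq0'')
  have hfs : ∀ x : B →ₐ[ℂ] ℂ, x hf ≠ 0 ↔ x h ≠ 0 ∧ MvPolynomial.eval (fun i => x (u i)) q0 ≠ 0 ∧
      MvPolynomial.eval (fun i => x (u i)) q0' ≠ 0 := by
    intro x
    rw [hhf, map_mul, map_mul, hev, hev, mul_ne_zero_iff, mul_ne_zero_iff]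
  refine ⟨e, p, p', m, m', hf, he, ?_, hhf0, ?_, ?_, ?_, ?_⟩
  · exact Dvd.dvd.mul_right (Dvd.dvd.trans ((Dvd.intro _ rfl : g ∣ g * g0).mul_right _)
      ⟨kk, hkk⟩) _
  · intro x hx
    rw [hp0]; exact ((hfs _).1 hx).2.1
  · intro x hx
    rw [hp0']; exact ((hfs _).1 hx).2.2
  · -- Ua
    refine ⟨(m' + 1) * ((C : ℝ) ^ 2 * K ^ e) + 1, by positivity, fun x hx => ?_⟩
    have hxh := ((hfs _).1 hx).1
    obtain ⟨x1, x2, x3⟩ := hsplit _ hxh
    obtain ⟨b, hb⟩ := hbd x x2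
    have hM := hMof (E x) (max b 0) (le_max_right _ _) fun x' hx' hx'h =>
      (hb x' hx' (hsplit _ hx'h).2.1).trans (le_max_left _ _)
    have h1 := ((H (E x) hxh).2 _ hM).2 (E x) (fun _ => rfl) hxh
    set y : Fin s → ℂ := fun l => E x (u l) with hy
    have hs1 := sum_sq_bounds y hpc hpm
    have hs2 := sum_sq_bounds y hpc' hpm'
    set P : ℝ := (pnm y c : ℝ) with hP
    set P' : ℝ := (pnm y c' : ℝ) with hP'
    set a : ℝ := (nm (E x) α : ℝ) with ha
    set b' : ℝ := (nm (E x) β : ℝ) with hb'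
    have hb'pos : 0 < b' := by
      have h3 : nm (E x) β ≠ 0 := nm_ne_zero hb0 x3
      exact_mod_cast pos_iff_ne_zero.2 h3
    have h2 : a ^ e * P' ≤ C * P * b' ^ e := by
      have := NNReal.coe_le_coe.2 h1
      push_cast at this
      exact this
    have h3 := hq2 x x1
    have hP0 : 0 ≤ P := NNReal.coe_nonneg _
    have hP'0 : 0 ≤ P' := NNReal.coe_nonneg _
    have ha0 : 0 ≤ a := NNReal.coe_nonneg _
    have h4 : (Q x * b' ^ 2) ^ e ≤ (K * a ^ 2) ^ e :=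
      pow_le_pow_left₀ (mul_nonneg (hQ x) (by positivity)) h3 e
    have h5 : (a ^ e * P') ^ 2 ≤ (C * P * b' ^ e) ^ 2 :=
      pow_le_pow_left₀ (by positivity) h2 2
    have h6 : Q x ^ e * P' ^ 2 ≤ K ^ e * (C : ℝ) ^ 2 * P ^ 2 := by
      have hpos : 0 < b' ^ (2 * e) := by positivity
      refine le_of_mul_le_mul_right ?_ hpos
      calc Q x ^ e * P' ^ 2 * b' ^ (2 * e) = (Q x * b' ^ 2) ^ e * P' ^ 2 := by
            rw [mul_pow, ← pow_mul]; ring
        _ ≤ (K * a ^ 2) ^ e * P' ^ 2 := mul_le_mul_of_nonneg_right h4 (by positivity)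
        _ = K ^ e * (a ^ e * P') ^ 2 := by rw [mul_pow, mul_pow, ← pow_mul, ← pow_mul]; ring
        _ ≤ K ^ e * (C * P * b' ^ e) ^ 2 := mul_le_mul_of_nonneg_left h5 (by positivity)
        _ = K ^ e * (C : ℝ) ^ 2 * P ^ 2 * b' ^ (2 * e) := by
            rw [mul_pow, mul_pow, ← pow_mul, mul_comm e 2]; ring
    calc Q x ^ e * ∑ j : Fin (m' + 1), ‖MvPolynomial.eval y (p' j)‖ ^ 2
        ≤ Q x ^ e * ((m' + 1) * P' ^ 2) := mul_le_mul_of_nonneg_left hs2.2 (pow_nonneg (hQ x) _)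
      _ = (m' + 1) * (Q x ^ e * P' ^ 2) := by ring
      _ ≤ (m' + 1) * (K ^ e * (C : ℝ) ^ 2 * P ^ 2) := mul_le_mul_of_nonneg_left h6 (by positivity)
      _ = (m' + 1) * ((C : ℝ) ^ 2 * K ^ e) * P ^ 2 := by ring
      _ ≤ ((m' + 1) * ((C : ℝ) ^ 2 * K ^ e) + 1) * P ^ 2 :=
          mul_le_mul_of_nonneg_right (by linarith) (by positivity)
      _ ≤ _ := mul_le_mul_of_nonneg_left hs1.1 (by positivity)
  · -- Ub
    refine ⟨(m + 1) * ((C : ℝ) ^ 2 * K ^ e) + 1, by positivity, fun x hx b hb hbx => ?_⟩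
    have hxx := (hfs _).1 hx
    have hxh := hxx.1
    have hM := hMof (E x) b hb fun x' hx' hx'h => hbx x' ((hfs _).2 ⟨hx'h, by
      have h1 : (fun i => E x' (u i)) = fun i => E x (u i) := funext hx'
      rw [h1]; exact hxx.2⟩) hx'
    have h1 := ((H (E x) hxh).2 _ hM).1
    set y : Fin s → ℂ := fun l => E x (u l) with hy
    have hs1 := sum_sq_bounds y hpc hpm
    have hs2 := sum_sq_bounds y hpc' hpm'
    set P : ℝ := (pnm y c : ℝ) with hP
    set P' : ℝ := (pnm y c' : ℝ) with hP'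
    have hP0 : 0 ≤ P := NNReal.coe_nonneg _
    have hP'0 : 0 ≤ P' := NNReal.coe_nonneg _
    have h2 : P ≤ C * Real.sqrt (K * b) ^ e * P' := by
      have := NNReal.coe_le_coe.2 h1
      push_cast at this
      rw [Real.coe_toNNReal _ (Real.sqrt_nonneg _)] at this
      exact this
    have h3 : P ^ 2 ≤ (C : ℝ) ^ 2 * K ^ e * b ^ e * P' ^ 2 := by
      refine (pow_le_pow_left₀ hP0 h2 2).trans (le_of_eq ?_)
      rw [mul_pow, mul_pow, ← pow_mul, mul_comm e 2, pow_mul, Real.sq_sqrt (mul_nonneg hK.le hb),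
        mul_pow]
      ring
    calc ∑ j : Fin (m + 1), ‖MvPolynomial.eval y (p j)‖ ^ 2 ≤ (m + 1) * P ^ 2 := hs1.2
      _ ≤ (m + 1) * ((C : ℝ) ^ 2 * K ^ e * b ^ e * P' ^ 2) :=
          mul_le_mul_of_nonneg_left h3 (by positivity)
      _ = (m + 1) * ((C : ℝ) ^ 2 * K ^ e) * b ^ e * P' ^ 2 := by ring
      _ ≤ ((m + 1) * ((C : ℝ) ^ 2 * K ^ e) + 1) * b ^ e * P' ^ 2 := by
          refine mul_le_mul_of_nonneg_right ?_ (by positivity)
          refine mul_le_mul_of_nonneg_right (by linarith) (pow_nonneg hb _)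
      _ ≤ _ := mul_le_mul_of_nonneg_left hs2.1 (by positivity)

end Crest.Agent.R273.LemU_619
end

-- ▼ part R273/UaUb_619
section

/-!
R273 (S0416), Part A, HALF 2 (helper619): LEMMA U on the affine model `nz d0`, and the fields `Ua`, `Ub`
of `YD`.
-/

set_option autoImplicit false
set_option linter.unusedSectionVars false

open Set Filter Topology Complex MeasureTheory
open scoped ContDiff Matrix ENNReal NNReal

namespace Crest.Agent.R273.UaUb_619

open Crest.Agent.R275.Geo Crest.Agent.R275.Core144 Crest.Agent.R275.GC293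
open Crest.Agent.R273.SteinA_794 Crest.Agent.R273.SteinB_794 Crest.Agent.R273.SteinC_794
open Crest.Agent.R273.Defs_333 (ProjD HM)
open Crest.Agent.R273.SerA_945 (Fn)
open Crest.Agent.R273.TD3_733 (D2)
open Crest.Agent.R273.FS_333 (lb)
open Crest.Agent.R273.Chow_313 Crest.Agent.R273.LemU_619
open Crest.Agent.R273.Pen_93 (Bf)
open Crest.Agent.R273.AsmA_73 (evp)

noncomputable section

variable {n : ℕ} {M : Type} [TopologicalSpace M] {A : Atl n M}
variable [T2Space M] [ConnectedSpace M] [CompactSpace M] [Finite A.ι]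

/-- LEMMA U on the affine model. -/
theorem uaub (PA : Part A) (hD : D2 A) (P : ProjD A) {k : ℕ} (hk : 1 ≤ k) {d0 : Fn A}
    (hd0 : IsHS (lb P ^ k) univ d0) (hne : ∃ i x, d0 i x ≠ 0) {N : ℕ}
    (yR : Fin N → Reg (lb P ^ k) d0 hd0) (α β : Finset (Reg (lb P ^ k) d0 hd0))
    (hα : ∃ f ∈ α, f ≠ 0) (hβ : ∃ f ∈ β, f ≠ 0) {g : Reg (lb P ^ k) d0 hd0} (hg : g ≠ 0)
    (Λ : nz d0 → ℝ) (hΛ : ∀ x, 0 ≤ Λ x) {C : ℝ} (hC : 0 < C)
    (h1 : ∀ x, (nm (evR hd0 x) α : ℝ) ≤ C * Λ x * nm (evR hd0 x) β)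
    (h2 : ∀ x, Λ x * nm (evR hd0 x) β ≤ C * nm (evR hd0 x) α)
    (hR4 : ∃ g1 : Reg (lb P ^ k) d0 hd0, g1 ≠ 0 ∧ ∀ x, g1.1 x ≠ 0 → ∃ b : ℝ, ∀ x', g1.1 x' ≠ 0 →
      (∀ l, (yR l).1 x' = (yR l).1 x) → Λ x' ≤ b) :
    ∃ (e : ℕ) (p p' : ℕ → MvPolynomial (Fin N) ℂ) (m m' j : ℕ) (r : Fn A), 0 < e ∧
      IsHS (lb P ^ (k * j)) univ r ∧ (∃ i x, r i x ≠ 0) ∧ (∃ x : nz d0, x.1 ∈ nz r) ∧
      (∀ x : nz d0, x.1 ∈ nz r → g.1 x ≠ 0) ∧
      (∀ x : nz d0, x.1 ∈ nz r → MvPolynomial.eval (fun l => (yR l).1 x) (p 0) ≠ 0) ∧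
      (∀ x : nz d0, x.1 ∈ nz r → MvPolynomial.eval (fun l => (yR l).1 x) (p' 0) ≠ 0) ∧
      (∃ C : ℝ, 0 < C ∧ ∀ x : nz d0, x.1 ∈ nz r →
        (Λ x ^ 2) ^ e * ∑ j : Fin (m' + 1), ‖MvPolynomial.eval (fun l => (yR l).1 x) (p' j)‖ ^ 2 ≤
          C * ∑ j : Fin (m + 1), ‖MvPolynomial.eval (fun l => (yR l).1 x) (p j)‖ ^ 2) ∧
      (∃ C : ℝ, 0 < C ∧ ∀ x : nz d0, x.1 ∈ nz r → ∀ b : ℝ, 0 ≤ b →
        (∀ x' : nz d0, x'.1 ∈ nz r → (∀ l, (yR l).1 x' = (yR l).1 x) → Λ x' ^ 2 ≤ b) →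
          ∑ j : Fin (m + 1), ‖MvPolynomial.eval (fun l => (yR l).1 x) (p j)‖ ^ 2 ≤
            C * b ^ e *
              ∑ j : Fin (m' + 1), ‖MvPolynomial.eval (fun l => (yR l).1 x) (p' j)‖ ^ 2) := by
  have hdom : IsDomain (Reg (lb P ^ k) d0 hd0) := reg_domain hd0 hne
  have hfg : Algebra.FiniteType ℂ (Reg (lb P ^ k) d0 hd0) := reg_fg PA hD P hk hd0
  obtain ⟨e, p, p', m, m', h, he, ⟨gq, hgq⟩, hh, hp, hp', hUa, hUb⟩ :=
    model (X := nz d0) (evR hd0) yR α β hα hβ hg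
      (fun χ _ => by
        obtain ⟨x, hx⟩ := reg_pt PA hD P hk hd0 χ
        exact ⟨x, hx.symm⟩)
      (fun x => Λ x ^ 2) (fun x => sq_nonneg _) (K := C ^ 2) (by positivity)
      (fun x _ => by
        refine (pow_le_pow_left₀ (NNReal.coe_nonneg _) (h1 x) 2).trans (le_of_eq ?_)
        ring)
      (fun x _ => by
        have h3 := pow_le_pow_left₀ (mul_nonneg (hΛ x) (NNReal.coe_nonneg _)) (h2 x) 2
        rw [mul_pow, mul_pow] at h3
        exact h3)
      (by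
        obtain ⟨g1, hg1, h3⟩ := hR4
        refine ⟨g1, hg1, fun x hx => ?_⟩
        obtain ⟨b, hb⟩ := h3 x hx
        refine ⟨max b 0 ^ 2, fun x' hx' hx'1 => ?_⟩
        exact pow_le_pow_left₀ (hΛ x') ((hb x' hx'1 hx').trans (le_max_left _ _)) 2)
  obtain ⟨j, t, ht, h4⟩ := h.2
  have hkey : ∀ x : nz d0, x.1 ∈ nz t ↔ evR hd0 x h ≠ 0 := by
    intro x
    obtain ⟨i, hi⟩ := A.cover x.1
    have h5 : d0 i x.1 ≠ 0 := (mem_nz hd0 hi).1 x.2
    rw [mem_nz ht hi, evR_apply, h4 x i hi, Ne, Ne, div_eq_zero_iff, not_or]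
    exact ⟨fun h => ⟨h, pow_ne_zero _ h5⟩, fun h => h.1⟩
  obtain ⟨χ, hχ⟩ := exists_point hh
  obtain ⟨x0, hx0⟩ := reg_pt PA hD P hk hd0 χ
  have hx0' : x0.1 ∈ nz t := (hkey x0).2 (by rw [← hx0]; exact hχ)
  refine ⟨e, p, p', m, m', j, t, he, ?_, ?_, ⟨x0, hx0'⟩, ?_, ?_, ?_, ?_, ?_⟩
  · rw [pow_mul]; exact ht
  · obtain ⟨i, hi⟩ := A.cover x0.1
    exact ⟨i, x0.1, (mem_nz ht hi).1 hx0'⟩
  · intro x hx h5
    refine (hkey x).1 hx ?_
    have h6 : evR hd0 x g = 0 := h5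
    rw [hgq, map_mul, h6, zero_mul]
  · exact fun x hx => hp x ((hkey x).1 hx)
  · exact fun x hx => hp' x ((hkey x).1 hx)
  · obtain ⟨C', hC', h5⟩ := hUa
    exact ⟨C', hC', fun x hx => h5 x ((hkey x).1 hx)⟩
  · obtain ⟨C', hC', h5⟩ := hUb
    exact ⟨C', hC', fun x hx b hb h6 => h5 x ((hkey x).1 hx) b hb fun x' hx' hx'y =>
      h6 x' ((hkey x').2 hx') hx'y⟩

/-- the fields `c0`, `c0'`, `Ua`, `Ub` of `YD` on a domain `S'` with `S'.U = nz d0 ∩ nz r` -/
theorem exists_fields (PA : Part A) (hD : D2 A) (P : ProjD A) {k : ℕ} (hk : 1 ≤ k) {d0 : Fn A}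
    (hd0 : IsHS (lb P ^ k) univ d0) (hne : ∃ i x, d0 i x ≠ 0) {N : ℕ}
    (yR : Fin N → Reg (lb P ^ k) d0 hd0) (α β : Finset (Reg (lb P ^ k) d0 hd0))
    (hα : ∃ f ∈ α, f ≠ 0) (hβ : ∃ f ∈ β, f ≠ 0) {g : Reg (lb P ^ k) d0 hd0} (hg : g ≠ 0)
    (Λ : nz d0 → ℝ) (hΛ : ∀ x, 0 ≤ Λ x) {C : ℝ} (hC : 0 < C)
    (h1 : ∀ x, (nm (evR hd0 x) α : ℝ) ≤ C * Λ x * nm (evR hd0 x) β)
    (h2 : ∀ x, Λ x * nm (evR hd0 x) β ≤ C * nm (evR hd0 x) α)
    (hR4 : ∃ g1 : Reg (lb P ^ k) d0 hd0, g1 ≠ 0 ∧ ∀ x, g1.1 x ≠ 0 → ∃ b : ℝ, ∀ x', g1.1 x' ≠ 0 →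
      (∀ l, (yR l).1 x' = (yR l).1 x) → Λ x' ≤ b) :
    ∃ (e : ℕ) (p p' : ℕ → MvPolynomial (Fin N) ℂ) (m m' j : ℕ) (r : Fn A), 0 < e ∧
      IsHS (lb P ^ (k * j)) univ r ∧ (∃ i x, r i x ≠ 0) ∧ (nz d0 ∩ nz r).Nonempty ∧
      (∀ x : nz d0, x.1 ∈ nz r → g.1 x ≠ 0) ∧
      ∀ (S' : SD A) (_ : S'.U = nz d0 ∩ nz r) (L : LB A) (hL : HM L) (σ : A.ι → M → ℂ) (j0 : ℕ)
        (lam : Mo S' → ℂ) (y : Fin N → Mo S' → ℂ),
        (∀ l (x : Mo S') (hx : x.val ∈ nz d0), y l x = (yR l).1 ⟨x.val, hx⟩) →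
        (∀ (x : Mo S') (hx : x.val ∈ nz d0),
          Λ ⟨x.val, hx⟩ ^ 2 = ‖lam x‖ ^ 2 * Real.exp (-(j0 * wtS hL σ x.val))) →
        (∀ x, evp y p 0 x ≠ 0) ∧ (∀ x, evp y p' 0 x ≠ 0) ∧
        (∃ C : ℝ, 0 < C ∧ ∀ x : Mo S', (‖lam x‖ ^ 2 * Real.exp (-(j0 * wtS hL σ x.val))) ^ e *
          Bf (evp y p') m' x ≤ C * Bf (evp y p) m x) ∧
        (∃ C : ℝ, 0 < C ∧ ∀ (x : Mo S') (b : ℝ), 0 ≤ b →
          (∀ x' : Mo S', (∀ l, y l x' = y l x) →
            ‖lam x'‖ ^ 2 * Real.exp (-(j0 * wtS hL σ x'.val)) ≤ b) →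
          Bf (evp y p) m x ≤ C * b ^ e * Bf (evp y p') m' x) := by
  obtain ⟨e, p, p', m, m', j, r, he, hr, hr0, ⟨x0, hx0⟩, hgr, hp, hp', ⟨Ca, hCa, hUa⟩,
    ⟨Cb, hCb, hUb⟩⟩ := uaub PA hD P hk hd0 hne yR α β hα hβ hg Λ hΛ hC h1 h2 hR4
  refine ⟨e, p, p', m, m', j, r, he, hr, hr0, ⟨x0.1, x0.2, hx0⟩, hgr, ?_⟩
  intro S' hS' L hL σ j0 lam y hy hlam
  have hx1 : ∀ x : Mo S', x.val ∈ nz d0 := fun x => (hS'.subset x.prop).1
  have hx2 : ∀ x : Mo S', x.val ∈ nz r := fun x => (hS'.subset x.prop).2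
  have hyy : ∀ x : Mo S', (fun l => y l x) = fun l => (yR l).1 ⟨x.val, hx1 x⟩ := fun x =>
    funext fun l => hy l x (hx1 x)
  have hev : ∀ (q : ℕ → MvPolynomial (Fin N) ℂ) (j : ℕ) (x : Mo S'),
      evp y q j x = MvPolynomial.eval (fun l => (yR l).1 ⟨x.val, hx1 x⟩) (q j) := by
    intro q j x
    unfold evp
    rw [hyy]
  have hBf : ∀ (q : ℕ → MvPolynomial (Fin N) ℂ) (m : ℕ) (x : Mo S'),
      Bf (evp y q) m x = ∑ j : Fin (m + 1),
        ‖MvPolynomial.eval (fun l => (yR l).1 ⟨x.val, hx1 x⟩) (q j)‖ ^ 2 := by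
    intro q m x
    show ∑ j : Fin (m + 1), ‖evp y q j x‖ ^ 2 = _
    exact Finset.sum_congr rfl fun j _ => by rw [hev]
  refine ⟨fun x => ?_, fun x => ?_, ⟨Ca, hCa, fun x => ?_⟩, ⟨Cb, hCb, fun x b hb hx => ?_⟩⟩
  · rw [hev]; exact hp ⟨x.val, hx1 x⟩ (hx2 x)
  · rw [hev]; exact hp' ⟨x.val, hx1 x⟩ (hx2 x)
  · rw [hBf, hBf, ← hlam x (hx1 x)]
    exact hUa ⟨x.val, hx1 x⟩ (hx2 x)
  · rw [hBf, hBf]
    refine hUb ⟨x.val, hx1 x⟩ (hx2 x) b hb fun x' hx' hx'y => ?_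
    have hx'U : x'.1 ∈ S'.U := hS'.symm.subset ⟨x'.2, hx'⟩
    set xs : Mo S' := ⟨x'.1, hx'U⟩ with hxs
    have hxs1 : xs.val ∈ nz d0 := x'.2
    have h5 := hx xs fun l => by
      rw [hy l xs hxs1, hy l x (hx1 x)]
      exact hx'y l
    rw [← hlam xs hxs1] at h5
    exact h5

end

end Crest.Agent.R273.UaUb_619
end

-- ▼ part R273/SteinG_794
section

/-!
# R273, STEIN complements, part G (helper794): tame weights, finite dimensionality, landing (A-LAND)

* `Tame S W`   : the weight `W` dominates the weight of a metric of a line bundle in a frame;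
                 closed under products; `Tame.quot`, `TameF` (functions of moderate growth);
* `fin_A2`     : `A2 (wm μ W)` is finite dimensional for tame `W`;
* `land`       : elements of `A2 (wm μ W)` are sections of `K ⊗ N`;
* `one_mem_A2` : from `∫_M e^{-η u} < ∞`.
-/

set_option autoImplicit false
set_option linter.unusedSectionVars false

open Set Filter Topology Complex MeasureTheory
open scoped ContDiff Matrix ENNReal

namespace Crest.Agent.R273.SteinG_794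

open Crest.Agent.R275.Geo Crest.Agent.R275.Core144 Crest.Agent.R273.SteinA_794
open Crest.Agent.R273.SteinB_794 Crest.Agent.R273.SteinC_794 Crest.Agent.R273.SteinD_794
open Crest.Agent.R273.SteinM_794 Crest.Agent.R273.SteinN_794 Crest.Agent.R273.SteinL_794
open Crest.Agent.R273.SteinF_794
open Crest.Agent.R273.Defs_333 (ProjD HM HM.wt HasSec)
open Crest.Agent.R273.Vm_333 (vm)
open Crest.Agent.R271.Ho51 (RDom cp ch IsCh IsLeb Hol Sm mem_ch isCh_ch)
open Crest.Agent.R273.Pen_93 Crest.Agent.R273.PenAlg_93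

noncomputable section

variable {n : ℕ} {M : Type} [TopologicalSpace M] {A : Atl n M} {S : SD A}

/-! ### bounded sections -/

theorem hm_cont {L : LB A} (h : HM L) {i : A.ι} {x : M} (hx : x ∈ (A.e i).source) :
    ContinuousAt (h.w i) x := by
  have h1 : ContinuousAt (fun z => h.w i ((A.e i).symm z)) (A.e i x) :=
    (h.sm i).continuousOn.continuousAt ((A.e i).open_target.mem_nhds ((A.e i).map_source hx))
  have h2 : ContinuousAt (fun y => h.w i ((A.e i).symm (A.e i y))) x :=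
    ContinuousAt.comp (f := A.e i) h1 ((A.e i).continuousAt hx)
  refine h2.congr ?_
  filter_upwards [(A.e i).open_source.mem_nhds hx] with y hy
  rw [(A.e i).left_inv hy]

/-- sections on a compact manifold are bounded -/
theorem bdd_sec [CompactSpace M] {L : LB A} (h : HM L) {s : A.ι → M → ℂ} (hs : IsHS L univ s) :
    ∃ C : ℝ, 0 ≤ C ∧ ∀ i, ∀ x ∈ (A.e i).source, ‖s i x‖ ^ 2 * h.w i x ≤ C := by
  set f : M → ℝ := fun x => HM_333.nsq h s (A.cover x).choose x with hf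
  have hfi : ∀ i, ∀ x ∈ (A.e i).source, f x = HM_333.nsq h s i x := fun i x hx =>
    HM_333.nsq_indep h hs ⟨(A.cover x).choose_spec, hx⟩ (mem_univ x)
  have hc : Continuous f := by
    rw [continuous_iff_continuousAt]
    intro x
    obtain ⟨i, hi⟩ := A.cover x
    have h1 : ContinuousAt (fun y => HM_333.nsq h s i y) x :=
      ((continuousAt_of_holAt isOpen_univ (hs.hol i) hi (mem_univ x)).norm.pow 2).mul
        (hm_cont h hi)
    refine h1.congr ?_
    filter_upwards [(A.e i).open_source.mem_nhds hi] with y hy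
    exact (hfi i y hy).symm
  obtain ⟨C, hC⟩ := (isCompact_range hc).bddAbove
  refine ⟨max C 0, le_max_right _ _, fun i x hx => ?_⟩
  have h1 := hC ⟨x, rfl⟩
  rw [hfi i x hx] at h1
  exact h1.trans (le_max_left _ _)

/-! ### tame weights -/

/-- `W` dominates the weight of a metric of a line bundle in a frame -/
def Tame (S : SD A) (W : Mo S → ℝ) : Prop :=
  ∃ (N : LB A) (hN : HM N) (σ : A.ι → M → ℂ), IsHS N S.U σ ∧
    (∀ i, ∀ x ∈ (A.e i).source, x ∈ S.U → σ i x ≠ 0) ∧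
    ∃ C : ℝ, 0 ≤ C ∧ ∀ x : Mo S, Real.exp (-(wtS hN σ x.val)) ≤ C * W x

theorem Tame.pos {W : Mo S → ℝ} (h : Tame S W) (x : Mo S) : 0 < W x := by
  obtain ⟨N, hN, σ, -, -, C, hC, h1⟩ := h
  have h2 := (Real.exp_pos _).trans_le (h1 x)
  exact pos_of_mul_pos_right h2 hC

theorem Tame.mono {W W' : Mo S → ℝ} (h : Tame S W) {C : ℝ} (hC : 0 ≤ C)
    (hW : ∀ x, W x ≤ C * W' x) : Tame S W' := by
  obtain ⟨N, hN, σ, h1, h2, C', hC', h3⟩ := h
  refine ⟨N, hN, σ, h1, h2, C' * C, by positivity, fun x => (h3 x).trans ?_⟩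
  rw [mul_assoc]
  exact mul_le_mul_of_nonneg_left (hW x) hC'


theorem Tame.one : Tame S fun _ => (1 : ℝ) := by
  refine ⟨1, HM_333.one A, oneS A, isHS_oneS _, fun i x hx _ => by simp [oneS, hx], 1,
    zero_le_one, fun x => ?_⟩
  obtain ⟨i, hi⟩ := A.cover x.val
  rw [exp_wtS (HM_333.one A) (isHS_oneS _) (fun i x hx _ => by simp [oneS, hx]) hi x.prop]
  simp [oneS, hi, HM_333.one]

theorem Tame.mul {W W' : Mo S → ℝ} (h : Tame S W) (h' : Tame S W') :
    Tame S fun x => W x * W' x := by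
  obtain ⟨N, hN, σ, h1, h2, C, hC, h3⟩ := h
  obtain ⟨N', hN', σ', h1', h2', C', hC', h3'⟩ := h'
  have h0 : ∀ i, ∀ x ∈ (A.e i).source, x ∈ S.U → (σ * σ') i x ≠ 0 := fun i x hx hxU =>
    mul_ne_zero (h2 i x hx hxU) (h2' i x hx hxU)
  refine ⟨N * N', HM_333.mul hN hN', σ * σ', h1.mul h1', h0, C * C', by positivity, fun x => ?_⟩
  obtain ⟨i, hi⟩ := A.cover x.val
  have e1 := h3 x
  have e2 := h3' x
  rw [exp_wtS hN h1 h2 hi x.prop] at e1
  rw [exp_wtS hN' h1' h2' hi x.prop] at e2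
  rw [exp_wtS _ (h1.mul h1') h0 hi x.prop]
  have e3 : ‖(σ * σ') i x.val‖ ^ 2 * (HM_333.mul hN hN').w i x.val =
      (‖σ i x.val‖ ^ 2 * hN.w i x.val) * (‖σ' i x.val‖ ^ 2 * hN'.w i x.val) := by
    simp only [Pi.mul_apply, norm_mul, HM_333.mul]
    ring
  rw [e3]
  have p1 := hN.pos i _ hi
  have p2 := hN'.pos i _ hi
  calc (‖σ i x.val‖ ^ 2 * hN.w i x.val) * (‖σ' i x.val‖ ^ 2 * hN'.w i x.val)
      ≤ (C * W x) * (C' * W' x) := mul_le_mul e1 e2 (by positivity) (le_trans (by positivity) e1)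
    _ = _ := by ring

theorem Tame.pow {W : Mo S → ℝ} (h : Tame S W) (m : ℕ) : Tame S fun x => W x ^ m := by
  induction m with
  | zero => simpa using Tame.one
  | succ m ih => simpa only [pow_succ] using ih.mul h

theorem Tame.prod {α : Type*} (F : Finset α) {W : α → Mo S → ℝ} (h : ∀ a ∈ F, Tame S (W a)) :
    Tame S fun x => ∏ a ∈ F, W a x := by
  classical
  induction F using Finset.induction_on with
  | empty => simpa using Tame.one
  | insert a F ha ih =>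
    simp only [Finset.prod_insert ha]
    exact (h a (by simp)).mul (ih fun b hb => h b (by simp [hb]))


/-! ### functions of moderate growth -/

/-- moderate growth -/
def TameF (S : SD A) (f : Mo S → ℂ) : Prop := Tame S fun x => (1 + ‖f x‖ ^ 2)⁻¹

theorem TameF.const (c : ℂ) : TameF S fun _ => c :=
  Tame.one.mono (C := 1 + ‖c‖ ^ 2) (by positivity) fun x => by
    rw [mul_inv_cancel₀ (by positivity)]

theorem TameF.mul {f g : Mo S → ℂ} (hf : TameF S f) (hg : TameF S g) :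
    TameF S fun x => f x * g x := by
  refine (Tame.mul hf hg).mono (C := 1) zero_le_one fun x => ?_
  rw [one_mul, ← mul_inv]
  refine inv_anti₀ (by positivity) ?_
  rw [norm_mul, mul_pow]
  nlinarith [sq_nonneg ‖f x‖, sq_nonneg ‖g x‖]

theorem TameF.add {f g : Mo S → ℂ} (hf : TameF S f) (hg : TameF S g) :
    TameF S fun x => f x + g x := by
  refine (Tame.mul hf hg).mono (C := 2) zero_le_two fun x => ?_
  rw [← mul_inv, ← div_eq_mul_inv, inv_eq_one_div, div_le_div_iff₀ (by positivity) (by positivity)]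
  have h1 : ‖f x + g x‖ ^ 2 ≤ 2 * (‖f x‖ ^ 2 + ‖g x‖ ^ 2) := by
    have := norm_add_le (f x) (g x)
    nlinarith [norm_nonneg (f x), norm_nonneg (g x), norm_nonneg (f x + g x),
      sq_nonneg (‖f x‖ - ‖g x‖)]
  nlinarith [sq_nonneg ‖f x‖, sq_nonneg ‖g x‖, mul_nonneg (sq_nonneg ‖f x‖) (sq_nonneg ‖g x‖)]

theorem TameF.pow {f : Mo S → ℂ} (hf : TameF S f) (m : ℕ) : TameF S fun x => f x ^ m := by
  induction m with
  | zero => simpa using TameF.const (S := S) 1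
  | succ m ih => simpa only [pow_succ] using ih.mul hf


theorem TameF.eval {κ : Type*} {y : κ → Mo S → ℂ} (hy : ∀ k, TameF S (y k))
    (P : MvPolynomial κ ℂ) : TameF S fun x => MvPolynomial.eval (fun k => y k x) P := by
  induction P using MvPolynomial.induction_on with
  | C a => simpa using TameF.const (S := S) a
  | add p q hp hq => simpa using hp.add hq
  | mul_X p k hp => simpa using hp.mul (hy k)

/-- 93's partial sums -/
theorem Tame.Bf {c : ℕ → Mo S → ℂ} (h0 : ∀ x, c 0 x ≠ 0) (m : ℕ) (hc : ∀ j ≤ m, TameF S (c j)) :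
    Tame S fun x => (Pen_93.Bf c m x)⁻¹ := by
  have h1 : ∀ r ≤ m, Tame S fun x => (1 + Pen_93.Bf c r x)⁻¹ := by
    intro r
    induction r with
    | zero =>
      intro _
      simp only [Bf_zero]
      exact hc 0 (Nat.zero_le m)
    | succ r ih =>
      intro hr
      refine (Tame.mul (ih (by omega)) (hc (r + 1) hr)).mono (C := 1) zero_le_one fun x => ?_
      have hp := Bf_pos h0 r x
      rw [one_mul, ← mul_inv, Bf_succ]
      refine inv_anti₀ (by positivity) ?_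
      nlinarith [sq_nonneg ‖c (r + 1) x‖]
  refine (h1 m le_rfl).mono (C := 1) zero_le_one fun x => ?_
  have hp := Bf_pos h0 m x
  rw [one_mul]
  exact inv_anti₀ hp (by linarith)


/-! ### landing -/

section land

variable [MeasurableSpace M] [BorelSpace M] [Countable A.ι] [SecondCountableTopology M]
  [ConnectedSpace M] {μ : Measure (Mo S)} {N : LB A} {σ : A.ι → M → ℂ}

/-- **landing** -/
theorem land (h : HM (KB A)⁻¹) (hμ : IsLeb μ) (hN : HM N)
    (hσ : IsHS N S.U σ) (h0 : ∀ i, ∀ x ∈ (A.e i).source, x ∈ S.U → σ i x ≠ 0)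
    {LD : LB A} {d : A.ι → M → ℂ} (hd : IsHS LD univ d) (hd0 : Nz0 A d) (hU : S.U = nz d)
    {W : Mo S → ℝ} (hW : Measurable W) {C : ℝ} (hC : 0 ≤ C)
    (hWC : ∀ x : Mo S, Real.exp (-(wtS hN σ x.val)) ≤ C * W x)
    {F : Mo S → ℂ} (hF : F ∈ A2 (wm μ W)) :
    ∃ s, IsHS (KB A * N) univ s ∧ ∀ i, ∀ x : Mo S, x.val ∈ (A.e i).source →
      s i x.val = F x * (zf S i x.val * σ i x.val) := by
  rw [mem_A2_wm hW] at hF
  refine l2_ext h hμ hN hσ h0 hd hd0 hU hF.1 ?_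
  refine lt_of_le_of_lt (lintegral_mono (g := fun x => ENNReal.ofReal C *
    ENNReal.ofReal (‖F x‖ ^ 2 * W x)) fun x => ?_) ?_
  · show ‖F x‖ₑ ^ 2 * ENNReal.ofReal (Real.exp (-(wtS hN σ x.val))) ≤
      ENNReal.ofReal C * ENNReal.ofReal (‖F x‖ ^ 2 * W x)
    rw [← ENNReal.ofReal_mul hC, ← ofReal_norm (F x), ← ENNReal.ofReal_pow (norm_nonneg _),
      ← ENNReal.ofReal_mul (by positivity)]
    apply ENNReal.ofReal_le_ofReal
    have := mul_le_mul_of_nonneg_left (hWC x) (sq_nonneg ‖F x‖)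
    linarith
  · rw [lintegral_const_mul' _ _ ENNReal.ofReal_ne_top]
    exact ENNReal.mul_lt_top ENNReal.ofReal_lt_top hF.2






end land

end

end Crest.Agent.R273.SteinG_794
end

-- ▼ part R273/Cmp_145
section

/-!
# R273, HALF 2 of Part A: comparison of `|λ|_h` with quotients of sections (helper145)

* `cmp0` : a metric of `L` is equivalent to `∑ ‖a_l‖² / ∑ ‖b_l‖²`, `a_l ∈ H⁰(L⁻¹ N)`,
  `b_l ∈ H⁰(N)` without common zeros;
* `cmp` : existence of such families, `N = lb P ^ k`, for the bundle `L ^ j0`;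
* `cmp_lam` : `|λ|_h² ~ ∑ ‖α_l‖² / ∑ ‖β_l‖²` with `α_l, β_l ∈ H⁰(lb P ^ k)`.
-/

set_option autoImplicit false
set_option linter.unusedSectionVars false

open Set Filter Topology Complex MeasureTheory
open scoped ContDiff Matrix ENNReal

namespace Crest.Agent.R273.Cmp_145

open Crest.Agent.R275.Geo Crest.Agent.R275.Core144 Crest.Agent.R275.GC293
open Crest.Agent.R273.SteinA_794 Crest.Agent.R273.SteinB_794 Crest.Agent.R273.SteinC_794
open Crest.Agent.R273.SteinM_794 Crest.Agent.R273.SteinN_794 Crest.Agent.R273.SteinG_794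
open Crest.Agent.R273.Defs_333 (ProjD HM HM.wt HM.Semipos HasSec)
open Crest.Agent.R273.SerC_945 Crest.Agent.R273.SerE_945
open Crest.Agent.R273.TD3_733 (D2)
open Crest.Agent.R273.FS_333 (lb)

noncomputable section

variable {n : ℕ} {M : Type} [TopologicalSpace M] {A : Atl n M}

/-- `∑ ‖s_l‖²` in the chart `i` -/
def sq {r : ℕ} (s : Fin r → A.ι → M → ℂ) (i : A.ι) (x : M) : ℝ := ∑ l, ‖s l i x‖ ^ 2

theorem sq_nonneg {r : ℕ} (s : Fin r → A.ι → M → ℂ) (i : A.ι) (x : M) : 0 ≤ sq s i x :=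
  Finset.sum_nonneg fun _ _ => by positivity

theorem sq_pos {r : ℕ} {s : Fin r → A.ι → M → ℂ}
    (h : ∀ i, ∀ x ∈ (A.e i).source, ∃ l, s l i x ≠ 0) {i : A.ι} {x : M}
    (hx : x ∈ (A.e i).source) : 0 < sq s i x := by
  obtain ⟨l, hl⟩ := h i x hx
  have h1 : 0 < ‖s l i x‖ ^ 2 := by
    have := norm_pos_iff.2 hl
    positivity
  exact h1.trans_le (Finset.single_le_sum (f := fun l => ‖s l i x‖ ^ 2)
    (fun _ _ => by positivity) (Finset.mem_univ l))

theorem sq_tr {L : LB A} {r : ℕ} {s : Fin r → A.ι → M → ℂ} (hs : ∀ l, IsHS L univ (s l))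
    {i j : A.ι} {x : M} (hx : x ∈ (A.e i).source ∩ (A.e j).source) :
    sq s i x = ‖L.g i j x‖ ^ 2 * sq s j x := by
  unfold sq
  rw [Finset.mul_sum]
  refine Finset.sum_congr rfl fun l _ => ?_
  rw [(hs l).tr i j x hx (mem_univ x), norm_mul, mul_pow]

theorem sq_cont {L : LB A} {r : ℕ} {s : Fin r → A.ι → M → ℂ} (hs : ∀ l, IsHS L univ (s l))
    {i : A.ι} {x : M} (hx : x ∈ (A.e i).source) : ContinuousAt (sq s i) x := by
  unfold sq
  refine tendsto_finsetSum _ fun l _ => ?_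
  exact (continuousAt_of_holAt isOpen_univ ((hs l).hol i) hx (mem_univ x)).norm.pow 2


/-- a metric is comparable with a quotient of sums of squares of sections -/
theorem cmp0 [CompactSpace M] {L N : LB A} (h : HM L) {r r' : ℕ} {a : Fin r → A.ι → M → ℂ}
    {b : Fin r' → A.ι → M → ℂ} (ha : ∀ l, IsHS (L⁻¹ * N) univ (a l))
    (ha0 : ∀ i, ∀ x ∈ (A.e i).source, ∃ l, a l i x ≠ 0) (hb : ∀ l, IsHS N univ (b l))
    (hb0 : ∀ i, ∀ x ∈ (A.e i).source, ∃ l, b l i x ≠ 0) :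
    ∃ C : ℝ, 0 < C ∧ ∀ i, ∀ x ∈ (A.e i).source,
      h.w i x * sq b i x ≤ C * sq a i x ∧ sq a i x ≤ C * (h.w i x * sq b i x) := by
  set q : A.ι → M → ℝ := fun i x => h.w i x * sq b i x / sq a i x with hq
  have hqp : ∀ i, ∀ x ∈ (A.e i).source, 0 < q i x := fun i x hx =>
    div_pos (mul_pos (h.pos i x hx) (sq_pos hb0 hx)) (sq_pos ha0 hx)
  have htr : ∀ i j, ∀ x ∈ (A.e i).source ∩ (A.e j).source, q i x = q j x := by
    intro i j x hx
    simp only [hq]
    rw [sq_tr ha hx, sq_tr hb hx]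
    have h1 : h.w j x = ‖L.g i j x‖ ^ 2 * h.w i x := h.tr i j x hx
    rw [h1]
    have h2 : (L⁻¹ * N).g i j x = (L.g i j x)⁻¹ * N.g i j x := rfl
    rw [h2, norm_mul, norm_inv]
    have h3 : ‖L.g i j x‖ ≠ 0 := norm_ne_zero_iff.2 (L.ne_zero i j x)
    have h4 : ‖N.g i j x‖ ≠ 0 := norm_ne_zero_iff.2 (N.ne_zero i j x)
    have h5 := (sq_pos ha0 hx.2).ne'
    field_simp
  set Q : M → ℝ := fun x => q (A.cover x).choose x with hQ
  have hQe : ∀ i, ∀ x ∈ (A.e i).source, Q x = q i x := fun i x hx =>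
    htr _ _ x ⟨(A.cover x).choose_spec, hx⟩
  have hQc : Continuous Q := by
    rw [continuous_iff_continuousAt]
    intro x
    obtain ⟨i, hi⟩ := A.cover x
    have h1 : ContinuousAt (q i) x := by
      simp only [hq]
      exact ((hm_cont h hi).mul (sq_cont hb hi)).div (sq_cont ha hi) (sq_pos ha0 hi).ne'
    refine h1.congr ?_
    filter_upwards [(A.e i).open_source.mem_nhds hi] with y hy
    exact (hQe i y hy).symm
  have hQp : ∀ x, 0 < Q x := fun x => hqp _ x (A.cover x).choose_spec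
  rcases isEmpty_or_nonempty M with hM | hM
  · exact ⟨1, one_pos, fun i x _ => (hM.false x).elim⟩
  obtain ⟨x1, -, h1⟩ := isCompact_univ.exists_isMaxOn univ_nonempty hQc.continuousOn
  obtain ⟨x2, -, h2⟩ := isCompact_univ.exists_isMinOn univ_nonempty hQc.continuousOn
  refine ⟨max (Q x1) (Q x2)⁻¹, lt_max_of_lt_left (hQp x1), fun i x hx => ?_⟩
  have h3 : Q x ≤ Q x1 := h1 (mem_univ x)
  have h4 : Q x2 ≤ Q x := h2 (mem_univ x)
  rw [hQe i x hx] at h3 h4
  have hap := sq_pos ha0 hx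
  constructor
  · have h5 : h.w i x * sq b i x = q i x * sq a i x := by
      simp only [hq]; field_simp
    rw [h5]
    exact mul_le_mul_of_nonneg_right (h3.trans (le_max_left _ _)) hap.le
  · have h6 : Q x2 * sq a i x ≤ h.w i x * sq b i x := by
      have h5 : h.w i x * sq b i x = q i x * sq a i x := by
        simp only [hq]; field_simp
      rw [h5]
      exact mul_le_mul_of_nonneg_right h4 hap.le
    have h7 : sq a i x ≤ (Q x2)⁻¹ * (h.w i x * sq b i x) := by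
      rw [← div_eq_inv_mul, le_div_iff₀ (hQp x2)]
      linarith
    refine h7.trans (mul_le_mul_of_nonneg_right (le_max_right _ _) ?_)
    have := h.pos i x hx
    have := sq_nonneg b i x
    positivity




end

end Crest.Agent.R273.Cmp_145
end

-- ▼ part R273/Cmp2_145
section

/-!
# R273, HALF 2 of Part A, (C1) of #1999: `|λ|_h` in the ring of regular functions (helper145)
-/

set_option autoImplicit false
set_option linter.unusedSectionVars false

open Set Filter Topology Complex MeasureTheory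
open scoped ContDiff Matrix ENNReal NNReal

namespace Crest.Agent.R273.Cmp2_145

open Crest.Agent.R275.Geo Crest.Agent.R275.Core144 Crest.Agent.R275.GC293
open Crest.Agent.R273.SteinA_794 Crest.Agent.R273.SteinB_794 Crest.Agent.R273.SteinC_794
open Crest.Agent.R273.SteinM_794 Crest.Agent.R273.SteinN_794 Crest.Agent.R273.SteinG_794
open Crest.Agent.R273.SteinE_794
open Crest.Agent.R273.Defs_333 (ProjD HM HM.wt HM.Semipos HasSec)
open Crest.Agent.R273.SerC_945 Crest.Agent.R273.SerE_945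
open Crest.Agent.R273.TD3_733 (D2)
open Crest.Agent.R273.FS_333 (lb)
open Crest.Agent.R273.Chow_313
open Crest.Agent.R273.LemU_619 (nm)
open Crest.Agent.R273.Cmp_145

noncomputable section

variable {n : ℕ} {M : Type} [TopologicalSpace M] {A : Atl n M}

/-- the norm of `λ` in a chart -/
theorem lam_chart' {S : SD A} {L : LB A} (hL : HM L) {σ : A.ι → M → ℂ} (hσ : IsHS L S.U σ)
    (h0 : ∀ i, ∀ x ∈ (A.e i).source, x ∈ S.U → σ i x ≠ 0) (j0 : ℕ) (c : ℂ) {x : M}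
    (hxU : x ∈ S.U) {i : A.ι} (hx : x ∈ (A.e i).source) :
    ‖c‖ ^ 2 * Real.exp (-(j0 * wtS hL σ x)) =
      ‖c * σ i x ^ j0‖ ^ 2 * (hL.w i x) ^ j0 := by
  have h1 : Real.exp (-(j0 * wtS hL σ x)) = (‖σ i x‖ ^ 2 * hL.w i x) ^ j0 := by
    rw [← exp_wtS hL hσ h0 hx hxU, ← Real.exp_nat_mul]
    congr 1
    ring
  rw [h1, norm_mul, norm_pow, mul_pow, mul_pow]
  ring

/-- square of the supremum and sum of the squares -/
theorem nm_sq_le {B : Type*} [CommRing B] [Algebra ℂ B] [DecidableEq B] (x : B →ₐ[ℂ] ℂ) {r : ℕ}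
    (f : Fin r → B) :
    (nm x (Finset.univ.image f) : ℝ) ^ 2 ≤ ∑ l, ‖x (f l)‖ ^ 2 ∧
      ∑ l, ‖x (f l)‖ ^ 2 ≤ r * (nm x (Finset.univ.image f) : ℝ) ^ 2 := by
  have hle : ∀ l, ‖x (f l)‖ ≤ (nm x (Finset.univ.image f) : ℝ) := by
    intro l
    have := Finset.le_sup (f := fun a => ‖x a‖₊)
      (Finset.mem_image_of_mem f (Finset.mem_univ l))
    exact_mod_cast this
  constructor
  · rcases Nat.eq_zero_or_pos r with hr | hr
    · subst hr
      simp [nm]
    · have hne : (Finset.univ.image f).Nonempty := ⟨f ⟨0, hr⟩, Finset.mem_image_of_mem _ (Finset.mem_univ _)⟩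
      obtain ⟨a, ha, hsup⟩ := Finset.exists_mem_eq_sup _ hne fun a => ‖x a‖₊
      obtain ⟨l, -, rfl⟩ := Finset.mem_image.1 ha
      have h1 : (nm x (Finset.univ.image f) : ℝ) = ‖x (f l)‖ := by
        unfold nm
        rw [hsup]
        rfl
      rw [h1]
      exact Finset.single_le_sum (f := fun l => ‖x (f l)‖ ^ 2) (fun _ _ => by positivity)
        (Finset.mem_univ l)
  · calc ∑ l, ‖x (f l)‖ ^ 2 ≤ ∑ _l : Fin r, (nm x (Finset.univ.image f) : ℝ) ^ 2 :=
          Finset.sum_le_sum fun l _ => pow_le_pow_left₀ (norm_nonneg _) (hle l) 2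
      _ = _ := by simp

theorem alg_end {C K Q Λ na nb Sa Sb r r' : ℝ} (hC : 0 < C) (hna0 : 0 ≤ na) (hnb0 : 0 ≤ nb)
    (hQ0 : 0 ≤ Q) (hΛ0 : 0 ≤ Λ) (hΛQ : Λ ^ 2 = Q) (hrr : 0 ≤ r) (hrr' : 0 ≤ r')
    (a1 : na ^ 2 ≤ Sa) (a2 : Sa ≤ r * na ^ 2) (b1 : nb ^ 2 ≤ Sb) (b2 : Sb ≤ r' * nb ^ 2)
    (hup : Sa ≤ C * (Q * Sb)) (hlo : Q * Sb ≤ C * Sa) (hK1 : 1 ≤ K)
    (hK2 : C * (r + r' + 1) ≤ K) :
    (na ^ 2 ≤ K * Q * nb ^ 2 ∧ Q * nb ^ 2 ≤ K * na ^ 2) ∧
      (na ≤ K * Λ * nb ∧ Λ * nb ≤ K * na) := by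
  have hKK : K ≤ K ^ 2 := by nlinarith
  have f1 : na ^ 2 ≤ K * Q * nb ^ 2 := by
    calc na ^ 2 ≤ C * (Q * (r' * nb ^ 2)) := a1.trans (hup.trans (by gcongr))
      _ = (C * r') * (Q * nb ^ 2) := by ring
      _ ≤ K * (Q * nb ^ 2) := by
          refine mul_le_mul_of_nonneg_right (le_trans ?_ hK2) (by positivity)
          nlinarith
      _ = _ := by ring
  have f2 : Q * nb ^ 2 ≤ K * na ^ 2 := by
    calc Q * nb ^ 2 ≤ C * (r * na ^ 2) :=
          (mul_le_mul_of_nonneg_left b1 hQ0).trans (hlo.trans (by gcongr))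
      _ = (C * r) * na ^ 2 := by ring
      _ ≤ K * na ^ 2 := by
          refine mul_le_mul_of_nonneg_right (le_trans ?_ hK2) (by positivity)
          nlinarith
  refine ⟨⟨f1, f2⟩, ?_, ?_⟩
  · refine (pow_le_pow_iff_left₀ hna0 (by positivity) two_ne_zero).1 ?_
    calc na ^ 2 ≤ K * Q * nb ^ 2 := f1
      _ ≤ K ^ 2 * Q * nb ^ 2 := by gcongr
      _ = _ := by rw [← hΛQ]; ring
  · refine (pow_le_pow_iff_left₀ (by positivity) (by positivity) two_ne_zero).1 ?_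
    calc (Λ * nb) ^ 2 = Q * nb ^ 2 := by rw [← hΛQ]; ring
      _ ≤ K * na ^ 2 := f2
      _ ≤ K ^ 2 * na ^ 2 := by gcongr
      _ = _ := by ring

set_option maxHeartbeats 1000000 in
/-- **(C1)** -/
theorem cmp_reg [T2Space M] [CompactSpace M] [ConnectedSpace M] [Finite A.ι] (PA : Part A)
    (hD : D2 A) {P : ProjD A} {S : SD A} {k : ℕ} (hk : 1 ≤ k) {d0 : A.ι → M → ℂ}
    (hd0 : IsHS (lb P ^ k) univ d0) (hU : S.U = nz d0) (hne : S.U.Nonempty) {L : LB A}
    (hL : HM L) {σ : A.ι → M → ℂ} (hσ : IsHS L S.U σ)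
    (h0 : ∀ i, ∀ x ∈ (A.e i).source, x ∈ S.U → σ i x ≠ 0) {a j0 m : ℕ} {sa sb : A.ι → M → ℂ}
    (hsa : IsHS (L ^ a * lb P ^ m) univ sa) (hsb : IsHS (L ^ (a + j0) * lb P ^ m) univ sb)
    (hsa0 : ∀ i, ∀ x ∈ (A.e i).source, x ∈ S.U → sa i x ≠ 0)
    (hsb0 : ∀ i, ∀ x ∈ (A.e i).source, x ∈ S.U → sb i x ≠ 0) {lam : M → ℂ}
    (rel : ∀ i, ∀ x ∈ (A.e i).source, x ∈ S.U → sb i x = lam x * σ i x ^ j0 * sa i x) :
    ∃ α β : Finset (Reg (lb P ^ k) d0 hd0), (∃ f ∈ α, f ≠ 0) ∧ (∃ f ∈ β, f ≠ 0) ∧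
      ∃ C : ℝ, 0 < C ∧ ∀ x : nz d0,
        ((nm (evR hd0 x) α : ℝ) ^ 2 ≤
          C * (‖lam x.1‖ ^ 2 * Real.exp (-(j0 * wtS hL σ x.1))) * (nm (evR hd0 x) β : ℝ) ^ 2 ∧
        ‖lam x.1‖ ^ 2 * Real.exp (-(j0 * wtS hL σ x.1)) * (nm (evR hd0 x) β : ℝ) ^ 2 ≤
          C * (nm (evR hd0 x) α : ℝ) ^ 2) ∧
        ((nm (evR hd0 x) α : ℝ) ≤
          C * (‖lam x.1‖ * Real.exp (-(j0 * wtS hL σ x.1) / 2)) * (nm (evR hd0 x) β : ℝ) ∧
        ‖lam x.1‖ * Real.exp (-(j0 * wtS hL σ x.1) / 2) * (nm (evR hd0 x) β : ℝ) ≤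
          C * (nm (evR hd0 x) α : ℝ)) := by
  classical
  obtain ⟨m1, hm1⟩ := ggen_proj PA hD P (L ^ (a + j0))⁻¹
  obtain ⟨m2, hm2⟩ := ggen_proj PA hD P (L ^ a)⁻¹
  set j := m + m1 + m2 with hj
  have hkj : j ≤ k * j := Nat.le_mul_of_pos_left j hk
  set N' := k * j - m with hN'
  have hN1 : m1 ≤ N' := by omega
  have hN2 : m2 ≤ N' := by omega
  have hN3 : m + N' = k * j := by omega
  obtain ⟨r, τ, hτ, hτ0⟩ := hm1 N' hN1
  obtain ⟨r', τ', hτ', hτ0'⟩ := hm2 N' hN2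
  have e1 : (L ^ (a + j0))⁻¹ * lb P ^ N' = (L ^ j0)⁻¹ * ((L ^ a)⁻¹ * lb P ^ N') := by
    rw [pow_add, mul_inv, mul_comm (L ^ a)⁻¹, mul_assoc]
  have hτ2 : ∀ l, IsHS ((L ^ j0)⁻¹ * ((L ^ a)⁻¹ * lb P ^ N')) univ (τ l) := fun l => by
    rw [← e1]; exact hτ l
  obtain ⟨C, hC, hcmp⟩ := cmp0 (HM_333.pow hL j0) hτ2 hτ0 hτ' hτ0'
  have e2 : L ^ (a + j0) * lb P ^ m * ((L ^ (a + j0))⁻¹ * lb P ^ N') = (lb P ^ k) ^ j := by
    rw [mul_comm (L ^ (a + j0)), mul_assoc, mul_inv_cancel_left, ← pow_add, hN3, pow_mul]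
  have e3 : L ^ a * lb P ^ m * ((L ^ a)⁻¹ * lb P ^ N') = (lb P ^ k) ^ j := by
    rw [mul_comm (L ^ a), mul_assoc, mul_inv_cancel_left, ← pow_add, hN3, pow_mul]
  have hα : ∀ l, IsHS ((lb P ^ k) ^ j) univ (sb * τ l) := fun l => by
    rw [← e2]; exact hsb.mul (hτ l)
  have hβ : ∀ l, IsHS ((lb P ^ k) ^ j) univ (sa * τ' l) := fun l => by
    rw [← e3]; exact hsa.mul (hτ' l)
  set α : Fin r → Reg (lb P ^ k) d0 hd0 := fun l => toReg hd0 j (sb * τ l) (hα l) with hαd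
  set β : Fin r' → Reg (lb P ^ k) d0 hd0 := fun l => toReg hd0 j (sa * τ' l) (hβ l) with hβd
  have hαv : ∀ (x : nz d0) {i : A.ι}, x.1 ∈ (A.e i).source → ∀ l,
      evR hd0 x (α l) = sb i x.1 * τ l i x.1 / d0 i x.1 ^ j := fun x i hx l =>
    toReg_apply hd0 j _ (hα l) x hx
  have hβv : ∀ (x : nz d0) {i : A.ι}, x.1 ∈ (A.e i).source → ∀ l,
      evR hd0 x (β l) = sa i x.1 * τ' l i x.1 / d0 i x.1 ^ j := fun x i hx l =>
    toReg_apply hd0 j _ (hβ l) x hx
  have hd0n : ∀ (x : nz d0) {i : A.ι}, x.1 ∈ (A.e i).source → d0 i x.1 ≠ 0 := fun x i hx =>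
    (mem_nz hd0 hx).1 x.2
  have hUx : ∀ x : nz d0, x.1 ∈ S.U := fun x => by rw [hU]; exact x.2
  refine ⟨Finset.univ.image α, Finset.univ.image β, ?_, ?_, ?_⟩
  · obtain ⟨x, hx⟩ := hne
    obtain ⟨i, hi⟩ := A.cover x
    obtain ⟨l, hl⟩ := hτ0 i x hi
    refine ⟨α l, Finset.mem_image_of_mem _ (Finset.mem_univ _), fun h => ?_⟩
    have hx' : x ∈ nz d0 := by rw [← hU]; exact hx
    have h1 := hαv ⟨x, hx'⟩ hi l
    rw [h, map_zero] at h1
    have h2 : sb i x * τ l i x / d0 i x ^ j ≠ 0 :=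
      div_ne_zero (mul_ne_zero (hsb0 i x hi hx) hl) (pow_ne_zero _ (hd0n ⟨x, hx'⟩ hi))
    exact h2 h1.symm
  · obtain ⟨x, hx⟩ := hne
    obtain ⟨i, hi⟩ := A.cover x
    obtain ⟨l, hl⟩ := hτ0' i x hi
    refine ⟨β l, Finset.mem_image_of_mem _ (Finset.mem_univ _), fun h => ?_⟩
    have hx' : x ∈ nz d0 := by rw [← hU]; exact hx
    have h1 := hβv ⟨x, hx'⟩ hi l
    rw [h, map_zero] at h1
    have h2 : sa i x * τ' l i x / d0 i x ^ j ≠ 0 :=
      div_ne_zero (mul_ne_zero (hsa0 i x hi hx) hl) (pow_ne_zero _ (hd0n ⟨x, hx'⟩ hi))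
    exact h2 h1.symm
  · set K : ℝ := max 1 (C * (r + r' + 1)) with hK
    have hK1 : 1 ≤ K := le_max_left _ _
    have hK2 : C * (r + r' + 1) ≤ K := le_max_right _ _
    refine ⟨K, by linarith, fun x => ?_⟩
    obtain ⟨i, hi⟩ := A.cover x.1
    set Q : ℝ := ‖lam x.1‖ ^ 2 * Real.exp (-(j0 * wtS hL σ x.1)) with hQ
    have hQ0 : 0 ≤ Q := by positivity
    have hQe : Q = ‖lam x.1 * σ i x.1 ^ j0‖ ^ 2 * (hL.w i x.1) ^ j0 :=
      lam_chart' hL hσ h0 j0 _ (hUx x) hi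
    obtain ⟨g1, g2⟩ := hcmp i x.1 hi
    rw [HM_333.pow_w] at g1 g2
    have hr := rel i x.1 hi (hUx x)
    have hsumα : ∑ l, ‖evR hd0 x (α l)‖ ^ 2 =
        ‖lam x.1 * σ i x.1 ^ j0‖ ^ 2 * (‖sa i x.1‖ ^ 2 / ‖d0 i x.1‖ ^ (2 * j)) * Cmp_145.sq τ i x.1 := by
      unfold Cmp_145.sq
      rw [Finset.mul_sum]
      refine Finset.sum_congr rfl fun l _ => ?_
      rw [hαv x hi l, hr, norm_div, norm_mul, norm_mul, norm_pow, div_pow, mul_pow, mul_pow,
        ← pow_mul, mul_comm j 2]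
      ring
    have hsumβ : ∑ l, ‖evR hd0 x (β l)‖ ^ 2 =
        (‖sa i x.1‖ ^ 2 / ‖d0 i x.1‖ ^ (2 * j)) * Cmp_145.sq τ' i x.1 := by
      unfold Cmp_145.sq
      rw [Finset.mul_sum]
      refine Finset.sum_congr rfl fun l _ => ?_
      rw [hβv x hi l, norm_div, norm_mul, norm_pow, div_pow, mul_pow, ← pow_mul, mul_comm j 2]
      ring
    set T : ℝ := ‖lam x.1 * σ i x.1 ^ j0‖ ^ 2 * (‖sa i x.1‖ ^ 2 / ‖d0 i x.1‖ ^ (2 * j)) with hT
    have hT0 : 0 ≤ T := by positivity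
    have hup : ∑ l, ‖evR hd0 x (α l)‖ ^ 2 ≤ C * (Q * ∑ l, ‖evR hd0 x (β l)‖ ^ 2) := by
      rw [hsumα, hsumβ, hQe]
      calc T * Cmp_145.sq τ i x.1 ≤ T * (C * ((hL.w i x.1) ^ j0 * Cmp_145.sq τ' i x.1)) :=
            mul_le_mul_of_nonneg_left g2 hT0
        _ = _ := by rw [hT]; ring
    have hlo : Q * ∑ l, ‖evR hd0 x (β l)‖ ^ 2 ≤ C * ∑ l, ‖evR hd0 x (α l)‖ ^ 2 := by
      rw [hsumα, hsumβ, hQe]
      calc ‖lam x.1 * σ i x.1 ^ j0‖ ^ 2 * hL.w i x.1 ^ j0 *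
            (‖sa i x.1‖ ^ 2 / ‖d0 i x.1‖ ^ (2 * j) * Cmp_145.sq τ' i x.1)
          = T * (hL.w i x.1 ^ j0 * Cmp_145.sq τ' i x.1) := by rw [hT]; ring
        _ ≤ T * (C * Cmp_145.sq τ i x.1) := mul_le_mul_of_nonneg_left g1 hT0
        _ = _ := by ring
    obtain ⟨a1, a2⟩ := nm_sq_le (evR hd0 x) α
    obtain ⟨b1, b2⟩ := nm_sq_le (evR hd0 x) β
    have hΛ0 : 0 ≤ ‖lam x.1‖ * Real.exp (-(j0 * wtS hL σ x.1) / 2) := by positivity
    have hΛQ : (‖lam x.1‖ * Real.exp (-(j0 * wtS hL σ x.1) / 2)) ^ 2 = Q := by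
      rw [hQ, mul_pow, ← Real.exp_nat_mul]
      congr 2
      push_cast
      ring
    exact alg_end hC (NNReal.coe_nonneg _) (NNReal.coe_nonneg _) hQ0 hΛ0 hΛQ
      (Nat.cast_nonneg _) (Nat.cast_nonneg _) a1 a2 b1 b2 hup hlo hK1 hK2

end

end Crest.Agent.R273.Cmp2_145
end

-- ▼ part R273/RKa_635
section

/-!
# R273, RK (helper635), part a: `L²` extension of tensor sections

* `ext_loc`  : local `L²` extension of a holomorphic function on `S.U ∩ source i` across `{d = 0}`;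
* `glue_TS`  : a family of local extensions is a tensor section.
-/

set_option autoImplicit false
set_option linter.unusedSectionVars false

open Set Filter Topology Complex MeasureTheory
open scoped ContDiff Matrix ENNReal

namespace Crest.Agent.R273.RKa_635

open Crest.Agent.R275.Geo Crest.Agent.R275.Core144 Crest.Agent.R273.SteinA_794
open Crest.Agent.R273.SteinB_794 Crest.Agent.R273.SteinC_794 Crest.Agent.R273.SteinD_794
open Crest.Agent.R273.SteinM_794 Crest.Agent.R273.SteinN_794 Crest.Agent.R273.SteinL_794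
open Crest.Agent.R273.Defs_333 (ProjD HM HM.wt)
open Crest.Agent.R275.Pai323 Crest.Agent.R275.C1d194
open Crest.Agent.R273.Vm_333 (sg isOpen_Ui sg_mem sg_rc mem_Ui vm chm chm_apply vm_apply_chart
  meas_inter)
open Crest.Agent.R271.Ho51 (RDom cp ch IsCh IsLeb Hol Sm mem_ch isCh_ch)
open Crest.Agent.R273.Cram_747 (TS KP tns tns_TS)
open Crest.Agent.R273.Fock_243 (FI Gam)

noncomputable section

variable {n : ℕ} {M : Type} [TopologicalSpace M] {A : Atl n M} {S : SD A}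

section ext

variable [MeasurableSpace M] [BorelSpace M] [Countable A.ι] [SecondCountableTopology M]
  {μ : Measure (Mo S)}

/-- local `L²` extension in the chart `i` -/
theorem ext_loc [ConnectedSpace M] (h : HM (KB A)⁻¹) (hμ : IsLeb μ)
    {LD : LB A} {d : A.ι → M → ℂ} (hd : IsHS LD univ d)
    (hd0 : ∃ i, ∃ x ∈ (A.e i).source, d i x ≠ 0) (hU : S.U = nz d) (i : A.ι) {u : M → ℂ}
    (hu : HolAt A i S.U u) {Φ : Mo S → ℝ≥0∞} (hΦ : Measurable Φ) (hfin : ∫⁻ x, Φ x ∂μ < ⊤)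
    (hb : ∀ a ∈ (A.e i).source, ∃ c : ℝ≥0∞, c ≠ 0 ∧ ∀ᶠ x in 𝓝 a, ∀ x' : Mo S, x'.val = x →
      x ∈ (A.e i).source → c * ‖u x‖ₑ ^ 2 ≤ ENNReal.ofReal (‖zf S i x‖ ^ 2) * Φ x') :
    ∃ g : M → ℂ, HolAt A i univ g ∧ ∀ x ∈ (A.e i).source, x ∈ S.U → g x = u x := by
  classical
  -- in the coordinates `Fin n → ℂ`
  let T : (Fin n → ℂ) → Cn n := fun w => WithLp.toLp 2 w
  have hTc : Continuous T := PiLp.continuous_toLp 2 _
  have hTd : Differentiable ℂ T :=
    (((EuclideanSpace.equiv (Fin n) ℂ).symm : (Fin n → ℂ) →L[ℂ] Cn n)).differentiable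
  set O : Set (Fin n → ℂ) := T ⁻¹' (A.e i).target with hO
  have hOo : IsOpen O := (A.e i).open_target.preimage hTc
  set Dd : (Fin n → ℂ) → ℂ := fun w => d i ((A.e i).symm (T w)) with hDd
  set f : (Fin n → ℂ) → ℂ := fun w => u ((A.e i).symm (T w)) with hf
  have hDdiff : DifferentiableOn ℂ Dd O := by
    have h1 : DifferentiableOn ℂ (fun w => d i ((A.e i).symm w)) (A.e i).target :=
      DifferentiableOn.mono (hd.hol i) fun w hw => ⟨hw, mem_univ _⟩
    exact h1.comp hTd.differentiableOn fun w hw => hw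
  have hDan := Crest.Agent.R266.SCV.analyticOnNhd_of_differentiableOn hOo hDdiff
  have hmemU : ∀ w ∈ O, (Dd w ≠ 0 ↔ (A.e i).symm (T w) ∈ S.U) := by
    intro w hw
    rw [hU, mem_nz hd ((A.e i).map_target hw)]
  have hfdiff : DifferentiableOn ℂ f (O ∩ {w | Dd w ≠ 0}) := by
    have h1 : DifferentiableOn ℂ (fun w => u ((A.e i).symm w)) (S.dom i) := hu
    refine h1.comp hTd.differentiableOn fun w hw => ⟨hw.1, ?_⟩
    exact (hmemU w hw.1).1 hw.2
  have hTe : ∀ a ∈ O, T a ∈ (A.e i).target := fun a ha => ha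
  have hne : ∀ a ∈ O, ¬ ∀ᶠ z in 𝓝 a, Dd z = 0 := by
    intro a ha hev
    have h1 := id_thm hd hd0 i ((A.e i).map_target (hTe a ha))
    apply h1
    rw [ev_zero_chart ((A.e i).map_target (hTe a ha)), (A.e i).right_inv (hTe a ha)]
    have h2 : Tendsto (fun v : Cn n => WithLp.ofLp v) (𝓝 (T a)) (𝓝 a) :=
      (PiLp.continuous_ofLp 2 _).tendsto (T a)
    exact (h2.eventually hev).mono fun v hv => hv
  have hLi : ∀ a ∈ O, ∃ W ∈ 𝓝 a, ∫⁻ z in W ∩ {z | Dd z ≠ 0}, ‖f z‖ₑ ^ 2 < ⊤ := by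
    intro a ha
    obtain ⟨c, hc0, hcev⟩ := hb _ ((A.e i).map_target (hTe a ha))
    have hct : ContinuousAt (fun w => (A.e i).symm (T w)) a :=
      ContinuousAt.comp (f := T) ((A.e i).continuousAt_symm (hTe a ha)) hTc.continuousAt
    have hev := hct.eventually hcev
    obtain ⟨W, hWsub, hWo, haW⟩ := _root_.mem_nhds_iff.1 (hev.and (hOo.mem_nhds ha))
    refine ⟨W, hWo.mem_nhds haW, ?_⟩
    -- the function on `M`
    set φ : M → ℝ≥0∞ := fun x => if hx : x ∈ S.U then Φ ⟨x, hx⟩ else 0 with hφ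
    have hφe : ∀ x : Mo S, φ x.val = Φ x := by
      intro x
      have : x.val ∈ S.U := x.prop
      simp only [hφ, this, dif_pos]
      rfl
    have hφm : Measurable fun x : Mo S => φ x.val := by
      simp only [hφe]
      exact hΦ
    have hfin' := lt_of_le_of_lt (lintegral_chart_le h hμ i φ hφm)
      (by simpa only [hφe] using hfin)
    -- compare
    have hOm : MeasurableSet (W ∩ {z | Dd z ≠ 0}) := by
      have h1 : IsOpen (O ∩ {z | Dd z ≠ 0}) := by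
        have := hDan.continuousOn.isOpen_inter_preimage hOo isOpen_ne (t := {w : ℂ | w ≠ 0})
        exact this
      have h2 : W ∩ {z | Dd z ≠ 0} = W ∩ (O ∩ {z | Dd z ≠ 0}) := by
        ext w
        constructor
        · rintro ⟨hw, hw'⟩
          exact ⟨hw, (hWsub hw).2, hw'⟩
        · rintro ⟨hw, _, hw'⟩
          exact ⟨hw, hw'⟩
      rw [h2]
      exact (hWo.inter h1).measurableSet
    -- a finite constant
    set c' : ℝ≥0∞ := min c 1 with hc'
    have hc'0 : c' ≠ 0 := (lt_min (pos_iff_ne_zero.2 hc0) one_pos).ne'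
    have hc't : c' ≠ ⊤ := ((min_le_right c 1).trans_lt ENNReal.one_lt_top).ne
    have hcmp : ∫⁻ z in W ∩ {z | Dd z ≠ 0}, c' * ‖f z‖ₑ ^ 2 ≤
        ∫⁻ y in {y : RI n → ℝ | y ∈ Ui A i ∧ sg A i y ∈ S.U},
          ENNReal.ofReal (‖zf S i (sg A i y)‖ ^ 2) * φ (sg A i y) := by
      rw [← (mp_kap n).setLIntegral_comp_preimage_emb (me_kap n)]
      have hsub : kap ⁻¹' (W ∩ {z | Dd z ≠ 0}) ⊆
          {y : RI n → ℝ | y ∈ Ui A i ∧ sg A i y ∈ S.U} := by
        rintro y ⟨hyW, hyD⟩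
        have h1 : kap y ∈ O := (hWsub hyW).2
        exact ⟨h1, (hmemU _ h1).1 hyD⟩
      refine le_trans ?_ (lintegral_mono_set hsub)
      refine setLIntegral_mono' ((me_kap n).measurable hOm) fun y hy => ?_
      obtain ⟨hyW, hyD⟩ := hy
      have h1 : kap y ∈ O := (hWsub hyW).2
      have hyU : sg A i y ∈ S.U := (hmemU _ h1).1 hyD
      have hys : sg A i y ∈ (A.e i).source := sg_mem h1
      have h2 := (hWsub hyW).1 ⟨sg A i y, hyU⟩ rfl hys
      have h3 : φ (sg A i y) = Φ ⟨sg A i y, hyU⟩ := hφe ⟨sg A i y, hyU⟩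
      rw [h3]
      refine le_trans ?_ h2
      exact mul_le_mul_left (min_le_left c 1) _
    have hfin2 : c' * ∫⁻ z in W ∩ {z | Dd z ≠ 0}, ‖f z‖ₑ ^ 2 < ⊤ := by
      rw [← lintegral_const_mul' _ _ hc't]
      exact lt_of_le_of_lt hcmp hfin'
    exact (ENNReal.mul_lt_top_iff.1 hfin2).elim (fun h => h.2) fun h => by
      rcases h with h | h
      · exact absurd h hc'0
      · rw [h]; exact ENNReal.zero_lt_top
  obtain ⟨g, hg, hgf⟩ := Crest.Agent.R271.RExt747.riemann_ext hOo hDan hne hfdiff hLi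
  refine ⟨fun x => g (WithLp.ofLp (A.e i x)), ?_, ?_⟩
  · have h1 : DifferentiableOn ℂ (fun v : Cn n => g (WithLp.ofLp v)) (A.e i).target := by
      refine hg.comp (f := fun v : Cn n => (WithLp.ofLp v : Fin n → ℂ)) ?_ fun v hv => hv
      exact (((EuclideanSpace.equiv (Fin n) ℂ) : Cn n →L[ℂ] (Fin n → ℂ))).differentiable.differentiableOn
    refine (h1.mono inter_subset_left).congr fun v hv => ?_
    simp only [(A.e i).right_inv hv.1]
  · intro x hx hxd
    have h1 : WithLp.ofLp (A.e i x) ∈ O := (A.e i).map_source hx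
    have h2 : (A.e i).symm (T (WithLp.ofLp (A.e i x))) = x := (A.e i).left_inv hx
    have h3 := hgf _ h1 (by
      rw [hmemU _ h1, h2]
      exact hxd)
    show g (WithLp.ofLp (A.e i x)) = u x
    rw [h3]
    simp only [hf, h2]

end ext

/-! ### gluing -/

/-- two functions continuous at the points of an open set, equal on a dense open set, are equal -/
theorem eq_of_dense {d : A.ι → M → ℂ} (hdn : Dense (nz d)) {O : Set M} (hO : IsOpen O)
    {f g : M → ℂ} (hf : ∀ x ∈ O, ContinuousAt f x) (hg : ∀ x ∈ O, ContinuousAt g x)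
    (he : ∀ x ∈ O, x ∈ nz d → f x = g x) {x : M} (hx : x ∈ O) : f x = g x := by
  have hxcl : x ∈ closure (O ∩ nz d) := hdn.open_subset_closure_inter hO hx
  have hne : (𝓝[O ∩ nz d] x).NeBot := mem_closure_iff_nhdsWithin_neBot.1 hxcl
  have t1 : Tendsto f (𝓝[O ∩ nz d] x) (𝓝 (f x)) := (hf x hx).tendsto.mono_left nhdsWithin_le_nhds
  have t2 : Tendsto f (𝓝[O ∩ nz d] x) (𝓝 (g x)) := by
    refine ((hg x hx).tendsto.mono_left nhdsWithin_le_nhds).congr' ?_
    filter_upwards [self_mem_nhdsWithin] with y hy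
    exact (he y hy.1 hy.2).symm
  exact tendsto_nhds_unique t1 t2

theorem cont_Gam (F H : FI n) : Continuous fun B : Matrix (Fin n) (Fin n) ℂ => Gam B F H := by
  unfold Gam
  split_ifs with h
  · exact (continuous_id.matrix_submatrix _ _).matrix_det
  · exact continuous_const

theorem cont_KP {ρ : Type} [Fintype ρ] [DecidableEq ρ] (F H : ρ → FI n) :
    Continuous fun B : Matrix (Fin n) (Fin n) ℂ => KP ρ (Gam B) F H := by
  unfold KP
  simp only [Matrix.of_apply]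
  exact continuous_finsetProd _ fun a _ => cont_Gam (F a) (H a)

theorem cont_Jm {i j : A.ι} {x : M} (hi : x ∈ (A.e i).source) (hj : x ∈ (A.e j).source) :
    ContinuousAt (fun x => Jm A j i x) x := by
  refine continuousAt_pi.2 fun b => continuousAt_pi.2 fun a => ?_
  exact continuousAt_of_holAt (A.e i).open_source (holAt_J j i b a) hj hi

/-- gluing of local extensions of tensor sections -/
theorem glue_TS [ConnectedSpace M] {LD N : LB A} {d : A.ι → M → ℂ} (hd : IsHS LD univ d)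
    (hd0 : ∃ i, ∃ x ∈ (A.e i).source, d i x ≠ 0) {ρ : Type} [Fintype ρ] [DecidableEq ρ]
    {u : A.ι → M → (ρ → FI n) → ℂ}
    (hu : ∀ i j, ∀ x ∈ (A.e i).source ∩ (A.e j).source, x ∈ nz d →
      u i x = N.g i j x • (KP ρ (Gam (Jm A j i x)) *ᵥ u j x))
    {g : A.ι → (ρ → FI n) → M → ℂ} (hg : ∀ i F, HolAt A i univ (g i F))
    (hgu : ∀ i F, ∀ x ∈ (A.e i).source, x ∈ nz d → g i F x = u i x F) :
    ∃ s, TS ρ N s ∧ ∀ i, ∀ x ∈ (A.e i).source, ∀ F, s i x F = g i F x := by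
  classical
  refine ⟨fun i x F => if x ∈ (A.e i).source then g i F x else 0,
    ⟨fun i F => (hg i F).congr fun x hx _ => by simp [hx], fun i x hx => by funext F; simp [hx],
      fun i j x hx => ?_⟩, fun i x hx F => by simp [hx]⟩
  funext F
  have hO : IsOpen ((A.e i).source ∩ (A.e j).source) :=
    (A.e i).open_source.inter (A.e j).open_source
  have key : g i F x = N.g i j x * ∑ H, KP ρ (Gam (Jm A j i x)) F H * g j H x := by
    refine eq_of_dense (f := g i F)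
      (g := fun x => N.g i j x * ∑ H, KP ρ (Gam (Jm A j i x)) F H * g j H x) (dense_nz hd hd0) hO
      (fun y hy => continuousAt_of_holAt isOpen_univ (hg i F) hy.1 (mem_univ y)) (fun y hy => ?_)
      (fun y hy hyd => ?_) hx
    · refine (continuousAt_of_holAt (A.e j).open_source (N.hol i j) hy.1 hy.2).mul ?_
      refine tendsto_finsetSum _ fun H _ => ?_
      exact ((cont_KP F H).continuousAt.comp (cont_Jm hy.1 hy.2)).mul
        (continuousAt_of_holAt isOpen_univ (hg j H) hy.2 (mem_univ y))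
    · rw [hgu i F y hy.1 hyd, hu i j y hy hyd]
      rw [Pi.smul_apply, smul_eq_mul, Matrix.mulVec, dotProduct]
      congr 1
      exact Finset.sum_congr rfl fun H _ => by rw [hgu j H y hy.2 hyd]
  simp only [hx.1, hx.2, if_true]
  simp only [Pi.smul_apply, smul_eq_mul, Matrix.mulVec, dotProduct]
  exact key

end

end Crest.Agent.R273.RKa_635
end

-- ▼ part R273/RKb_635
section

/-!
# R273, RK (helper635), part b: `u λ^k T` is a tensor section; `u` is an element of `FF`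

* `rk_sec` : the tensor section `u (λ σ^{j0})^k T`;
* `rk_mem` : `u` is (the restriction of) an element of `FF`.
-/

set_option autoImplicit false
set_option linter.unusedSectionVars false

open Set Filter Topology Complex MeasureTheory
open scoped ContDiff Matrix ENNReal

namespace Crest.Agent.R273.RKb_635

open Crest.Agent.R275.Geo Crest.Agent.R275.Core144 Crest.Agent.R273.SteinA_794
open Crest.Agent.R273.SteinB_794 Crest.Agent.R273.SteinC_794 Crest.Agent.R273.SteinD_794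
open Crest.Agent.R273.SteinM_794 Crest.Agent.R273.SteinN_794 Crest.Agent.R273.SteinL_794
open Crest.Agent.R273.Defs_333 (ProjD HM HM.wt)
open Crest.Agent.R271.Ho51 (RDom cp ch IsCh IsLeb Hol Sm mem_ch isCh_ch)
open Crest.Agent.R273.Cram_747 (TS KP tns tns_TS)
open Crest.Agent.R273.Fock_243 (FI Gam)
open Crest.Agent.R273.Mer769 Crest.Agent.R273.FF769
open Crest.Agent.R273.RKa_635

noncomputable section

variable {n : ℕ} {M : Type} [TopologicalSpace M] {A : Atl n M} {S : SD A}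

theorem hm_cont {L : LB A} (h : HM L) {i : A.ι} {x : M} (hx : x ∈ (A.e i).source) :
    ContinuousAt (h.w i) x := by
  have h1 : ContinuousAt (fun z => h.w i ((A.e i).symm z)) (A.e i x) :=
    (h.sm i).continuousOn.continuousAt ((A.e i).open_target.mem_nhds ((A.e i).map_source hx))
  have h2 : ContinuousAt (fun y => h.w i ((A.e i).symm (A.e i y))) x :=
    ContinuousAt.comp (f := A.e i) h1 ((A.e i).continuousAt hx)
  refine h2.congr ?_
  filter_upwards [(A.e i).open_source.mem_nhds hx] with y hy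
  rw [(A.e i).left_inv hy]

section core

variable [MeasurableSpace M] [BorelSpace M] [Countable A.ι] [SecondCountableTopology M]
  {μ : Measure (Mo S)} {L : LB A} {σ : A.ι → M → ℂ}

/-- the tensor section `u (λ σ^{j0})^k T` -/
theorem rk_sec [ConnectedSpace M] (hL : HM L) (h : HM (KB A)⁻¹) (hμ : IsLeb μ)
    {LD : LB A} {d : A.ι → M → ℂ} (hd : IsHS LD univ d)
    (hd0 : ∃ i, ∃ x ∈ (A.e i).source, d i x ≠ 0) (hU : S.U = nz d)
    (hσ : IsHS L S.U σ) (hσ0 : ∀ i, ∀ x ∈ (A.e i).source, x ∈ S.U → σ i x ≠ 0)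
    (j0 : ℕ) {lam : Mo S → ℂ} (hlam : Hol lam)
    {ρ κ : Type} [Fintype ρ] [DecidableEq ρ] [Fintype κ] [DecidableEq κ] [Nonempty κ] {a0 : ℕ}
    {w0 : A.ι → M → (ρ → FI n) → ℂ} (hw0 : TS ρ (L ^ a0) w0) {b : ℕ}
    {T : A.ι → M → (κ × ρ → FI n) → ℂ} (hT : WW L w0 κ b T)
    {W : Mo S → ℝ} (hW : ∀ x, 0 < W x) (hWc : Continuous W)
    (hTW : ∀ i, ∀ a ∈ (A.e i).source, ∃ C : ℝ, ∀ᶠ x in 𝓝 a, ∀ x' : Mo S, x'.val = x →
      ∀ F, ‖T i x F‖ ^ 2 * W x' ≤ C)
    (k : ℕ) {u : Mo S → ℂ} (hu : Hol u)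
    (hint : ∫⁻ x, ENNReal.ofReal (‖u x‖ ^ 2 * ‖lam x‖ ^ (2 * k) *
      Real.exp (-(k * (j0 * wtS hL σ x.val) + wtS h (kf S) x.val)) / W x) ∂μ < ⊤) :
    ∃ s, WW L w0 κ (b + j0 * k) s ∧ ∀ i, ∀ x : Mo S, x.val ∈ (A.e i).source → ∀ F,
      s i x.val F = u x * (lam x * σ i x.val ^ j0) ^ k * T i x.val F := by
  classical
  set v : A.ι → M → (κ × ρ → FI n) → ℂ := fun i x F =>
    ext0 u x * (ext0 lam x * σ i x ^ j0) ^ k * T i x F with hv
  have hvh : ∀ i F, HolAt A i S.U fun x => v i x F := fun i F =>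
    ((holAt_ext0 hu i).mul (((holAt_ext0 hlam i).mul ((hσ.hol i).pow j0)).pow k)).mul
      ((hT.ts.hol i F).mono (subset_univ _))
  have huc : Continuous u := (w_hol hu).sm.continuous
  have hlc : Continuous lam := (w_hol hlam).sm.continuous
  -- transformation law
  have htr : ∀ i j, ∀ x ∈ (A.e i).source ∩ (A.e j).source, x ∈ nz d →
      v i x = (L ^ (b + j0 * k)).g i j x • (KP (κ × ρ) (Gam (Jm A j i x)) *ᵥ v j x) := by
    intro i j x hx hxd
    rw [← hU] at hxd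
    have e1 : ∀ m : A.ι, v m x = (ext0 u x * (ext0 lam x * σ m x ^ j0) ^ k) • T m x := by
      intro m
      funext F
      rfl
    rw [e1 i, e1 j, hT.ts.tr i j x hx, Matrix.mulVec_smul, smul_smul, smul_smul,
      HM_333.LB_pow_g, HM_333.LB_pow_g, hσ.tr i j x hx hxd]
    congr 1
    rw [pow_add, pow_mul (L.g i j x) j0 k, mul_pow (L.g i j x), mul_pow (ext0 lam x),
      mul_pow (ext0 lam x), mul_pow (L.g i j x ^ j0)]
    ring
  -- the integrand
  set Φ : Mo S → ℝ≥0∞ := fun x => ENNReal.ofReal (‖u x‖ ^ 2 * ‖lam x‖ ^ (2 * k) *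
      Real.exp (-(k * (j0 * wtS hL σ x.val) + wtS h (kf S) x.val)) / W x) with hΦ
  have hΦm : Measurable Φ := by
    have c1 : Continuous fun x : Mo S => wtS hL σ x.val := (wtS_sm hL hσ hσ0).continuous
    have c2 : Continuous fun x : Mo S => wtS h (kf S) x.val :=
      (wtS_sm h (isHS_kf S) kf_ne).continuous
    have c3 : Continuous fun x : Mo S => ‖u x‖ ^ 2 * ‖lam x‖ ^ (2 * k) *
        Real.exp (-(k * (j0 * wtS hL σ x.val) + wtS h (kf S) x.val)) / W x :=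
      (((huc.norm.pow 2).mul (hlc.norm.pow (2 * k))).mul (Real.continuous_exp.comp
        ((continuous_const.mul (continuous_const.mul c1)).add c2).neg)).div hWc
          fun x => (hW x).ne'
    exact (ENNReal.continuous_ofReal.comp c3).measurable
  have hbd : ∀ i F, ∀ a ∈ (A.e i).source, ∃ c : ℝ≥0∞, c ≠ 0 ∧ ∀ᶠ x in 𝓝 a, ∀ x' : Mo S,
      x'.val = x → x ∈ (A.e i).source →
        c * ‖v i x F‖ₑ ^ 2 ≤ ENNReal.ofReal (‖zf S i x‖ ^ 2) * Φ x' := by
    intro i F a ha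
    obtain ⟨C, hC⟩ := hTW i a ha
    have p1 : 0 < hL.w i a := hL.pos i a ha
    have p2 : 0 < h.w i a := h.pos i a ha
    set c1 := hL.w i a / 2 with hc1
    set c2 := h.w i a / 2 with hc2
    have q1 : 0 < c1 := by positivity
    have q2 : 0 < c2 := by positivity
    have ev1 : ∀ᶠ x in 𝓝 a, c1 < hL.w i x :=
      (hm_cont hL ha).eventually (lt_mem_nhds (half_lt_self p1))
    have ev2 : ∀ᶠ x in 𝓝 a, c2 < h.w i x :=
      (hm_cont h ha).eventually (lt_mem_nhds (half_lt_self p2))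
    set c : ℝ := c1 ^ (k * j0) * c2 / (|C| + 1) with hc
    have hcpos : 0 < c := by positivity
    refine ⟨ENNReal.ofReal c, (ENNReal.ofReal_pos.2 hcpos).ne', ?_⟩
    filter_upwards [hC, ev1, ev2] with x hx1 hx2 hx3 x' hx' hxs
    subst hx'
    have hxU := x'.prop
    have e1 : ‖v i x'.val F‖ₑ ^ 2 = ENNReal.ofReal (‖v i x'.val F‖ ^ 2) := by
      rw [← ofReal_norm, ENNReal.ofReal_pow (norm_nonneg _)]
    rw [e1, ← ENNReal.ofReal_mul hcpos.le, hΦ, ← ENNReal.ofReal_mul (by positivity)]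
    refine ENNReal.ofReal_le_ofReal ?_
    have e2 : Real.exp (-(k * (j0 * wtS hL σ x'.val) + wtS h (kf S) x'.val)) =
        (‖σ i x'.val‖ ^ 2 * hL.w i x'.val) ^ (k * j0) *
          (‖kf S i x'.val‖ ^ 2 * h.w i x'.val) := by
      rw [← exp_wtS hL hσ hσ0 hxs hxU, ← exp_wtS h (isHS_kf S) kf_ne hxs hxU, ← Real.exp_nat_mul,
        ← Real.exp_add]
      congr 1
      push_cast
      ring
    have e3 : kf S i x'.val = (zf S i x'.val)⁻¹ := rfl
    have hz : 0 < ‖zf S i x'.val‖ := norm_pos_iff.2 (zf_ne hxs hxU)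
    have e4 : ‖v i x'.val F‖ ^ 2 = ‖u x'‖ ^ 2 * ‖lam x'‖ ^ (2 * k) *
        (‖σ i x'.val‖ ^ 2) ^ (k * j0) * ‖T i x'.val F‖ ^ 2 := by
      simp only [hv, ext0_val, norm_mul, norm_pow]
      ring
    rw [e2, e3, e4, norm_inv]
    set B := ‖u x'‖ ^ 2 * ‖lam x'‖ ^ (2 * k) * (‖σ i x'.val‖ ^ 2) ^ (k * j0) with hB
    have hB0 : 0 ≤ B := by positivity
    have hWx := hW x'
    have hT1 : ‖T i x'.val F‖ ^ 2 ≤ (|C| + 1) / W x' := by
      rw [le_div_iff₀ hWx]
      exact (hx1 x' rfl F).trans (by linarith [le_abs_self C])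
    have hcc : c * (|C| + 1) ≤ hL.w i x'.val ^ (k * j0) * h.w i x'.val := by
      rw [hc, div_mul_cancel₀ _ (by positivity)]
      exact mul_le_mul (pow_le_pow_left₀ q1.le hx2.le _) hx3.le q2.le
        (pow_nonneg (hL.pos i _ hxs).le _)
    calc c * (B * ‖T i x'.val F‖ ^ 2) ≤ c * (B * ((|C| + 1) / W x')) := by gcongr
      _ = B / W x' * (c * (|C| + 1)) := by ring
      _ ≤ B / W x' * (hL.w i x'.val ^ (k * j0) * h.w i x'.val) := by gcongr
      _ = _ := by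
        rw [hB, mul_pow (‖σ i x'.val‖ ^ 2)]
        field_simp
  -- local extensions
  have hloc : ∀ i F, ∃ g : M → ℂ, HolAt A i univ g ∧
      ∀ x ∈ (A.e i).source, x ∈ S.U → g x = v i x F := fun i F =>
    ext_loc h hμ hd hd0 hU i (hvh i F) hΦm hint (hbd i F)
  choose g hg hgv using hloc
  obtain ⟨s, hs, hsg⟩ := glue_TS hd hd0 htr hg (fun i F x hx hxd => hgv i F x hx (hU ▸ hxd))
  have hsv : ∀ i, ∀ x ∈ (A.e i).source, x ∈ S.U → ∀ F, s i x F = v i x F := fun i x hx hxU F => by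
    rw [hsg i x hx F, hgv i F x hx hxU]
  refine ⟨s, ⟨hs, ?_⟩, fun i x hx F => ?_⟩
  · intro i x F H
    by_cases hx : x ∈ (A.e i).source
    · have hw := (WW.tns (σ := κ) hw0).ts
      refine eq_of_dense (d := d)
        (f := fun y => s i y F * tns (fun _ : κ => w0) i y H)
        (g := fun y => s i y H * tns (fun _ : κ => w0) i y F) (dense_nz hd hd0)
        (A.e i).open_source
        (fun y hy => (ts_cont hs i F hy).mul (ts_cont hw i H hy))
        (fun y hy => (ts_cont hs i H hy).mul (ts_cont hw i F hy)) (fun y hy hyd => ?_) hx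
      have hyU : y ∈ S.U := hU ▸ hyd
      show s i y F * tns (fun _ : κ => w0) i y H = s i y H * tns (fun _ : κ => w0) i y F
      rw [hsv i y hy hyU F, hsv i y hy hyU H]
      simp only [hv]
      linear_combination (ext0 u y * (ext0 lam y * σ i y ^ j0) ^ k) * hT.prp i y F H
    · simp [hs.off i x hx]
  · rw [hsv i _ hx x.prop F]
    simp only [hv, ext0_val]

end core

end

end Crest.Agent.R273.RKb_635
end

-- ▼ part R273/RKc_635
section

/-!
# R273, RK (helper635), part c: elements of the weighted spaces are in `FF`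

* `exists_T` : tensor sections `T` with `‖T‖² (1 + ‖y‖²)^i` locally bounded;
* `rk_mem`   : `u ∈ FF`.
-/

set_option autoImplicit false
set_option linter.unusedSectionVars false

open Set Filter Topology Complex MeasureTheory
open scoped ContDiff Matrix ENNReal

namespace Crest.Agent.R273.RKc_635

open Crest.Agent.R275.Geo Crest.Agent.R275.Core144 Crest.Agent.R273.SteinA_794
open Crest.Agent.R273.SteinB_794 Crest.Agent.R273.SteinC_794 Crest.Agent.R273.SteinD_794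
open Crest.Agent.R273.SteinM_794 Crest.Agent.R273.SteinN_794 Crest.Agent.R273.SteinL_794
open Crest.Agent.R273.Defs_333 (ProjD HM HM.wt)
open Crest.Agent.R271.Ho51 (RDom cp ch IsCh IsLeb Hol Sm mem_ch isCh_ch)
open Crest.Agent.R273.Cram_747 (TS KP tns tns_TS)
open Crest.Agent.R273.Fock_243 (FI Gam)
open Crest.Agent.R273.Mer769 Crest.Agent.R273.FF769
open Crest.Agent.R273.RKa_635 Crest.Agent.R273.RKb_635

noncomputable section

variable {n : ℕ} {M : Type} [TopologicalSpace M] {A : Atl n M} {S : SD A}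

/-! ### nonvanishing of tensor products -/

section nz

variable {ρ σ σ' : Type} [Fintype ρ] [DecidableEq ρ] [Fintype σ] [DecidableEq σ] [Fintype σ']
  [DecidableEq σ'] {N N' : LB A}

theorem nz_tp {τ : A.ι → M → (σ × ρ → FI n) → ℂ} {τ' : A.ι → M → (σ' × ρ → FI n) → ℂ}
    (h : TS (σ × ρ) N τ) (h' : TS (σ' × ρ) N' τ') {x : M} (hx : x ∈ Cram_747.nz τ)
    (hx' : x ∈ Cram_747.nz τ') : x ∈ Cram_747.nz (tp τ τ') := by
  obtain ⟨i, hi⟩ := A.cover x
  obtain ⟨F, hF⟩ := Function.ne_iff.1 (h.ne_of_nz hx hi)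
  obtain ⟨H, hH⟩ := Function.ne_iff.1 (h'.ne_of_nz hx' hi)
  refine ⟨i, hi, fun h1 => ?_⟩
  have h2 : tp τ τ' i x ((eqv (FI n) σ σ' ρ).symm (F, H)) = 0 := by rw [h1]; rfl
  rw [tp_eqv] at h2
  exact mul_ne_zero hF hH h2

theorem nz_tns {N : σ → LB A} {τ : σ → A.ι → M → (ρ → FI n) → ℂ} (h : ∀ t, TS ρ (N t) (τ t))
    {x : M} (hx : ∀ t, x ∈ Cram_747.nz (τ t)) : x ∈ Cram_747.nz (tns τ) := by
  obtain ⟨i, hi⟩ := A.cover x
  have h1 : ∀ t, ∃ F, τ t i x F ≠ 0 := fun t => Function.ne_iff.1 ((h t).ne_of_nz (hx t) hi)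
  choose F hF using h1
  refine ⟨i, hi, fun h2 => ?_⟩
  have h3 : tns τ i x (fun p => F p.1 p.2) = 0 := by rw [h2]; rfl
  simp only [tns] at h3
  exact (Finset.prod_ne_zero_iff.2 fun t _ => hF t) h3

end nz

/-! ### the sections `T` -/

section T

variable {L : LB A} {ρ : Type} [Fintype ρ] [DecidableEq ρ] {w0 : A.ι → M → (ρ → FI n) → ℂ}

/-- local boundedness of `‖T‖² W` -/
def LB2 (S : SD A) {κ : Type} (T : A.ι → M → (κ → FI n) → ℂ) (W : Mo S → ℝ) : Prop :=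
  ∀ i, ∀ a ∈ (A.e i).source, ∃ C : ℝ, ∀ᶠ x in 𝓝 a, ∀ x' : Mo S, x'.val = x →
      ∀ F, ‖T i x F‖ ^ 2 * W x' ≤ C

/-- the basic bound -/
theorem lb2_base {κ : Type} [Fintype κ] [DecidableEq κ] {N : ℕ} {y : Fin N → Mo S → ℂ} {b : ℕ}
    {t : A.ι → M → (κ × ρ → FI n) → ℂ} (ht : WW L w0 κ b t)
    {s : Fin N → A.ι → M → (κ × ρ → FI n) → ℂ} (hs : ∀ l, WW L w0 κ b (s l))
    (hst : ∀ l i, ∀ x : Mo S, x.val ∈ (A.e i).source → ∀ F,
      s l i x.val F = y l x * t i x.val F) :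
    LB2 S t fun x => 1 + ∑ l, ‖y l x‖ ^ 2 := by
  intro i a ha
  have hc : ContinuousAt (fun x => ∑ F, (‖t i x F‖ ^ 2 + ∑ l, ‖s l i x F‖ ^ 2)) a := by
    refine tendsto_finsetSum _ fun F _ => ?_
    refine ((ts_cont ht.ts i F ha).norm.pow 2).add ?_
    exact tendsto_finsetSum _ fun l _ => (ts_cont (hs l).ts i F ha).norm.pow 2
  refine ⟨(∑ F, (‖t i a F‖ ^ 2 + ∑ l, ‖s l i a F‖ ^ 2)) + 1, ?_⟩
  filter_upwards [hc.eventually (gt_mem_nhds (lt_add_one _)), (A.e i).open_source.mem_nhds ha]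
    with x hx hxs x' hx' F
  subst hx'
  have h1 : ‖t i x'.val F‖ ^ 2 * (1 + ∑ l, ‖y l x'‖ ^ 2) =
      ‖t i x'.val F‖ ^ 2 + ∑ l, ‖s l i x'.val F‖ ^ 2 := by
    rw [mul_add, mul_one, Finset.mul_sum]
    congr 1
    refine Finset.sum_congr rfl fun l _ => ?_
    rw [hst l i x' hxs F, norm_mul, mul_pow]
    ring
  rw [h1]
  refine le_trans ?_ hx.le
  exact Finset.single_le_sum (f := fun F => ‖t i x'.val F‖ ^ 2 + ∑ l, ‖s l i x'.val F‖ ^ 2)
    (fun F _ => by positivity) (Finset.mem_univ F)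

theorem exists_T {κ : Type} [Fintype κ] [DecidableEq κ] [Nonempty κ] {N : ℕ}
    {y : Fin N → Mo S → ℂ} {b : ℕ}
    {t : A.ι → M → (κ × ρ → FI n) → ℂ} (ht : WW L w0 κ b t)
    (ht0 : ∀ x ∈ S.U, x ∈ Cram_747.nz t)
    {s : Fin N → A.ι → M → (κ × ρ → FI n) → ℂ} (hs : ∀ l, WW L w0 κ b (s l))
    (hst : ∀ l i, ∀ x : Mo S, x.val ∈ (A.e i).source → ∀ F,
      s l i x.val F = y l x * t i x.val F) (m : ℕ) :
    ∃ (κ' : Type) (_ : Fintype κ') (_ : DecidableEq κ') (_ : Nonempty κ') (b' : ℕ)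
      (T : A.ι → M → (κ' × ρ → FI n) → ℂ), WW L w0 κ' b' T ∧ (∀ x ∈ S.U, x ∈ Cram_747.nz T) ∧
        LB2 S T fun x => (1 + ∑ l, ‖y l x‖ ^ 2) ^ m := by
  have hb := lb2_base ht hs hst
  induction m with
  | zero =>
    refine ⟨κ, inferInstance, inferInstance, inferInstance, b, t, ht, ht0, fun i a ha => ?_⟩
    obtain ⟨C, hC⟩ := hb i a ha
    refine ⟨C, hC.mono fun x hx x' hx' F => ?_⟩
    refine le_trans ?_ (hx x' hx' F)
    beta_reduce
    rw [pow_zero]
    have : (0 : ℝ) ≤ ∑ l, ‖y l x'‖ ^ 2 := by positivity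
    gcongr
    linarith
  | succ m ih =>
    obtain ⟨κ', _, _, _, b', T, hT, hT0, hTb⟩ := ih
    refine ⟨κ' ⊕ κ, inferInstance, inferInstance, inferInstance, b' + b, tp T t, hT.tp ht,
      fun x hx => nz_tp hT.ts ht.ts (hT0 x hx) (ht0 x hx), fun i a ha => ?_⟩
    obtain ⟨C, hC⟩ := hb i a ha
    obtain ⟨C', hC'⟩ := hTb i a ha
    refine ⟨C' * C, ?_⟩
    filter_upwards [hC, hC'] with x hx hx' x' he F
    have h1 := hx x' he (fun p => F (Sum.inr p.1, p.2))
    have h2 := hx' x' he (fun p => F (Sum.inl p.1, p.2))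
    have h3 : (0 : ℝ) ≤ 1 + ∑ l, ‖y l x'‖ ^ 2 := by positivity
    beta_reduce at h1 h2 ⊢
    have h4 : ‖tp T t i x F‖ ^ 2 * (1 + ∑ l, ‖y l x'‖ ^ 2) ^ (m + 1) =
        (‖T i x (fun p => F (Sum.inl p.1, p.2))‖ ^ 2 * (1 + ∑ l, ‖y l x'‖ ^ 2) ^ m) *
          (‖t i x (fun p => F (Sum.inr p.1, p.2))‖ ^ 2 * (1 + ∑ l, ‖y l x'‖ ^ 2)) := by
      simp only [tp, norm_mul]
      ring
    rw [h4]
    exact mul_le_mul h2 h1 (by positivity) (le_trans (by positivity) h2)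

end T

/-! ### membership -/

section mem

variable {L : LB A} {ρ : Type} [Fintype ρ] [DecidableEq ρ] {w0 wa wb : A.ι → M → (ρ → FI n) → ℂ}

/-- the family `w_a, w_b, …, w_b` -/
def wk (wa wb : A.ι → M → (ρ → FI n) → ℂ) (k : ℕ) : Fin (k + 1) → A.ι → M → (ρ → FI n) → ℂ :=
  Fin.cons wa fun _ => wb

theorem tns_wk (wa wb : A.ι → M → (ρ → FI n) → ℂ) (k : ℕ) (i : A.ι) (x : M)
    (F : Fin (k + 1) × ρ → FI n) : tns (wk wa wb k) i x F =
      wa i x (fun r => F (0, r)) * ∏ j : Fin k, wb i x (fun r => F (j.succ, r)) := by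
  simp only [tns, wk, Fin.prod_univ_succ, Fin.cons_zero, Fin.cons_succ]

variable {a j0 : ℕ} (ha : TS ρ (L ^ a) wa) (hb : TS ρ (L ^ (a + j0)) wb)
  (pa : Cram_747.Prp wa w0) (pb : Cram_747.Prp wb w0)

include ha hb in
theorem ts_wk (k : ℕ) (t : Fin (k + 1)) :
    TS ρ ((Fin.cons (L ^ a) fun _ => L ^ (a + j0) : Fin (k + 1) → LB A) t) (wk wa wb k t) := by
  refine Fin.cases ?_ (fun j => ?_) t
  · exact ha
  · exact hb

include ha hb pa pb in
theorem ww_wk (k : ℕ) : WW L w0 (Fin (k + 1)) (a + (a + j0) * k) (tns (wk wa wb k)) := by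
  refine ⟨(tns_TS (ts_wk ha hb k)).congr_N ?_, ?_⟩
  · rw [Fin.prod_univ_succ]
    simp only [Fin.cons_zero, Fin.cons_succ, Finset.prod_const, Finset.card_univ, Fintype.card_fin]
    rw [← pow_mul, ← pow_add]
  · refine Cram_747.Prp.tns fun t => ?_
    refine Fin.cases ?_ (fun j => ?_) t
    · exact pa
    · exact pb

variable [MeasurableSpace M] [BorelSpace M] [Countable A.ι] [SecondCountableTopology M]
  {μ : Measure (Mo S)} {σ : A.ι → M → ℂ}

include ha hb pa pb in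
/-- **elements of the weighted spaces are in `FF`** -/
theorem rk_mem [ConnectedSpace M] (hL : HM L) (h : HM (KB A)⁻¹) (hμ : IsLeb μ)
    {LD : LB A} {d : A.ι → M → ℂ} (hd : IsHS LD univ d)
    (hd0 : ∃ i, ∃ x ∈ (A.e i).source, d i x ≠ 0) (hU : S.U = nz d)
    (hσ : IsHS L S.U σ) (hσ0 : ∀ i, ∀ x ∈ (A.e i).source, x ∈ S.U → σ i x ≠ 0)
    {lam : Mo S → ℂ} (hlam : Hol lam) {a0 : ℕ} (hw0 : TS ρ (L ^ a0) w0) (h0 : w0 ≠ 0)
    (ha0 : ∀ x ∈ S.U, x ∈ Cram_747.nz wa) (hb0 : ∀ x ∈ S.U, x ∈ Cram_747.nz wb)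
    (hab : ∀ i, ∀ x : Mo S, x.val ∈ (A.e i).source → ∀ F,
      wb i x.val F = lam x * σ i x.val ^ j0 * wa i x.val F)
    {κ : Type} [Fintype κ] [DecidableEq κ] [Nonempty κ] {N : ℕ}
    {y : Fin N → Mo S → ℂ} (hy : ∀ l, Hol (y l)) {b : ℕ}
    {t : A.ι → M → (κ × ρ → FI n) → ℂ} (ht : WW L w0 κ b t)
    (ht0 : ∀ x ∈ S.U, x ∈ Cram_747.nz t)
    {s : Fin N → A.ι → M → (κ × ρ → FI n) → ℂ} (hs : ∀ l, WW L w0 κ b (s l))
    (hst : ∀ l i, ∀ x : Mo S, x.val ∈ (A.e i).source → ∀ F,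
      s l i x.val F = y l x * t i x.val F)
    (k m : ℕ) {u : Mo S → ℂ} (hu : Hol u)
    (hint : ∫⁻ x, ENNReal.ofReal (‖u x‖ ^ 2 * ‖lam x‖ ^ (2 * k) *
      Real.exp (-(k * (j0 * wtS hL σ x.val) + wtS h (kf S) x.val)) /
        (1 + ∑ l, ‖y l x‖ ^ 2) ^ m) ∂μ < ⊤) :
    ∃ g ∈ FF hw0 h0, ∀ x : Mo S, x.val ∈ reg g ∧ ev g x.val = u x := by
  obtain ⟨κ', _, _, _, b', T, hT, hT0, hTb⟩ := exists_T ht ht0 hs hst m
  have hyc : ∀ l, Continuous (y l) := fun l => (w_hol (hy l)).sm.continuous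
  have hWc : Continuous fun x : Mo S => (1 + ∑ l, ‖y l x‖ ^ 2) ^ m :=
    (continuous_const.add (continuous_finsetSum _ fun l _ => (hyc l).norm.pow 2)).pow m
  obtain ⟨v, hv, hvr⟩ := rk_sec hL h hμ hd hd0 hU hσ hσ0 j0 hlam hw0 hT
    (W := fun x => (1 + ∑ l, ‖y l x‖ ^ 2) ^ m) (fun x => by positivity) hWc hTb k hu hint
  -- numerator and denominator
  have hnum : WW L w0 (κ' ⊕ Fin (k + 1)) (b' + (a + (a + j0) * k))
      (tp v (tns fun _ : Fin (k + 1) => wa)) := by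
    have h1 : WW L w0 (Fin (k + 1)) (a * (k + 1)) (tns fun _ : Fin (k + 1) => wa) := by
      refine ⟨(tns_TS (fun _ : Fin (k + 1) => ha)).congr_N ?_, Cram_747.Prp.tns fun _ => pa⟩
      rw [Finset.prod_const, Finset.card_univ, Fintype.card_fin, ← pow_mul]
    have h2 := hv.tp h1
    have h3 : b' + j0 * k + a * (k + 1) = b' + (a + (a + j0) * k) := by ring
    rwa [h3] at h2
  have hden : WW L w0 (κ' ⊕ Fin (k + 1)) (b' + (a + (a + j0) * k))
      (tp T (tns (wk wa wb k))) := hT.tp (ww_wk ha hb pa pb k)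
  have hdn : ∀ x ∈ S.U, x ∈ Cram_747.nz (tp T (tns (wk wa wb k))) := by
    intro x hx
    refine nz_tp hT.ts (ww_wk ha hb pa pb k).ts (hT0 x hx) (nz_tns (ts_wk ha hb k) fun j => ?_)
    refine Fin.cases ?_ (fun j => ?_) j
    · exact ha0 x hx
    · exact hb0 x hx
  have hne : tp T (tns (wk wa wb k)) ≠ 0 := by
    obtain ⟨i, x, hx, hdx⟩ := hd0
    have hxU : x ∈ S.U := by rw [hU, mem_nz hd hx]; exact hdx
    intro h1
    obtain ⟨j, _, hj0⟩ := hdn x hxU
    exact hj0 (by rw [h1]; rfl)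
  obtain ⟨g, hg, hgr⟩ := WW.exists_mem hw0 h0 hnum hden hne
  refine ⟨g, hg, fun x => ?_⟩
  obtain ⟨i, hi⟩ := A.cover x.val
  obtain ⟨F, hF⟩ := Function.ne_iff.1 (hden.ts.ne_of_nz (hdn _ x.prop) hi)
  have h1 := Rel.reg_ev (ts_isWS hnum.ts) (ts_isWS hden.ts) hgr hi hF
  refine ⟨h1.1, ?_⟩
  rw [h1.2, div_eq_iff hF]
  simp only [tp]
  rw [hvr i x hi, tns_wk]
  simp only [tns]
  rw [Fin.prod_univ_succ]
  have h2 : ∏ j : Fin k, wb i x.val (fun r => F (Sum.inr j.succ, r)) =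
      (lam x * σ i x.val ^ j0) ^ k * ∏ j : Fin k, wa i x.val (fun r => F (Sum.inr j.succ, r)) := by
    rw [Finset.prod_congr rfl fun j _ => hab i x hi _, Finset.prod_mul_distrib,
      Finset.prod_const, Finset.card_univ, Fintype.card_fin]
  rw [h2]
  ring

end mem

end

end Crest.Agent.R273.RKc_635
end

-- ▼ part R273/RKd_635
section

/-!
# R273, RK (helper635), part d: rank one

* `FIB`  : the fibres of `y` can be moved simultaneously;
* `rk`   : the field `RK` of `YD`.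
-/

set_option autoImplicit false
set_option linter.unusedSectionVars false

open Set Filter Topology Complex MeasureTheory
open scoped ContDiff Matrix ENNReal

namespace Crest.Agent.R273.RKd_635

open Crest.Agent.R275.Geo Crest.Agent.R275.Core144 Crest.Agent.R273.SteinA_794
open Crest.Agent.R273.SteinB_794 Crest.Agent.R273.SteinC_794 Crest.Agent.R273.SteinD_794
open Crest.Agent.R273.SteinM_794 Crest.Agent.R273.SteinN_794 Crest.Agent.R273.SteinL_794
open Crest.Agent.R273.Defs_333 (ProjD HM HM.wt)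
open Crest.Agent.R271.Ho51 (RDom cp ch IsCh IsLeb Hol Sm mem_ch isCh_ch)
open Crest.Agent.R273.Cram_747 (TS KP tns tns_TS)
open Crest.Agent.R273.Fock_243 (FI Gam)
open Crest.Agent.R273.Mer769 Crest.Agent.R273.FF769
open Crest.Agent.R273.RKa_635 Crest.Agent.R273.RKb_635 Crest.Agent.R273.RKc_635

noncomputable section

/-- the fibres of `y` can be moved simultaneously -/
def FIB {G : Type*} [TopologicalSpace G] {N : ℕ} (y : Fin N → G → ℂ) : Prop :=
  ∀ x x' : G, (∀ l, y l x = y l x') → ∀ U ∈ 𝓝 x, ∀ U' ∈ 𝓝 x', ∀ Q : MvPolynomial (Fin N) ℂ,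
    Dense {x | MvPolynomial.eval (fun l => y l x) Q ≠ 0} →
      ∃ ξ ∈ U, ∃ ξ' ∈ U', (∀ l, y l ξ = y l ξ') ∧ MvPolynomial.eval (fun l => y l ξ) Q ≠ 0

variable {n : ℕ} {M : Type} [TopologicalSpace M] {A : Atl n M} {S : SD A}

/-! ### values of polynomials in elements of `Mer A` -/

theorem ev_aeval {N : ℕ} {Y : Fin N → Mer A} {x : M} (hY : ∀ l, x ∈ reg (Y l))
    (P : MvPolynomial (Fin N) ℂ) : x ∈ reg (MvPolynomial.aeval Y P) ∧
      ev (MvPolynomial.aeval Y P) x = MvPolynomial.eval (fun l => ev (Y l) x) P := by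
  set Y' : Fin N → loc A x := fun l => ⟨Y l, hY l⟩ with hY'
  have h1 : MvPolynomial.aeval Y P = ((MvPolynomial.aeval Y' P : loc A x) : Mer A) := by
    have h2 : Y = fun l => (loc A x).val (Y' l) := rfl
    rw [h2, ← MvPolynomial.comp_aeval_apply]
    rfl
  refine ⟨h1 ▸ (MvPolynomial.aeval Y' P).2, ?_⟩
  rw [h1]
  have h3 : ev ((MvPolynomial.aeval Y' P : loc A x) : Mer A) x = evH A x (MvPolynomial.aeval Y' P) :=
    rfl
  rw [h3, MvPolynomial.comp_aeval_apply]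
  rfl

section fib

variable {N : ℕ} {Y : Fin N → Mer A} {y : Fin N → Mo S → ℂ}

/-- dense on `Mo S` -/
theorem dense_ev [ConnectedSpace M] (hY : ∀ l, ∀ x : Mo S, x.val ∈ reg (Y l) ∧ ev (Y l) x.val = y l x)
    {Q : MvPolynomial (Fin N) ℂ} (hQ : MvPolynomial.aeval Y Q ≠ 0) :
    Dense {x : Mo S | MvPolynomial.eval (fun l => y l x) Q ≠ 0} := by
  intro x
  rw [mem_closure_iff_nhds]
  intro U hU
  have h1 : Mo.val '' U ∈ 𝓝 x.val := isOpenEmbedding_val.isOpenMap.image_mem_nhds hU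
  obtain ⟨z, hz, hzU⟩ := ((frequently_of_dn (dn_ne hQ) x.val).and_eventually
    (eventually_eventually_nhds.2 h1)).exists
  have h2 := mem_of_mem_nhds hz
  obtain ⟨x', hx'U, hx'⟩ := mem_of_mem_nhds hzU
  refine ⟨x', hx'U, ?_⟩
  have h3 := ev_aeval (Y := Y) (x := x'.val) (fun l => (hY l x').1) Q
  show MvPolynomial.eval (fun l => y l x') Q ≠ 0
  have h4 : (fun l => y l x') = fun l => ev (Y l) x'.val := by
    funext l
    exact ((hY l x').2).symm
  rw [h4, ← h3.2, hx']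
  exact h2.2

/-- a function which is an element of `ℂ(Y)` is constant on the fibres of `y` -/
theorem const_of_fib [ConnectedSpace M]
    (hY : ∀ l, ∀ x : Mo S, x.val ∈ reg (Y l) ∧ ev (Y l) x.val = y l x) (hF : FIB y)
    {g : Mer A} (hg : g ∈ IntermediateField.adjoin ℂ (range Y)) {u : Mo S → ℂ}
    (huc : Continuous u) (hu : ∀ x : Mo S, x.val ∈ reg g ∧ ev g x.val = u x) {x x' : Mo S}
    (hxx : ∀ l, y l x = y l x') : u x = u x' := by
  obtain ⟨P, Q, hPQ⟩ := (IntermediateField.mem_adjoin_range_iff ℂ Y g).1 hg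
  by_cases hQ : MvPolynomial.aeval Y Q = 0
  · rw [hQ, div_zero] at hPQ
    have h1 : ∀ x : Mo S, u x = 0 := by
      intro x
      rw [← (hu x).2, hPQ]
      have := (reg_algebraMap (A := A) 0 x.val).2
      rwa [map_zero] at this
    rw [h1, h1]
  -- the identity `u Q(y) = P(y)`
  have hmul : g * MvPolynomial.aeval Y Q = MvPolynomial.aeval Y P := by
    rw [hPQ, div_mul_cancel₀ _ hQ]
  have key : ∀ z : Mo S, u z * MvPolynomial.eval (fun l => y l z) Q =
      MvPolynomial.eval (fun l => y l z) P := by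
    intro z
    have h1 := ev_aeval (Y := Y) (x := z.val) (fun l => (hY l z).1) P
    have h2 := ev_aeval (Y := Y) (x := z.val) (fun l => (hY l z).1) Q
    have h4 : (fun l => y l z) = fun l => ev (Y l) z.val := by
      funext l
      exact ((hY l z).2).symm
    rw [h4, ← h1.2, ← h2.2, ← hmul, (reg_mul (hu z).1 h2.1).2, (hu z).2]
  have hd := dense_ev hY hQ
  by_contra hne
  -- separate the values
  obtain ⟨V, V', hV, hV', hxV, hxV', hdis⟩ := t2_separation hne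
  obtain ⟨ξ, hξ, ξ', hξ', heq, hQξ⟩ := hF x x' hxx _ (huc.continuousAt.preimage_mem_nhds
    (hV.mem_nhds hxV)) _ (huc.continuousAt.preimage_mem_nhds (hV'.mem_nhds hxV')) Q hd
  have h1 : u ξ = u ξ' := by
    have h2 := key ξ
    have h3 := key ξ'
    have h5 : (fun l => y l ξ') = fun l => y l ξ := funext fun l => (heq l).symm
    rw [h5, ← h2] at h3
    exact (mul_right_cancel₀ hQξ h3).symm
  refine Set.disjoint_left.1 hdis (show u ξ ∈ V from hξ) ?_
  rw [h1]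
  exact hξ'

end fib

/-! ### rank one -/

theorem secM [Finite A.ι] : SecondCountableTopology M := by
  have h1 : ∀ i, SecondCountableTopology (A.e i).source := fun i =>
    (A.e i).toHomeomorphSourceTarget.secondCountableTopology
  exact TopologicalSpace.secondCountableTopology_of_countable_cover
    (U := fun i => (A.e i).source) (fun i => (A.e i).open_source)
    (eq_univ_of_forall fun x => mem_iUnion.2 (A.cover x))

section rk

variable {L : LB A} {ρ : Type} [Fintype ρ] [DecidableEq ρ] {w0 wa wb : A.ι → M → (ρ → FI n) → ℂ}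
  {a j0 : ℕ} {σ : A.ι → M → ℂ}

/-- **rank one**, the field `RK` of `YD` -/
theorem rk [Finite A.ι] [ConnectedSpace M]
    (hL : HM L) (h : HM (KB A)⁻¹)
    {LD : LB A} {d : A.ι → M → ℂ} (hd : IsHS LD univ d)
    (hd0 : ∃ i, ∃ x ∈ (A.e i).source, d i x ≠ 0) (hU : S.U = nz d)
    (hσ : IsHS L S.U σ) (hσ0 : ∀ i, ∀ x ∈ (A.e i).source, x ∈ S.U → σ i x ≠ 0)
    {lam : Mo S → ℂ} (hlam : Hol lam) {a0 : ℕ} (hw0 : TS ρ (L ^ a0) w0) (h0 : w0 ≠ 0)
    (ha : TS ρ (L ^ a) wa) (hb : TS ρ (L ^ (a + j0)) wb)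
    (pa : Cram_747.Prp wa w0) (pb : Cram_747.Prp wb w0)
    (ha0 : ∀ x ∈ S.U, x ∈ Cram_747.nz wa) (hb0 : ∀ x ∈ S.U, x ∈ Cram_747.nz wb)
    (hab : ∀ i, ∀ x : Mo S, x.val ∈ (A.e i).source → ∀ F,
      wb i x.val F = lam x * σ i x.val ^ j0 * wa i x.val F)
    {κ : Type} [Fintype κ] [DecidableEq κ] [Nonempty κ] {N : ℕ}
    {y : Fin N → Mo S → ℂ} (hy : ∀ l, Hol (y l)) {b : ℕ}
    {t : A.ι → M → (κ × ρ → FI n) → ℂ} (ht : WW L w0 κ b t)
    (ht0 : ∀ x ∈ S.U, x ∈ Cram_747.nz t)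
    {s : Fin N → A.ι → M → (κ × ρ → FI n) → ℂ} (hs : ∀ l, WW L w0 κ b (s l))
    (hst : ∀ l i, ∀ x : Mo S, x.val ∈ (A.e i).source → ∀ F,
      s l i x.val F = y l x * t i x.val F)
    {Y : Fin N → Mer A} (hFF : FF hw0 h0 ≤ IntermediateField.adjoin ℂ (range Y))
    (hY : ∀ l, ∀ x : Mo S, x.val ∈ reg (Y l) ∧ ev (Y l) x.val = y l x) (hF : FIB y) :
    ∀ (μ : Measure (Mo S)), IsLeb μ → ∀ (k i : ℕ) (u : Mo S → ℂ), Hol u →
    ∫⁻ x, ENNReal.ofReal (‖u x‖ ^ 2 * ‖lam x‖ ^ (2 * k) *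
      Real.exp (-(k * (j0 * wtS hL σ x.val) + wtS h (kf S) x.val)) /
        (1 + ∑ l, ‖y l x‖ ^ 2) ^ i) ∂μ < ⊤ →
    ∀ x x' : Mo S, (∀ l, y l x = y l x') → u x = u x' := by
  intro μ hμ k i u hu hint x x' hxx
  let _ : MeasurableSpace M := borel M
  have _ : BorelSpace M := ⟨rfl⟩
  have _ : SecondCountableTopology M := secM (A := A)
  obtain ⟨g, hg, hgu⟩ := rk_mem ha hb pa pb hL h hμ hd hd0 hU hσ hσ0 hlam hw0 h0 ha0 hb0 hab hy ht
    ht0 hs hst k i hu hint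
  exact const_of_fib hY hF (hFF hg) (w_hol hu).sm.continuous hgu hxx



end rk

end

end Crest.Agent.R273.RKd_635
end

-- ▼ part R273/Fib_794
section

/-!
# R273, Part A, half 2, (K2) (helper794): approximation of points of the same fibre

`fib` : on a Riemann domain with functions `y₀ … y_b`, the first `b` of which are the first coordinates
and the last one is a simple root of a polynomial over them: two points `x, x₂` with `y x = y x₂` are
limits of points `ξ, ξ₂` with `y ξ = y ξ₂` in a given dense set.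
-/

set_option autoImplicit false
set_option linter.unusedSectionVars false

open Set Filter Topology
open scoped ContDiff

namespace Crest.Agent.R273.Fib_794

open Crest.Agent.R271.Ho51 (RDom cp ch IsCh mem_ch isCh_ch cp_cont)

noncomputable section

/-! ### polynomials as functions -/

theorem contDiff_eval {m : ℕ} (R : MvPolynomial (Fin m) ℂ) :
    ContDiff ℂ ω fun v : Fin m → ℂ => MvPolynomial.eval v R := by
  induction R using MvPolynomial.induction_on with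
  | C a => simpa using contDiff_const
  | add p q hp hq => simpa using hp.add hq
  | mul_X p k hp => simpa using hp.mul (contDiff_apply ℂ ℂ k)

/-- derivative in one variable -/
theorem hasDerivAt_eval {m : ℕ} (R : MvPolynomial (Fin m) ℂ) (j : Fin m) (v : Fin m → ℂ) :
    HasDerivAt (fun t : ℂ => MvPolynomial.eval (v + Pi.single j t) R)
      (MvPolynomial.eval v (MvPolynomial.pderiv j R)) 0 := by
  classical
  have hk : ∀ k, HasDerivAt (fun t : ℂ => (v + Pi.single j t : Fin m → ℂ) k)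
      (if k = j then 1 else 0) 0 := by
    intro k
    by_cases h : k = j
    · subst h
      simpa using (hasDerivAt_id (0 : ℂ)).const_add (v k)
    · simp only [Pi.add_apply, Pi.single_apply, h, if_false, add_zero]
      exact hasDerivAt_const _ _
  induction R using MvPolynomial.induction_on with
  | C a => simpa using hasDerivAt_const (0 : ℂ) a
  | add p q hp hq =>
    simp only [map_add]
    exact hp.add hq
  | mul_X p k hp =>
    have h1 := hp.mul (hk k)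
    simp only [map_mul, MvPolynomial.eval_X]
    refine h1.congr_deriv ?_
    rw [Derivation.leibniz, MvPolynomial.pderiv_X]
    by_cases h : k = j
    · subst h
      simp
      ring
    · simp [h]
      ring

theorem fderiv_eval {m : ℕ} (R : MvPolynomial (Fin m) ℂ) (j : Fin m) (v : Fin m → ℂ) (c : ℂ) :
    fderiv ℂ (fun v : Fin m → ℂ => MvPolynomial.eval v R) v (Pi.single j c) =
      c * MvPolynomial.eval v (MvPolynomial.pderiv j R) := by
  have h1 : HasFDerivAt (fun v : Fin m → ℂ => MvPolynomial.eval v R)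
      (fderiv ℂ (fun v : Fin m → ℂ => MvPolynomial.eval v R) v) (v + Pi.single j 0) := by
    have h2 : v + Pi.single j 0 = v := by simp
    rw [h2]
    exact ((contDiff_eval R).differentiable (by simp) v).hasFDerivAt
  have h3 : HasDerivAt (fun t : ℂ => v + Pi.single j t : ℂ → Fin m → ℂ) (Pi.single j 1) 0 := by
    rw [hasDerivAt_pi]
    intro k
    by_cases h : k = j
    · subst h
      simpa using (hasDerivAt_id (0 : ℂ)).const_add (v k)
    · simp only [Pi.add_apply, Pi.single_apply, h, if_false, add_zero]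
      exact hasDerivAt_const _ _
  have h4 := h1.comp_hasDerivAt (0 : ℂ) h3
  have h5 := h4.unique (hasDerivAt_eval R j v)
  have h6 : (Pi.single j c : Fin m → ℂ) = c • Pi.single j 1 := by
    ext k
    by_cases h : k = j
    · subst h; simp
    · simp [h]
  rw [h6, map_smul, h5, smul_eq_mul]

/-- simple roots are locally unique -/
theorem root_unique {b : ℕ} {R : MvPolynomial (Fin (b + 1)) ℂ} {v0 : Fin (b + 1) → ℂ}
    (h0 : MvPolynomial.eval v0 (MvPolynomial.pderiv (Fin.last b) R) ≠ 0) :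
    ∃ V ∈ 𝓝 v0, ∀ v ∈ V, ∀ v' ∈ V, (∀ k : Fin b, v k.castSucc = v' k.castSucc) →
      MvPolynomial.eval v R = 0 → MvPolynomial.eval v' R = 0 → v = v' := by
  set Φ : (Fin (b + 1) → ℂ) → ℂ := fun v => MvPolynomial.eval v R with hΦ
  set D := MvPolynomial.eval v0 (MvPolynomial.pderiv (Fin.last b) R) with hD
  have hs : HasStrictFDerivAt Φ (fderiv ℂ Φ v0) v0 :=
    ((contDiff_eval R).contDiffAt).hasStrictFDerivAt (by simp)
  have hDp : 0 < ‖D‖ / 2 := by
    have := norm_pos_iff.2 h0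
    positivity
  have h1 := (Asymptotics.isLittleO_iff.1 hs.isLittleO) hDp
  rw [nhds_prod_eq] at h1
  obtain ⟨V, hV, hVV⟩ := (Filter.eventually_prod_self_iff (r := fun v v' : Fin (b + 1) → ℂ =>
    ‖Φ v - Φ v' - (fderiv ℂ Φ v0) (v - v')‖ ≤ ‖D‖ / 2 * ‖v - v'‖)).1 h1
  refine ⟨V, hV, fun v hv v' hv' hvv h2 h3 => ?_⟩
  have h4 := hVV v hv v' hv'
  have h5 : v - v' = Pi.single (Fin.last b) (v (Fin.last b) - v' (Fin.last b)) := by
    funext k
    refine Fin.lastCases ?_ (fun k => ?_) k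
    · simp
    · rw [Pi.sub_apply, hvv k, sub_self, Pi.single_eq_of_ne (Fin.castSucc_lt_last k).ne]
  set δ := v (Fin.last b) - v' (Fin.last b) with hδ
  have h6 : Φ v - Φ v' - (fderiv ℂ Φ v0) (v - v') = -(δ * D) := by
    have e1 : Φ v = 0 := h2
    have e2 : Φ v' = 0 := h3
    rw [e1, e2, h5, fderiv_eval]
    ring
  simp only [h6, norm_neg, norm_mul] at h4
  have h7 : ‖v - v'‖ ≤ ‖δ‖ := by
    rw [h5]
    refine (pi_norm_le_iff_of_nonneg (norm_nonneg _)).2 fun k => ?_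
    by_cases h : k = Fin.last b
    · subst h; simp
    · rw [Pi.single_eq_of_ne h]; simp
  have h8 : ‖δ‖ * ‖D‖ ≤ ‖D‖ / 2 * ‖δ‖ := h4.trans (mul_le_mul_of_nonneg_left h7 hDp.le)
  have h9 : ‖δ‖ = 0 := by
    by_contra hne
    have : 0 < ‖δ‖ := lt_of_le_of_ne (norm_nonneg _) (Ne.symm hne)
    nlinarith
  have h10 : δ = 0 := norm_eq_zero.1 h9
  rw [h10, Pi.single_zero] at h5
  exact sub_eq_zero.1 h5

/-! ### fibres -/

variable {n : ℕ} {G : Type*} [TopologicalSpace G] [RDom n G]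

/-- **(FIB)** -/
theorem fib {b : ℕ} (hb : b ≤ n) {y : Fin (b + 1) → G → ℂ} (hy : ∀ l, Continuous (y l))
    (hz : ∀ (k : Fin b) (x : G), y k.castSucc x = cp x (Fin.castLE hb k))
    {R : MvPolynomial (Fin (b + 1)) ℂ} (hR : ∀ x, MvPolynomial.eval (fun l => y l x) R = 0)
    (hR' : ∀ x, MvPolynomial.eval (fun l => y l x) (MvPolynomial.pderiv (Fin.last b) R) ≠ 0)
    {x x2 : G} (hx : ∀ l, y l x = y l x2) {U U2 : Set G} (hU : U ∈ 𝓝 x) (hU2 : U2 ∈ 𝓝 x2)
    {D : Set G} (hD : Dense D) :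
    ∃ ξ ∈ U, ∃ ξ2 ∈ U2, (∀ l, y l ξ = y l ξ2) ∧ ξ ∈ D := by
  classical
  obtain ⟨V, hV, hVV⟩ := root_unique (hR' x)
  have hyc : Continuous fun x => fun l => y l x := continuous_pi hy
  have hV2 : V ∈ 𝓝 (fun l => y l x2) := by
    have : (fun l => y l x2) = fun l => y l x := funext fun l => (hx l).symm
    rw [this]
    exact hV
  have w1 : {z | (fun l => y l z) ∈ V} ∈ 𝓝 x := hyc.continuousAt.preimage_mem_nhds hV
  have w2 : {z | (fun l => y l z) ∈ V} ∩ U2 ∈ 𝓝 x2 :=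
    inter_mem (hyc.continuousAt.preimage_mem_nhds hV2) hU2
  -- the chart at `x2`
  set e := ch x2 with he
  have hxe : x2 ∈ e.source := mem_ch x2
  have hcp : ∀ z, e z = cp z := (isCh_ch x2).apply
  have hc : ContinuousAt e.symm (cp x2) := by
    have h1 := e.continuousAt_symm (e.map_source hxe)
    rwa [hcp] at h1
  have hsx : e.symm (cp x2) = x2 := by rw [← hcp]; exact e.left_inv hxe
  have h3 : ∀ᶠ w in 𝓝 (cp x2), w ∈ e.target ∧ e.symm w ∈ {z | (fun l => y l z) ∈ V} ∩ U2 := by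
    refine Filter.Eventually.and ?_ ?_
    · rw [← hcp]
      exact e.open_target.mem_nhds (e.map_source hxe)
    · exact hc.preimage_mem_nhds (by rw [hsx]; exact w2)
  obtain ⟨r, hr, hball⟩ := Metric.eventually_nhds_iff.1 h3
  -- the point `ξ`
  have h4 : {z : G | dist (cp z) (cp x) < r} ∈ 𝓝 x :=
    (cp_cont (M := G)).continuousAt.preimage_mem_nhds (Metric.ball_mem_nhds _ hr)
  have h5 : (U ∩ {z | (fun l => y l z) ∈ V} ∩ {z : G | dist (cp z) (cp x) < r}) ∈ 𝓝 x :=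
    inter_mem (inter_mem hU w1) h4
  obtain ⟨ξ, ⟨⟨hξU, hξV⟩, hξr⟩, hξD⟩ := mem_closure_iff_nhds.1 (hD x) _ h5
  -- the point `ξ2`
  set w : Fin n → ℂ := fun j => if (j : ℕ) < b then cp ξ j else cp x2 j with hw
  have hwd : dist w (cp x2) < r := by
    refine (dist_pi_lt_iff hr).2 fun j => ?_
    by_cases hj : (j : ℕ) < b
    · have e1 : cp x2 j = cp x j := by
        have e2 := hx (Fin.castSucc ⟨j, hj⟩)
        rw [hz, hz] at e2
        exact e2.symm
      simp only [hw, hj, if_true, e1]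
      exact (dist_le_pi_dist (cp ξ) (cp x) j).trans_lt hξr
    · simp only [hw, hj, if_false, dist_self]
      exact hr
  obtain ⟨hwt, hwV, hwU⟩ := hball hwd
  have hcw : cp (e.symm w) = w := by rw [← hcp]; exact e.right_inv hwt
  have hfirst : ∀ k : Fin b, y k.castSucc ξ = y k.castSucc (e.symm w) := by
    intro k
    rw [hz, hz, hcw]
    have : ((Fin.castLE hb k : Fin n) : ℕ) < b := by simp
    simp only [hw, this, if_true]
  have hall := hVV _ hξV _ hwV hfirst (hR ξ) (hR (e.symm w))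
  exact ⟨ξ, hξU, e.symm w, hwU, fun l => congrFun hall l, hξD⟩


end

end Crest.Agent.R273.Fib_794
end

-- ▼ part R273/MM_844
section

/-!
# R273 (S0416), Part A, half 2, leaves (M1), (M2) (helper844)

* `hmB P hL b m` : the metric of `L ^ b * (lb P) ^ m`; `hmB_semipos`
* `rank_pos`     : `FF ≠ ⊥` implies that the curvature does not vanish identically
* `fi_fun`       : the elements of `FF`, as functions on a Stein domain, are first integrals of
                   `ker θ` where `rank θ = ν`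
-/

set_option autoImplicit false
set_option linter.unusedSectionVars false

open Set Filter Topology Complex Matrix
open scoped ContDiff Matrix ComplexConjugate Manifold ComplexOrder

namespace Crest.Agent.R273.MM_844

open Crest.Agent.R275 Crest.Agent.R275.Geo Crest.Agent.R275.Core144 Crest.Agent.R275.GC293
open Crest.Agent.R273.Defs_333 Crest.Agent.R273.HM_333 Crest.Agent.R273.Kah_333
open Crest.Agent.R273.FS_333
open Crest.Agent.R273.Vol_333 Crest.Agent.R273.YauDefs_635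
open Crest.Agent.R273.Fock_243
open Crest.Agent.R273.Cram_747
open Crest.Agent.R273.FIf0_597
open Crest.Agent.R273.Mer769
open Crest.Agent.R273.SteinA_794 Crest.Agent.R273.SteinC_794
open Crest.Agent.R271.Ho51 (Hol)

noncomputable section

variable {n : ℕ} {M : Type} [TopologicalSpace M] {A : Atl n M} {L L' : LB A}

/-! ### (M1) -/

theorem semipos_mul {h : HM L} {h' : HM L'} (hs : h.Semipos) (hs' : h'.Semipos) :
    (HM_333.mul h h').Semipos :=
  semipos_of_cur fun i x hx => by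
    rw [cur_mul h h' i hx]
    exact (cur_posSemidef hs i hx).add (cur_posSemidef hs' i hx)

theorem semipos_pow {h : HM L} (hs : h.Semipos) (m : ℕ) : (HM_333.pow h m).Semipos :=
  semipos_of_cur fun i x hx => by
    rw [cur_pow h m i hx]
    exact (cur_posSemidef hs i hx).smul (by positivity)

theorem semipos_of_cur_eq {h : HM L} {h' : HM L'} (hs : h.Semipos)
    (hc : ∀ i, ∀ x ∈ (A.e i).source, cur h' i x = cur h i x) : h'.Semipos :=
  semipos_of_cur fun i x hx => by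
    rw [hc i x hx]
    exact cur_posSemidef hs i hx

/-- the metric of `L ^ b * (lb P) ^ m` -/
def hmB (P : ProjD A) (hL : HM L) (b m : ℕ) : HM (L ^ b * (lb P) ^ m) :=
  HM_333.mul (HM_333.pow hL b) (HM_333.pow (fs P) m)

theorem hmB_semipos (P : ProjD A) {hL : HM L} (hs : hL.Semipos) (b m : ℕ) :
    (hmB P hL b m).Semipos :=
  semipos_mul (semipos_pow hs b) (semipos_pow (Pos.semipos (fs_pos P)) m)


/-! ### (M2) -/

theorem eq_zero_of_rank {S : Matrix (Fin n) (Fin n) ℂ} (h : S.rank = 0) : S = 0 := by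
  have h1 : Module.finrank ℂ (LinearMap.range S.mulVecLin) = 0 := h
  rw [Submodule.finrank_eq_zero, LinearMap.range_eq_bot] at h1
  ext a b
  have := congrArg (fun f : (Fin n → ℂ) →ₗ[ℂ] (Fin n → ℂ) => f (Pi.single b 1) a) h1
  simpa [Matrix.mulVecLin_apply] using this

/-- the maximal rank -/
theorem exists_nu (h : HM L) (hp : ∃ i, ∃ x ∈ (A.e i).source, 1 ≤ (cur h i x).rank) :
    ∃ ν, 1 ≤ ν ∧ (∀ i, ∀ x ∈ (A.e i).source, (cur h i x).rank ≤ ν) ∧
      ∃ i, ∃ x ∈ (A.e i).source, ν ≤ (cur h i x).rank := by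
  classical
  have hle : ∀ i x, (cur h i x).rank ≤ n := fun i x => by
    simpa using (cur h i x).rank_le_card_width
  have h1 : 1 ≤ n := by
    obtain ⟨i, x, -, hx⟩ := hp
    exact hx.trans (hle i x)
  set p : ℕ → Prop := fun k => ∃ i, ∃ x ∈ (A.e i).source, k ≤ (cur h i x).rank with hpd
  refine ⟨Nat.findGreatest p n, Nat.le_findGreatest h1 hp, fun i x hx => ?_,
    Nat.findGreatest_spec (P := p) h1 hp⟩
  exact Nat.le_findGreatest (P := p) (hle i x) ⟨i, x, hx, le_rfl⟩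

section

variable [T2Space M] [CompactSpace M] [Finite A.ι] [ConnectedSpace M]

/-- `FF ≠ ⊥` implies that the curvature has rank at least one somewhere -/
theorem rank_pos (hY : YauStmt) (hG : GoodA A) (P : Part A) {H : HM L'} (hH : H.Pos)
    {h : HM (KB A)⁻¹} (hs : h.Semipos)
    {hL : HM L} {c₀ : ℝ} (hc : ∀ i, ∀ x ∈ (A.e i).source, cur hL i x = (c₀ : ℂ) • cur h i x)
    {ρ : Type} [Fintype ρ] [DecidableEq ρ] {w0 : A.ι → M → (ρ → FI n) → ℂ} {a : ℕ}
    (hw : TS ρ (L ^ a) w0) (h0 : w0 ≠ 0) (hFF : FF769.FF hw h0 ≠ ⊥) :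
    ∃ i, ∃ x ∈ (A.e i).source, 1 ≤ (cur h i x).rank := by
  cases nonempty_fintype A.ι
  by_contra hcon
  push Not at hcon
  have hr0 : ∀ i, ∀ x ∈ (A.e i).source, (cur h i x).rank = 0 := fun i x hx =>
    Nat.lt_one_iff.1 (hcon i x hx)
  refine hFF (le_bot_iff.1 fun g hg => ?_)
  -- `ev g` is constant near a regular point
  obtain ⟨x0, hx0⟩ := (dense_reg g).nonempty
  obtain ⟨i, hi⟩ := A.cover x0
  have hz0 := (A.e i).map_source hi
  have ho : IsOpen ((A.e i).target ∩ (A.e i).symm ⁻¹' (reg g)) := isOpen_ti (isOpen_reg g)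
  have hm : A.e i x0 ∈ (A.e i).target ∩ (A.e i).symm ⁻¹' (reg g) :=
    ⟨hz0, by rw [mem_preimage, (A.e i).left_inv hi]; exact hx0⟩
  obtain ⟨ε, hε, hball⟩ := Metric.isOpen_iff.1 ho _ hm
  have hd : DifferentiableOn ℂ (fun z => ev g ((A.e i).symm z)) (Metric.ball (A.e i x0) ε) :=
    DifferentiableOn.mono (holU_ev g i) hball
  have hf0 : ∀ z ∈ Metric.ball (A.e i x0) ε, fderiv ℂ (fun z => ev g ((A.e i).symm z)) z = 0 := by
    intro z hz
    have hzt := (hball hz).1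
    have hx : (A.e i).symm z ∈ (A.e i).source := (A.e i).map_target hzt
    have hc0 : cur h i ((A.e i).symm z) = 0 := by
      have := hr0 i _ hx
      exact eq_zero_of_rank this
    have hk := fun v : Fin n → ℂ => FFi_101.fi_FF' hY hG P hH hs (ν := 0)
      (fun i x hx => (hr0 i x hx).le) hc hw h0 hg hx (hball hz).2 (hr0 i _ hx) (v := v)
      (by simp [hc0])
    rw [(A.e i).right_inv hzt] at hk
    have he : ∀ a, fderiv ℂ (fun z => ev g ((A.e i).symm z)) z (EuclideanSpace.single a 1) = 0 := by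
      intro a
      have h2 := hk (Pi.single a 1)
      simpa [Pi.single_apply, dgr] using h2
    refine ContinuousLinearMap.ext fun v => ?_
    have hv : v = ∑ a, v a • EuclideanSpace.single a (1 : ℂ) := by
      ext b
      simp [Finset.sum_apply, Pi.single_apply]
    rw [hv, map_sum]
    simp [he]
  have hconst : ∀ z ∈ Metric.ball (A.e i x0) ε,
      ev g ((A.e i).symm z) = ev g x0 := by
    intro z hz
    have h1 := (convex_ball (A.e i x0) ε).is_const_of_fderivWithin_eq_zero (𝕜 := ℂ) hd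
      (fun z hz => by
        rw [fderivWithin_of_isOpen Metric.isOpen_ball hz]
        exact hf0 z hz) hz (Metric.mem_ball_self hε)
    simpa [(A.e i).left_inv hi] using h1
  have hU : IsOpen ((A.e i).source ∩ (A.e i) ⁻¹' Metric.ball (A.e i x0) ε) :=
    (A.e i).isOpen_inter_preimage Metric.isOpen_ball
  have key : g = algebraMap ℂ (Mer A) (ev g x0) := by
    refine eq_of_open hU ⟨x0, hi, Metric.mem_ball_self hε⟩ ?_
    rintro x ⟨hx, hxb⟩ _ _
    rw [(reg_algebraMap (ev g x0) x).2]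
    have := hconst _ hxb
    rwa [(A.e i).left_inv hx] at this
  rw [key]
  exact algebraMap_mem ⊥ _

/-- **field `fi` of `YD`**: the elements of `FF`, as functions on a Stein domain, are first
integrals of `ker θ` where `rank θ = ν` -/
theorem fi_fun (hY : YauStmt) (hG : GoodA A) (P : Part A) {H : HM L'} (hH : H.Pos)
    {h : HM (KB A)⁻¹} (hs : h.Semipos) {ν : ℕ}
    (hν : ∀ i, ∀ x ∈ (A.e i).source, (cur h i x).rank ≤ ν)
    {hL : HM L} {c₀ : ℝ} (hc : ∀ i, ∀ x ∈ (A.e i).source, cur hL i x = (c₀ : ℂ) • cur h i x)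
    {ρ : Type} [Fintype ρ] [DecidableEq ρ] {w0 : A.ι → M → (ρ → FI n) → ℂ} {a : ℕ}
    (hw : TS ρ (L ^ a) w0) (h0 : w0 ≠ 0) {g : Mer A} (hg : g ∈ FF769.FF hw h0)
    {S : SD A} {y : Mo S → ℂ} (hr : ∀ x : Mo S, x.val ∈ reg g)
    (hy : ∀ x : Mo S, y x = ev g x.val) :
    ∀ i, ∀ x : Mo S, x.val ∈ (A.e i).source → (cur h i x.val).rank = ν →
      ∀ v : Fin n → ℂ, cur h i x.val *ᵥ (star v) = 0 →
        df A i (ext0 y) x.val (WithLp.toLp 2 v) = 0 := by
  cases nonempty_fintype A.ι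
  intro i x hx hrk v hv
  have hherm := cur_herm h i hx
  have hv' : ∀ b, ∑ a, v a * cur h i x.val a b = 0 := by
    intro b
    have h1 := congrFun hv b
    simp only [Matrix.mulVec, dotProduct, Pi.star_apply, Pi.zero_apply] at h1
    have h2 := congrArg star h1
    rw [star_sum, star_zero] at h2
    rw [← h2]
    refine Finset.sum_congr rfl fun a _ => ?_
    rw [star_mul', star_star, hherm.apply a b]
    ring
  have key := FFi_101.fi_FF' hY hG P hH hs hν hc hw h0 hg hx (hr x) hrk hv'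
  have hE : (fun w => ext0 y ((A.e i).symm w)) =ᶠ[𝓝 (A.e i x.val)]
      fun w => ev g ((A.e i).symm w) := by
    have hc1 := (A.e i).continuousAt_symm ((A.e i).map_source hx)
    rw [ContinuousAt, (A.e i).left_inv hx] at hc1
    filter_upwards [hc1.eventually (S.isOpen.mem_nhds x.prop)] with w hw
    have h3 := ext0_val y (⟨(A.e i).symm w, hw⟩ : Mo S)
    exact h3.trans (hy _)
  unfold df
  rw [hE.fderiv_eq]
  have hvv : (WithLp.toLp 2 v : Cn n) = ∑ a, v a • EuclideanSpace.single a (1 : ℂ) := by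
    ext b
    simp [Finset.sum_apply, Pi.single_apply]
  rw [hvv, map_sum, ← key]
  refine Finset.sum_congr rfl fun a _ => ?_
  rw [map_smul, smul_eq_mul]
  rfl


end

end

end Crest.Agent.R273.MM_844
end

-- ▼ part R273/AsmY_73
section

/-!
# R273 (S0416), Part A, HALF 2, assembly of the record `YD` (helper73)

* `R4 X hL`  : `λ` is bounded on the fibres of `y`, outside of a divisor
* `yd_fill`  : the record, from the choices `X : HD P L` and the families of Lemma U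
* `yd_of`    : the record, from the choices `X : HD P L` and `R4 X hL`
-/

set_option autoImplicit false
set_option linter.unusedSectionVars false

open Set Filter Topology Complex MeasureTheory
open scoped ContDiff Matrix ENNReal NNReal

namespace Crest.Agent.R273.AsmY_73

open Crest.Agent.R275.Geo Crest.Agent.R275.Core144 Crest.Agent.R275.GC293
open Crest.Agent.R273.SteinA_794
open Crest.Agent.R273.SteinB_794 Crest.Agent.R273.SteinC_794 Crest.Agent.R273.SteinD_794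
open Crest.Agent.R273.SteinE_794 Crest.Agent.R273.SteinF_794
open Crest.Agent.R273.Defs_333 (ProjD HM HM.wt HM.Semipos HM.Pos HasSec)
open Crest.Agent.R273.Kah_333 (cur Kah)
open Crest.Agent.R273.FS_333 (lb sec isHS_sec)
open Crest.Agent.R273.Mer769 Crest.Agent.R273.FF769
open Crest.Agent.R273.Cram_747 (TS)
open Crest.Agent.R273.Fock_243 (FI)
open Crest.Agent.R273.TD3_733 (D2)
open Crest.Agent.R273.YauDefs_635 (YauStmt)
open Crest.Agent.R273.Chow_313 Crest.Agent.R273.LemU_619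
open Crest.Agent.R273.YDx1_945 Crest.Agent.R273.YDx3_945 Crest.Agent.R273.YDx5_945
open Crest.Agent.R273.AsmA_73 (YD evp)
open Crest.Agent.R273.Pen_93 (Bf)
open Crest.Agent.R271.Ho51 (RDom cp Hol)

noncomputable section

variable {n : ℕ} {M : Type} [TopologicalSpace M] {A : Atl n M} {P : ProjD A} {L : LB A}

section

variable [ConnectedSpace M] (X : HD P L)

/-- the generators on the domain -/
def yS (l : Fin (X.b + 1)) (x : Mo X.D.S) : ℂ := X.y l x.val

/-- `λ` on the domain -/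
def lamS (x : Mo X.D.S) : ℂ := X.lam x.val

theorem g_mem (l : Fin (X.b + 1)) : X.g l ∈ FF (X.ts X.a X.ha) (X.ne X.a X.ha) := by
  rw [← X.gen]
  exact IntermediateField.subset_adjoin ℂ _ (mem_range_self l)

theorem FF_ne : FF (X.ts X.a X.ha) (X.ne X.a X.ha) ≠ ⊥ := by
  intro h
  have h1 := g_mem X (⟨0, X.b_pos⟩ : Fin X.b).castSucc
  rw [h] at h1
  obtain ⟨c, hc⟩ := IntermediateField.mem_bot.1 h1
  have h2 : Transcendental ℂ (X.g (⟨0, X.b_pos⟩ : Fin X.b).castSucc) :=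
    X.indep.transcendental ⟨0, X.b_pos⟩
  exact h2 (hc ▸ isAlgebraic_algebraMap c)

theorem yS_hol (l : Fin (X.b + 1)) : Hol (yS X l) := hol_of fun i => X.y_hol l i

theorem lamS_hol : Hol (lamS X) := hol_of fun i => X.lam_hol i

theorem yS_ev (l : Fin (X.b + 1)) (x : Mo X.D.S) : x.val ∈ reg (X.g l) ∧ ev (X.g l) x.val = yS X l x :=
  X.y_ev l x.prop

theorem eval_yS (Q : MvPolynomial (Fin (X.b + 1)) ℂ) (x : Mo X.D.S) :
    x.val ∈ reg (MvPolynomial.aeval X.g Q) ∧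
      ev (MvPolynomial.aeval X.g Q) x.val = MvPolynomial.eval (fun l => yS X l x) Q := by
  have h1 := Crest.Agent.R273.RKd_635.ev_aeval (Y := X.g) (x := x.val)
    (fun l => (yS_ev X l x).1) Q
  have h2 : (fun l => ev (X.g l) x.val) = fun l => yS X l x := funext fun l => (yS_ev X l x).2
  rw [h2] at h1
  exact h1

theorem fib (hR' : ∀ x : Mo X.D.S,
      MvPolynomial.eval (fun l => yS X l x) (MvPolynomial.pderiv (Fin.last X.b) X.R) ≠ 0) :
    Crest.Agent.R273.RKd_635.FIB (yS X) := by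
  intro x x' hxx U hU U' hU' Q hQ
  exact Crest.Agent.R273.Fib_794.fib (n := n) X.hn (fun l => (w_hol (yS_hol X l)).sm.continuous)
    (fun k x => by
      show X.y k.castSucc x.val = (X.D.q (Fin.castLE X.hn k)).fn x.val
      rw [X.hq k]
      rfl)
    (R := X.R) (fun x => by
      have h1 := (eval_yS X X.R x).2
      rw [X.R0] at h1
      rw [← h1]
      have := (reg_algebraMap (A := A) 0 x.val).2
      rwa [map_zero] at this) hR' hxx hU hU' hQ

end

section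

variable [T2Space M] [CompactSpace M] [Finite A.ι] [ConnectedSpace M]
  {h : HM (KB A)⁻¹} {hL : HM L}

/-- **the record** -/
theorem yd_fill (hY : YauStmt) (hG : GoodA A) (PA : Part A) {L' : LB A} {H : HM L'} (hH : H.Pos)
    (hs : h.Semipos) (hc : ∀ i, ∀ x ∈ (A.e i).source, cur hL i x = cur h i x) (X : HD P L)
    (hR' : ∀ x : Mo X.D.S,
      MvPolynomial.eval (fun l => yS X l x) (MvPolynomial.pderiv (Fin.last X.b) X.R) ≠ 0)
    {e : ℕ} (he : 0 < e) {p p' : ℕ → MvPolynomial (Fin (X.b + 1)) ℂ} {m m' : ℕ}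
    (c0 : ∀ x, evp (yS X) p 0 x ≠ 0) (c0' : ∀ x, evp (yS X) p' 0 x ≠ 0)
    (Ua : ∃ C : ℝ, 0 < C ∧ ∀ x : Mo X.D.S,
      (‖lamS X x‖ ^ 2 * Real.exp (-(X.j0 * wtS hL X.σ x.val))) ^ e *
        Bf (evp (yS X) p') m' x ≤ C * Bf (evp (yS X) p) m x)
    (Ub : ∃ C : ℝ, 0 < C ∧ ∀ (x : Mo X.D.S) (b : ℝ), 0 ≤ b →
      (∀ x' : Mo X.D.S, (∀ l, yS X l x' = yS X l x) →
        ‖lamS X x'‖ ^ 2 * Real.exp (-(X.j0 * wtS hL X.σ x'.val)) ≤ b) →
      Bf (evp (yS X) p) m x ≤ C * b ^ e * Bf (evp (yS X) p') m' x) :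
    Nonempty (YD h L hL) := by
  have hc' : ∀ i, ∀ x ∈ (A.e i).source, cur hL i x = (((1 : ℝ) : ℂ)) • cur h i x := by
    intro i x hx
    rw [hc i x hx, Complex.ofReal_one, one_smul]
  have hsL : hL.Semipos := Crest.Agent.R273.MM_844.semipos_of_cur_eq hs hc
  obtain ⟨ν, hν1, hν2, hν3⟩ := Crest.Agent.R273.MM_844.exists_nu h
    (Crest.Agent.R273.MM_844.rank_pos hY hG PA hH hs hc' (X.ts X.a X.ha) (X.ne X.a X.ha) (FF_ne X))
  obtain ⟨x0, hx0⟩ := X.Une
  obtain ⟨i0, hi0⟩ := A.cover x0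
  have hd0 : ∃ i, ∃ x ∈ (A.e i).source, X.D.t i x ≠ 0 :=
    ⟨i0, x0, hi0, (mem_nz X.D.ht hi0).1 (X.hU ▸ hx0)⟩
  have hnzt : ∀ x ∈ X.D.S.U, x ∈ Cram_747.nz X.t0 := fun x hx =>
    let ⟨i, hi⟩ := A.cover x
    ⟨i, hi, X.t0_ne hi hx⟩
  have hnza : ∀ x ∈ X.D.S.U, x ∈ Cram_747.nz (X.w X.a) := fun x hx =>
    let ⟨i, hi⟩ := A.cover x
    ⟨i, hi, X.wa_ne hi hx⟩
  have hnzb : ∀ x ∈ X.D.S.U, x ∈ Cram_747.nz (X.w (X.a + X.j0)) := fun x hx =>
    let ⟨i, hi⟩ := A.cover x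
    ⟨i, hi, X.wb_ne hi hx⟩
  exact ⟨{
    ν := ν
    ν_pos := hν1
    rk_le := hν2
    rk_eq := hν3
    S := X.D.S
    E := X.D.E
    LD := lb P ^ X.D.m
    d := X.D.t
    hd := X.D.ht
    d0 := hd0
    U_eq := X.hU
    σ := X.σ
    hσ := X.hσ
    σ0 := X.σ0
    j0 := X.j0
    j0_pos := X.j0_pos
    lam := lamS X
    hlam := lamS_hol X
    lam0 := fun x => X.lam_ne x.prop
    N := X.b + 1
    y := yS X
    hy := yS_hol X
    By := L ^ X.bb * lb P ^ X.mm
    hBy := Crest.Agent.R273.MM_844.hmB P hL X.bb X.mm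
    semi := Crest.Agent.R273.MM_844.hmB_semipos P hsL X.bb X.mm
    t := X.t
    ht := X.ht
    t0 := fun i x hx hxU => (mem_nz X.ht hx).1 (X.Ut hxU)
    s := X.s
    hs := X.hs
    rel := fun l i x hx => X.y_rel l hx x.prop
    fi := fun l => Crest.Agent.R273.MM_844.fi_fun hY hG PA hH hs hν2 hc' (X.ts X.a X.ha)
      (X.ne X.a X.ha) (g_mem X l) (fun x => (yS_ev X l x).1) (fun x => (yS_ev X l x).2.symm)
    RK := Crest.Agent.R273.RKd_635.rk hL h X.D.ht hd0 X.hU X.hσ X.σ0 (lamS_hol X)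
      (X.ts X.a X.ha) (X.ne X.a X.ha) (X.ts X.a X.ha) (X.ts _ X.hb) (X.prp _ X.ha _ X.ha)
      (X.prp _ X.hb _ X.ha) hnza hnzb
      (fun i x hx F => X.relw hx x.prop F) (yS_hol X) X.ht0 hnzt X.hτ
      (fun l i x hx F => X.τ_rel l hx x.prop F) X.gen.ge (yS_ev X) (fib X hR')
    e := e
    e_pos := he
    p := p
    p' := p'
    m := m
    m' := m'
    c0 := c0
    c0' := c0'
    Ua := Ua
    Ub := Ub }⟩

/-- the values of `λ` -/
def Lam (X : HD P L) (hL : HM L) (x : M) : ℝ :=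
  ‖X.lam x‖ * Real.exp (-(X.j0 * wtS hL X.σ x) / 2)

/-- **(R4)**: `λ` is bounded on the fibres of `y`, outside of a divisor -/
def R4 (X : HD P L) (hL : HM L) : Prop :=
  ∃ g1 : Reg (lb P ^ X.D.m) X.D.t X.D.ht, g1 ≠ 0 ∧ ∀ x, g1.1 x ≠ 0 → ∃ b : ℝ, ∀ x', g1.1 x' ≠ 0 →
    (∀ l, X.y l x'.1 = X.y l x.1) → Lam X hL x'.1 ≤ b

/-- **the record**, from the choices and (R4) -/
theorem yd_of (hY : YauStmt) (hG : GoodA A) (PA : Part A) (hD : D2 A) {L' : LB A} {H : HM L'}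
    (hH : H.Pos) (hs : h.Semipos) (hc : ∀ i, ∀ x ∈ (A.e i).source, cur hL i x = cur h i x)
    (X : HD P L) (hR4 : R4 X hL) : Nonempty (YD h L hL) := by
  classical
  obtain ⟨x0, hx0⟩ := X.Une
  obtain ⟨i0, hi0⟩ := A.cover x0
  have hne : ∃ i x, X.D.t i x ≠ 0 := ⟨i0, x0, (mem_nz X.D.ht hi0).1 (X.hU ▸ hx0)⟩
  let yR : Fin (X.b + 1) → Reg (lb P ^ X.D.m) X.D.t X.D.ht := fun l =>
    ⟨fun x => X.y l x.1, quot_mem PA hD P X.hm X.D.ht (X.hs l) X.ht (X.hU ▸ X.Ut)⟩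
  obtain ⟨α, β, hα, hβ, C, hC, hcmp⟩ := Crest.Agent.R273.Cmp2_145.cmp_reg PA hD X.hm X.D.ht X.hU
    X.Une hL X.hσ X.σ0 X.hsa X.hsb (fun i x hx hxU => X.sa_ne hx hxU)
    (fun i x hx hxU => X.sb_ne hx hxU) (lam := X.lam) (fun i x hx hxU => X.rel hx hxU)
  -- the derivative of the equation of the primitive element
  set g : Reg (lb P ^ X.D.m) X.D.t X.D.ht :=
    MvPolynomial.aeval yR (MvPolynomial.pderiv (Fin.last X.b) X.R) with hg_def
  have hgval : ∀ x : nz X.D.t, g.1 x =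
      MvPolynomial.eval (fun l => X.y l x.1) (MvPolynomial.pderiv (Fin.last X.b) X.R) := by
    intro x
    have h1 : evR X.D.ht x g = MvPolynomial.aeval (fun l => evR X.D.ht x (yR l))
        (MvPolynomial.pderiv (Fin.last X.b) X.R) := by
      rw [hg_def, MvPolynomial.comp_aeval_apply]
    exact h1
  have hg : g ≠ 0 := by
    intro h0
    have hdn := Crest.Agent.R273.RKd_635.dense_ev (yS_ev X) X.R1
    obtain ⟨x, hx⟩ := (hdn.nonempty_iff.2 ⟨⟨x0, hx0⟩⟩)
    refine hx ?_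
    have h2 := hgval ⟨x.val, X.hU ▸ x.prop⟩
    rw [h0] at h2
    exact h2.symm
  obtain ⟨e, p, p', m, m', j, r, he, hr, hr0, hnr, hgr, hF⟩ :=
    Crest.Agent.R273.UaUb_619.exists_fields PA hD P X.hm X.D.ht hne yR α β hα hβ hg
      (fun x => Lam X hL x.1) (fun x => mul_nonneg (norm_nonneg _) (Real.exp_pos _).le) hC
      (fun x => (hcmp x).2.1) (fun x => (hcmp x).2.2) hR4
  have hne' : (X.D.S.U ∩ nz r).Nonempty := by rw [X.hU]; exact hnr
  obtain ⟨c0, c0', Ua, Ub⟩ := hF (X.shr hr hne').D.S (by rw [X.shr_DU hr hne', X.hU]) L hL X.σ X.j0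
    (lamS (X.shr hr hne')) (yS (X.shr hr hne')) (fun l x hx => rfl) (fun x hx => by
      show (‖X.lam x.val‖ * Real.exp (-(X.j0 * wtS hL X.σ x.val) / 2)) ^ 2 = _
      rw [mul_pow, ← Real.exp_nat_mul]
      congr 2
      push_cast
      ring)
  refine yd_fill hY hG PA hH hs hc (X.shr hr hne') (fun x => ?_) he c0 c0' Ua Ub
  have hxU : x.val ∈ X.D.S.U ∩ nz r := by
    rw [← X.shr_DU hr hne']
    exact x.prop
  have h1 : x.val ∈ nz X.D.t := X.hU ▸ hxU.1
  have h2 := hgr ⟨x.val, h1⟩ hxU.2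
  rw [hgval] at h2
  exact h2

end

end

end Crest.Agent.R273.AsmY_73
end

-- ▼ part R273/TR0_769

/-!
# R273, leaf A-TR0 (helper769): the case `FF = ℂ`

`num_mem`, `hor`  : the functions `f = w_a^{c-b} w_c^{b-a} / w_b^{c-a}` are in `FF`
`hasSec_of_bot`   : if `FF = ℂ` then some `L^m`, `m > 0`, has a nonzero section
-/

set_option autoImplicit false
set_option linter.unusedSectionVars false

open Set Filter Topology Complex
open scoped ContDiff Matrix ComplexConjugate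

namespace Crest.Agent.R273.FF769

open Crest.Agent.R275.Geo Crest.Agent.R275.Core144 Crest.Agent.R275.GC293
open Crest.Agent.R273.Defs_333
open Crest.Agent.R273.Rigid769 Crest.Agent.R273.Mer769
open Crest.Agent.R273.Cram_747 (TS KP tns tns_TS mnr tns_ne_zero exists_nz nz num den num_TS den_TS
  num_ne_zero den_ne_zero num_apply den_apply)
open Crest.Agent.R273.Fock_243 (FI Gam)

noncomputable section

variable {n : ℕ} {M : Type} [TopologicalSpace M] {A : Atl n M}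
variable {ρ : Type} [Fintype ρ] [DecidableEq ρ] {L : LB A} {w : ℕ → A.ι → M → (ρ → FI n) → ℂ}

theorem ww_num {k0 a b c : ℕ} (hab : a < b) (hbc : b < c) (ha : TS ρ (L ^ a) (w a))
    (hc : TS ρ (L ^ c) (w c)) (pa : Cram_747.Prp (w a) (w k0)) (pc : Cram_747.Prp (w c) (w k0)) :
    WW L (w k0) (Fin (c - a)) (b * (c - a)) (num w a b c) := by
  refine ⟨num_TS hab hbc ha hc, Cram_747.Prp.tns fun t => ?_⟩
  by_cases ht : t.1 < c - b
  · simpa [ht] using pa
  · simpa [ht] using pc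

theorem ww_den {k0 a b c : ℕ} (hab : a < b) (hbc : b < c) (hb : TS ρ (L ^ b) (w b))
    (pb : Cram_747.Prp (w b) (w k0)) :
    WW L (w k0) (Fin (c - a)) (b * (c - a)) (den w a b c) :=
  ⟨den_TS hab hbc hb, Cram_747.Prp.tns fun _ => pb⟩

/-- the function `f = w_a^{c-b} w_c^{b-a} / w_b^{c-a}` is a nonzero element of `FF` -/
theorem exists_f [ConnectedSpace M] {k0 a b c d : ℕ} (hw0 : TS ρ (L ^ d) (w k0)) (h00 : w k0 ≠ 0)
    (hab : a < b) (hbc : b < c) (ha : TS ρ (L ^ a) (w a)) (hb : TS ρ (L ^ b) (w b))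
    (hc : TS ρ (L ^ c) (w c)) (ha0 : w a ≠ 0) (hb0 : w b ≠ 0) (hc0 : w c ≠ 0)
    (pa : Cram_747.Prp (w a) (w k0)) (pb : Cram_747.Prp (w b) (w k0))
    (pc : Cram_747.Prp (w c) (w k0)) :
    ∃ g ∈ FF hw0 h00, g ≠ 0 ∧ Rel g (num w a b c) (den w a b c) := by
  have : Nonempty (Fin (c - a)) := ⟨⟨0, by omega⟩⟩
  have h1 := ww_num (k0 := k0) hab hbc ha hc pa pc
  have h2 := ww_den (k0 := k0) hab hbc hb pb
  have hn : num w a b c ≠ 0 := num_ne_zero ha hc ha0 hc0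
  have hd : den w a b c ≠ 0 := den_ne_zero (a := a) (c := c) hb hb0
  obtain ⟨g, hg, hr⟩ := h1.exists_mem hw0 h00 h2 hd
  refine ⟨g, hg, ?_, hr⟩
  rintro rfl
  apply hn
  obtain ⟨i, x, hi, hx⟩ := ts_nz h1.ts hn
  exfalso
  have h3 := (reg_algebraMap (A := A) 0 x)
  rw [map_zero] at h3
  apply hx
  funext F
  rw [hr i x hi h3.1 F, h3.2, zero_mul]
  rfl

theorem preconn_target (hG : GoodA A) (i : A.ι) : IsPreconnected (A.e i).target := by
  have h1 : A.ov i i = (A.e i).target := by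
    ext z
    exact ⟨fun h => h.1, fun h => ⟨h, (A.e i).map_target h⟩⟩
  rw [← h1]
  exact (hG i i).isPreconnected

/-- the case `FF = ℂ` -/
theorem hasSec_of_bot [ConnectedSpace M] (hcon : ∀ i, IsPreconnected (A.e i).target)
    {K : Set ℕ} (hK : K.Infinite) (hw : ∀ k ∈ K, TS ρ (L ^ k) (w k)) (h0 : ∀ k ∈ K, w k ≠ 0)
    (hp : ∀ k ∈ K, ∀ l ∈ K, Cram_747.Prp (w k) (w l)) {k0 : ℕ} (hk0 : k0 ∈ K)
    (hFF : FF (hw k0 hk0) (h0 k0 hk0) = ⊥) : ∃ m, 0 < m ∧ HasSec (L ^ m) := by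
  refine rigid hcon (G := fun i j x => KP ρ (Gam (Jm A j i x))) K hK w
    (fun k hk => ts_isWS (hw k hk)) (fun k hk => ts_nz (hw k hk) (h0 k hk))
    (fun k hk l hl => prp_of (hp k hk l hl)) ?_
  intro a ha b hb c hc hab hbc
  obtain ⟨g, hg, hg0, hr⟩ := exists_f (hw k0 hk0) (h0 k0 hk0) hab hbc (hw a ha) (hw b hb)
    (hw c hc) (h0 a ha) (h0 b hb) (h0 c hc) (hp a ha k0 hk0) (hp b hb k0 hk0) (hp c hc k0 hk0)
  rw [hFF, IntermediateField.mem_bot] at hg
  obtain ⟨C, hC⟩ := hg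
  refine ⟨C, ?_, fun i x hi F => ?_⟩
  · rintro rfl
    rw [map_zero] at hC
    exact hg0 hC.symm
  · have h3 := reg_algebraMap (A := A) C x
    rw [hC] at h3
    have h4 := hr i x hi h3.1 (fun p => F p.2)
    rw [num_apply hab hbc, den_apply, h3.2] at h4
    exact h4

end

end Crest.Agent.R273.FF769
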