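import Mathlib
import Crest.Agent.R273.TR0_769_Mg

-- ▼ part R273/R4Alg_769
section

/-!
# R273, leaf A-R4ALG (helper769)

`r4alg` : `S` a finitely generated algebra over a field of characteristic zero, contained in a
field `K`, `s ≠ 0`, `s μ ^ N` integral over `S` for infinitely many `N`; then `μ` is integral
over `S`.
-/

set_option autoImplicit false
set_option linter.style.haveILetI false

open Polynomial

namespace Crest.Agent.R273.R4Alg769

theorem normal_case {P K : Type*} [CommRing P] [IsDomain P] [IsIntegrallyClosed P]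
    [IsNoetherianRing P] [CharZero P] [Field K] [Algebra P K]
    (hinj : Function.Injective (algebraMap P K)) {s μ : K} (hs : s ≠ 0)
    (hinf : {N : ℕ | IsIntegral P (s * μ ^ N)}.Infinite) : IsIntegral P μ := by
  by_cases hμ : μ = 0
  · rw [hμ]; exact isIntegral_zero
  haveI : FaithfulSMul P K := (faithfulSMul_iff_algebraMap_injective P K).2 hinj
  let Q := FractionRing P
  letI : Algebra Q K := FractionRing.liftAlgebra P K
  haveI : IsScalarTower P Q K := inferInstance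
  haveI : CharZero Q := charZero_of_injective_algebraMap (IsFractionRing.injective P Q)
  -- algebraicity
  obtain ⟨N1, h1⟩ := hinf.nonempty
  obtain ⟨N2, h2, h12⟩ := hinf.exists_gt N1
  have a1 : IsIntegral Q (s * μ ^ N1) := IsIntegral.tower_top (A := Q) h1
  have a2 : IsIntegral Q (s * μ ^ N2) := IsIntegral.tower_top (A := Q) h2
  have a3 : IsIntegral Q (μ ^ (N2 - N1)) := by
    have : μ ^ (N2 - N1) = (s * μ ^ N2) * (s * μ ^ N1)⁻¹ := by
      have h3 : μ ^ N2 = μ ^ (N2 - N1) * μ ^ N1 := by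
        rw [← pow_add, Nat.sub_add_cancel h12.le]
      rw [h3]
      field_simp
    rw [this]
    exact a2.mul a1.inv
  have a4 : IsIntegral Q μ := IsIntegral.of_pow (Nat.sub_pos_of_lt h12) a3
  have a5 : IsIntegral Q s := by
    have : s = (s * μ ^ N1) * (μ ^ N1)⁻¹ := by field_simp
    rw [this]
    exact a1.mul (a4.pow N1).inv
  -- the finite extension
  let E := IntermediateField.adjoin Q ({s, μ} : Set K)
  haveI : FiniteDimensional Q E := by
    refine IntermediateField.finiteDimensional_adjoin ?_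
    rintro x (rfl | rfl)
    · exact a5
    · exact a4
  have hsE : s ∈ E := IntermediateField.subset_adjoin _ _ (by simp)
  have hμE : μ ∈ E := IntermediateField.subset_adjoin _ _ (by simp)
  obtain ⟨s', hs1⟩ : ∃ s' : E, (s' : K) = s := ⟨⟨s, hsE⟩, rfl⟩
  obtain ⟨μ', hμ1⟩ : ∃ μ' : E, (μ' : K) = μ := ⟨⟨μ, hμE⟩, rfl⟩
  have hs' : s' ≠ 0 := fun h => hs (by rw [← hs1, h]; rfl)
  haveI : IsScalarTower P E K := IsScalarTower.of_algebraMap_eq fun x => by
    rw [IsScalarTower.algebraMap_apply P Q E, ← IsScalarTower.algebraMap_apply Q E K,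
      ← IsScalarTower.algebraMap_apply P Q K]
  have hEinj : Function.Injective (algebraMap E K) := (algebraMap E K).injective
  have hint : ∀ x : E, IsIntegral P (x : K) ↔ IsIntegral P x := fun x =>
    isIntegral_algebraMap_iff (A := E) (B := K) hEinj
  haveI : IsNoetherian P (integralClosure P E) :=
    IsIntegralClosure.isNoetherian P Q E (integralClosure P E)
  -- scaling
  have b1 : IsAlgebraic P s' := by
    have : IsAlgebraic Q s' := Algebra.IsAlgebraic.isAlgebraic s'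
    exact (IsFractionRing.isAlgebraic_iff P Q E).2 this
  obtain ⟨d, hd, hds⟩ := b1.exists_integral_multiple
  set r : E := d • s' with hr
  have hr0 : r ≠ 0 := by
    rw [hr, Algebra.smul_def]
    refine mul_ne_zero ?_ hs'
    intro h
    apply hd
    have : algebraMap P K d = 0 := by
      rw [IsScalarTower.algebraMap_apply P E K, h, map_zero]
    exact (map_eq_zero_iff _ hinj).1 this
  have b2 : ∀ N ∈ {N : ℕ | IsIntegral P (s * μ ^ N)}, IsIntegral P (r * μ' ^ N) := by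
    intro N hN
    have h3 : IsIntegral P (s' * μ' ^ N) := by
      rw [← hint]
      show IsIntegral P ((s' : K) * (μ' : K) ^ N)
      rw [hs1, hμ1]
      exact hN
    rw [hr, smul_mul_assoc]
    exact h3.smul d
  have b3 : ∀ i : ℕ, IsIntegral P (r * μ' ^ i) := by
    intro i
    obtain ⟨N, hN, hiN⟩ := hinf.exists_gt i
    have h3 := b2 N hN
    refine IsIntegral.of_pow (n := N) (by omega) ?_
    have h4 : (r * μ' ^ i) ^ N = (r * μ' ^ N) ^ i * r ^ (N - i) := by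
      rw [mul_pow, mul_pow, ← pow_mul, ← pow_mul, mul_comm i N, mul_right_comm, ← pow_add,
        Nat.add_sub_cancel' hiN.le]
    rw [h4]
    exact (h3.pow i).mul (hds.pow _)
  have b4 : ∀ x ∈ Algebra.adjoin P ({μ'} : Set E), IsIntegral P (r * x) := by
    intro x hx
    rw [Algebra.adjoin_singleton_eq_range_aeval] at hx
    obtain ⟨p, rfl⟩ := hx
    show IsIntegral P (r * aeval μ' p)
    rw [aeval_eq_sum_range, Finset.mul_sum]
    refine IsIntegral.sum _ fun i _ => ?_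
    rw [mul_smul_comm]
    exact (b3 i).smul _
  let f : (Algebra.adjoin P ({μ'} : Set E)) →ₗ[P] (integralClosure P E) :=
    { toFun := fun x => ⟨r * x.1, b4 x.1 x.2⟩
      map_add' := fun x y => Subtype.ext (by simp [mul_add])
      map_smul' := fun c x => Subtype.ext (by simp) }
  have hf : Function.Injective f := by
    intro x y hxy
    have h3 : r * x.1 = r * y.1 := congrArg Subtype.val hxy
    exact Subtype.ext (mul_left_cancel₀ hr0 h3)
  haveI : IsNoetherian P (Algebra.adjoin P ({μ'} : Set E)) :=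
    isNoetherian_of_injective f hf
  rw [← hμ1, hint]
  refine IsIntegral.of_mem_of_fg (Algebra.adjoin P ({μ'} : Set E)) ?_ μ'
    (Algebra.self_mem_adjoin_singleton P μ')
  have := (Submodule.fg_top (Subalgebra.toSubmodule (Algebra.adjoin P ({μ'} : Set E)))).1
    (IsNoetherian.noetherian (⊤ : Submodule P (Subalgebra.toSubmodule (Algebra.adjoin P ({μ'} : Set E)))))
  exact this

/-- **A-R4ALG** -/
theorem r4alg {F K : Type*} [Field F] [CharZero F] [Field K] [Algebra F K] (S : Subalgebra F K)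
    (hS : S.FG) {s μ : K} (hs : s ≠ 0) (hinf : {N : ℕ | IsIntegral S (s * μ ^ N)}.Infinite) :
    IsIntegral S μ := by
  haveI : Algebra.FiniteType F S := (Subalgebra.fg_iff_finiteType S).1 hS
  obtain ⟨e, g, hg, hgi⟩ := exists_integral_inj_algHom_of_fg F S
  letI : Algebra (MvPolynomial (Fin e) F) S := g.toRingHom.toAlgebra
  letI : Algebra (MvPolynomial (Fin e) F) K := ((algebraMap S K).comp g.toRingHom).toAlgebra
  haveI : IsScalarTower (MvPolynomial (Fin e) F) S K := IsScalarTower.of_algebraMap_eq fun x => rfl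
  haveI : Algebra.IsIntegral (MvPolynomial (Fin e) F) S := ⟨fun x => hgi x⟩
  haveI : CharZero (MvPolynomial (Fin e) F) := charZero_of_injective_algebraMap (MvPolynomial.C_injective (Fin e) F)
  have h1 : IsIntegral (MvPolynomial (Fin e) F) μ := by
    refine normal_case (P := MvPolynomial (Fin e) F) ?_ hs (hinf.mono fun N hN => ?_)
    · exact (Subtype.val_injective : Function.Injective (algebraMap S K)).comp hg
    · exact isIntegral_trans (R := MvPolynomial (Fin e) F) (A := S) _ hN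
  exact IsIntegral.tower_top h1

end Crest.Agent.R273.R4Alg769
end

-- ▼ part R273/R4x_73
section

/-!
# R273 (S0416), Part A, HALF 2, (R4), part 1 (helper73)

* `rh P k x`  : `|F_k|² / ∑ |F_j|²`
* `Gd X k v`  : growth of `v : Mer A` on the fibres of `y`, near the zeros of `F_k`, outside of a
                divisor of the affine model
* `Gd.of_int` : the bound for integral elements
-/

set_option autoImplicit false
set_option linter.unusedSectionVars false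

open Set Filter Topology Complex MeasureTheory
open scoped ContDiff Matrix ENNReal NNReal

namespace Crest.Agent.R273.R4x_73

open Crest.Agent.R275.Geo Crest.Agent.R275.Core144 Crest.Agent.R275.GC293
open Crest.Agent.R273.SteinA_794
open Crest.Agent.R273.SteinB_794 Crest.Agent.R273.SteinC_794 Crest.Agent.R273.SteinD_794
open Crest.Agent.R273.SteinE_794 Crest.Agent.R273.SteinF_794 Crest.Agent.R273.SteinG_794
open Crest.Agent.R273.Defs_333 (ProjD HM HM.wt HM.Semipos HM.Pos HasSec)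
open Crest.Agent.R273.FS_333 (lb sec isHS_sec exists_sec_ne fs)
open Crest.Agent.R273.Mer769 Crest.Agent.R273.FF769
open Crest.Agent.R273.Cram_747 (TS)
open Crest.Agent.R273.Fock_243 (FI)
open Crest.Agent.R273.TD3_733 (D2)
open Crest.Agent.R273.Chow_313
open Crest.Agent.R273.YDx1_945 Crest.Agent.R273.YDx3_945 Crest.Agent.R273.YDx5_945
open Crest.Agent.R273.AsmY_73

noncomputable section

variable {n : ℕ} {M : Type} [TopologicalSpace M] {A : Atl n M} {P : ProjD A} {L : LB A}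

theorem isHS1 (P : ProjD A) (k : Fin (P.N + 1)) : IsHS (lb P ^ 1) univ (sec P k) := by
  rw [pow_one]; exact isHS_sec P k

/-- `|F_k|² / ∑ |F_j|²` -/
def rh (P : ProjD A) (k : Fin (P.N + 1)) (x : M) : ℝ :=
  HM_333.nsq (fs P) (sec P k) (A.cover x).choose x

theorem rh_eq (k : Fin (P.N + 1)) {i : A.ι} {x : M} (hx : x ∈ (A.e i).source) :
    rh P k x = ‖sec P k i x‖ ^ 2 * (fs P).w i x :=
  HM_333.nsq_indep (fs P) (isHS_sec P k) ⟨(A.cover x).choose_spec, hx⟩ (mem_univ x)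

theorem rh_sum (x : M) : ∑ k, rh P k x = 1 := by
  obtain ⟨i, hi⟩ := A.cover x
  have h1 : ∑ k, rh P k x = (∑ k, ‖P.F i x k‖ ^ 2) * (∑ k, ‖P.F i x k‖ ^ 2)⁻¹ := by
    rw [Finset.sum_mul]
    refine Finset.sum_congr rfl fun k _ => ?_
    rw [rh_eq k hi, FS_333.sec_eq P hi]
    rfl
  rw [h1]
  have h2 := (fs P).pos i x hi
  exact mul_inv_cancel₀ (inv_pos.1 h2).ne'

theorem rh_nonneg (k : Fin (P.N + 1)) (x : M) : 0 ≤ rh P k x := by
  obtain ⟨i, hi⟩ := A.cover x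
  rw [rh_eq k hi]
  exact mul_nonneg (sq_nonneg _) ((fs P).pos i x hi).le

theorem rh_le (k : Fin (P.N + 1)) (x : M) : rh P k x ≤ 1 := by
  rw [← rh_sum (P := P) x]
  exact Finset.single_le_sum (f := fun k => rh P k x) (fun k _ => rh_nonneg k x) (Finset.mem_univ k)

/-- the largest coordinate -/
theorem exists_rh (x : M) : ∃ k : Fin (P.N + 1), (1 / (P.N + 1 : ℝ)) ≤ rh P k x ∧
    x ∈ nz (sec P k) := by
  have h1 : ∃ k : Fin (P.N + 1), (1 / (P.N + 1 : ℝ)) ≤ rh P k x := by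
    by_contra hcon
    push Not at hcon
    have h2 : ∑ k : Fin (P.N + 1), rh P k x < ∑ _k : Fin (P.N + 1), (1 / (P.N + 1 : ℝ)) :=
      Finset.sum_lt_sum_of_nonempty Finset.univ_nonempty fun k _ => hcon k
    rw [rh_sum, Finset.sum_const, Finset.card_univ, Fintype.card_fin, nsmul_eq_mul] at h2
    push_cast at h2
    have h3 : (P.N + 1 : ℝ) ≠ 0 := by positivity
    rw [mul_one_div_cancel h3] at h2
    exact lt_irrefl _ h2
  obtain ⟨k, hk⟩ := h1
  refine ⟨k, hk, ?_⟩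
  obtain ⟨i, hi⟩ := A.cover x
  rw [mem_nz (isHS_sec P k) hi]
  intro h0
  rw [rh_eq k hi, h0, norm_zero] at hk
  have : (0 : ℝ) < 1 / (P.N + 1 : ℝ) := by positivity
  simp at hk
  linarith

section

variable [ConnectedSpace M] (X : HD P L)

/-- growth of `v` on the fibres of `y`, near the zeros of `F_k` -/
def Gd (k : Fin (P.N + 1)) (v : Mer A) : Prop :=
  ∃ g1 : Reg (lb P ^ X.D.m) X.D.t X.D.ht, g1 ≠ 0 ∧ ∃ D : ℕ, ∀ x0 : nz X.D.t, g1.1 x0 ≠ 0 →
    ∃ C : ℝ, ∀ x' : nz X.D.t, x'.1 ∈ nz (sec P k) → g1.1 x' ≠ 0 →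
      (∀ l, X.y l x'.1 = X.y l x0.1) → x'.1 ∈ reg v ∧ ‖ev v x'.1‖ * rh P k x'.1 ^ D ≤ C

variable {X} {k : Fin (P.N + 1)}

theorem pow_rh_le {x : M} {D D' : ℕ} (h : D ≤ D') : rh P k x ^ D' ≤ rh P k x ^ D :=
  pow_le_pow_of_le_one (rh_nonneg k x) (rh_le k x) h

variable [T2Space M]

theorem Xne : ∃ i x, X.D.t i x ≠ 0 := by
  obtain ⟨x0, hx0⟩ := X.Une
  obtain ⟨i0, hi0⟩ := A.cover x0
  exact ⟨i0, x0, (mem_nz X.D.ht hi0).1 (X.hU ▸ hx0)⟩

theorem mul_ne {g g' : Reg (lb P ^ X.D.m) X.D.t X.D.ht} (h : g ≠ 0) (h' : g' ≠ 0) :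
    g * g' ≠ 0 := by
  have := reg_domain X.D.ht (Xne (X := X))
  exact mul_ne_zero h h'

theorem Gd.add {v v' : Mer A} (h : Gd X k v) (h' : Gd X k v') : Gd X k (v + v') := by
  obtain ⟨g, hg, D, hC⟩ := h
  obtain ⟨g', hg', D', hC'⟩ := h'
  refine ⟨g * g', mul_ne hg hg', max D D', fun x0 hx0 => ?_⟩
  have e : ∀ x, (g * g').1 x = g.1 x * g'.1 x := fun x => rfl
  rw [e] at hx0
  obtain ⟨C, h1⟩ := hC x0 (left_ne_zero_of_mul hx0)
  obtain ⟨C', h2⟩ := hC' x0 (right_ne_zero_of_mul hx0)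
  refine ⟨C + C', fun x' hk hx' hy => ?_⟩
  rw [e] at hx'
  obtain ⟨a1, a2⟩ := h1 x' hk (left_ne_zero_of_mul hx') hy
  obtain ⟨b1, b2⟩ := h2 x' hk (right_ne_zero_of_mul hx') hy
  obtain ⟨c1, c2⟩ := reg_add a1 b1
  refine ⟨c1, ?_⟩
  rw [c2]
  calc ‖ev v x'.1 + ev v' x'.1‖ * rh P k x'.1 ^ max D D'
      ≤ (‖ev v x'.1‖ + ‖ev v' x'.1‖) * rh P k x'.1 ^ max D D' :=
        mul_le_mul_of_nonneg_right (norm_add_le _ _) (pow_nonneg (rh_nonneg k _) _)
    _ = ‖ev v x'.1‖ * rh P k x'.1 ^ max D D' + ‖ev v' x'.1‖ * rh P k x'.1 ^ max D D' := by ring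
    _ ≤ ‖ev v x'.1‖ * rh P k x'.1 ^ D + ‖ev v' x'.1‖ * rh P k x'.1 ^ D' :=
        add_le_add (mul_le_mul_of_nonneg_left (pow_rh_le (le_max_left _ _)) (norm_nonneg _))
          (mul_le_mul_of_nonneg_left (pow_rh_le (le_max_right _ _)) (norm_nonneg _))
    _ ≤ C + C' := add_le_add a2 b2

theorem Gd.mul {v v' : Mer A} (h : Gd X k v) (h' : Gd X k v') : Gd X k (v * v') := by
  obtain ⟨g, hg, D, hC⟩ := h
  obtain ⟨g', hg', D', hC'⟩ := h'
  refine ⟨g * g', mul_ne hg hg', D + D', fun x0 hx0 => ?_⟩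
  have e : ∀ x, (g * g').1 x = g.1 x * g'.1 x := fun x => rfl
  rw [e] at hx0
  obtain ⟨C, h1⟩ := hC x0 (left_ne_zero_of_mul hx0)
  obtain ⟨C', h2⟩ := hC' x0 (right_ne_zero_of_mul hx0)
  refine ⟨C * C', fun x' hk hx' hy => ?_⟩
  rw [e] at hx'
  obtain ⟨a1, a2⟩ := h1 x' hk (left_ne_zero_of_mul hx') hy
  obtain ⟨b1, b2⟩ := h2 x' hk (right_ne_zero_of_mul hx') hy
  obtain ⟨c1, c2⟩ := reg_mul a1 b1
  refine ⟨c1, ?_⟩
  rw [c2, norm_mul, pow_add]
  have p1 : 0 ≤ ‖ev v x'.1‖ * rh P k x'.1 ^ D :=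
    mul_nonneg (norm_nonneg _) (pow_nonneg (rh_nonneg k _) _)
  have p2 : 0 ≤ ‖ev v' x'.1‖ * rh P k x'.1 ^ D' :=
    mul_nonneg (norm_nonneg _) (pow_nonneg (rh_nonneg k _) _)
  calc ‖ev v x'.1‖ * ‖ev v' x'.1‖ * (rh P k x'.1 ^ D * rh P k x'.1 ^ D')
      = (‖ev v x'.1‖ * rh P k x'.1 ^ D) * (‖ev v' x'.1‖ * rh P k x'.1 ^ D') := by ring
    _ ≤ C * C' := mul_le_mul a2 b2 p2 (p1.trans a2)

variable (X) in
/-- the class of `Q(y)` in the affine model -/
theorem exists_den (PA : Part A) (hD : D2 A) [CompactSpace M] [Finite A.ι]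
    {Q : MvPolynomial (Fin (X.b + 1)) ℂ} (hQ : MvPolynomial.aeval X.g Q ≠ 0) :
    ∃ g1 : Reg (lb P ^ X.D.m) X.D.t X.D.ht, g1 ≠ 0 ∧ ∀ x : nz X.D.t,
      g1.1 x = MvPolynomial.eval (fun l => X.y l x.1) Q := by
  let yR : Fin (X.b + 1) → Reg (lb P ^ X.D.m) X.D.t X.D.ht := fun l =>
    ⟨fun x => X.y l x.1, quot_mem PA hD P X.hm X.D.ht (X.hs l) X.ht (X.hU ▸ X.Ut)⟩
  have hgval : ∀ x : nz X.D.t, (MvPolynomial.aeval yR Q).1 x =
      MvPolynomial.eval (fun l => X.y l x.1) Q := by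
    intro x
    have h1 : evR X.D.ht x (MvPolynomial.aeval yR Q) =
        MvPolynomial.aeval (fun l => evR X.D.ht x (yR l)) Q := by
      rw [MvPolynomial.comp_aeval_apply]
    exact h1
  refine ⟨MvPolynomial.aeval yR Q, fun h0 => ?_, hgval⟩
  obtain ⟨x0, hx0⟩ := X.Une
  have hdn := Crest.Agent.R273.RKd_635.dense_ev (yS_ev X) hQ
  obtain ⟨x, hx⟩ := (hdn.nonempty_iff.2 ⟨⟨x0, hx0⟩⟩)
  refine hx ?_
  have h2 := hgval ⟨x.val, X.hU ▸ x.prop⟩
  rw [h0] at h2
  exact h2.symm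

/-- the elements of `FF` -/
theorem Gd.of_FF (PA : Part A) (hD : D2 A) [CompactSpace M] [Finite A.ι] {v : Mer A}
    (hv : v ∈ FF (X.ts X.a X.ha) (X.ne X.a X.ha)) : Gd X k v := by
  rw [← X.gen] at hv
  obtain ⟨R, Q, hRQ⟩ := (IntermediateField.mem_adjoin_range_iff ℂ X.g v).1 hv
  by_cases hQ : MvPolynomial.aeval X.g Q = 0
  · rw [hQ, div_zero] at hRQ
    have := reg_domain X.D.ht (Xne (X := X))
    refine ⟨1, one_ne_zero, 0, fun x0 _ => ⟨0, fun x' _ _ _ => ?_⟩⟩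
    rw [hRQ]
    have h1 := reg_algebraMap (A := A) 0 x'.1
    rw [map_zero] at h1
    refine ⟨h1.1, ?_⟩
    rw [h1.2]
    simp
  · obtain ⟨g1, hg1, hv1⟩ := exists_den X PA hD hQ
    refine ⟨g1, hg1, 0, fun x0 hx0 => ⟨‖MvPolynomial.eval (fun l => X.y l x0.1) R *
      (MvPolynomial.eval (fun l => X.y l x0.1) Q)⁻¹‖, fun x' _ hx' hy => ?_⟩⟩
    have hxU : x'.1 ∈ X.D.S.U := by
      rw [X.hU]; exact x'.2
    have hall : ∀ R, x'.1 ∈ reg (MvPolynomial.aeval X.g R) ∧ ev (MvPolynomial.aeval X.g R) x'.1 =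
        MvPolynomial.eval (fun l => X.y l x'.1) R := fun R => eval_yS X R ⟨x'.1, hxU⟩
    obtain ⟨a1, a2⟩ := hall R
    obtain ⟨b1, b2⟩ := hall Q
    have hy' : (fun l => X.y l x'.1) = fun l => X.y l x0.1 := funext hy
    have e2 : ev (MvPolynomial.aeval X.g Q) x'.1 =
        MvPolynomial.eval (fun l => X.y l x0.1) Q := by
      rw [← hy']; exact b2
    have e1 : ev (MvPolynomial.aeval X.g R) x'.1 =
        MvPolynomial.eval (fun l => X.y l x0.1) R := by
      rw [← hy']; exact a2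
    have hQ0 : ev (MvPolynomial.aeval X.g Q) x'.1 ≠ 0 := by
      rw [e2, ← hv1]
      exact hx0
    obtain ⟨c1, c2⟩ := reg_inv b1 hQ0
    obtain ⟨d1, d2⟩ := reg_mul a1 c1
    rw [hRQ, div_eq_mul_inv]
    refine ⟨d1, ?_⟩
    rw [d2, c2, e1, e2, pow_zero, mul_one]

/-- regular functions on the affine open set `F_k ≠ 0` -/
theorem Gd.of_reg [CompactSpace M] {f : Reg (lb P ^ 1) (sec P k) (isHS1 P k)} {v : Mer A}
    (hv : IsExt v f.1) : Gd X k v := by
  have := reg_domain X.D.ht (Xne (X := X))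
  obtain ⟨j, t, ht, hf⟩ := f.2
  obtain ⟨C, hC, hb⟩ := bdd_sec (HM_333.pow (HM_333.pow (fs P) 1) j) ht
  refine ⟨1, one_ne_zero, j, fun x0 _ => ⟨Real.sqrt C, fun x' hk _ _ => ?_⟩⟩
  obtain ⟨h1, h2⟩ := hv ⟨x'.1, hk⟩
  refine ⟨h1, Real.le_sqrt_of_sq_le ?_⟩
  obtain ⟨i, hi⟩ := A.cover x'.1
  have h3 := hf ⟨x'.1, hk⟩ i hi
  have h4 := hb i x'.1 hi
  have hs0 : sec P k i x'.1 ≠ 0 := (mem_nz (isHS_sec P k) hi).1 hk
  have h5 : ‖ev v x'.1‖ ^ 2 * rh P k x'.1 ^ j =
      ‖t i x'.1‖ ^ 2 * (HM_333.pow (HM_333.pow (fs P) 1) j).w i x'.1 := by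
    rw [h2, h3, rh_eq k hi, mul_pow, norm_div, norm_pow, div_pow]
    rw [HM_333.pow_w, HM_333.pow_w, pow_one]
    have h6 : ‖sec P k i x'.1‖ ≠ 0 := norm_ne_zero_iff.2 hs0
    field_simp
    ring
  calc (‖ev v x'.1‖ * rh P k x'.1 ^ j) ^ 2
      = (‖ev v x'.1‖ ^ 2 * rh P k x'.1 ^ j) * rh P k x'.1 ^ j := by ring
    _ ≤ (‖ev v x'.1‖ ^ 2 * rh P k x'.1 ^ j) * 1 := by
        refine mul_le_mul_of_nonneg_left (pow_le_one₀ (rh_nonneg k _) (rh_le k _)) ?_
        exact mul_nonneg (sq_nonneg _) (pow_nonneg (rh_nonneg k _) _)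
    _ = _ := mul_one _
    _ ≤ C := by rw [h5]; exact h4

/-- the algebra over `FF` generated by regular functions on `F_k ≠ 0` -/
theorem Gd.of_adjoin (PA : Part A) (hD : D2 A) [CompactSpace M] [Finite A.ι] {T : Set (Mer A)}
    (hT : ∀ v ∈ T, ∃ f : Reg (lb P ^ 1) (sec P k) (isHS1 P k), IsExt v f.1) {v : Mer A}
    (hv : v ∈ Algebra.adjoin (FF (X.ts X.a X.ha) (X.ne X.a X.ha)) T) : Gd X k v := by
  induction hv using Algebra.adjoin_induction with
  | mem v hv =>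
    obtain ⟨f, hf⟩ := hT v hv
    exact Gd.of_reg hf
  | algebraMap c => exact Gd.of_FF PA hD c.2
  | add _ _ _ _ h h' => exact h.add h'
  | mul _ _ _ _ h h' => exact h.mul h'

/-- finitely many functions of moderate growth -/
theorem Gd.fin {v : ℕ → Mer A} {d : ℕ} (h : ∀ i < d, Gd X k (v i)) :
    ∃ g1 : Reg (lb P ^ X.D.m) X.D.t X.D.ht, g1 ≠ 0 ∧ ∃ D : ℕ, ∀ x0 : nz X.D.t, g1.1 x0 ≠ 0 →
    ∃ C : ℝ, ∀ x' : nz X.D.t, x'.1 ∈ nz (sec P k) → g1.1 x' ≠ 0 →
      (∀ l, X.y l x'.1 = X.y l x0.1) → (∀ i < d, x'.1 ∈ reg (v i)) ∧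
        ∑ i ∈ Finset.range d, ‖ev (v i) x'.1‖ * rh P k x'.1 ^ D ≤ C := by
  induction d with
  | zero =>
    have := reg_domain X.D.ht (Xne (X := X))
    refine ⟨1, one_ne_zero, 0, fun x0 _ => ⟨0, fun x' _ _ _ => ⟨fun i hi => by omega, ?_⟩⟩⟩
    simp
  | succ d ih =>
    obtain ⟨g, hg, D, hC⟩ := ih fun i hi => h i (by omega)
    obtain ⟨g', hg', D', hC'⟩ := h d (by omega)
    refine ⟨g * g', mul_ne hg hg', max D D', fun x0 hx0 => ?_⟩
    have e : ∀ x, (g * g').1 x = g.1 x * g'.1 x := fun x => rfl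
    rw [e] at hx0
    obtain ⟨C, h1⟩ := hC x0 (left_ne_zero_of_mul hx0)
    obtain ⟨C', h2⟩ := hC' x0 (right_ne_zero_of_mul hx0)
    refine ⟨C + C', fun x' hk hx' hy => ?_⟩
    rw [e] at hx'
    obtain ⟨a1, a2⟩ := h1 x' hk (left_ne_zero_of_mul hx') hy
    obtain ⟨b1, b2⟩ := h2 x' hk (right_ne_zero_of_mul hx') hy
    refine ⟨fun i hi => ?_, ?_⟩
    · rcases Nat.lt_succ_iff_lt_or_eq.1 hi with h3 | h3
      · exact a1 i h3
      · rw [h3]; exact b1
    · rw [Finset.sum_range_succ]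
      refine add_le_add (le_trans ?_ a2) (le_trans ?_ b2)
      · exact Finset.sum_le_sum fun i _ =>
          mul_le_mul_of_nonneg_left (pow_rh_le (le_max_left _ _)) (norm_nonneg _)
      · exact mul_le_mul_of_nonneg_left (pow_rh_le (le_max_right _ _)) (norm_nonneg _)

theorem reg_pow {v : Mer A} {x : M} (h : x ∈ reg v) (d : ℕ) :
    x ∈ reg (v ^ d) ∧ ev (v ^ d) x = ev v x ^ d := by
  induction d with
  | zero =>
    have h1 := reg_algebraMap (A := A) 1 x
    rw [map_one] at h1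
    rw [pow_zero, pow_zero]
    exact h1
  | succ d ih =>
    have h1 := reg_mul ih.1 h
    rw [pow_succ, pow_succ, ← ih.2]
    exact h1

theorem reg_sum {v : ℕ → Mer A} {x : M} {d : ℕ} (h : ∀ i < d, x ∈ reg (v i)) :
    x ∈ reg (∑ i ∈ Finset.range d, v i) ∧
      ev (∑ i ∈ Finset.range d, v i) x = ∑ i ∈ Finset.range d, ev (v i) x := by
  induction d with
  | zero =>
    have h1 := reg_algebraMap (A := A) 0 x
    rw [map_zero] at h1
    simpa using h1
  | succ d ih =>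
    have h1 := ih fun i hi => h i (by omega)
    have h2 := reg_add h1.1 (h d (by omega))
    rw [Finset.sum_range_succ, Finset.sum_range_succ, ← h1.2]
    exact h2

theorem root_bound {z : ℂ} {c : ℕ → ℂ} {d : ℕ}
    (h : ∑ i ∈ Finset.range d, c i * z ^ i + z ^ d = 0) :
    ‖z‖ ≤ 1 + ∑ i ∈ Finset.range d, ‖c i‖ := by
  have hs : 0 ≤ ∑ i ∈ Finset.range d, ‖c i‖ := Finset.sum_nonneg fun _ _ => norm_nonneg _
  rcases le_or_gt ‖z‖ 1 with h1 | h1
  · linarith
  cases d with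
  | zero => simp at h
  | succ d =>
    have h2 : z ^ (d + 1) = -∑ i ∈ Finset.range (d + 1), c i * z ^ i := by
      rw [eq_neg_iff_add_eq_zero, add_comm]; exact h
    have h3 : ‖z‖ ^ (d + 1) ≤ (∑ i ∈ Finset.range (d + 1), ‖c i‖) * ‖z‖ ^ d := by
      rw [← norm_pow, h2, norm_neg, Finset.sum_mul]
      refine (norm_sum_le _ _).trans (Finset.sum_le_sum fun i hi => ?_)
      rw [norm_mul, norm_pow]
      have h4 : i ≤ d := Nat.lt_succ_iff.1 (Finset.mem_range.1 hi)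
      exact mul_le_mul_of_nonneg_left (pow_le_pow_right₀ h1.le h4) (norm_nonneg _)
    have h5 : 0 < ‖z‖ ^ d := by positivity
    rw [pow_succ, mul_comm] at h3
    have h6 := le_of_mul_le_mul_right h3 h5
    linarith

/-- integral elements have moderate growth -/
theorem Gd.of_int (PA : Part A) (hD : D2 A) [CompactSpace M] [Finite A.ι] {T : Set (Mer A)}
    (hT : ∀ v ∈ T, ∃ f : Reg (lb P ^ 1) (sec P k) (isHS1 P k), IsExt v f.1) {μ : Mer A}
    (hμ : IsIntegral (Algebra.adjoin (FF (X.ts X.a X.ha) (X.ne X.a X.ha)) T) μ)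
    (hr : ∀ x : nz X.D.t, x.1 ∈ nz (sec P k) → x.1 ∈ reg μ) : Gd X k μ := by
  obtain ⟨p, hp, h0⟩ := hμ
  let v : ℕ → Mer A := fun i => algebraMap
    (Algebra.adjoin (FF (X.ts X.a X.ha) (X.ne X.a X.ha)) T) (Mer A) (p.coeff i)
  obtain ⟨g, hg, D, hC⟩ := Gd.fin (X := X) (k := k) (v := v) (d := p.natDegree)
    fun i _ => Gd.of_adjoin PA hD hT (p.coeff i).2
  have heq : ∑ i ∈ Finset.range p.natDegree, v i * μ ^ i + μ ^ p.natDegree = 0 := by
    rw [Polynomial.eval₂_eq_sum_range, Finset.sum_range_succ] at h0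
    rw [hp.coeff_natDegree, map_one, one_mul] at h0
    exact h0
  refine ⟨g, hg, D, fun x0 hx0 => ?_⟩
  obtain ⟨C, h1⟩ := hC x0 hx0
  refine ⟨1 + C, fun x' hk hx' hy => ?_⟩
  obtain ⟨a1, a2⟩ := h1 x' hk hx' hy
  have hμr := hr x' hk
  refine ⟨hμr, ?_⟩
  have h2 : ∑ i ∈ Finset.range p.natDegree, ev (v i) x'.1 * ev μ x'.1 ^ i +
      ev μ x'.1 ^ p.natDegree = 0 := by
    have b1 : ∀ i < p.natDegree, x'.1 ∈ reg (v i * μ ^ i) := fun i hi =>
      (reg_mul (a1 i hi) (reg_pow hμr i).1).1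
    have b2 := reg_sum b1
    have b3 := reg_pow hμr p.natDegree
    have b4 := reg_add b2.1 b3.1
    rw [heq, b2.2, b3.2] at b4
    have b5 := (reg_algebraMap (A := A) 0 x'.1).2
    rw [map_zero] at b5
    rw [← b5, b4.2]
    congr 1
    refine Finset.sum_congr rfl fun i hi => ?_
    rw [(reg_mul (a1 i (Finset.mem_range.1 hi)) (reg_pow hμr i).1).2, (reg_pow hμr i).2]
  have h3 := root_bound h2
  have h4 : 0 ≤ rh P k x'.1 ^ D := pow_nonneg (rh_nonneg k _) _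
  calc ‖ev μ x'.1‖ * rh P k x'.1 ^ D
      ≤ (1 + ∑ i ∈ Finset.range p.natDegree, ‖ev (v i) x'.1‖) * rh P k x'.1 ^ D :=
        mul_le_mul_of_nonneg_right h3 h4
    _ = rh P k x'.1 ^ D + ∑ i ∈ Finset.range p.natDegree, ‖ev (v i) x'.1‖ * rh P k x'.1 ^ D := by
        rw [add_mul, one_mul, Finset.sum_mul]
    _ ≤ 1 + C := add_le_add (pow_le_one₀ (rh_nonneg k _) (rh_le k _)) a2

end

end

end Crest.Agent.R273.R4x_73
end

-- ▼ part R273/R4y_73

/-!
# R273 (S0416), Part A, HALF 2, (R4), part 2 (helper73)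

* `extH`    : the regular functions on an affine open set as elements of `Mer A`
* `f_rel`   : `w_a^(c-b) w_c^(b-a) = f w_b^(c-a)`, `f ∈ FF`
* `mu_int`  : `μ = λ τ / F_k ^ N` is integral over `FF [Reg]`
* `mu_gd`   : `μ` has moderate growth on the fibres of `y`
-/

set_option autoImplicit false
set_option linter.unusedSectionVars false

open Set Filter Topology Complex MeasureTheory
open scoped ContDiff Matrix ENNReal NNReal

namespace Crest.Agent.R273.R4x_73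

open Crest.Agent.R275.Geo Crest.Agent.R275.Core144 Crest.Agent.R275.GC293
open Crest.Agent.R273.SteinA_794
open Crest.Agent.R273.SteinB_794 Crest.Agent.R273.SteinC_794 Crest.Agent.R273.SteinD_794
open Crest.Agent.R273.SteinE_794 Crest.Agent.R273.SteinF_794 Crest.Agent.R273.SteinG_794
open Crest.Agent.R273.Defs_333 (ProjD HM HM.wt HM.Semipos HM.Pos HasSec)
open Crest.Agent.R273.FS_333 (lb sec isHS_sec exists_sec_ne fs)
open Crest.Agent.R273.Mer769 Crest.Agent.R273.FF769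
open Crest.Agent.R273.Cram_747 (TS num den num_apply den_apply)
open Crest.Agent.R273.Fock_243 (FI)
open Crest.Agent.R273.TD3_733 (D2)
open Crest.Agent.R273.SerE_945 (ggen_proj)
open Crest.Agent.R273.Chow_313
open Crest.Agent.R273.YDx1_945 Crest.Agent.R273.YDx3_945 Crest.Agent.R273.YDx5_945
open Crest.Agent.R273.AsmY_73

noncomputable section

variable {n : ℕ} {M : Type} [TopologicalSpace M] {A : Atl n M} {P : ProjD A} {L : LB A}

section ext

variable [T2Space M] [ConnectedSpace M] {Q : LB A} {d0 : A.ι → M → ℂ}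

/-- regular functions as elements of `Mer A` -/
def extH (hd0 : IsHS Q univ d0) (hne : ∃ i x, d0 i x ≠ 0) : Reg Q d0 hd0 →ₐ[ℂ] Mer A :=
  AlgHom.ofLinearMap
    { toFun := fun f => (exists_ext_gen hd0 hne f).choose
      map_add' := fun f g => ext_unique hd0 hne (exists_ext_gen hd0 hne (f + g)).choose_spec.2
        fun x => by
          have h1 := (exists_ext_gen hd0 hne f).choose_spec.2 x
          have h2 := (exists_ext_gen hd0 hne g).choose_spec.2 x
          have h3 := reg_add h1.1 h2.1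
          exact ⟨h3.1, by rw [h3.2, h1.2, h2.2]; rfl⟩
      map_smul' := fun c f => ext_unique hd0 hne (exists_ext_gen hd0 hne (c • f)).choose_spec.2
        fun x => by
          have h1 := (exists_ext_gen hd0 hne f).choose_spec.2 x
          have h2 := reg_algebraMap (A := A) c x.1
          have h3 := reg_mul h2.1 h1.1
          rw [RingHom.id_apply, Algebra.smul_def]
          exact ⟨h3.1, by rw [h3.2, h1.2, h2.2]; rfl⟩ }
    (ext_unique hd0 hne (exists_ext_gen hd0 hne 1).choose_spec.2 fun x => by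
      have h2 := reg_algebraMap (A := A) 1 x.1
      rw [map_one] at h2
      exact ⟨h2.1, h2.2⟩)
    fun f g => ext_unique hd0 hne (exists_ext_gen hd0 hne (f * g)).choose_spec.2 fun x => by
      have h1 := (exists_ext_gen hd0 hne f).choose_spec.2 x
      have h2 := (exists_ext_gen hd0 hne g).choose_spec.2 x
      have h3 := reg_mul h1.1 h2.1
      exact ⟨h3.1, h3.2.trans (by rw [h1.2, h2.2]; rfl)⟩

theorem extH_isExt (hd0 : IsHS Q univ d0) (hne : ∃ i x, d0 i x ≠ 0) (f : Reg Q d0 hd0) :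
    IsExt (extH hd0 hne f) f.1 := (exists_ext_gen hd0 hne f).choose_spec.2

/-- the class of `t / d0 ^ j` -/
theorem mem_range_extH (hd0 : IsHS Q univ d0) (hne : ∃ i x, d0 i x ≠ 0) {j : ℕ}
    {t : A.ι → M → ℂ} (ht : IsHS (Q ^ j) univ t) {v : Mer A} (hv : RelS v t (pw d0 j)) :
    v ∈ (extH hd0 hne).range := by
  refine ⟨toReg hd0 j t ht, ext_unique hd0 hne (extH_isExt hd0 hne _) fun x => ?_⟩
  obtain ⟨i, hi⟩ := A.cover x.1
  have h3 : pw d0 j i x ≠ 0 := by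
    rw [pw_apply d0 j hi]
    exact pow_ne_zero j ((mem_nz hd0 hi).1 x.2)
  obtain ⟨h4, h5⟩ := hv.reg_ev ht (isHS_pw hd0 j) hi h3
  refine ⟨h4, ?_⟩
  rw [h5, toReg_apply hd0 j t ht x hi, pw_apply d0 j hi]

end ext

theorem dn_nz [ConnectedSpace M] {N : LB A} {s : A.ι → M → ℂ} (hs : IsHS N univ s)
    (h0 : ∃ i, ∃ x ∈ (A.e i).source, s i x ≠ 0) : nz s ∈ dn M :=
  dn_of_dense (isOpen_nz hs) (dense_nz hs h0)

section

variable [ConnectedSpace M] (X : HD P L)

/-- `w_a^(c-b) w_c^(b-a) = f w_b^(c-a)` -/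
theorem f_rel {c : ℕ} (hc : c ∈ X.K) (hlt : X.a + X.j0 < c) :
    ∃ f ∈ FF (X.ts X.a X.ha) (X.ne X.a X.ha), f ≠ 0 ∧ ∀ i, ∀ x ∈ (A.e i).source, x ∈ reg f → ∀ F,
      X.w X.a i x F ^ (c - (X.a + X.j0)) * X.w c i x F ^ X.j0 =
        ev f x * X.w (X.a + X.j0) i x F ^ (c - X.a) := by
  have hab : X.a < X.a + X.j0 := Nat.lt_add_of_pos_right X.j0_pos
  obtain ⟨f, hf, hf0, hr⟩ := exists_f (k0 := X.a) (X.ts X.a X.ha) (X.ne X.a X.ha) hab hlt
    (X.ts X.a X.ha) (X.ts _ X.hb) (X.ts c hc) (X.ne X.a X.ha) (X.ne _ X.hb) (X.ne c hc)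
    (X.prp _ X.ha _ X.ha) (X.prp _ X.hb _ X.ha) (X.prp c hc _ X.ha)
  refine ⟨f, hf, hf0, fun i x hx hxr F => ?_⟩
  have h1 := hr i x hx hxr (fun p => F p.2)
  rw [num_apply hab hlt, den_apply, Nat.add_sub_cancel_left] at h1
  exact h1

theorem alg_id {l sa sb wa wb wc Sa Sb Sc τ κ f μ s v : ℂ} {N E e j0 : ℕ} (hl : l ≠ 0)
    (hsa : sa ≠ 0) (hwa : wa ≠ 0) (h1 : sb * wa = sa * wb) (h2 : Sb * wa = Sa * wb)
    (h3 : Sc * wa = Sa * wc) (h4 : wa ^ e * wc ^ j0 = f * wb ^ (e + j0))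
    (hμ : μ = sb * τ / (sa * l ^ N)) (hs : s = Sb ^ j0 * κ / l ^ E)
    (hv : v = Sc ^ j0 * κ * τ ^ e / l ^ (E + N * e)) : s * μ ^ e * f = v := by
  have e1 : sb = sa * wb / wa := by rw [eq_div_iff hwa, h1]
  have e2 : Sb = Sa * wb / wa := by rw [eq_div_iff hwa, h2]
  have e3 : Sc = Sa * wc / wa := by rw [eq_div_iff hwa, h3]
  have e4 : μ = (wb / wa) * τ / l ^ N := by
    rw [hμ, e1]
    field_simp
  rw [hs, hv, e4, e2, e3]
  have e5 : f * wb ^ (e + j0) / wa ^ (e + j0) = (wc / wa) ^ j0 := by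
    rw [← h4, pow_add, div_pow]
    field_simp
  have e6 : (Sa * wb / wa) ^ j0 * κ / l ^ E * (wb / wa * τ / l ^ N) ^ e * f =
      Sa ^ j0 * κ * τ ^ e / l ^ (E + N * e) * (f * wb ^ (e + j0) / wa ^ (e + j0)) := by
    rw [pow_add wb, pow_add wa, pow_add l, pow_mul]
    simp only [div_pow, mul_pow]
    field_simp
  rw [e6, e5, mul_div_assoc Sa, mul_pow]
  ring

theorem pw_ne0 {s : A.ι → M → ℂ} (j : ℕ)
    (h0 : ∃ i, ∃ x ∈ (A.e i).source, s i x ≠ 0) : pw s j ≠ 0 := by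
  obtain ⟨i, x, hx, h⟩ := h0
  intro h1
  have h2 := pw_apply s j hx
  rw [h1] at h2
  exact pow_ne_zero j h h2.symm

/-- **`μ` has moderate growth on the fibres** -/
theorem mu_gd [T2Space M] [CompactSpace M] [Finite A.ι] (PA : Part A) (hD : D2 A)
    {k : Fin (P.N + 1)} (hk : ∃ i, ∃ x ∈ (A.e i).source, sec P k i x ≠ 0) {N : ℕ}
    {τ0 : A.ι → M → ℂ} (hτ : IsHS ((L ^ X.j0)⁻¹ * lb P ^ N) univ τ0) {μ : Mer A}
    (hμ : RelS μ (X.sb * τ0) (X.sa * pw (sec P k) N)) : Gd X k μ := by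
  classical
  have hl := isHS1 P k
  have hk' : ∃ i x, sec P k i x ≠ 0 := by
    obtain ⟨i, x, -, h⟩ := hk
    exact ⟨i, x, h⟩
  -- the bundles
  have hμ1 : IsHS (L ^ X.a * lb P ^ X.m * lb P ^ N) univ (X.sb * τ0) := by
    have h := X.hsb.mul hτ
    have e : L ^ (X.a + X.j0) * lb P ^ X.m * ((L ^ X.j0)⁻¹ * lb P ^ N) =
        L ^ X.a * lb P ^ X.m * lb P ^ N := by
      calc L ^ (X.a + X.j0) * lb P ^ X.m * ((L ^ X.j0)⁻¹ * lb P ^ N)
          = (L ^ X.j0 * (L ^ X.j0)⁻¹) * (L ^ X.a * lb P ^ X.m * lb P ^ N) := by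
            rw [pow_add]; ac_rfl
        _ = _ := by rw [mul_inv_cancel, one_mul]
    rwa [e] at h
  have hμ2 : IsHS (L ^ X.a * lb P ^ X.m * lb P ^ N) univ (X.sa * pw (sec P k) N) :=
    X.hsa.mul (isHS_pw (isHS_sec P k) N)
  -- the pairing
  obtain ⟨m', β, b1, b2, b3, b4⟩ := exists_beta' P (X.ts X.a X.ha) (X.ne X.a X.ha)
  have hS : ∀ c (hc : c ∈ X.K), IsHS (L ^ c * lb P ^ m') univ (β (X.w c)) := fun c hc =>
    b1 _ _ (X.ts c hc)
  have hSr : ∀ c (hc : c ∈ X.K) i x F, β (X.w c) i x * X.w X.a i x F =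
      β (X.w X.a) i x * X.w c i x F := by
    intro c hc i x F
    have h1 := b3 (X.w X.a i x F • X.w c) (X.w X.a) i x (X.w c i x F) (by
      funext G
      have h := X.prp X.a X.ha c hc i x F G
      show X.w X.a i x F * X.w c i x G = X.w c i x F * X.w X.a i x G
      rw [h, mul_comm])
    have h2 := b3 (X.w X.a i x F • X.w c) (X.w c) i x (X.w X.a i x F) rfl
    rw [h2] at h1
    rw [mul_comm, h1, mul_comm]
  have hSa := exists_ne (hS _ X.ha) b4
  have hSne : ∀ c (hc : c ∈ X.K), ∃ i, ∃ x ∈ (A.e i).source, β (X.w c) i x ≠ 0 := by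
    intro c hc
    obtain ⟨i0, x0, hi0, hx0⟩ := hSa
    obtain ⟨x, hx, hx'⟩ := ((X.ts _ hc).dense_nz (X.ne _ hc)).inter_open_nonempty
      (nz (β (X.w X.a))) (isOpen_nz (hS _ X.ha)) ⟨x0, (mem_nz (hS _ X.ha) hi0).2 hx0⟩
    obtain ⟨i, hi⟩ := A.cover x
    refine ⟨i, x, hi, fun h0 => ?_⟩
    obtain ⟨F, hF⟩ := Function.ne_iff.1 ((X.ts _ hc).ne_of_nz hx' hi)
    have h2 := hSr c hc i x F
    rw [h0, zero_mul] at h2
    rcases mul_eq_zero.1 h2.symm with h3 | h3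
    · exact (mem_nz (hS _ X.ha) hi).1 hx h3
    · exact hF h3
  -- a nonzero section of a negative bundle twisted
  obtain ⟨N'', hN''⟩ := ggen_proj PA hD P (L ^ ((X.a + X.j0) * X.j0))⁻¹
  obtain ⟨r, κs, hκs, hκ0⟩ := hN'' N'' le_rfl
  obtain ⟨x1⟩ := (inferInstance : Nonempty M)
  obtain ⟨i1, hi1⟩ := A.cover x1
  obtain ⟨o, ho⟩ := hκ0 i1 x1 hi1
  set κ0 := κs o with hκ0_def
  have hκ : IsHS ((L ^ ((X.a + X.j0) * X.j0))⁻¹ * lb P ^ N'') univ κ0 := hκs o
  set E := m' * X.j0 + N'' with hE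
  have hs1 : IsHS ((lb P ^ 1) ^ E) univ (pw (β (X.w (X.a + X.j0))) X.j0 * κ0) := by
    have h := (isHS_pw (hS _ X.hb) X.j0).mul hκ
    have e : (L ^ (X.a + X.j0) * lb P ^ m') ^ X.j0 * ((L ^ ((X.a + X.j0) * X.j0))⁻¹ * lb P ^ N'') =
        (lb P ^ 1) ^ E := by
      calc _ = (L ^ ((X.a + X.j0) * X.j0) * (L ^ ((X.a + X.j0) * X.j0))⁻¹) *
            (lb P ^ (m' * X.j0) * lb P ^ N'') := by
            rw [mul_pow, ← pow_mul, ← pow_mul]; ac_rfl
        _ = _ := by rw [mul_inv_cancel, one_mul, ← pow_add, pow_one]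
    rwa [e] at h
  have hκne : κ0 ≠ 0 := by
    intro h
    exact ho (congrFun (congrFun h i1) x1)
  have hs1ne : pw (β (X.w (X.a + X.j0))) X.j0 * κ0 ≠ 0 :=
    mul_ne0 (isHS_pw (hS _ X.hb) X.j0) hκ (pw_ne0 X.j0 (hSne _ X.hb)) hκne
  obtain ⟨s, hs⟩ := exists_relS hs1 (isHS_pw hl E) (pw_ne0 E hk)
  have hs0 : s ≠ 0 := relS_ne_zero hs1 hs hs1ne
  -- generators
  have hfg := reg_fg PA hD P le_rfl hl
  obtain ⟨G, hG⟩ := (Algebra.FiniteType.out (R := ℂ) (A := Reg (lb P ^ 1) (sec P k) hl))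
  set T : Set (Mer A) := extH hl hk' '' (G : Set _) with hT
  have hTfin : T.Finite := G.finite_toSet.image _
  set FFX := FF (X.ts X.a X.ha) (X.ne X.a X.ha) with hFFX
  have hrange : ∀ v ∈ (extH hl hk').range, v ∈ Algebra.adjoin FFX T := by
    intro v hv
    have h1 : (extH hl hk').range = Algebra.adjoin ℂ T := by
      rw [hT, ← AlgHom.map_adjoin, hG, Algebra.map_top]
    rw [h1] at hv
    have h2 : Algebra.adjoin ℂ T ≤ (Algebra.adjoin FFX T).restrictScalars ℂ :=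
      Algebra.adjoin_le Algebra.subset_adjoin
    exact h2 hv
  have hTr : ∀ v ∈ T, ∃ f : Reg (lb P ^ 1) (sec P k) (isHS1 P k), IsExt v f.1 := by
    rintro v ⟨f, -, rfl⟩
    exact ⟨f, extH_isExt _ _ f⟩
  have hSFG : (Algebra.adjoin FFX T).FG := by
    refine ⟨hTfin.toFinset, ?_⟩
    rw [Set.Finite.coe_toFinset]
  -- integrality
  have hint : ∀ c ∈ X.K, X.a + X.j0 < c →
      IsIntegral (Algebra.adjoin FFX T) (s * μ ^ (c - (X.a + X.j0))) := by
    intro c hc hlt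
    set e := c - (X.a + X.j0) with he
    have hce : c - X.a = e + X.j0 := by omega
    obtain ⟨f, hf, hf0, hfr⟩ := f_rel X hc hlt
    have hv1 : IsHS ((lb P ^ 1) ^ (E + N * e)) univ (pw (β (X.w c)) X.j0 * κ0 * pw τ0 e) := by
      have h := ((isHS_pw (hS c hc) X.j0).mul hκ).mul (isHS_pw hτ e)
      have e1 : (L ^ c * lb P ^ m') ^ X.j0 * ((L ^ ((X.a + X.j0) * X.j0))⁻¹ * lb P ^ N'') *
          ((L ^ X.j0)⁻¹ * lb P ^ N) ^ e = (lb P ^ 1) ^ (E + N * e) := by
        have e2 : L ^ (c * X.j0) = L ^ ((X.a + X.j0) * X.j0) * L ^ (X.j0 * e) := by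
          rw [← pow_add]
          congr 1
          have : c = X.a + X.j0 + e := by omega
          rw [this]
          ring
        calc _ = (L ^ ((X.a + X.j0) * X.j0) * (L ^ ((X.a + X.j0) * X.j0))⁻¹) *
              (L ^ (X.j0 * e) * (L ^ (X.j0 * e))⁻¹) *
              (lb P ^ (m' * X.j0) * lb P ^ N'' * lb P ^ (N * e)) := by
              rw [mul_pow, mul_pow, inv_pow, ← pow_mul, ← pow_mul, ← pow_mul, ← pow_mul, e2]
              ac_rfl
          _ = _ := by rw [mul_inv_cancel, mul_inv_cancel, one_mul, one_mul, ← pow_add, ← pow_add,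
            pow_one]
      rwa [e1] at h
    obtain ⟨v, hv⟩ := exists_relS hv1 (isHS_pw hl (E + N * e)) (pw_ne0 _ hk)
    have hvm := hrange v (mem_range_extH hl hk' hv1 hv)
    have key : s * μ ^ e * f = v := by
      rw [eq_iff_dn]
      have hμe : reg (μ ^ e) ∈ dn M := dn_reg _
      filter_upwards [dn_reg s, dn_reg μ, dn_reg f, dn_reg v, dn_nz hl hk, dn_nz X.hsa
        (by
          obtain ⟨x0, hx0⟩ := X.Une
          obtain ⟨i0, hi0⟩ := A.cover x0
          exact ⟨i0, x0, hi0, X.sa_ne hi0 hx0⟩)] with x r1 r2 r3 r4 r5 r6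
      obtain ⟨i, hi⟩ := A.cover x
      have hl0 : sec P k i x ≠ 0 := (mem_nz hl hi).1 r5
      have hsa0 : X.sa i x ≠ 0 := (mem_nz X.hsa hi).1 r6
      obtain ⟨F, hF⟩ : ∃ F, X.w X.a i x F ≠ 0 := by
        by_contra hcon
        push Not at hcon
        exact hsa0 (X.sa0 i x (funext hcon))
      have q1 := (hμ.reg_ev hμ1 hμ2 hi (by
        show X.sa i x * pw (sec P k) N i x ≠ 0
        rw [pw_apply _ _ hi]
        exact mul_ne_zero hsa0 (pow_ne_zero _ hl0))).2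
      have q2 := (hs.reg_ev hs1 (isHS_pw hl E) hi (by
        rw [pw_apply _ _ hi]; exact pow_ne_zero _ hl0)).2
      have q3 := (hv.reg_ev hv1 (isHS_pw hl (E + N * e)) hi (by
        rw [pw_apply _ _ hi]; exact pow_ne_zero _ hl0)).2
      have q4 := hfr i x hi r3 F
      rw [hce] at q4
      have t1 := reg_pow r2 e
      have t2 := reg_mul r1 t1.1
      have t3 := reg_mul t2.1 r3
      show ev (s * μ ^ e * f) x = ev v x
      rw [t3.2, t2.2, t1.2]
      refine alg_id (N := N) (E := E) (l := sec P k i x) (sa := X.sa i x) (sb := X.sb i x) (wa := X.w X.a i x F)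
        (wb := X.w (X.a + X.j0) i x F) (wc := X.w c i x F) (Sa := β (X.w X.a) i x)
        (Sb := β (X.w (X.a + X.j0)) i x) (Sc := β (X.w c) i x) (τ := τ0 i x) (κ := κ0 i x)
        hl0 hsa0 hF (X.hab i x F) (hSr _ X.hb i x F) (hSr c hc i x F) q4 ?_ ?_ ?_
      · rw [q1]
        show X.sb i x * τ0 i x / (X.sa i x * pw (sec P k) N i x) = _
        rw [pw_apply _ _ hi]
      · rw [q2]
        show pw (β (X.w (X.a + X.j0))) X.j0 i x * κ0 i x / _ = _
        rw [pw_apply _ _ hi, pw_apply _ _ hi]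
      · rw [q3]
        show pw (β (X.w c)) X.j0 i x * κ0 i x * pw τ0 e i x / _ = _
        rw [pw_apply _ _ hi, pw_apply _ _ hi, pw_apply _ _ hi]
    have h1 : s * μ ^ e = f⁻¹ * v := by
      rw [← key, mul_comm _ f, inv_mul_cancel_left₀ hf0]
    rw [h1]
    have h2 : f⁻¹ * v ∈ Algebra.adjoin FFX T :=
      mul_mem ((Algebra.adjoin FFX T).algebraMap_mem (⟨f⁻¹, FFX.inv_mem hf⟩ : FFX)) hvm
    exact isIntegral_algebraMap (R := Algebra.adjoin FFX T) (A := Mer A) (x := ⟨_, h2⟩)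
  have hinf : {N : ℕ | IsIntegral (Algebra.adjoin FFX T) (s * μ ^ N)}.Infinite := by
    have h1 : (X.K \ Set.Iic (X.a + X.j0)).Infinite := X.Kinf.sdiff (Set.finite_Iic _)
    refine Set.infinite_of_injOn_mapsTo (f := fun c => c - (X.a + X.j0)) ?_ ?_ h1
    · rintro c ⟨-, hc⟩ c' ⟨-, hc'⟩ h
      simp only [Set.mem_Iic, not_le] at hc hc' h
      omega
    · rintro c ⟨hcK, hc⟩
      exact hint c hcK (by simpa using hc)
  have hmu := Crest.Agent.R273.R4Alg769.r4alg (F := FFX) (Algebra.adjoin FFX T) hSFG hs0 hinf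
  refine Gd.of_int PA hD hTr hmu fun x hxk => ?_
  obtain ⟨i, hi⟩ := A.cover x.1
  have hxU : x.1 ∈ X.D.S.U := by
    rw [X.hU]; exact x.2
  refine (hμ.reg_ev hμ1 hμ2 hi ?_).1
  show X.sa i x.1 * pw (sec P k) N i x.1 ≠ 0
  rw [pw_apply _ _ hi]
  exact mul_ne_zero (X.sa_ne hi hxU) (pow_ne_zero _ ((mem_nz hl hi).1 hxk))

end

end

end Crest.Agent.R273.R4x_73
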