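import Crest.Agent.R273.SteinN_794
import Crest.Agent.R273.TLd_201

-- ▼ part R273/T4C_223
section

/-!
# R273 (S0416), A-V0 = T4a (helper223), part 1: transport of tests from `Mo S` to `M`

* `ibp_lev`      : `∫ f lev χ = ∫ χ lev f` on a Riemann domain
* `vf S i v`     : the constant vector field `v` of `Mo S` in the chart `i` of `M`
* `integral_mu`  : `∫_G e^{-φ} g dμ = ∫_U g dvm`
* `mkT`          : the test matrix on `M` of a test function `χ` on `Mo S`
-/

set_option autoImplicit false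
set_option linter.unusedSectionVars false

open Set Filter Topology Complex MeasureTheory
open scoped ContDiff Matrix ComplexConjugate ComplexOrder ENNReal

namespace Crest.Agent.R273.T4C_223

open Crest.Agent.R271.Ho51

noncomputable section

section ibp

variable {n : ℕ} {X : Type*} [TopologicalSpace X] [RDom n X]

theorem smul_sm {f g : X → ℝ} (hf : Sm f) (hg : Sm g) (x : X) (v : Fin n → ℂ) :
    D (fun x => f x * g x) x v = D f x v * g x + f x * D g x v := by
  have := D_smul hf hg x v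
  simpa only [smul_eq_mul] using this

theorem tsupport_Dv (f : X → ℝ) (v : Fin n → ℂ) : tsupport (fun x => D f x v) ⊆ tsupport f := by
  refine closure_minimal ?_ isClosed_closure
  intro x hx
  by_contra hx'
  have h1 : f =ᶠ[𝓝 x] fun _ => 0 := notMem_tsupport_iff_eventuallyEq.1 hx'
  apply hx
  show D f x v = 0
  rw [D_congr h1, D_const]
  rfl

theorem hcs_Dv {f : X → ℝ} (hc : HasCompactSupport f) (v : Fin n → ℂ) :
    HasCompactSupport (fun x => D f x v) :=
  hc.of_isClosed_subset isClosed_closure (tsupport_Dv f v)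

theorem tsupport_lev (f : X → ℝ) (w : Fin n → ℂ) :
    tsupport (fun x => Crest.Agent.R271.W792.lev f x w) ⊆ tsupport f := by
  refine closure_minimal ?_ isClosed_closure
  intro x hx
  by_contra hx'
  have h1 : f =ᶠ[𝓝 x] fun _ => 0 := notMem_tsupport_iff_eventuallyEq.1 hx'
  have h2 : ∀ v : Fin n → ℂ, (fun y => D f y v) =ᶠ[𝓝 x] fun _ => 0 := by
    intro v
    filter_upwards [h1.eventually_nhds] with y hy
    rw [D_congr hy, D_const]
    rfl
  apply hx
  show Crest.Agent.R271.W792.lev f x w = 0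
  unfold Crest.Agent.R271.W792.lev
  rw [D_congr (h2 w), D_congr (h2 (I • w)), D_const]
  simp

theorem hcs_lev {f : X → ℝ} (hc : HasCompactSupport f) (w : Fin n → ℂ) :
    HasCompactSupport (fun x => Crest.Agent.R271.W792.lev f x w) :=
  hc.of_isClosed_subset isClosed_closure (tsupport_lev f w)

theorem sm_lev {f : X → ℝ} (hf : Sm f) (w : Fin n → ℂ) :
    Sm (fun x => Crest.Agent.R271.W792.lev f x w) := by
  unfold Crest.Agent.R271.W792.lev
  exact (Sm.const (1 / 4 : ℝ)).mulR (((hf.D.apply w).D.apply w).add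
    ((hf.D.apply (I • w)).D.apply (I • w)))

variable [MeasurableSpace X] [BorelSpace X] [T2Space X] {μ : Measure X}

theorem ibp_D (hμ : IsLeb μ) {f χ : X → ℝ} (hf : Sm f) (hχ : Sm χ) (hc : HasCompactSupport χ)
    (v : Fin n → ℂ) : ∫ x, f x * D χ x v ∂μ = - ∫ x, D f x v * χ x ∂μ := by
  have h0 := integral_D_eq_zero hμ (hf.mulR hχ) hc.mul_left v
  have h1 : ∀ x, D (fun x => f x * χ x) x v = D f x v * χ x + f x * D χ x v := fun x =>
    smul_sm hf hχ x v
  simp only [h1] at h0
  rw [integral_add] at h0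
  · linarith
  · exact ((hf.D.apply v).mulR hχ).integrable hμ hc.mul_left
  · exact (hf.mulR (hχ.D.apply v)).integrable hμ (hcs_Dv hc v).mul_left

theorem ibp_D2 (hμ : IsLeb μ) {f χ : X → ℝ} (hf : Sm f) (hχ : Sm χ) (hc : HasCompactSupport χ)
    (v : Fin n → ℂ) : ∫ x, f x * D (fun y => D χ y v) x v ∂μ =
      ∫ x, D (fun y => D f y v) x v * χ x ∂μ := by
  rw [ibp_D hμ hf (hχ.D.apply v) (hcs_Dv hc v) v, ibp_D hμ (hf.D.apply v) hχ hc v, neg_neg]

/-- integration by parts for the Levi form -/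
theorem ibp_lev (hμ : IsLeb μ) {f χ : X → ℝ} (hf : Sm f) (hχ : Sm χ) (hc : HasCompactSupport χ)
    (w : Fin n → ℂ) : ∫ x, f x * Crest.Agent.R271.W792.lev χ x w ∂μ =
      ∫ x, χ x * Crest.Agent.R271.W792.lev f x w ∂μ := by
  have i1 : ∀ v : Fin n → ℂ, Integrable (fun x => f x * D (fun y => D χ y v) x v) μ := fun v =>
    (hf.mulR ((hχ.D.apply v).D.apply v)).integrable hμ (hcs_Dv (hcs_Dv hc v) v).mul_left
  have i2 : ∀ v : Fin n → ℂ, Integrable (fun x => D (fun y => D f y v) x v * χ x) μ := fun v =>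
    (((hf.D.apply v).D.apply v).mulR hχ).integrable hμ hc.mul_left
  have e1 : ∀ x, f x * Crest.Agent.R271.W792.lev χ x w =
      (1 / 4) * (f x * D (fun y => D χ y w) x w + f x * D (fun y => D χ y (I • w)) x (I • w)) := by
    intro x
    unfold Crest.Agent.R271.W792.lev
    ring
  have e2 : ∀ x, χ x * Crest.Agent.R271.W792.lev f x w =
      (1 / 4) * (D (fun y => D f y w) x w * χ x + D (fun y => D f y (I • w)) x (I • w) * χ x) := by
    intro x
    unfold Crest.Agent.R271.W792.lev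
    ring
  simp only [e1, e2]
  rw [integral_const_mul, integral_const_mul, integral_add (i1 w) (i1 (I • w)),
    integral_add (i2 w) (i2 (I • w)), ibp_D2 hμ hf hχ hc, ibp_D2 hμ hf hχ hc]

end ibp

open Crest.Agent.R275.Geo Crest.Agent.R275.Core144 Crest.Agent.R273.SteinA_794
open Crest.Agent.R273.SteinB_794 Crest.Agent.R273.SteinC_794 Crest.Agent.R273.SteinD_794
open Crest.Agent.R273.SteinM_794 Crest.Agent.R273.SteinN_794
open Crest.Agent.R273.Defs_333 (ProjD HM HM.wt)
open Crest.Agent.R273.Vm_333 (vm)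

variable {n : ℕ} {M : Type} [TopologicalSpace M] {A : Atl n M}

/-! ### the constant vector fields of `Mo S` in the charts of `M` -/

open Classical in
/-- the vector field `v` of `Mo S` in the chart `i` -/
def vf (S : SD A) (i : A.ι) (v : Fin n → ℂ) (x : M) : Cn n :=
  if hx : x ∈ (A.e i).source ∧ x ∈ S.U then (S.LL i hx.1 hx.2).symm v else 0

variable {S : SD A}

theorem vf_eq {i : A.ι} (v : Fin n → ℂ) {x : M} (hx : x ∈ (A.e i).source) (hxU : x ∈ S.U) :
    vf S i v x = (S.LL i hx hxU).symm v := dif_pos ⟨hx, hxU⟩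

theorem vf_eq_inv {i : A.ι} (v : Fin n → ℂ) {z : Cn n} (hz : z ∈ S.dom i) :
    vf S i v ((A.e i).symm z) = ContinuousLinearMap.inverse (fderiv ℂ (rd A i S.z) z) v := by
  have hx := (A.e i).map_target hz.1
  rw [vf_eq v hx hz.2]
  have h1 := S.LL_coe i hx hz.2
  rw [(A.e i).right_inv hz.1] at h1
  rw [← h1, ContinuousLinearMap.inverse_equiv]
  rfl

theorem vf_smooth (i : A.ι) (v : Fin n → ℂ) :
    ContDiffOn ℝ ∞ (fun z => vf S i v ((A.e i).symm z)) (S.dom i) := by
  have h0 : ∀ z ∈ S.dom i, ContDiffAt ℂ ∞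
      (fun z => ContinuousLinearMap.inverse (fderiv ℂ (rd A i S.z) z) v) z := by
    intro z hz
    have hx := (A.e i).map_target hz.1
    have h1 := S.LL_coe i hx hz.2
    rw [(A.e i).right_inv hz.1] at h1
    have h2 : ContDiffAt ℂ ∞ (fderiv ℂ (rd A i S.z)) z := ((S.rd_anal i z hz).fderiv).contDiffAt
    have h3 : ContDiffAt ℂ ∞ (ContinuousLinearMap.inverse : (Cn n →L[ℂ] (Fin n → ℂ)) → _)
        (fderiv ℂ (rd A i S.z) z) := by
      rw [← h1]
      exact contDiffAt_map_inverse _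
    exact (h3.comp z h2).clm_apply contDiffAt_const
  intro z hz
  refine ((h0 z hz).restrict_scalars ℝ).congr_of_eventuallyEq ?_ |>.contDiffWithinAt
  filter_upwards [(S.isOpen_dom i).mem_nhds hz] with w hw
  exact vf_eq_inv v hw

/-! ### integration -/

/-- the weight of the volume form -/
def ph (h : HM (KB A)⁻¹) (S : SD A) (x : Mo S) : ℝ := wtS h (kf S) x.val

theorem ph_sm (h : HM (KB A)⁻¹) : Sm (ph h S) := wtS_sm h (isHS_kf S) kf_ne

theorem range_val : range (Mo.val : Mo S → M) = S.U := by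
  ext x
  exact ⟨fun ⟨y, hy⟩ => hy ▸ y.prop, fun hx => ⟨⟨x, hx⟩, rfl⟩⟩

theorem toReal_vS (h : HM (KB A)⁻¹) (x : Mo S) :
    (vS h S x).toReal = Real.exp (-(ph h S x)) :=
  ENNReal.toReal_ofReal (Real.exp_pos _).le

section meas

variable [MeasurableSpace M] [BorelSpace M] [Countable A.ι] [SecondCountableTopology M]
  (h : HM (KB A)⁻¹) {μ : Measure (Mo S)}

/-- **change of variables** -/
theorem integral_mu (hμ : IsLeb μ) (g : M → ℝ) :
    ∫ x in S.U, g x ∂(vm h) = ∫ x : Mo S, Real.exp (-(ph h S x)) * g x.val ∂μ := by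
  rw [← range_val (S := S), ← me_val.map_comap, me_val.integral_map, ← map_mu h hμ,
    integral_withDensity_eq_integral_toReal_smul (vS_meas h)
      (Eventually.of_forall fun x => ENNReal.ofReal_lt_top)]
  simp only [toReal_vS, smul_eq_mul]

theorem integrable_mu (hμ : IsLeb μ) {g : M → ℝ} (hg : Integrable g (vm h)) :
    Integrable (fun x : Mo S => Real.exp (-(ph h S x)) * g x.val) μ := by
  have h1 : Integrable (fun x : Mo S => g x.val) ((vm h).comap Mo.val) := by
    have h2 := hg.restrict (s := range (Mo.val : Mo S → M))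
    rw [← me_val.map_comap] at h2
    exact me_val.integrable_map_iff.1 h2
  rw [← map_mu h hμ, integrable_withDensity_iff_integrable_smul' (vS_meas h)
      (Eventually.of_forall fun x => ENNReal.ofReal_lt_top)] at h1
  simpa only [toReal_vS, smul_eq_mul] using h1

theorem locInt_mu (hμ : IsLeb μ) {g : M → ℝ} (hg : Integrable g (vm h)) :
    LocallyIntegrable (fun x : Mo S => g x.val) μ := by
  have h0 := integrable_mu h hμ hg
  intro x
  have hc : Continuous fun x : Mo S => Real.exp (ph h S x) := Real.continuous_exp.comp (ph_sm h).continuous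
  have h1 : ∀ᶠ y in 𝓝 x, Real.exp (ph h S y) < Real.exp (ph h S x) + 1 :=
    hc.continuousAt.eventually (gt_mem_nhds (by linarith))
  obtain ⟨V, hV, hVo, hxV⟩ := eventually_nhds_iff.1 h1
  refine ⟨V, hVo.mem_nhds hxV, ?_⟩
  have h2 : Integrable (fun x : Mo S => Real.exp (ph h S x) *
      (Real.exp (-(ph h S x)) * g x.val)) (μ.restrict V) := by
    refine (h0.restrict).bdd_mul (c := Real.exp (ph h S x) + 1) hc.measurable.aestronglyMeasurable ?_
    filter_upwards [ae_restrict_mem hVo.measurableSet] with y hy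
    rw [Real.norm_eq_abs, abs_of_pos (Real.exp_pos _)]
    exact (hV y hy).le
  refine h2.congr (Eventually.of_forall fun y => ?_)
  show Real.exp (ph h S y) * (Real.exp (-(ph h S y)) * g y.val) = g y.val
  rw [← mul_assoc, ← Real.exp_add, add_neg_cancel, Real.exp_zero, one_mul]

/-- the product of a locally integrable function with a smooth function of compact support -/
theorem int_mul (hμ : IsLeb μ) {g : M → ℝ} (hg : Integrable g (vm h)) {Λ : Mo S → ℝ} (hΛ : Sm Λ)
    (hc : HasCompactSupport Λ) : Integrable (fun x : Mo S => g x.val * Λ x) μ := by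
  have h0 := integrable_mu h hμ hg
  have hcn : Continuous fun x : Mo S => Λ x * Real.exp (ph h S x) :=
    hΛ.continuous.mul (Real.continuous_exp.comp (ph_sm h).continuous)
  obtain ⟨C, hC⟩ := (hcn.bounded_above_of_compact_support hc.mul_right)
  have h2 := h0.bdd_mul (c := C) hcn.measurable.aestronglyMeasurable (Eventually.of_forall hC)
  refine h2.congr (Eventually.of_forall fun y => ?_)
  show Λ y * Real.exp (ph h S y) * (Real.exp (-(ph h S y)) * g y.val) = g y.val * Λ y
  have h3 : Real.exp (ph h S y) * Real.exp (-(ph h S y)) = 1 := by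
    rw [← Real.exp_add, add_neg_cancel, Real.exp_zero]
  linear_combination (Λ y * g y.val) * h3

/-- bound of the integral against a test function -/
theorem bound_mul (hμ : IsLeb μ) {Λ : Mo S → ℝ} (hΛ : Sm Λ) (hc : HasCompactSupport Λ) :
    ∃ C : ℝ, 0 ≤ C ∧ ∀ g : M → ℝ, Integrable g (vm h) →
      |∫ x : Mo S, g x.val * Λ x ∂μ| ≤ C * ∫ x, |g x| ∂(vm h) := by
  have hcn : Continuous fun x : Mo S => Λ x * Real.exp (ph h S x) :=
    hΛ.continuous.mul (Real.continuous_exp.comp (ph_sm h).continuous)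
  obtain ⟨C, hC⟩ := (hcn.bounded_above_of_compact_support hc.mul_right)
  refine ⟨|C|, abs_nonneg _, fun g hg => ?_⟩
  have h1 : ∀ x : Mo S, |g x.val * Λ x| ≤ |C| * (Real.exp (-(ph h S x)) * |g x.val|) := by
    intro x
    have h2 : |Λ x| ≤ |C| * Real.exp (-(ph h S x)) := by
      have h3 := (hC x).trans (le_abs_self C)
      rw [Real.norm_eq_abs, abs_mul, abs_of_pos (Real.exp_pos _)] at h3
      rw [Real.exp_neg, ← div_eq_mul_inv, le_div_iff₀ (Real.exp_pos _)]
      exact h3
    rw [abs_mul]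
    calc |g x.val| * |Λ x| ≤ |g x.val| * (|C| * Real.exp (-(ph h S x))) := by gcongr
      _ = _ := by ring
  have hga : Integrable (fun x => |g x|) (vm h) := hg.abs
  calc |∫ x : Mo S, g x.val * Λ x ∂μ| ≤ ∫ x : Mo S, |g x.val * Λ x| ∂μ := abs_integral_le_integral_abs
    _ ≤ ∫ x : Mo S, |C| * (Real.exp (-(ph h S x)) * |g x.val|) ∂μ :=
        integral_mono (int_mul h hμ hg hΛ hc).abs ((integrable_mu h hμ hga).const_mul _) h1
    _ = |C| * ∫ x in S.U, |g x| ∂(vm h) := by
        rw [integral_const_mul, integral_mu h hμ fun x => |g x|]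
    _ ≤ |C| * ∫ x, |g x| ∂(vm h) := by
        exact mul_le_mul_of_nonneg_left
          (setIntegral_le_integral hga (Eventually.of_forall fun x => abs_nonneg _)) (abs_nonneg _)

end meas

/-! ### extension by zero -/

open Classical in
/-- extension by zero -/
def xr (F : Mo S → ℝ) (x : M) : ℝ := if hx : x ∈ S.U then F ⟨x, hx⟩ else 0

theorem xr_val (F : Mo S → ℝ) (x : Mo S) : xr F x.val = F x := by
  have hx : x.val ∈ S.U := x.prop
  rw [xr, dif_pos hx]
  rfl

theorem xr_smooth {F : Mo S → ℝ} (hF : Sm F) (i : A.ι) :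
    ContDiffOn ℝ ∞ (fun z => xr F ((A.e i).symm z)) (S.dom i) := by
  intro w hw
  set x : Mo S := ⟨(A.e i).symm w, hw.2⟩ with hx
  have hxs : x.val ∈ (A.e i).source := (A.e i).map_target hw.1
  have hxw : A.e i x.val = w := (A.e i).right_inv hw.1
  have h1 := symm_rd x hxs
  rw [hxw] at h1
  have h2 : ContDiffAt ℝ ∞ (F ∘ (ch x).symm) (rd A i S.z w) :=
    hF.contDiffAt' (isCh_ch x) h1.self_of_nhds.2.1
  have h3 : ContDiffAt ℝ ∞ (rd A i S.z) w := ((S.rd_anal i w hw).contDiffAt).restrict_scalars ℝ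
  have h4 := h2.comp w h3
  refine (h4.congr_of_eventuallyEq ?_).contDiffWithinAt
  filter_upwards [h1] with v hv
  simp only [Function.comp_apply]
  rw [← xr_val F, hv.2.2]

/-! ### rank one matrices -/

/-- the Hermitian form of `T` -/
def fm (T : Matrix (Fin n) (Fin n) ℂ) (v : Cn n) : ℂ := ∑ a, ∑ b, T a b * v a * conj (v b)

/-- rank one matrix of the vector `v` -/
def rk (v : Cn n) : Matrix (Fin n) (Fin n) ℂ :=
  Matrix.vecMulVec (fun b => conj (v b)) (star fun b => conj (v b))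

theorem rk_apply (v : Cn n) (b a : Fin n) : rk v b a = conj (v b) * v a := by
  rw [rk, Matrix.vecMulVec_apply, Pi.star_apply, RCLike.star_def, Complex.conj_conj]

theorem tr_rk (T : Matrix (Fin n) (Fin n) ℂ) (v : Cn n) : (T * rk v).trace = fm T v := by
  unfold fm Matrix.trace
  refine Finset.sum_congr rfl fun a _ => ?_
  rw [Matrix.diag_apply, Matrix.mul_apply]
  refine Finset.sum_congr rfl fun b _ => ?_
  rw [rk_apply]
  ring

theorem rk_psd (v : Cn n) : (rk v).PosSemidef := Matrix.posSemidef_vecMulVec_self_star _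

theorem fm_add (T T' : Matrix (Fin n) (Fin n) ℂ) (v : Cn n) : fm (T + T') v = fm T v + fm T' v := by
  rw [← tr_rk, ← tr_rk, ← tr_rk, Matrix.add_mul, Matrix.trace_add]

theorem fm_smul (c : ℂ) (T : Matrix (Fin n) (Fin n) ℂ) (v : Cn n) : fm (c • T) v = c * fm T v := by
  rw [← tr_rk, ← tr_rk, Matrix.smul_mul, Matrix.trace_smul, smul_eq_mul]


end

end Crest.Agent.R273.T4C_223
end

-- ▼ part R273/T4D_223
section

/-!
# R273 (S0416), A-V0 = T4a (helper223), part 2: weak inequalities on `Mo S`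

* `fm_lev`, `fm_cur` : Hermitian forms on `M` and Levi forms on `Mo S`
* `mkT`, `B_mkT`     : the test of `TLd_201` attached to a test function on `Mo S`
* `weak_of`          : limit `v → u` in `L²`
-/

set_option autoImplicit false
set_option linter.unusedSectionVars false

open Set Filter Topology Complex MeasureTheory
open scoped ContDiff Matrix ComplexConjugate ComplexOrder ENNReal

namespace Crest.Agent.R273.T4D_223

open Crest.Agent.R271.Ho51 (RDom cp ch IsCh IsLeb Sm mem_ch isCh_ch)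
open Crest.Agent.R275.Geo Crest.Agent.R275.Core144 Crest.Agent.R273.SteinA_794
open Crest.Agent.R273.SteinB_794 Crest.Agent.R273.SteinC_794 Crest.Agent.R273.SteinD_794
open Crest.Agent.R273.SteinM_794 Crest.Agent.R273.SteinN_794
open Crest.Agent.R273.Defs_333 (ProjD HM HM.wt HM.Semipos)
open Crest.Agent.R273.Kah_333 (cur hsf Kah)
open Crest.Agent.R273.Vm_333 (vm)
open Crest.Agent.R273.T4C_223 Crest.Agent.R273.TLd_201
open Crest.Agent.R271.W792 (lev)

noncomputable section

variable {n : ℕ} {M : Type} [TopologicalSpace M] {A : Atl n M} {S : SD A}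

/-! ### forms -/

theorem fm_hess {u : Cn n → ℝ} {z : Cn n} (hu : ContDiffAt ℝ ∞ u z) (v : Cn n) :
    (fm (Hess_333.hess u z) v).re = (1 / 4) * Defs_333.lev u z v := by
  have h := HessB_333.hq_re hu v
  have e : fm (Hess_333.hess u z) v = Hess_333.hq u z v := rfl
  rw [e, h]
  ring

/-- functions which are smooth on `S.U` -/
theorem fm_lev {f : M → ℝ} (hf : ∀ i, ContDiffOn ℝ ∞ (fun w => f ((A.e i).symm w)) (S.dom i))
    (x : Mo S) {i : A.ι} (hx : x.val ∈ (A.e i).source) (w : Fin n → ℂ) :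
    (fm (hsf A f i x.val) (vf S i w x.val)).re = lev (fun x : Mo S => f x.val) x w := by
  have hc : ContDiffAt ℝ ∞ (fun w => f ((A.e i).symm w)) (A.e i x.val) :=
    (hf i).contDiffAt ((S.isOpen_dom i).mem_nhds (S.mem_dom hx x.prop))
  rw [lev_of x hx (hc.of_le Crest.Agent.R271.Ho51.two_le_top'), vf_eq w hx x.prop]
  exact fm_hess hc _

theorem fm_cur (h : HM (KB A)⁻¹) (x : Mo S) {i : A.ι} (hx : x.val ∈ (A.e i).source)
    (w : Fin n → ℂ) : (fm (cur h i x.val) (vf S i w x.val)).re = lev (ph h S) x w := by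
  have h1 : Crest.Agent.R271.Ho51.Levi (ph h S) x w = _ := Levi_wtS h (isHS_kf S) kf_ne x hx w
  rw [Crest.Agent.R271.W792.Levi_eq_lev (ph_sm h)] at h1
  rw [h1, vf_eq w hx x.prop]
  exact fm_hess (Kah_333.wt_contDiffAt h i ((A.e i).map_source hx)) _

/-- forms are smooth -/
theorem fm_smooth {i : A.ι} {T : M → Matrix (Fin n) (Fin n) ℂ}
    (hT : ∀ a b, ContDiffOn ℝ ∞ (fun z => T ((A.e i).symm z) a b) (S.dom i)) (w : Fin n → ℂ) :
    ContDiffOn ℝ ∞ (fun z => (fm (T ((A.e i).symm z)) (vf S i w ((A.e i).symm z))).re)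
      (S.dom i) := by
  have h1 : ∀ a, ContDiffOn ℝ ∞ (fun z => (vf S i w ((A.e i).symm z)) a) (S.dom i) := fun a =>
    (EuclideanSpace.proj a : Cn n →L[ℂ] ℂ).restrictScalars ℝ |>.contDiff.comp_contDiffOn
      (vf_smooth i w)
  have h2 : ContDiffOn ℝ ∞ (fun z => fm (T ((A.e i).symm z)) (vf S i w ((A.e i).symm z)))
      (S.dom i) := by
    unfold fm
    refine ContDiffOn.sum fun a _ => ContDiffOn.sum fun b _ => ?_
    exact ((hT a b).mul (h1 a)).mul
      (((conjCLE : ℂ →L[ℝ] ℂ).contDiff).comp_contDiffOn (h1 b))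
  exact reCLM.contDiff.comp_contDiffOn h2

/-- test function times a function which is smooth near the support -/
theorem sm_cut [T2Space M] {χ : Mo S → ℝ} (hχ : Sm χ) {i : A.ι}
    (hs : tsupport χ ⊆ Mo.val ⁻¹' (A.e i).source) {f : M → ℝ}
    (hf : ContDiffOn ℝ ∞ (fun z => f ((A.e i).symm z)) (S.dom i)) :
    Sm (fun x : Mo S => χ x * f x.val) := by
  intro x
  by_cases hx : x ∈ tsupport χ
  · have hxs := hs hx
    have h1 := sm_at x hxs ((hf).contDiffAt ((S.isOpen_dom i).mem_nhds (S.mem_dom hxs x.prop)))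
    exact (hχ x).mul h1
  · have h1 : (fun x : Mo S => χ x * f x.val) =ᶠ[𝓝 x] fun _ => 0 := by
      filter_upwards [notMem_tsupport_iff_eventuallyEq.1 hx] with y hy
      rw [hy]
      simp
    have h2 : Tendsto (ch x).symm (𝓝 (cp x)) (𝓝 x) := by
      have h3 := (ch x).symm.continuousAt
        (x := cp x) (by simpa using (isCh_ch x).cp_mem (mem_ch x))
      rwa [ContinuousAt, (isCh_ch x).symm_cp (mem_ch x)] at h3
    exact (contDiffAt_const (c := (0 : ℝ))).congr_of_eventuallyEq (h2.eventually h1)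

/-! ### tests -/

section tests

variable [T2Space M]

/-- the test matrix on `M` of a test function on `Mo S` -/
def mkT (h : HM (KB A)⁻¹) (D : TD A) (hU : S.U ⊆ D.U) (i : A.ι) (v : Fin n → ℂ) {χ : Mo S → ℝ}
    (hχ : Sm χ) (hc : HasCompactSupport χ) (hs : tsupport χ ⊆ Mo.val ⁻¹' (A.e i).source)
    (h0 : ∀ x, 0 ≤ χ x) : Tst D where
  i := i
  S := fun x => ((xr χ x * Real.exp (wtS h (kf S) x) : ℝ) : ℂ) • rk (vf S i v x)
  sm := by
    intro a b z hz
    have hKc : IsCompact (Mo.val '' tsupport χ) := hc.isCompact.image continuous_val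
    by_cases hzK : (A.e i).symm z ∈ Mo.val '' tsupport χ
    · have hzd : z ∈ S.dom i := by
        obtain ⟨x, hx, hxz⟩ := hzK
        exact ⟨hz, by rw [mem_preimage, ← hxz]; exact x.prop⟩
      have h1 : ∀ a, ContDiffOn ℝ ∞ (fun z => (vf S i v ((A.e i).symm z)) a) (S.dom i) := fun a =>
        (EuclideanSpace.proj a : Cn n →L[ℂ] ℂ).restrictScalars ℝ |>.contDiff.comp_contDiffOn
          (vf_smooth i v)
      have h2 : ContDiffOn ℝ ∞ (fun z => ((xr χ ((A.e i).symm z) *
          Real.exp (wtS h (kf S) ((A.e i).symm z)) : ℝ) : ℂ)) (S.dom i) :=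
        ofRealCLM.contDiff.comp_contDiffOn
          ((xr_smooth hχ i).mul (Real.contDiff_exp.comp_contDiffOn
            (wtS_smooth h (isHS_kf S) kf_ne i)))
      have h3 : ContDiffOn ℝ ∞ (fun z => (((xr χ ((A.e i).symm z) *
          Real.exp (wtS h (kf S) ((A.e i).symm z)) : ℝ) : ℂ) •
            rk (vf S i v ((A.e i).symm z))) a b) (S.dom i) := by
        have e : ∀ z, (((xr χ ((A.e i).symm z) *
          Real.exp (wtS h (kf S) ((A.e i).symm z)) : ℝ) : ℂ) •
            rk (vf S i v ((A.e i).symm z))) a b = ((xr χ ((A.e i).symm z) *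
          Real.exp (wtS h (kf S) ((A.e i).symm z)) : ℝ) : ℂ) *
            (conj (vf S i v ((A.e i).symm z) a) * vf S i v ((A.e i).symm z) b) := by
          intro z
          rw [Matrix.smul_apply, rk_apply, smul_eq_mul]
        simp only [e]
        exact h2.mul ((((conjCLE : ℂ →L[ℝ] ℂ).contDiff).comp_contDiffOn (h1 a)).mul (h1 b))
      exact (h3.contDiffAt ((S.isOpen_dom i).mem_nhds hzd)).contDiffWithinAt
    · have hct : ContinuousAt (A.e i).symm z := (A.e i).symm.continuousAt (by simpa using hz)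
      have h1 : ∀ᶠ w in 𝓝 z, (A.e i).symm w ∉ Mo.val '' tsupport χ :=
        hct.eventually (hKc.isClosed.isOpen_compl.mem_nhds hzK)
      refine ((contDiffAt_const (c := (0 : ℂ))).congr_of_eventuallyEq ?_).contDiffWithinAt
      filter_upwards [h1] with w hw
      have h2 : xr χ ((A.e i).symm w) = 0 := by
        by_cases hwU : (A.e i).symm w ∈ S.U
        · have h3 := xr_val χ ⟨(A.e i).symm w, hwU⟩
          rw [show (Mo.val (⟨(A.e i).symm w, hwU⟩ : Mo S)) = (A.e i).symm w from rfl] at h3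
          rw [h3]
          by_contra hne
          exact hw ⟨⟨(A.e i).symm w, hwU⟩, subset_tsupport _ hne, rfl⟩
        · rw [xr, dif_neg hwU]
      show (((xr χ ((A.e i).symm w) * _ : ℝ) : ℂ) • _ : Matrix _ _ ℂ) a b = 0
      rw [h2, zero_mul, ofReal_zero, zero_smul, Matrix.zero_apply]
  psd := by
    intro x
    have h1 : 0 ≤ xr χ x := by
      by_cases hxU : x ∈ S.U
      · rw [xr, dif_pos hxU]; exact h0 _
      · rw [xr, dif_neg hxU]
    refine (rk_psd _).smul ?_
    exact_mod_cast mul_nonneg h1 (Real.exp_pos _).le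
  K := Mo.val '' tsupport χ
  cK := hc.isCompact.image continuous_val
  KU := by
    rintro _ ⟨x, hx, rfl⟩
    exact ⟨hs hx, hU x.prop⟩
  zero := by
    intro x hx
    have h2 : xr χ x = 0 := by
      by_cases hwU : x ∈ S.U
      · have h3 := xr_val χ ⟨x, hwU⟩
        rw [show (Mo.val (⟨x, hwU⟩ : Mo S)) = x from rfl] at h3
        rw [h3]
        by_contra hne
        exact hx ⟨⟨x, hwU⟩, subset_tsupport _ hne, rfl⟩
      · rw [xr, dif_neg hwU]
    show (((xr χ x * _ : ℝ) : ℂ) • _ : Matrix _ _ ℂ) = 0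
    rw [h2, zero_mul, ofReal_zero, zero_smul]

variable [SecondCountableTopology M] [MeasurableSpace M] [BorelSpace M] [Countable A.ι]
  {μ : Measure (Mo S)}

theorem B_mkT (hμ : IsLeb μ) (h : HM (KB A)⁻¹) (D : TD A) (hU : S.U ⊆ D.U) (i : A.ι)
    (v : Fin n → ℂ) {χ : Mo S → ℝ} (hχ : Sm χ) (hc : HasCompactSupport χ)
    (hs : tsupport χ ⊆ Mo.val ⁻¹' (A.e i).source) (h0 : ∀ x, 0 ≤ χ x)
    (T : A.ι → M → Matrix (Fin n) (Fin n) ℂ) :
    (mkT h D hU i v hχ hc hs h0).B h T =
      ∫ x : Mo S, χ x * (fm (T i x.val) (vf S i v x.val)).re ∂μ := by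
  have e1 : ∀ x : M, (T i x * (((xr χ x * Real.exp (wtS h (kf S) x) : ℝ) : ℂ) •
      rk (vf S i v x))).trace.re = xr χ x * Real.exp (wtS h (kf S) x) *
        (fm (T i x) (vf S i v x)).re := by
    intro x
    rw [Matrix.mul_smul, Matrix.trace_smul, tr_rk, smul_eq_mul, re_ofReal_mul]
  have e2 : (mkT h D hU i v hχ hc hs h0).B h T =
      ∫ x, xr χ x * Real.exp (wtS h (kf S) x) * (fm (T i x) (vf S i v x)).re ∂(vm h) := by
    unfold Tst.B
    exact integral_congr_ae (Eventually.of_forall fun x => e1 x)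
  rw [e2, ← setIntegral_eq_integral_of_forall_compl_eq_zero (s := S.U), integral_mu h hμ]
  · refine integral_congr_ae (Eventually.of_forall fun x => ?_)
    simp only [xr_val]
    have h3 : Real.exp (-(ph h S x)) * Real.exp (wtS h (kf S) x.val) = 1 := by
      rw [← Real.exp_add]
      unfold ph
      rw [neg_add_cancel, Real.exp_zero]
    linear_combination (χ x * (fm (T i x.val) (vf S i v x.val)).re) * h3
  · intro x hx
    rw [xr, dif_neg hx]
    ring

end tests

end

end Crest.Agent.R273.T4D_223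
end

-- ▼ part R273/T4E_223

/-!
# R273 (S0416), A-V0 = T4a (helper223), part 3

* `weak_of`       : limit `v → u` in `L²`
* `weak0`, `weak1`: weak inequalities on `Mo S` for the function `u` of the T-lemma
-/

set_option autoImplicit false
set_option linter.unusedSectionVars false

open Set Filter Topology Complex MeasureTheory
open scoped ContDiff Matrix ComplexConjugate ComplexOrder ENNReal

namespace Crest.Agent.R273.T4E_223

open Crest.Agent.R271.Ho51 (RDom cp ch IsCh IsLeb Sm mem_ch isCh_ch)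
open Crest.Agent.R275.Geo Crest.Agent.R275.Core144 Crest.Agent.R273.SteinA_794
open Crest.Agent.R273.SteinB_794 Crest.Agent.R273.SteinC_794 Crest.Agent.R273.SteinD_794
open Crest.Agent.R273.SteinM_794 Crest.Agent.R273.SteinN_794
open Crest.Agent.R273.Defs_333 (ProjD HM HM.wt HM.Semipos)
open Crest.Agent.R273.Kah_333 (cur hsf Kah)
open Crest.Agent.R273.Vm_333 (vm)
open Crest.Agent.R273.T4C_223 Crest.Agent.R273.T4D_223 Crest.Agent.R273.TLd_201
open Crest.Agent.R271.W792 (lev)

noncomputable section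

variable {n : ℕ} {M : Type} [TopologicalSpace M] {A : Atl n M} {S : SD A}
  [T2Space M] [CompactSpace M] [SecondCountableTopology M] [MeasurableSpace M] [BorelSpace M]
  [Countable A.ι] {μ : Measure (Mo S)}

theorem memLp_sm (h : HM (KB A)⁻¹) {v : M → ℝ} (hv : A.Sm v) : MemLp v 2 (vm h) := by
  have := Vm_333.isFinite_vm h
  have hc : Continuous v := Vm_333.sm_continuous hv
  obtain ⟨C, hC⟩ := isCompact_univ.exists_bound_of_continuousOn hc.continuousOn
  exact MemLp.of_bound hc.measurable.aestronglyMeasurable C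
    (Eventually.of_forall fun x => hC x (mem_univ x))

theorem int_of (h : HM (KB A)⁻¹) {v : M → ℝ} (hv : MemLp v 2 (vm h)) : Integrable v (vm h) := by
  have := Vm_333.isFinite_vm h
  exact hv.integrable (by norm_num)

theorem abs_le_sq {s t : ℝ} (hs : 0 < s) : |t| ≤ s + (1 / (4 * s)) * t ^ 2 := by
  have h2 : |t| * (4 * s) ≤ s * (4 * s) + t ^ 2 := by
    rw [← sq_abs t]
    nlinarith [sq_nonneg (2 * s - |t|)]
  have h3 : s + (1 / (4 * s)) * t ^ 2 = (s * (4 * s) + t ^ 2) / (4 * s) := by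
    field_simp
  rw [h3, le_div_iff₀ (by positivity)]
  exact h2

theorem l1_le (h : HM (KB A)⁻¹) {g : M → ℝ} (hg : MemLp g 2 (vm h)) {s : ℝ} (hs : 0 < s) :
    ∫ x, |g x| ∂(vm h) ≤ s * (vm h).real univ + (1 / (4 * s)) * ∫ x, g x ^ 2 ∂(vm h) := by
  have := Vm_333.isFinite_vm h
  have i1 : Integrable (fun _ : M => s) (vm h) := integrable_const s
  have i2 : Integrable (fun x => (1 / (4 * s)) * g x ^ 2) (vm h) := hg.integrable_sq.const_mul _
  have h2 : ∫ x, |g x| ∂(vm h) ≤ ∫ x, (s + (1 / (4 * s)) * g x ^ 2) ∂(vm h) :=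
    integral_mono (int_of h hg).abs (i1.add i2) fun x => abs_le_sq hs
  have h3 : ∫ x, (s + (1 / (4 * s)) * g x ^ 2) ∂(vm h) =
      ∫ _, s ∂(vm h) + ∫ x, (1 / (4 * s)) * g x ^ 2 ∂(vm h) := integral_add i1 i2
  rw [h3, integral_const_mul, integral_const, smul_eq_mul] at h2
  linarith

theorem weak_of (hμ : IsLeb μ) (h : HM (KB A)⁻¹) {F : Mo S → ℝ} (hF : Sm F) {u : M → ℝ}
    (hu : MemLp u 2 (vm h)) {χ : Mo S → ℝ} (hχ : Sm χ) (hc : HasCompactSupport χ)
    (w : Fin n → ℂ)
    (H : ∀ ε : ℝ, 0 < ε → ∃ v : M → ℝ, A.Sm v ∧ ∫ x, (v x - u x) ^ 2 ∂(vm h) ≤ ε ∧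
      -ε ≤ ∫ x : Mo S, χ x * (lev F x w + lev (fun x : Mo S => v x.val) x w) ∂μ) :
    0 ≤ ∫ x : Mo S, (F x + u x.val) * lev χ x w ∂μ := by
  obtain ⟨C, hC0, hC⟩ := bound_mul h hμ (sm_lev hχ w) (hcs_lev hc w)
  set V : ℝ := (vm h).real univ with hV
  have hV0 : 0 ≤ V := measureReal_nonneg
  set J := ∫ x : Mo S, (F x + u x.val) * lev χ x w ∂μ with hJ
  have hΛ : Sm (fun x : Mo S => lev χ x w) := sm_lev hχ w
  have hΛc : HasCompactSupport (fun x : Mo S => lev χ x w) := hcs_lev hc w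
  have key : ∀ s : ℝ, 0 < s → -s ^ 2 - C * (s * V + s / 4) ≤ J := by
    intro s hs
    obtain ⟨v, hv, hvu, hv2⟩ := H (s ^ 2) (by positivity)
    have hvs : Sm (fun x : Mo S => v x.val) := sm_of_Sm hv
    have hg : MemLp (fun x => v x - u x) 2 (vm h) := (memLp_sm h hv).sub hu
    have hgi := int_of h hg
    have e1 : ∫ x : Mo S, χ x * (lev F x w + lev (fun x : Mo S => v x.val) x w) ∂μ =
        ∫ x : Mo S, (F x + v x.val) * lev χ x w ∂μ := by
      rw [ibp_lev hμ (hF.add hvs) hχ hc w]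
      refine integral_congr_ae (Eventually.of_forall fun x => ?_)
      simp only [Crest.Agent.R271.W792.lev_add hF hvs]
    have i1 : Integrable (fun x : Mo S => (F x + v x.val) * lev χ x w) μ :=
      ((hF.add hvs).mulR hΛ).integrable hμ hΛc.mul_left
    have i2 : Integrable (fun x : Mo S => (v x.val - u x.val) * lev χ x w) μ :=
      int_mul h hμ hgi hΛ hΛc
    have e2 : J = (∫ x : Mo S, (F x + v x.val) * lev χ x w ∂μ) -
        ∫ x : Mo S, (v x.val - u x.val) * lev χ x w ∂μ := by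
      rw [← integral_sub i1 i2, hJ]
      refine integral_congr_ae (Eventually.of_forall fun x => ?_)
      simp only
      ring
    have h3 := hC _ hgi
    have h4 : C * ∫ x, |v x - u x| ∂(vm h) ≤ C * (s * V + s / 4) := by
      refine mul_le_mul_of_nonneg_left ?_ hC0
      refine (l1_le h hg hs).trans ?_
      have h5 : (1 / (4 * s)) * ∫ x, (v x - u x) ^ 2 ∂(vm h) ≤ (1 / (4 * s)) * s ^ 2 :=
        mul_le_mul_of_nonneg_left hvu (by positivity)
      have h6 : (1 / (4 * s)) * s ^ 2 = s / 4 := by field_simp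
      linarith
    have h5 := (abs_le.1 (h3.trans h4)).2
    rw [e1] at hv2
    linarith
  by_contra hneg
  rw [not_le] at hneg
  set B : ℝ := 1 + C * (V + 1 / 4) with hB
  have hB1 : 1 ≤ B := by
    rw [hB]
    have : 0 ≤ C * (V + 1 / 4) := by positivity
    linarith
  set s : ℝ := min 1 (-J / (2 * B)) with hs
  have hJB : 0 < -J / (2 * B) := by
    apply div_pos <;> linarith
  have hs0 : 0 < s := lt_min one_pos hJB
  have hs1 : s ≤ 1 := min_le_left _ _
  have hs2 : s * (2 * B) ≤ -J := by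
    have := min_le_right 1 (-J / (2 * B))
    rwa [← hs, le_div_iff₀ (by linarith)] at this
  have h7 := key s hs0
  nlinarith [mul_nonneg hs0.le (sub_nonneg.2 hs1)]

/-- the approximation property of the T-lemma -/
def Appr (h : HM (KB A)⁻¹) (D : TD A) (K : Kah A) (δ : ℝ) (u : M → ℝ) : Prop :=
  ∀ (m : ℕ) (ε : ℝ), 0 < ε → ∀ T : Finset (Tst D),
    ∃ v : M → ℝ, A.Sm v ∧ (∀ x, v x ≤ 0) ∧
      (∀ i, ∀ x ∈ (A.e i).source,
        (cur h i x + (1 / ((m : ℂ) + 1)) • K.g i x + hsf A v i x).PosSemidef) ∧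
      ∫ x, (v x - u x) ^ 2 ∂(vm h) ≤ ε ∧
      ∀ t ∈ T, δ * t.B h D.be ≤
        t.B h (fun i x => cur h i x + (1 / ((m : ℂ) + 1)) • K.g i x + hsf A v i x)

section split

variable (hμ : IsLeb μ) (h : HM (KB A)⁻¹) (K : Kah A) {χ : Mo S → ℝ} (hχ : Sm χ)
  (hc : HasCompactSupport χ) {i : A.ι} (hs : tsupport χ ⊆ Mo.val ⁻¹' (A.e i).source)
  (w : Fin n → ℂ)

include hμ hχ hc hs in
theorem int_K : Integrable (fun x : Mo S =>
    χ x * (fm (K.g i x.val) (vf S i w x.val)).re) μ :=
  (sm_cut hχ hs (f := fun x => (fm (K.g i x) (vf S i w x)).re)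
    (fm_smooth (fun a b => (K.sm i a b).mono inter_subset_left) w)).integrable hμ hc.mul_right

include hμ hχ hc hs in
theorem split {v : M → ℝ} (hv : A.Sm v) (r : ℝ) :
    ∫ x : Mo S, χ x * (fm (cur h i x.val + (r : ℂ) • K.g i x.val + hsf A v i x.val)
      (vf S i w x.val)).re ∂μ =
    ∫ x : Mo S, χ x * (lev (ph h S) x w + lev (fun x : Mo S => v x.val) x w) ∂μ +
      r * ∫ x : Mo S, χ x * (fm (K.g i x.val) (vf S i w x.val)).re ∂μ := by
  have hvs : Sm (fun x : Mo S => v x.val) := sm_of_Sm hv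
  have i1 : Integrable (fun x : Mo S =>
      χ x * (lev (ph h S) x w + lev (fun x : Mo S => v x.val) x w)) μ :=
    (hχ.mulR ((sm_lev (ph_sm h) w).add (sm_lev hvs w))).integrable hμ hc.mul_right
  rw [← integral_const_mul, ← integral_add i1 ((int_K hμ K hχ hc hs w).const_mul r)]
  refine integral_congr_ae (Eventually.of_forall fun x => ?_)
  simp only
  by_cases hx : x ∈ tsupport χ
  · have hxs : x.val ∈ (A.e i).source := hs hx
    rw [fm_add, fm_add, fm_smul, add_re, add_re, re_ofReal_mul, fm_cur h x hxs w,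
      fm_lev (fun i => (hv i).mono inter_subset_left) x hxs w]
    ring
  · rw [image_eq_zero_of_notMem_tsupport hx]
    ring

end split

theorem exists_m (CK : ℝ) {ε : ℝ} (hε : 0 < ε) : ∃ m : ℕ, (1 / ((m : ℝ) + 1)) * CK ≤ ε := by
  obtain ⟨m, hm⟩ := exists_nat_gt (|CK| / ε)
  refine ⟨m, ?_⟩
  have h1 : |CK| < m * ε := by rwa [div_lt_iff₀ hε] at hm
  have h2 : (1 / ((m : ℝ) + 1)) * CK ≤ (1 / ((m : ℝ) + 1)) * |CK| :=
    mul_le_mul_of_nonneg_left (le_abs_self _) (by positivity)
  refine h2.trans ?_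
  rw [one_div, inv_mul_le_iff₀ (by positivity)]
  nlinarith

theorem coe_m (m : ℕ) : (1 / ((m : ℂ) + 1)) = (((1 / ((m : ℝ) + 1)) : ℝ) : ℂ) := by
  push_cast
  rfl


/-- weak inequality with `β` -/
theorem weak1 (hμ : IsLeb μ) {h : HM (KB A)⁻¹} {D : TD A} {K : Kah A} {δ : ℝ} {u : M → ℝ}
    (hu : MemLp u 2 (vm h)) (H : Appr h D K δ u) (hU : S.U ⊆ D.U) {P : M → ℝ}
    (hP : ∀ i, ContDiffOn ℝ ∞ (fun z => P ((A.e i).symm z)) (S.dom i))
    (hb : ∀ i, ∀ x ∈ (A.e i).source, x ∈ S.U → D.be i x = hsf A P i x)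
    {χ : Mo S → ℝ} (hχ : Sm χ)
    (hc : HasCompactSupport χ) {i : A.ι} (hs : tsupport χ ⊆ Mo.val ⁻¹' (A.e i).source)
    (h0 : ∀ x, 0 ≤ χ x) (w : Fin n → ℂ) :
    0 ≤ ∫ x : Mo S, (ph h S x + -δ * P x.val + u x.val) * lev χ x w ∂μ := by
  have hPs : Sm (fun x : Mo S => P x.val) := sm_of hP
  have hF : Sm (fun x : Mo S => ph h S x + -δ * P x.val) :=
    (ph_sm h).add ((Sm.const (-δ)).mulR hPs)
  refine weak_of hμ h hF hu hχ hc w fun ε hε => ?_
  obtain ⟨m, hm⟩ := exists_m (∫ x : Mo S, χ x * (fm (K.g i x.val) (vf S i w x.val)).re ∂μ) hε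
  obtain ⟨v, hv, -, -, hvu, ht⟩ := H m ε hε {mkT h D hU i w hχ hc hs h0}
  refine ⟨v, hv, hvu, ?_⟩
  have hvs : Sm (fun x : Mo S => v x.val) := sm_of_Sm hv
  have h1 := split hμ h K hχ hc hs w hv (1 / ((m : ℝ) + 1))
  have h2 := ht _ (Finset.mem_singleton_self _)
  rw [B_mkT hμ, B_mkT hμ] at h2
  simp only [coe_m] at h2
  rw [h1] at h2
  have h3 : ∫ x : Mo S, χ x * (fm (D.be i x.val) (vf S i w x.val)).re ∂μ =
      ∫ x : Mo S, χ x * lev (fun x : Mo S => P x.val) x w ∂μ := by
    refine integral_congr_ae (Eventually.of_forall fun x => ?_)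
    simp only
    by_cases hx : x ∈ tsupport χ
    · rw [hb i x.val (hs hx) x.prop, fm_lev hP x (hs hx) w]
    · rw [image_eq_zero_of_notMem_tsupport hx]
      ring
  have i1 : Integrable (fun x : Mo S =>
      χ x * (lev (ph h S) x w + lev (fun x : Mo S => v x.val) x w)) μ :=
    (hχ.mulR ((sm_lev (ph_sm h) w).add (sm_lev hvs w))).integrable hμ hc.mul_right
  have i2 : Integrable (fun x : Mo S => χ x * lev (fun x : Mo S => P x.val) x w) μ :=
    (hχ.mulR (sm_lev hPs w)).integrable hμ hc.mul_right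
  have h4 : ∫ x : Mo S, χ x * (lev (fun x : Mo S => ph h S x + -δ * P x.val) x w +
      lev (fun x : Mo S => v x.val) x w) ∂μ =
      ∫ x : Mo S, χ x * (lev (ph h S) x w + lev (fun x : Mo S => v x.val) x w) ∂μ -
        δ * ∫ x : Mo S, χ x * lev (fun x : Mo S => P x.val) x w ∂μ := by
    rw [← integral_const_mul, ← integral_sub i1 (i2.const_mul δ)]
    refine integral_congr_ae (Eventually.of_forall fun x => ?_)
    simp only
    rw [Crest.Agent.R271.W792.lev_add (ph_sm h) ((Sm.const (-δ)).mulR hPs),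
      Crest.Agent.R271.W792.lev_const_mul hPs]
    ring
  rw [h4]
  rw [h3] at h2
  linarith

end

end Crest.Agent.R273.T4E_223
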