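import Crest.Agent.R273.L2K_774
import Crest.Agent.R275.QN2b_734
import Crest.Agent.R275.CutY_89
import Crest.Agent.R273.HodgeH_803
import Crest.Agent.R275.PaiB_323

-- ▼ part R273/PslT_774
section

/-!
# R273 (S0416), Part D, leaf D.12b (helper774), torus part: pseudolocality

`SupK K F` : the periodic function `F` is supported in the translates of `K`;
`G_off`, `Kop_off` : for `F` supported in `K` (compact in the open unit cube) and `g` vanishing on a
neighbourhood `V` of `K`, the operators `f ↦ F * G (g * f)` and `f ↦ F * Kop a (g * f)` map `L²` to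
`H^s` for every `s`;
`nv_KT_off`, `nv_GT_off` : vector versions.
-/

set_option autoImplicit false
set_option linter.unusedSectionVars false
set_option linter.unusedSimpArgs false
set_option linter.unusedVariables false

open Set Filter Topology Complex
open scoped ContDiff Matrix ComplexConjugate

namespace Crest.Agent.R273.PslT_774

open Crest.Agent.R275 Crest.Agent.R275.Geo Crest.Agent.R275.Tor812 Crest.Agent.R275.TorS666
  Crest.Agent.R275.C1d194 Crest.Agent.R275.C2812 Crest.Agent.R275.RetC666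
  Crest.Agent.R273.L2K_774

noncomputable section

section support

variable {d : Type} [Fintype d]

/-- the set of points with fractional part in a compact subset of the cube is closed -/
theorem isClosed_fr {K : Set (d → ℝ)} (hK : IsCompact K) (hKQ : K ⊆ Qo d) :
    IsClosed {x : d → ℝ | fr x ∈ K} := by
  have h1 : {x : d → ℝ | fr x ∈ K} = pr ⁻¹' (pr '' K) := by
    ext x
    constructor
    · intro hx
      refine ⟨fr x, hx, ?_⟩
      rw [pr_eq_iff]
      refine ⟨fun i => ⌊x i⌋, ?_⟩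
      funext i
      simp [fr]
    · rintro ⟨y, hy, hxy⟩
      obtain ⟨k, hk⟩ := pr_eq_iff.1 hxy
      show fr x ∈ K
      rw [hk, fr_add_int, fr_eq_self (hKQ hy)]
      exact hy
  rw [h1]
  exact (hK.image continuous_pr).isClosed.preimage continuous_pr

/-- `F` is supported in the translates of `K` -/
def SupK (K : Set (d → ℝ)) (F : SPer d) : Prop := ∀ x, fr x ∉ K → F x = 0

theorem SupK.zero (K : Set (d → ℝ)) : SupK K (0 : SPer d) := fun _ _ => rfl

theorem SupK.add {K : Set (d → ℝ)} {F G : SPer d} (hF : SupK K F) (hG : SupK K G) :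
    SupK K (F + G) := fun x hx => by rw [SPer.add_apply, hF x hx, hG x hx, add_zero]

theorem SupK.neg {K : Set (d → ℝ)} {F : SPer d} (hF : SupK K F) : SupK K (-F) := fun x hx => by
  rw [SPer.neg_apply, hF x hx, neg_zero]

theorem SupK.smul {K : Set (d → ℝ)} {F : SPer d} (hF : SupK K F) (c : ℂ) : SupK K (c • F) :=
  fun x hx => by rw [SPer.smul_apply, hF x hx, mul_zero]

theorem SupK.sum {K : Set (d → ℝ)} {ι : Type*} (s : Finset ι) {F : ι → SPer d}
    (hF : ∀ i, SupK K (F i)) : SupK K (∑ i ∈ s, F i) := by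
  classical
  induction s using Finset.induction_on with
  | empty => simpa using SupK.zero K
  | insert a s ha ih => rw [Finset.sum_insert ha]; exact (hF a).add ih

theorem SupK.pd {K : Set (d → ℝ)} (hK : IsCompact K) (hKQ : K ⊆ Qo d) {F : SPer d}
    (hF : SupK K F) (j : d) : SupK K (pd j F) := by
  intro x hx
  rw [pd_apply]
  have h1 : (F : (d → ℝ) → ℂ) =ᶠ[𝓝 x] fun _ => 0 := by
    filter_upwards [(isClosed_fr hK hKQ).isOpen_compl.mem_nhds hx] with y hy
    exact hF y hy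
  rw [h1.fderiv_eq]
  simp

/-- a periodic cut-off which is `1` on the translates of `K`, with vanishing derivatives there,
supported near `K` -/
theorem exists_cut {K V : Set (d → ℝ)} (hK : IsCompact K) (hKQ : K ⊆ Qo d) (hV : IsOpen V)
    (hKV : K ⊆ V) : ∃ (K' : Set (d → ℝ)) (p : SPer d), IsCompact K' ∧ K' ⊆ Qo d ∧ K' ⊆ V ∧
      SupK K' p ∧ (∀ x, fr x ∈ K → p x = 1) ∧ (∀ x, fr x ∈ K → ∀ j, pd j p x = 0) := by
  obtain ⟨K1, hK1, hKK1, hK1V⟩ := exists_compact_between hK (hV.inter isOpen_Qo)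
    (fun x hx => ⟨hKV hx, hKQ hx⟩)
  obtain ⟨K2, hK2, hK12, hK2V⟩ := exists_compact_between hK1 (hV.inter isOpen_Qo) hK1V
  obtain ⟨g, hg1, hg2, hg3, hg4⟩ := exists_contMDiff_support_eq_eq_one_iff
    (modelWithCornersSelf ℝ (d → ℝ)) (n := ⊤) isOpen_interior hK1.isClosed hK12
  have hgs : ContDiff ℝ ∞ g := contMDiff_iff_contDiff.1 hg1
  have hcc : IsCC (Qo d) (fun x => (g x : ℂ)) := by
    refine ⟨ofRealCLM.contDiff.comp hgs, K2, hK2, fun x hx => (hK2V hx).2, fun x hx => ?_⟩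
    have h1 : x ∉ Function.support g := by
      rw [hg3]
      exact fun h => hx (interior_subset h)
    rw [Function.notMem_support.1 h1]
    rfl
  have hone : ∀ y ∈ K1, (g y : ℂ) = 1 := by
    intro y hy
    rw [(hg4 y).1 hy, ofReal_one]
  refine ⟨K2, perz _ hcc, hK2, fun x hx => (hK2V hx).2, fun x hx => (hK2V hx).1, fun x hx => ?_,
    fun x hx => ?_, fun x hx j => ?_⟩
  · rw [perz_apply]
    have h1 : fr x ∉ Function.support g := by
      rw [hg3]
      exact fun h => hx (interior_subset h)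
    show (g (fr x) : ℂ) = 0
    rw [Function.notMem_support.1 h1, ofReal_zero]
  · rw [perz_apply]
    exact hone _ (interior_subset (hKK1 hx))
  · rw [pd_perz, perz_apply]
    have h1 : (fun y => (g y : ℂ)) =ᶠ[𝓝 (fr x)] fun _ => 1 := by
      filter_upwards [isOpen_interior.mem_nhds (hKK1 hx)] with y hy
      exact hone y (interior_subset hy)
    rw [h1.fderiv_eq]
    simp

end support

/-! ### the operators `G` and `Kop` -/

section ops

variable {n : ℕ}

theorem SupK.dbar {K : Set (RI n → ℝ)} (hK : IsCompact K) (hKQ : K ⊆ Qo (RI n))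
    {F : SPer (RI n)} (hF : SupK K F) (j : Fin n) : SupK K (dbar j F) := by
  rw [dbar_apply]
  exact ((hF.pd hK hKQ _).add ((hF.pd hK hKQ _).smul _)).smul _

theorem SupK.ddp {K : Set (RI n → ℝ)} (hK : IsCompact K) (hKQ : K ⊆ Qo (RI n))
    {F : SPer (RI n)} (hF : SupK K F) (j : Fin n) : SupK K (ddp j F) := by
  rw [ddp_apply, sub_eq_add_neg]
  exact ((hF.pd hK hKQ _).add ((hF.pd hK hKQ _).smul _).neg).smul _

theorem SupK.box' {K : Set (RI n → ℝ)} (hK : IsCompact K) (hKQ : K ⊆ Qo (RI n))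
    {F : SPer (RI n)} (hF : SupK K F) : SupK K (box' F) := by
  rw [box'_apply]
  exact (SupK.sum _ fun j => (hF.dbar hK hKQ j).ddp hK hKQ j).neg

theorem SupK.mul_one {K : Set (RI n → ℝ)} {F p : SPer (RI n)} (hF : SupK K F)
    (hp : ∀ x, fr x ∈ K → p x = 1) : F * p = F := by
  refine SPer.ext fun x => ?_
  rw [SPer.mul_apply]
  by_cases hx : fr x ∈ K
  · rw [hp x hx, _root_.mul_one]
  · rw [hF x hx, zero_mul]

theorem SupK.mul_zero {K : Set (RI n → ℝ)} {F p : SPer (RI n)} (hF : SupK K F)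
    (hp : ∀ x, fr x ∈ K → p x = 0) : F * p = 0 := by
  refine SPer.ext fun x => ?_
  rw [SPer.mul_apply, SPer.zero_apply]
  by_cases hx : fr x ∈ K
  · rw [hp x hx, MulZeroClass.mul_zero]
  · rw [hF x hx, zero_mul]

theorem dbar_zero_of {p : SPer (RI n)} {x : RI n → ℝ} (h : ∀ j, pd j p x = 0) (j : Fin n) :
    dbar j p x = 0 := by
  rw [dbar_apply, SPer.smul_apply, SPer.add_apply, SPer.smul_apply, h, h]
  simp

theorem ddp_zero_of {p : SPer (RI n)} {x : RI n → ℝ} (h : ∀ j, pd j p x = 0) (j : Fin n) :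
    ddp j p x = 0 := by
  rw [ddp_apply, SPer.smul_apply, SPer.sub_apply, SPer.smul_apply, h, h]
  simp

/-- insertion of the cut-off -/
theorem mul_dbar_cut {K : Set (RI n → ℝ)} {F p : SPer (RI n)} (hF : SupK K F)
    (hp : ∀ x, fr x ∈ K → p x = 1) (hp' : ∀ x, fr x ∈ K → ∀ j, pd j p x = 0) (j : Fin n)
    (h : SPer (RI n)) : F * dbar j h = F * dbar j (p * h) := by
  rw [dbar_mul, mul_add, ← mul_assoc, ← mul_assoc, hF.mul_one hp,
    hF.mul_zero fun x hx => dbar_zero_of (hp' x hx) j, zero_mul, zero_add]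

theorem mul_ddp_cut {K : Set (RI n → ℝ)} {F p : SPer (RI n)} (hF : SupK K F)
    (hp : ∀ x, fr x ∈ K → p x = 1) (hp' : ∀ x, fr x ∈ K → ∀ j, pd j p x = 0) (j : Fin n)
    (h : SPer (RI n)) : F * ddp j h = F * ddp j (p * h) := by
  rw [ddp_mul, mul_add, ← mul_assoc, ← mul_assoc, hF.mul_one hp,
    hF.mul_zero fun x hx => ddp_zero_of (hp' x hx) j, zero_mul, zero_add]

theorem mul_cut {K : Set (RI n → ℝ)} {F p : SPer (RI n)} (hF : SupK K F)
    (hp : ∀ x, fr x ∈ K → p x = 1) (h : SPer (RI n)) : F * h = F * (p * h) := by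
  rw [← mul_assoc, hF.mul_one hp]

/-- **pseudolocality of `G`** -/
theorem G_off (s : ℕ) : ∀ {K V : Set (RI n → ℝ)}, IsCompact K → K ⊆ Qo (RI n) → IsOpen V → K ⊆ V →
    ∀ {F g : SPer (RI n)}, SupK K F → (∀ x, fr x ∈ V → g x = 0) →
    ∃ C, 0 ≤ C ∧ ∀ f : SPer (RI n), nrm (s + 1) (F * G (g * f)) ≤ C * nrm 0 f := by
  induction s with
  | zero =>
    intro K V hK hKQ hV hKV F g hF hg
    obtain ⟨C1, hC1, h1⟩ := nrm_mul_le 1 F
    obtain ⟨C2, hC2, h2⟩ := nrm_mul_le 0 g
    refine ⟨C1 * C2, mul_nonneg hC1 hC2, fun f => (h1 _).trans ?_⟩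
    rw [mul_assoc]
    refine mul_le_mul_of_nonneg_left ?_ hC1
    exact (nrm_mono (by omega) _).trans ((nrm_G_le 0 _).trans (h2 f))
  | succ s ih =>
    intro K V hK hKQ hV hKV F g hF hg
    obtain ⟨K', p, hK', hK'Q, hK'V, hp0, hp1, hp2⟩ := exists_cut hK hKQ hV hKV
    obtain ⟨D, hD, hDb⟩ := ih hK' hK'Q hV hK'V hp0 hg
    choose C1 hC1 h1 using fun j : Fin n => nrm_mul_le s (ddp j F)
    choose C2 hC2 h2 using fun j : Fin n => nrm_mul_le s (dbar j F)
    obtain ⟨C3, hC3, h3⟩ := nrm_mul_le s (box' F)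
    refine ⟨(∑ j, (C1 j * (2 * Real.pi) + C2 j * (2 * Real.pi)) + C3) * D, mul_nonneg
      (add_nonneg (Finset.sum_nonneg fun j _ => add_nonneg (mul_nonneg (hC1 j) (by positivity))
        (mul_nonneg (hC2 j) (by positivity))) hC3) hD, fun f => ?_⟩
    set h := G (g * f) with hh
    have e0 : F * (g * f) = 0 := by
      rw [← mul_assoc, hF.mul_zero fun x hx => hg x (hKV hx), zero_mul]
    have e1 : F * h = -(G (∑ j : Fin n, (ddp j F * dbar j (p * h) + dbar j F * ddp j (p * h)) -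
        box' F * (p * h))) := by
      have h4 := comm_G F (g * f)
      rw [e0, map_zero, zero_sub, ← hh] at h4
      rw [eq_neg_iff_add_eq_zero, ← neg_eq_iff_add_eq_zero, h4]
      congr 2
      · refine Finset.sum_congr rfl fun j _ => ?_
        rw [mul_dbar_cut (hF.ddp hK hKQ j) hp1 hp2 j h,
          mul_ddp_cut (hF.dbar hK hKQ j) hp1 hp2 j h]
      · exact mul_cut (hF.box' hK hKQ) hp1 h
    have hph : nrm (s + 1) (p * h) ≤ D * nrm 0 f := hDb f
    rw [e1, nrm_neg]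
    refine (nrm_G_le s _).trans ((nrm_sub_le _ _ _).trans ?_)
    rw [mul_assoc]
    refine le_trans ?_ (mul_le_mul_of_nonneg_left hph (add_nonneg (Finset.sum_nonneg fun j _ =>
      add_nonneg (mul_nonneg (hC1 j) (by positivity)) (mul_nonneg (hC2 j) (by positivity))) hC3))
    rw [add_mul, Finset.sum_mul]
    refine add_le_add ((nrm_sum_le _ _ _).trans (Finset.sum_le_sum fun j _ => ?_)) ?_
    · refine (nrm_add_le _ _ _).trans ?_
      rw [add_mul]
      refine add_le_add ((h1 j _).trans ?_) ((h2 j _).trans ?_)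
      · rw [mul_assoc]
        exact mul_le_mul_of_nonneg_left (nrm_dbar_le _ _ _) (hC1 j)
      · rw [mul_assoc]
        exact mul_le_mul_of_nonneg_left (nrm_ddp_le _ _ _) (hC2 j)
    · exact (h3 _).trans (mul_le_mul_of_nonneg_left (nrm_mono (by omega) _) hC3)

/-- **pseudolocality of `Kop`** -/
theorem Kop_off (s : ℕ) {K V : Set (RI n → ℝ)} (hK : IsCompact K) (hKQ : K ⊆ Qo (RI n))
    (hV : IsOpen V) (hKV : K ⊆ V) {F g : SPer (RI n)} (hF : SupK K F)
    (hg : ∀ x, fr x ∈ V → g x = 0) (a : Fin n) :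
    ∃ C, 0 ≤ C ∧ ∀ f : SPer (RI n), nrm s (F * Kop a (g * f)) ≤ C * nrm 0 f := by
  obtain ⟨K', p, hK', hK'Q, hK'V, hp0, hp1, hp2⟩ := exists_cut hK hKQ hV hKV
  obtain ⟨D, hD, hDb⟩ := G_off s hK' hK'Q hV hK'V hp0 hg
  obtain ⟨C1, hC1, h1⟩ := nrm_mul_le s F
  refine ⟨C1 * (2 * Real.pi) * D, by positivity, fun f => ?_⟩
  rw [Kop_apply, mul_neg, nrm_neg, mul_ddp_cut hF hp1 hp2]
  refine (h1 _).trans ?_
  rw [mul_assoc, mul_assoc]
  refine mul_le_mul_of_nonneg_left ((nrm_ddp_le _ _ _).trans ?_) hC1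
  exact mul_le_mul_of_nonneg_left (hDb f) (by positivity)

variable {κ : Type} [Fintype κ]

theorem nv_GT_off (s : ℕ) {K V : Set (RI n → ℝ)} (hK : IsCompact K) (hKQ : K ⊆ Qo (RI n))
    (hV : IsOpen V) (hKV : K ⊆ V) {F g : SPer (RI n)} (hF : SupK K F)
    (hg : ∀ x, fr x ∈ V → g x = 0) :
    ∃ C, 0 ≤ C ∧ ∀ v : κ → SPer (RI n), nv s (sT F (GT (sT g v))) ≤ C * nv 0 v := by
  obtain ⟨C, hC, h⟩ := G_off s hK hKQ hV hKV hF hg
  refine ⟨C, hC, fun v => ?_⟩
  unfold nv
  rw [Finset.mul_sum]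
  exact Finset.sum_le_sum fun k _ => (nrm_mono (by omega) _).trans (h (v k))

theorem sT_sum {ι : Type*} (s : Finset ι) (F : SPer (RI n)) (f : ι → κ → SPer (RI n)) :
    sT F (∑ i ∈ s, f i) = ∑ i ∈ s, sT F (f i) := by
  funext k
  simp only [sT, Finset.sum_apply, Finset.mul_sum]

theorem nv_KT_off (io : Fin n → Matrix κ κ ℂ) (s : ℕ) {K V : Set (RI n → ℝ)} (hK : IsCompact K)
    (hKQ : K ⊆ Qo (RI n)) (hV : IsOpen V) (hKV : K ⊆ V) {F g : SPer (RI n)} (hF : SupK K F)
    (hg : ∀ x, fr x ∈ V → g x = 0) :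
    ∃ C, 0 ≤ C ∧ ∀ v : κ → SPer (RI n), nv s (sT F (Geo.KT io (sT g v))) ≤ C * nv 0 v := by
  choose C hC h using fun a : Fin n => Kop_off s hK hKQ hV hKV hF hg a
  refine ⟨∑ a, (∑ k, ∑ l, ‖io a k l‖) * C a, Finset.sum_nonneg fun a _ =>
    mul_nonneg (Finset.sum_nonneg fun k _ => Finset.sum_nonneg fun l _ => norm_nonneg _)
      (hC a), fun v => ?_⟩
  unfold Geo.KT
  rw [sT_sum, Finset.sum_mul]
  refine (nv_sum_le _ _ _).trans (Finset.sum_le_sum fun a _ => ?_)
  rw [← mT_sT]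
  refine (nv_mT_le _ _ _).trans ?_
  rw [mul_assoc]
  refine mul_le_mul_of_nonneg_left ?_
    (Finset.sum_nonneg fun k _ => Finset.sum_nonneg fun l _ => norm_nonneg _)
  unfold nv
  rw [Finset.mul_sum]
  exact Finset.sum_le_sum fun k _ => h a (v k)

end ops

end

end Crest.Agent.R273.PslT_774
end

-- ▼ part R273/Psl_774
section

/-!
# R273 (S0416), Part D, leaf D.12b (helper774): pseudolocality on `M`

* `nrm_loc_le`, `sup_le_nS` : comparison with an arbitrary localisation, Sobolev embedding;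
* `nS_fmulL_le` : multiplication by a smooth function is bounded in every norm;
* `Psl P B T` : `f T g : L² → H^s` for all `s` and all smooth `f`, `g` with disjoint supports;
  `psl_KML`, `psl_RML`, `Psl.add`, `Psl.comp`;
* `improve` : if `c N - w - ∇ (y N) → 0` in `L²`, `∇ (c N) → 0` in `L²` and `∇ (c N) = 0` on the open
  set `U`, `∇ w = 0`, then after changing `y N` the convergence holds in `H^s` on the compact
  subsets of `U`;
* `functional_limit` : functionals living over `U` and killing exact sections.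
-/

set_option autoImplicit false
set_option linter.unusedSectionVars false
set_option linter.unusedSimpArgs false
set_option linter.unusedVariables false

open Set Filter Topology Complex
open scoped ContDiff Matrix ComplexConjugate

namespace Crest.Agent.R273.Psl_774

open Crest.Agent.R275 Crest.Agent.R275.Geo Crest.Agent.R275.Tor812 Crest.Agent.R275.TorS666
  Crest.Agent.R275.C1d194 Crest.Agent.R275.C2812 Crest.Agent.R275.RetC666
  Crest.Agent.R273.L2K_774 Crest.Agent.R273.PslT_774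
open Crest.Agent.R275.CutY89 (fmulL fmulL_coe fmulL_apply)

noncomputable section

variable {n : ℕ} {M : Type} [TopologicalSpace M] {A : Atl n M}

/-! ### periodic functions representing two functions with disjoint supports -/

theorem exists_sep {j : A.ι} {T : Set M} (hT : IsCompact T) (hTs : T ⊆ (A.e j).source)
    {f g : M → ℂ} (hf : A.SmAt j f) (hg : A.SmAt j g) (hd : Disjoint (tsupport f) (tsupport g)) :
    ∃ F G : SPer (RI n), (∀ x ∈ T, F (rc (A.e j x)) = f x) ∧ (∀ x ∈ T, G (rc (A.e j x)) = g x) ∧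
      ∃ K V : Set (RI n → ℝ), IsCompact K ∧ K ⊆ Qo (RI n) ∧ IsOpen V ∧ K ⊆ V ∧ SupK K F ∧
        ∀ x, fr x ∈ V → G x = 0 := by
  set T' : Set (RI n → ℝ) := rc '' (A.e j '' T) with hT'
  have hT'c : IsCompact T' :=
    (hT.image_of_continuousOn ((A.e j).continuousOn.mono hTs)).image Geo.continuous_rc
  have hT's : T' ⊆ A.cu j := by
    rintro _ ⟨_, ⟨x, hx, rfl⟩, rfl⟩
    show cc (rc (A.e j x)) ∈ (A.e j).target
    rw [cc_rc]
    exact (A.e j).map_source (hTs hx)
  obtain ⟨K, hK, hTK, hKs⟩ := exists_compact_between hT'c (A.isOpen_cu j) hT's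
  obtain ⟨φ, h0, h1, -⟩ := exists_contMDiffMap_zero_one_of_isClosed (n := ⊤)
    (modelWithCornersSelf ℝ (RI n → ℝ)) (s := (interior K)ᶜ) (t := T')
    isOpen_interior.isClosed_compl hT'c.isClosed (by
      rw [Set.disjoint_left]
      intro x hx hx'
      exact hx (hTK hx'))
  have hφ : ContDiff ℝ ∞ (fun x => ((φ x : ℝ) : ℂ)) :=
    ofRealCLM.contDiff.comp (contMDiff_iff_contDiff.1 φ.contMDiff)
  have hφ0 : ∀ x ∉ K, ((φ x : ℝ) : ℂ) = 0 := by
    intro x hx
    have := h0 (show x ∈ (interior K)ᶜ from fun h => hx (interior_subset h))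
    simp only [Pi.zero_apply] at this
    rw [this, ofReal_zero]
  have hφc : IsCC (A.cu j) (fun x => ((φ x : ℝ) : ℂ)) := ⟨hφ, K, hK, hKs, hφ0⟩
  have hfc : ContDiffOn ℝ ∞ (fun y => f ((A.e j).symm (cc y))) (A.cu j) :=
    hf.comp (ccL n).contDiff.contDiffOn (fun y hy => hy)
  have hgc : ContDiffOn ℝ ∞ (fun y => g ((A.e j).symm (cc y))) (A.cu j) :=
    hg.comp (ccL n).contDiff.contDiffOn (fun y hy => hy)
  have hF := hφc.mul_contDiffOn (A.isOpen_cu j) hfc
  have hG := hφc.mul_contDiffOn (A.isOpen_cu j) hgc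
  have hone : ∀ x ∈ T, φ (rc (A.e j x)) = 1 := fun x hx => h1 ⟨A.e j x, ⟨x, hx, rfl⟩, rfl⟩
  have hsy : ContinuousOn (fun x : RI n → ℝ => (A.e j).symm (cc x)) (A.cu j) :=
    (A.e j).continuousOn_symm.comp Geo.continuous_cc.continuousOn fun x hx => hx
  refine ⟨perz _ (hF.mono (A.cu_sub j)), perz _ (hG.mono (A.cu_sub j)), fun x hx => ?_,
    fun x hx => ?_, K ∩ (fun x => (A.e j).symm (cc x)) ⁻¹' tsupport f,
    A.cu j ∩ (fun x => (A.e j).symm (cc x)) ⁻¹' (tsupport g)ᶜ, ?_, ?_, ?_, ?_, ?_, ?_⟩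
  · rw [perz_of_mem _ (rc_mem_Qo' (hTs hx)), cc_rc, (A.e j).left_inv (hTs hx), hone x hx,
      ofReal_one, one_mul]
  · rw [perz_of_mem _ (rc_mem_Qo' (hTs hx)), cc_rc, (A.e j).left_inv (hTs hx), hone x hx,
      ofReal_one, one_mul]
  · exact hK.of_isClosed_subset ((hsy.mono hKs).preimage_isClosed_of_isClosed hK.isClosed
      (isClosed_tsupport f)) inter_subset_left
  · exact inter_subset_left.trans (hKs.trans (A.cu_sub j))
  · exact hsy.isOpen_inter_preimage (A.isOpen_cu j) (isClosed_tsupport g).isOpen_compl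
  · rintro x ⟨hxK, hxf⟩
    exact ⟨hKs hxK, fun hxg => Set.disjoint_left.1 hd hxf hxg⟩
  · intro x hx
    rw [perz_apply]
    by_cases hxK : fr x ∈ K
    · have h2 : (A.e j).symm (cc (fr x)) ∉ tsupport f := fun h => hx ⟨hxK, h⟩
      rw [image_eq_zero_of_notMem_tsupport h2, MulZeroClass.mul_zero]
    · rw [hφ0 _ hxK, zero_mul]
  · intro x hx
    rw [perz_apply, image_eq_zero_of_notMem_tsupport hx.2, MulZeroClass.mul_zero]

section

variable [Finite A.ι] (P : Part A) (B : FBun A)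

/-! ### comparison with an arbitrary localisation, Sobolev embedding -/

theorem nrm_loc_le {i : A.ι} {κ₁ : Type} [Fintype κ₁] {a : M → Matrix κ₁ B.κ ℂ} (ha : IsAmp A i a) (s : ℕ)
    (k : κ₁) : ∃ C, 0 ≤ C ∧ ∀ u : Sec B, nrm s (loc A i a (u.1 i) k) ≤ C * nS P B s u := by
  classical
  have := Fintype.ofFinite A.ι
  choose C hC0 hC using fun (j : A.ι) (l : B.κ) =>
    nrm_Tkl_le B s ha ((P.amp_chi B.κ).amp j) k l
  refine ⟨∑ j, ∑ l, C j l, Finset.sum_nonneg fun j _ => Finset.sum_nonneg fun l _ => hC0 j l,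
    fun u => ?_⟩
  have h1 := ExtF_LocF B P u.2
  have h2 := loc_ExtF_fin P B ha (P.amp_chi B.κ) (LocF B (P.psi B.κ) u.1) k
  rw [h1] at h2
  rw [h2, Finset.sum_mul]
  refine (nrm_sum_le _ _ _).trans (Finset.sum_le_sum fun j _ => ?_)
  rw [Finset.sum_mul]
  refine (nrm_sum_le _ _ _).trans (Finset.sum_le_sum fun l _ => (hC j l _).trans ?_)
  exact mul_le_mul_of_nonneg_left (nrm_le_nF s _ j l) (hC0 j l)

/-- **Sobolev embedding on compact parts of the charts** -/
theorem sup_le_nS [T2Space M] {s : ℕ} (hs : Fintype.card (RI n) < 2 * s) {i : A.ι} {K : Set M}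
    (hK : IsCompact K) (hKs : K ⊆ (A.e i).source) :
    ∃ C, 0 ≤ C ∧ ∀ u : Sec B, ∀ x ∈ K, ∀ k, ‖u.1 i x k‖ ≤ C * nS P B s u := by
  classical
  obtain ⟨φ, h1, -, h2, h3, h4⟩ := QN2b734.exists_bump A hK (A.e i).open_source hKs
  have hφ : A.Sm φ := QN2b734.sm_iff.2 h1
  have ha : IsAmp A i (fun x => ((φ x : ℝ) : ℂ) • (1 : Matrix B.κ B.κ ℂ)) :=
    isAmp_bump_const (hφ i) h3 h4 1
  obtain ⟨D, hD, hDb⟩ := sup_le (d := RI n) hs
  choose C hC0 hC using fun k : B.κ => nrm_loc_le P B ha s k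
  refine ⟨D * ∑ k, C k, mul_nonneg hD (Finset.sum_nonneg fun k _ => hC0 k), fun u x hx k => ?_⟩
  have e : loc A i (fun x => ((φ x : ℝ) : ℂ) • (1 : Matrix B.κ B.κ ℂ)) (u.1 i) k (rc (A.e i x)) =
      u.1 i x k := by
    rw [loc_rc ha (u.2.1 i) k (hKs hx)]
    have : φ x = 1 := (eventually_nhdsSet_iff_forall.1 h2 x hx).self_of_nhds
    rw [this, ofReal_one, one_smul, Matrix.one_mulVec]
  rw [← e, mul_assoc]
  refine (hDb _ _).trans (mul_le_mul_of_nonneg_left ((hC k u).trans ?_) hD)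
  exact mul_le_mul_of_nonneg_right (Finset.single_le_sum (f := C) (fun k _ => hC0 k)
    (Finset.mem_univ k)) (nS_nonneg _ _ _ _)

/-! ### multiplication by functions -/

theorem nv_sT_le {κ : Type} [Fintype κ] (s : ℕ) (F : SPer (RI n)) :
    ∃ C, 0 ≤ C ∧ ∀ v : κ → SPer (RI n), nv s (sT F v) ≤ C * nv s v := by
  obtain ⟨C, hC, h⟩ := nrm_mul_le s F
  refine ⟨C, hC, fun v => ?_⟩
  unfold nv
  rw [Finset.mul_sum]
  exact Finset.sum_le_sum fun k _ => h (v k)

/-- **multiplication by a smooth function is bounded in every norm** -/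
theorem nS_fmulL_le {f : M → ℂ} (hf : A.Sm f) (s : ℕ) :
    ∃ C, 0 ≤ C ∧ ∀ u : Sec B, nS P B s (fmulL B hf u) ≤ C * nS P B s u := by
  obtain ⟨F, hF⟩ := exists_perF P hf
  obtain ⟨C, hC0, hC⟩ := nF_le_of (A := A) (κ := B.κ) (κ' := B.κ) (s := s) (t := s)
    (T := fun i v => sT (F i) v) fun i => nv_sT_le s (F i)
  refine ⟨C, hC0, fun u => ?_⟩
  have h1 : LocF B (P.psi B.κ) (fmulL B hf u).1 =
      fun j => sT (F j) (LocF B (P.psi B.κ) u.1 j) := by
    funext j
    exact loc_fmul B ((P.amp_psi B.κ).amp j) (hf j)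
      (fun x hx => hF j x ((P.amp_psi B.κ).sub j hx)) (u.2.1 j)
  show nF s (LocF B (P.psi B.κ) (fmulL B hf u).1) ≤ _
  rw [h1]
  exact hC _

/-! ### pseudolocality -/

/-- off-diagonal smoothing for a torus operator on vectors -/
def TOff (T : (B.κ → SPer (RI n)) → (B.κ → SPer (RI n))) : Prop :=
  ∀ (s : ℕ) {K V : Set (RI n → ℝ)}, IsCompact K → K ⊆ Qo (RI n) → IsOpen V → K ⊆ V →
    ∀ {F g : SPer (RI n)}, SupK K F → (∀ x, fr x ∈ V → g x = 0) →
    ∃ C, 0 ≤ C ∧ ∀ v : B.κ → SPer (RI n), nv s (sT F (T (sT g v))) ≤ C * nv 0 v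

theorem tOff_KT : TOff B (Geo.KT B.io) := fun s _ _ hK hKQ hV hKV _ _ hF hg =>
  nv_KT_off B.io s hK hKQ hV hKV hF hg

theorem tOff_GT : TOff B GT := fun s _ _ hK hKQ hV hKV _ _ hF hg =>
  nv_GT_off s hK hKQ hV hKV hF hg

variable {B}

theorem ext_off {b a : A.ι → M → Matrix B.κ B.κ ℂ} (hb : AmpF P b) (ha : AmpF P a)
    {T : (B.κ → SPer (RI n)) → (B.κ → SPer (RI n))} (hT : TOff B T) {f g : M → ℂ} (hf : A.Sm f)
    (hg : A.Sm g) (hd : Disjoint (tsupport f) (tsupport g)) (s : ℕ) :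
    ∃ C, 0 ≤ C ∧ ∀ u : Sec B, nS P B s (fmulL B hf (ExtFL B hb
      (fun j => T (LocF B a (fmulL B hg u).1 j)))) ≤ C * nS P B 0 u := by
  choose F G hF hG K V hK hKQ hV hKV hFK hGV using fun j : A.ι =>
    exists_sep (P.χ_cpt j) (P.χ_sub j) (hf j) (hg j) hd
  choose C hC0 hC using fun j : A.ι => hT s (hK j) (hKQ j) (hV j) (hKV j) (hFK j) (hGV j)
  obtain ⟨C1, h10, h1⟩ := nS_ExtFL_le P hb s
  obtain ⟨C2, h20, h2⟩ := nF_le_of (A := A) (κ := B.κ) (κ' := B.κ) (s := 0) (t := s)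
    (T := fun i v => sT (F i) (T (sT (G i) v))) fun i => ⟨C i, hC0 i, hC i⟩
  obtain ⟨C3, h30, h3⟩ := nF_LocF_le P ha 0
  refine ⟨C1 * (C2 * C3), by positivity, fun u => ?_⟩
  have e1 : LocF B a (fmulL B hg u).1 = fun j => sT (G j) (LocF B a u.1 j) := by
    funext j
    exact loc_fmul B (ha.amp j) (hg j) (fun x hx => hG j x (ha.sub j hx)) (u.2.1 j)
  have e2 : fmulL B hf (ExtFL B hb (fun j => T (LocF B a (fmulL B hg u).1 j))) =
      ExtFL B hb (fun j => sT (F j) (T (sT (G j) (LocF B a u.1 j)))) := by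
    refine Subtype.ext ?_
    rw [e1]
    exact (ExtF_sT B hb hF _).symm
  rw [e2]
  refine (h1 _).trans ?_
  rw [mul_assoc, mul_assoc]
  refine mul_le_mul_of_nonneg_left ((h2 _).trans ?_) h10
  exact mul_le_mul_of_nonneg_left (h3 u) h20

variable (B)

/-- pseudolocality -/
def Psl (T : Sec B →ₗ[ℂ] Sec B) : Prop :=
  ∀ (f g : M → ℂ) (hf : A.Sm f) (hg : A.Sm g), Disjoint (tsupport f) (tsupport g) → ∀ s : ℕ,
    ∃ C, 0 ≤ C ∧ ∀ u : Sec B, nS P B s (fmulL B hf (T (fmulL B hg u))) ≤ C * nS P B 0 u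

/-- bounded in every norm -/
def Bd0 (T : Sec B →ₗ[ℂ] Sec B) : Prop :=
  ∀ s : ℕ, ∃ C, 0 ≤ C ∧ ∀ u : Sec B, nS P B s (T u) ≤ C * nS P B s u

variable {P B}

theorem Bd0.comp {T T' : Sec B →ₗ[ℂ] Sec B} (h : Bd0 P B T) (h' : Bd0 P B T') :
    Bd0 P B (T ∘ₗ T') := fun s => by
  obtain ⟨C, hC0, hC⟩ := h s
  obtain ⟨D, hD0, hD⟩ := h' s
  refine ⟨C * D, mul_nonneg hC0 hD0, fun u => (hC _).trans ?_⟩
  rw [mul_assoc]
  exact mul_le_mul_of_nonneg_left (hD u) hC0



theorem bd0_fmulL {f : M → ℂ} (hf : A.Sm f) : Bd0 P B (fmulL B hf) := nS_fmulL_le P B hf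

theorem Psl.add {T T' : Sec B →ₗ[ℂ] Sec B} (h : Psl P B T) (h' : Psl P B T') :
    Psl P B (T + T') := fun f g hf hg hd s => by
  obtain ⟨C, hC0, hC⟩ := h f g hf hg hd s
  obtain ⟨D, hD0, hD⟩ := h' f g hf hg hd s
  refine ⟨C + D, add_nonneg hC0 hD0, fun u => ?_⟩
  rw [LinearMap.add_apply, map_add, add_mul]
  exact (nS_add_le P B _ _ _).trans (add_le_add (hC u) (hD u))

theorem Psl.sub {T T' : Sec B →ₗ[ℂ] Sec B} (h : Psl P B T) (h' : Psl P B T') :
    Psl P B (T - T') := fun f g hf hg hd s => by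
  obtain ⟨C, hC0, hC⟩ := h f g hf hg hd s
  obtain ⟨D, hD0, hD⟩ := h' f g hf hg hd s
  refine ⟨C + D, add_nonneg hC0 hD0, fun u => ?_⟩
  rw [LinearMap.sub_apply, map_sub, add_mul]
  exact (nS_sub_le P B _ _ _).trans (add_le_add (hC u) (hD u))

/-- **pseudolocality of the parametrix** -/
theorem psl_KML : Psl P B (KML B P) := fun f g hf hg hd s =>
  ext_off P (P.amp_chi B.κ) (P.amp_psi B.κ) (tOff_KT B) hf hg hd s

/-- **pseudolocality of the remainder** -/
theorem psl_RML : Psl P B (RML B P) := by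
  have h1 : Psl P B (ExtFL B (P.amp_chi B.κ) ∘ₗ GTL ∘ₗ LocFL B (P.amp_psi B.κ)) :=
    fun f g hf hg hd s => ext_off P (P.amp_chi B.κ) (P.amp_psi B.κ) (tOff_GT B) hf hg hd s
  have h2 : Psl P B (ExtFL B (P.amp_chi B.κ).dE ∘ₗ KTL B.io ∘ₗ LocFL B (P.amp_psi B.κ)) :=
    fun f g hf hg hd s => ext_off P (P.amp_chi B.κ).dE (P.amp_psi B.κ) (tOff_KT B) hf hg hd s
  have h3 : Psl P B (ExtFL B (P.amp_chi B.κ) ∘ₗ KTL B.io ∘ₗ LocFL B (P.amp_psi B.κ).dL) :=
    fun f g hf hg hd s => ext_off P (P.amp_chi B.κ) (P.amp_psi B.κ).dL (tOff_KT B) hf hg hd s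
  exact Psl.add (Psl.sub h1 h2) h3

/-! ### cut-offs on `M` -/

theorem exists_cutM [T2Space M] [CompactSpace M] (A : Atl n M) {f : M → ℂ} {U : Set M}
    (hU : IsOpen U) (hfU : tsupport f ⊆ U) : ∃ h : M → ℂ, A.Sm h ∧ tsupport h ⊆ U ∧
      (∀ᶠ y in 𝓝ˢ (tsupport f), h y = 1) ∧ Disjoint (tsupport f) (tsupport fun x => 1 - h x) := by
  obtain ⟨φ, h1, -, h2, h3, h4⟩ := QN2b734.exists_bump A (isClosed_tsupport f).isCompact hU hfU
  have e2 : ∀ᶠ y in 𝓝ˢ (tsupport f), ((φ y : ℝ) : ℂ) = 1 := by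
    filter_upwards [h2] with y hy
    rw [hy, ofReal_one]
  refine ⟨fun x => ((φ x : ℝ) : ℂ), fun i => smAt_ofReal (QN2b734.sm_iff.2 h1 i), ?_, e2, ?_⟩
  · rw [tsupport_ofReal]; exact h4
  · rw [Set.disjoint_left]
    intro x hx hx'
    refine (notMem_tsupport_iff_eventuallyEq.2 ?_) hx'
    filter_upwards [eventually_nhdsSet_iff_forall.1 e2 x hx] with y hy
    rw [hy, sub_self]
    rfl

theorem sm_sub {f g : M → ℂ} (hf : A.Sm f) (hg : A.Sm g) : A.Sm fun x => f x - g x := fun i =>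
  (hf i).sub (hg i)

theorem sm_one : A.Sm fun _ : M => (1 : ℂ) := fun _ => contDiffOn_const

/-- splitting with a cut-off -/
theorem split {h : M → ℂ} (hh : A.Sm h) (u : Sec B) :
    u = fmulL B hh u + fmulL B (sm_sub sm_one hh) u := by
  refine Subtype.ext (funext fun i => funext fun x => ?_)
  show u.1 i x = h x • u.1 i x + (1 - h x) • u.1 i x
  rw [← add_smul, add_sub_cancel, one_smul]

/-- **composition of pseudolocal operators** -/
theorem Psl.comp [T2Space M] [CompactSpace M] {T T' : Sec B →ₗ[ℂ] Sec B} (h : Psl P B T)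
    (h' : Psl P B T') (hb : Bd0 P B T) (hb' : Bd0 P B T') : Psl P B (T ∘ₗ T') := by
  intro f g hf hg hd s
  obtain ⟨c, hc, hcU, hc1, hcd⟩ := exists_cutM A (isClosed_tsupport g).isOpen_compl
    (show tsupport f ⊆ (tsupport g)ᶜ from fun x hx hx' => Set.disjoint_left.1 hd hx hx')
  have hcg : Disjoint (tsupport c) (tsupport g) :=
    Set.disjoint_left.2 fun x hx hx' => hcU hx hx'
  obtain ⟨C1, h10, h1⟩ := h' c g hc hg hcg s
  obtain ⟨C2, h20, h2⟩ := h f _ hf (sm_sub sm_one hc) hcd s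
  obtain ⟨C3, h30, h3⟩ := bd0_fmulL (P := P) (B := B) hf s
  obtain ⟨C4, h40, h4⟩ := hb s
  obtain ⟨C5, h50, h5⟩ := hb' 0
  obtain ⟨C6, h60, h6⟩ := bd0_fmulL (P := P) (B := B) hg 0
  refine ⟨C3 * (C4 * C1) + C2 * (C5 * C6), by positivity, fun u => ?_⟩
  have e : fmulL B hf ((T ∘ₗ T') (fmulL B hg u)) =
      fmulL B hf (T (fmulL B hc (T' (fmulL B hg u)))) +
      fmulL B hf (T (fmulL B (sm_sub sm_one hc) (T' (fmulL B hg u)))) := by
    rw [← map_add, ← map_add, ← split hc]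
    rfl
  rw [e, add_mul]
  refine (nS_add_le P B _ _ _).trans (add_le_add ?_ ?_)
  · refine (h3 _).trans ?_
    rw [mul_assoc, mul_assoc]
    refine mul_le_mul_of_nonneg_left ((h4 _).trans ?_) h30
    exact mul_le_mul_of_nonneg_left (h1 u) h40
  · refine (h2 _).trans ?_
    rw [mul_assoc, mul_assoc]
    refine mul_le_mul_of_nonneg_left ((h5 _).trans ?_) h20
    exact mul_le_mul_of_nonneg_left (h6 u) h50

/-! ### improvement of the convergence -/

variable (P B)

/-- the correction step `e ↦ e - ∇ K e` -/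
def stp (e : Sec B) : Sec B := e - nabL B (KML B P e)

theorem stp_eq (e : Sec B) : stp P B e = KML B P (nabL B e) + RML B P e := by
  have h := LinearMap.congr_fun (nabL_KML B P) e
  simp only [LinearMap.add_apply, LinearMap.comp_apply, LinearMap.sub_apply,
    LinearMap.id_apply] at h
  unfold stp
  rw [sub_eq_iff_eq_add, add_assoc, add_comm (RML B P e), ← add_assoc,
    add_comm (KML B P (nabL B e)), h]
  abel

theorem stp_iter (e : Sec B) (m : ℕ) : ∃ y : Sec B, (stp P B)^[m] e = e - nabL B y := by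
  induction m with
  | zero => exact ⟨0, by simp⟩
  | succ m ih =>
    obtain ⟨y, hy⟩ := ih
    refine ⟨y + KML B P (e - nabL B y), ?_⟩
    rw [Function.iterate_succ_apply', hy]
    unfold stp
    rw [map_add, sub_sub]

variable {P B}

theorem nabL_stp_iter (h2 : ∀ u : Sec B, nabL B (nabL B u) = 0) (e : Sec B) (m : ℕ) :
    nabL B ((stp P B)^[m] e) = nabL B e := by
  obtain ⟨y, hy⟩ := stp_iter P B e m
  rw [hy, map_sub, h2, sub_zero]

variable (P B)

/-- **improvement**: the corrected errors tend to zero in every norm over `U` -/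
theorem improve_core [T2Space M] [CompactSpace M] (h2 : ∀ u : Sec B, nabL B (nabL B u) = 0)
    {U : Set M} (hU : IsOpen U) {e : ℕ → Sec B}
    (he : Tendsto (fun N => nS P B 0 (e N)) atTop (𝓝 0))
    (hn : Tendsto (fun N => nS P B 0 (nabL B (e N))) atTop (𝓝 0))
    (hnU : ∀ N i, ∀ x ∈ U, (nabL B (e N)).1 i x = 0) (m : ℕ) :
    Tendsto (fun N => nS P B 0 ((stp P B)^[m] (e N))) atTop (𝓝 0) ∧
    ∀ {f : M → ℂ} (hf : A.Sm f), tsupport f ⊆ U →
      Tendsto (fun N => nS P B m (fmulL B hf ((stp P B)^[m] (e N)))) atTop (𝓝 0) := by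
  induction m with
  | zero =>
    refine ⟨he, fun {f} hf hfU => ?_⟩
    obtain ⟨C, hC0, hC⟩ := nS_fmulL_le P B hf 0
    have h1 := he.const_mul C
    rw [mul_zero] at h1
    exact squeeze_zero (fun _ => nS_nonneg _ _ _ _) (fun N => hC _) h1
  | succ m ih =>
    obtain ⟨ih1, ih2⟩ := ih
    have hstep : ∀ N, (stp P B)^[m + 1] (e N) =
        KML B P (nabL B (e N)) + RML B P ((stp P B)^[m] (e N)) := fun N => by
      rw [Function.iterate_succ_apply', stp_eq, nabL_stp_iter h2]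
    constructor
    · obtain ⟨C, hC0, hC⟩ := nS_KML_le0 P B
      obtain ⟨D, hD0, hD⟩ := nS_RML_le0 P B
      have h1 := (hn.const_mul C).add (ih1.const_mul D)
      rw [mul_zero, mul_zero, add_zero] at h1
      refine squeeze_zero (fun _ => nS_nonneg _ _ _ _) (fun N => ?_) h1
      rw [hstep]
      exact (nS_add_le P B _ _ _).trans (add_le_add (hC _) (hD _))
    · intro f hf hfU
      obtain ⟨c, hc, hcU, hc1, hcd⟩ := exists_cutM A hU hfU
      obtain ⟨C1, h10, h1⟩ := psl_KML (P := P) (B := B) f _ hf (sm_sub sm_one hc) hcd (m + 1)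
      obtain ⟨C2, h20, h2'⟩ := psl_RML (P := P) (B := B) f _ hf (sm_sub sm_one hc) hcd (m + 1)
      obtain ⟨C3, h30, h3⟩ := nS_fmulL_le P B hf (m + 1)
      obtain ⟨C4, h40, h4⟩ := nS_RML_le P B m
      have h5 := ((hn.const_mul C1).add ((ih2 hc hcU).const_mul (C3 * C4))).add (ih1.const_mul C2)
      rw [mul_zero, mul_zero, mul_zero, add_zero, add_zero] at h5
      refine squeeze_zero (fun _ => nS_nonneg _ _ _ _) (fun N => ?_) h5
      have e1 : fmulL B (sm_sub sm_one hc) (nabL B (e N)) = nabL B (e N) := by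
        refine Subtype.ext (funext fun i => funext fun x => ?_)
        show (1 - c x) • (nabL B (e N)).1 i x = (nabL B (e N)).1 i x
        by_cases hx : x ∈ tsupport c
        · rw [hnU N i x (hcU hx), smul_zero]
        · rw [image_eq_zero_of_notMem_tsupport hx, sub_zero, one_smul]
      have e2 : fmulL B hf ((stp P B)^[m + 1] (e N)) =
          fmulL B hf (KML B P (fmulL B (sm_sub sm_one hc) (nabL B (e N)))) +
          fmulL B hf (RML B P (fmulL B hc ((stp P B)^[m] (e N)))) +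
          fmulL B hf (RML B P (fmulL B (sm_sub sm_one hc) ((stp P B)^[m] (e N)))) := by
        rw [e1, hstep, map_add, add_assoc, ← map_add (fmulL B hf) (RML B P _) _,
          ← map_add (RML B P), ← split hc]
      rw [e2]
      refine (nS_add_le P B _ _ _).trans (add_le_add ((nS_add_le P B _ _ _).trans
        (add_le_add (h1 _) ?_)) (h2' _))
      refine (h3 _).trans ?_
      rw [mul_assoc]
      exact mul_le_mul_of_nonneg_left (h4 _) h30

/-- **IMPROVE** -/
theorem improve [T2Space M] [CompactSpace M] (h2 : ∀ u : Sec B, nabL B (nabL B u) = 0)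
    {U : Set M} (hU : IsOpen U) {c y : ℕ → Sec B} {w : Sec B} (hw : nabL B w = 0)
    (he : Tendsto (fun N => nS P B 0 (c N - w - nabL B (y N))) atTop (𝓝 0))
    (hn : Tendsto (fun N => nS P B 0 (nabL B (c N))) atTop (𝓝 0))
    (hnU : ∀ N i, ∀ x ∈ U, (nabL B (c N)).1 i x = 0) (s : ℕ) :
    ∃ y' : ℕ → Sec B, ∀ {f : M → ℂ} (hf : A.Sm f), tsupport f ⊆ U →
      Tendsto (fun N => nS P B s (fmulL B hf (c N - w - nabL B (y' N)))) atTop (𝓝 0) := by
  have hne : ∀ N, nabL B (c N - w - nabL B (y N)) = nabL B (c N) := fun N => by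
    rw [map_sub, map_sub, hw, h2, sub_zero, sub_zero]
  have h1 := improve_core P B h2 hU (e := fun N => c N - w - nabL B (y N)) he
    (by simpa only [hne] using hn) (fun N i x hx => by rw [hne]; exact hnU N i x hx) s
  choose z hz using fun N => stp_iter P B (c N - w - nabL B (y N)) s
  refine ⟨fun N => y N + z N, fun {f} hf hfU => ?_⟩
  refine (h1.2 hf hfU).congr fun N => ?_
  rw [hz, map_add, sub_sub]

/-- **functionals living over `U` and killing exact sections** -/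
theorem functional_limit [T2Space M] [CompactSpace M] (h2 : ∀ u : Sec B, nabL B (nabL B u) = 0)
    {U : Set M} (hU : IsOpen U) {c y : ℕ → Sec B} {w : Sec B} (hw : nabL B w = 0)
    (he : Tendsto (fun N => nS P B 0 (c N - w - nabL B (y N))) atTop (𝓝 0))
    (hn : Tendsto (fun N => nS P B 0 (nabL B (c N))) atTop (𝓝 0))
    (hnU : ∀ N i, ∀ x ∈ U, (nabL B (c N)).1 i x = 0) {s : ℕ} (T : Sec B →ₗ[ℂ] ℂ)
    {f : M → ℂ} (hf : A.Sm f) (hfU : tsupport f ⊆ U) {C : ℝ}
    (hT : ∀ u, ‖T u‖ ≤ C * nS P B s (fmulL B hf u)) (hT0 : ∀ u, T (nabL B u) = 0) :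
    Tendsto (fun N => T (c N)) atTop (𝓝 (T w)) := by
  obtain ⟨y', hy'⟩ := improve P B h2 hU hw he hn hnU s
  rw [tendsto_iff_norm_sub_tendsto_zero]
  have h1 := (hy' hf hfU).const_mul C
  rw [mul_zero] at h1
  refine squeeze_zero (fun _ => norm_nonneg _) (fun N => ?_) h1
  have e : T (c N) - T w = T (c N - w - nabL B (y' N)) := by
    rw [map_sub, map_sub, hT0, sub_zero]
  rw [e]
  exact hT _

end

end

end Crest.Agent.R273.Psl_774
end

-- ▼ part R273/T8A_774

/-!
# R273 (S0416), torus step, leaf T8 (helper774), part A : the abstract limit argument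

* `nS_le_nrm0`, `nrm0_le_nS` : the norms of `L2K_774` and of `KRL2_803` are equivalent;
* `norm_lint_le` : `|∫_j G| ≤ sup |G|`;
* `Rst B BF ι` : a restriction map `Sec B → Sec BF` along `ι : F → M`, given by matrices;
* `Rst.pr_bound` : `|⟨res u, w⟩| ≤ C ‖u‖_s`;
* `exists_closed` : an `L²` Cauchy sequence of sections `c N`, closed near `F`, `∇ c N → 0`, with
  `⟨res (c N), w⟩ = 1`, produces a smooth closed `z` of the same degree with `⟨res z, w⟩ = 1`.
-/

set_option autoImplicit false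
set_option linter.unusedSectionVars false

open Set Filter Topology Complex MeasureTheory
open scoped ContDiff Matrix ComplexConjugate

namespace Crest.Agent.R273.T8_774

open Crest.Agent.R275 Crest.Agent.R275.Geo Crest.Agent.R275.Tor812 Crest.Agent.R275.TorS666
open Crest.Agent.R275.SerG398 (lint DPair)
open Crest.Agent.R275.CutY89 (fmulL fmulL_coe fmulL_apply)
open Crest.Agent.R275.Pai323 (pr Fn psi_zero_of_notMem psi_off dn)
open Crest.Agent.R273.L2K_774 Crest.Agent.R273.Psl_774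
open Crest.Agent.R273.KRL2_803 (S0 coord0 nrm0_le_sum)
open Crest.Agent.R273.HodgeH_803 Crest.Agent.R273.HodgeH_803.HodgeOp
open Crest.Agent.R275.C1d194 (smAt_ofReal tsupport_ofReal)

noncomputable section

variable {n b : ℕ} {M F : Type} [TopologicalSpace M] [TopologicalSpace F]
  {A : Atl n M} {AF : Atl b F}

theorem cont_of_smAt {i : A.ι} {f : M → ℂ} (h : A.SmAt i f) : ContinuousOn f (A.e i).source := by
  have h1 : ContinuousOn (fun x => f ((A.e i).symm (A.e i x))) (A.e i).source :=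
    ContDiffOn.continuousOn h |>.comp (A.e i).continuousOn (A.e i).mapsTo
  refine h1.congr fun x hx => ?_
  simp only [(A.e i).left_inv hx]

/-! ### norms -/

section norms

variable [Finite A.ι] (P : Part A) {B : FBun A}

theorem nS_le_nrm0 (s : ℕ) : ∃ C, 0 ≤ C ∧ ∀ u : Sec B, nS P B s u ≤ C * (S0 P B).nrm s u := by
  have := Fintype.ofFinite A.ι
  refine ⟨∑ _i : A.ι, ∑ _k : B.κ, 1, by positivity, fun u => ?_⟩
  rw [nS_eq, Finset.sum_mul]
  refine Finset.sum_le_sum fun i _ => ?_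
  rw [Finset.sum_mul]
  refine Finset.sum_le_sum fun k _ => ?_
  rw [one_mul]
  exact coord0 P B s u i k

theorem nrm0_le_nS (s : ℕ) (u : Sec B) : (S0 P B).nrm s u ≤ nS P B s u := by
  have := Fintype.ofFinite A.ι
  rw [nS_eq]
  exact nrm0_le_sum P B s u

end norms

/-! ### integrals -/

theorem norm_lint_le {j : A.ι} {G : M → ℂ} {c : ℝ} (hc : 0 ≤ c)
    (h : ∀ x ∈ (A.e j).source, ‖G x‖ ≤ c) : ‖lint A j G‖ ≤ c := by
  classical
  set S : Set (RI n → ℝ) := Set.pi univ fun _ => Ioo (0 : ℝ) 1 with hS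
  have h0 : ∀ x ∉ S, rd A j G x = 0 := by
    intro x hx
    unfold rd
    rw [if_neg]
    intro hx2
    apply hx
    intro p _
    have := A.cube j _ hx2 p
    simpa using this
  have hvol : volume.real S = 1 := by
    rw [Measure.real, hS, Real.volume_pi_Ioo]
    simp
  unfold lint
  rw [← setIntegral_eq_integral_of_forall_compl_eq_zero h0]
  have h1 : ∀ x ∈ S, ‖rd A j G x‖ ≤ c := by
    intro x _
    unfold rd
    split_ifs with hx
    · exact h _ ((A.e j).map_target hx)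
    · simpa using hc
  have h2 := norm_setIntegral_le_of_norm_le_const (μ := volume) (s := S)
    (by rw [hS, Real.volume_pi_Ioo]; simp) h1
  rwa [hvol, mul_one] at h2

/-! ### restriction maps -/

/-- a map `Sec B → Sec BF` over `ι : F → M`, given pointwise by matrices -/
structure Rst (B : FBun A) (BF : FBun AF) (ι : F → M) where
  cont : Continuous ι
  m : AF.ι → A.ι → F → Matrix BF.κ B.κ ℂ
  m_cont : ∀ i j k l, ContinuousOn (fun y => m i j y k l)
    ((AF.e i).source ∩ ι ⁻¹' (A.e j).source)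
  res : Sec B →ₗ[ℂ] Sec BF
  val : ∀ (u : Sec B) i j, ∀ y ∈ (AF.e i).source, ι y ∈ (A.e j).source →
    (res u).1 i y = m i j y *ᵥ u.1 j (ι y)
  nab : ∀ u, nabL BF (res u) = res (nabL B u)

namespace Rst

variable {B : FBun A} {BF BF' : FBun AF} {ι : F → M} (R : Rst B BF ι)

/-- `res` only depends on the values on `F` -/
theorem congr {u v : Sec B} (h : ∀ j, ∀ y, ι y ∈ (A.e j).source → u.1 j (ι y) = v.1 j (ι y)) :
    R.res u = R.res v := by
  apply Subtype.ext
  funext i y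
  by_cases hy : y ∈ (AF.e i).source
  · obtain ⟨j, hj⟩ := A.cover (ι y)
    rw [R.val u i j y hy hj, R.val v i j y hy hj, h j y hj]
  · rw [Sec.off BF (R.res u).2 hy, Sec.off BF (R.res v).2 hy]

theorem fmul_one {f : M → ℂ} (hf : A.Sm f) (h1 : ∀ y, f (ι y) = 1) (u : Sec B) :
    R.res (fmulL B hf u) = R.res u :=
  R.congr fun j y _ => by rw [fmulL_apply, h1, one_smul]

variable [T2Space M] [CompactSpace M] [T2Space F] [Finite A.ι] [Finite AF.ι]
  (P : Part A) (PF : Part AF)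

/-- sup bound of the restriction by a Sobolev norm -/
theorem sup_bound {s : ℕ} (hs : Fintype.card (RI n) < 2 * s) :
    ∃ C, 0 ≤ C ∧ ∀ u : Sec B, ∀ i, ∀ y ∈ tsupport (PF.χ i), ∀ k,
      ‖(R.res u).1 i y k‖ ≤ C * nS P B s u := by
  have := Fintype.ofFinite A.ι
  have := Fintype.ofFinite AF.ι
  -- Sobolev in every chart of `M`
  choose D hD0 hD using fun j : A.ι =>
    sup_le_nS P (B := B) hs (P.χ_cpt j) (P.χ_sub j)
  -- bounds of the matrices
  have hK : ∀ (i : AF.ι) (j : A.ι),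
      IsCompact (tsupport (PF.χ i) ∩ ι ⁻¹' tsupport (P.χ j)) := fun i j =>
    (PF.χ_cpt i).inter_right ((isClosed_tsupport _).preimage R.cont)
  have hb : ∀ (i : AF.ι) (j : A.ι) (k : BF.κ) (l : B.κ), ∃ c, 0 ≤ c ∧
      ∀ y ∈ tsupport (PF.χ i) ∩ ι ⁻¹' tsupport (P.χ j), ‖R.m i j y k l‖ ≤ c := by
    intro i j k l
    have hc : ContinuousOn (fun y => ‖R.m i j y k l‖)
        (tsupport (PF.χ i) ∩ ι ⁻¹' tsupport (P.χ j)) :=
      ((R.m_cont i j k l).mono fun y hy => ⟨PF.χ_sub i hy.1, P.χ_sub j hy.2⟩).norm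
    obtain ⟨c, hc⟩ := (hK i j).bddAbove_image hc
    refine ⟨max c 0, le_max_right _ _, fun y hy => (hc ⟨y, hy, rfl⟩).trans (le_max_left _ _)⟩
  choose c hc0 hc using hb
  have hpos : ∀ i j k l, 0 ≤ c i j k l * D j := fun i j k l => mul_nonneg (hc0 i j k l) (hD0 j)
  refine ⟨∑ i, ∑ j, ∑ k, ∑ l, c i j k l * D j, Finset.sum_nonneg fun i _ => Finset.sum_nonneg
    fun j _ => Finset.sum_nonneg fun k _ => Finset.sum_nonneg fun l _ => hpos i j k l, ?_⟩
  intro u i y hy k
  -- a chart of `M` around `ι y`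
  obtain ⟨j, hj⟩ : ∃ j, ι y ∈ tsupport (P.χ j) := by
    by_contra hne
    push Not at hne
    have h0 : ∀ j, P.ψ j (ι y) = 0 := fun j =>
      image_eq_zero_of_notMem_tsupport fun h => hne j (Pai323.tsupport_psi P j h)
    have h1 := P.sum_one (ι y)
    simp only [h0, finsum_zero] at h1
    exact zero_ne_one h1
  rw [R.val u i j y (PF.χ_sub i hy) (P.χ_sub j hj)]
  calc ‖(R.m i j y *ᵥ u.1 j (ι y)) k‖ = ‖∑ l, R.m i j y k l * u.1 j (ι y) l‖ := rfl
    _ ≤ ∑ l, ‖R.m i j y k l * u.1 j (ι y) l‖ := norm_sum_le _ _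
    _ ≤ ∑ l, c i j k l * D j * nS P B s u := by
        refine Finset.sum_le_sum fun l _ => ?_
        rw [norm_mul, mul_assoc]
        exact mul_le_mul (hc i j k l y ⟨hy, hj⟩) (hD j u _ hj l) (norm_nonneg _) (hc0 i j k l)
    _ = (∑ l, c i j k l * D j) * nS P B s u := by rw [Finset.sum_mul]
    _ ≤ _ := by
        refine mul_le_mul_of_nonneg_right ?_ (nS_nonneg P B s u)
        have e1 : ∑ l, c i j k l * D j ≤ ∑ k, ∑ l, c i j k l * D j :=
          Finset.single_le_sum (f := fun k => ∑ l, c i j k l * D j)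
            (fun k _ => Finset.sum_nonneg fun l _ => hpos i j k l) (Finset.mem_univ k)
        have e2 : ∑ k, ∑ l, c i j k l * D j ≤ ∑ j, ∑ k, ∑ l, c i j k l * D j :=
          Finset.single_le_sum (f := fun j => ∑ k, ∑ l, c i j k l * D j)
            (fun j _ => Finset.sum_nonneg fun k _ => Finset.sum_nonneg fun l _ => hpos i j k l)
            (Finset.mem_univ j)
        have e3 : ∑ j, ∑ k, ∑ l, c i j k l * D j ≤ ∑ i, ∑ j, ∑ k, ∑ l, c i j k l * D j :=
          Finset.single_le_sum (f := fun i => ∑ j, ∑ k, ∑ l, c i j k l * D j)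
            (fun i _ => Finset.sum_nonneg fun j _ => Finset.sum_nonneg fun k _ =>
              Finset.sum_nonneg fun l _ => hpos i j k l) (Finset.mem_univ i)
        exact e1.trans (e2.trans e3)

variable [CompactSpace F]

/-- the pairing with a fixed smooth section on `F` is bounded by a Sobolev norm on `M` -/
theorem pr_bound (D : DPair BF BF') (w : Sec BF') {s : ℕ} (hs : Fintype.card (RI n) < 2 * s) :
    ∃ C, 0 ≤ C ∧ ∀ u : Sec B, ‖pr D PF (R.res u) w‖ ≤ C * nS P B s u := by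
  have := Fintype.ofFinite A.ι
  have := Fintype.ofFinite AF.ι
  obtain ⟨C, hC0, hC⟩ := R.sup_bound P PF (B := B) hs
  -- bound of `ψ i`, `D.S *ᵥ w i` on `tsupport (χ i)`
  have hw : ∀ (i : AF.ι) (k : BF.κ), ∃ c, 0 ≤ c ∧ ∀ y ∈ tsupport (PF.χ i),
      ‖(PF.ψ i y : ℂ) * (D.S *ᵥ w.1 i y) k‖ ≤ c := by
    intro i k
    have h1 : AF.SmAt i (fun y => (PF.ψ i y : ℂ) * (D.S *ᵥ w.1 i y) k) := by
      refine ContDiffOn.mul (smAt_ofReal (PF.ψ_sm i i)) ?_
      show ContDiffOn ℝ ∞ (fun z => ∑ l, D.S k l * w.1 i ((AF.e i).symm z) l) _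
      exact ContDiffOn.sum fun l _ => contDiffOn_const.mul (w.2.1 i l)
    have h2 : ContinuousOn (fun y => ‖(PF.ψ i y : ℂ) * (D.S *ᵥ w.1 i y) k‖) (tsupport (PF.χ i)) :=
      ((cont_of_smAt h1).mono (PF.χ_sub i)).norm
    obtain ⟨c, hc⟩ := (PF.χ_cpt i).bddAbove_image h2
    exact ⟨max c 0, le_max_right _ _, fun y hy => (hc ⟨y, hy, rfl⟩).trans (le_max_left _ _)⟩
  choose c hc0 hc using hw
  refine ⟨∑ i, ∑ k, C * c i k, Finset.sum_nonneg fun i _ => Finset.sum_nonneg fun k _ =>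
    mul_nonneg hC0 (hc0 i k), fun u => ?_⟩
  have e1 : pr D PF (R.res u) w = ∑ i ∈ Fn PF (isCompact_univ : IsCompact (univ : Set F)),
      lint AF i (fun y => (PF.ψ i y : ℂ) * dn D (R.res u).1 w.1 i y) := rfl
  rw [e1]
  calc _ ≤ ∑ i ∈ Fn PF (isCompact_univ : IsCompact (univ : Set F)),
        ‖lint AF i (fun y => (PF.ψ i y : ℂ) * dn D (R.res u).1 w.1 i y)‖ := norm_sum_le _ _
    _ ≤ ∑ i, ‖lint AF i (fun y => (PF.ψ i y : ℂ) * dn D (R.res u).1 w.1 i y)‖ :=
        Finset.sum_le_sum_of_subset_of_nonneg (Finset.subset_univ _) fun _ _ _ => norm_nonneg _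
    _ ≤ ∑ i, (∑ k, C * c i k) * nS P B s u := by
        refine Finset.sum_le_sum fun i _ => ?_
        refine norm_lint_le (mul_nonneg (Finset.sum_nonneg fun k _ => mul_nonneg hC0 (hc0 i k))
          (nS_nonneg P B s u)) fun y _ => ?_
        by_cases hy : y ∈ tsupport (PF.χ i)
        · have e2 : (PF.ψ i y : ℂ) * dn D (R.res u).1 w.1 i y =
              ∑ k, (R.res u).1 i y k * ((PF.ψ i y : ℂ) * (D.S *ᵥ w.1 i y) k) := by
            show (PF.ψ i y : ℂ) * ∑ k, (R.res u).1 i y k * (D.S *ᵥ w.1 i y) k = _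
            rw [Finset.mul_sum]
            refine Finset.sum_congr rfl fun k _ => ?_
            ring
          rw [e2, Finset.sum_mul]
          refine (norm_sum_le _ _).trans (Finset.sum_le_sum fun k _ => ?_)
          rw [norm_mul]
          calc _ ≤ C * nS P B s u * c i k :=
                mul_le_mul (hC u i y hy k) (hc i k y hy) (norm_nonneg _)
                  (mul_nonneg hC0 (nS_nonneg P B s u))
            _ = _ := by ring
        · have h0 : PF.ψ i y = 0 :=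
            image_eq_zero_of_notMem_tsupport fun h => hy (Pai323.tsupport_psi PF i h)
          rw [h0]
          simp only [ofReal_zero, zero_mul, norm_zero]
          exact mul_nonneg (Finset.sum_nonneg fun k _ => mul_nonneg hC0 (hc0 i k))
            (nS_nonneg P B s u)
    _ = _ := by rw [Finset.sum_mul]

/-- **existence of a smooth closed section with nonzero pairing on `F`** -/
theorem exists_closed (h2 : ∀ u : Sec B, nabL B (nabL B u) = 0) {U : Set M} (hU : IsOpen U)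
    (hFU : ∀ y, ι y ∈ U) {c : ℕ → Sec B}
    (hc : ∀ ε > 0, ∃ N₀, ∀ m ≥ N₀, ∀ k ≥ N₀, nS P B 0 (c m - c k) < ε)
    (hn : Tendsto (fun N => nS P B 0 (nabL B (c N))) atTop (𝓝 0))
    (hnU : ∀ N i, ∀ x ∈ U, (nabL B (c N)).1 i x = 0)
    (D : DPair BF BF') {w : Sec BF'} (hw : nabL BF' w = 0)
    (h1 : ∀ N, pr D PF (R.res (c N)) w = 1) {q : ℕ} (hq : ∀ N, Geo.pqL B q (c N) = c N) :
    ∃ z : Sec B, nabL B z = 0 ∧ Geo.pqL B q z = z ∧ pr D PF (R.res z) w = 1 := by
  obtain ⟨T⟩ := exists_hodgeOp P B h2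
  have hCau : Cau P B 0 c := by
    intro ε hε
    obtain ⟨N, hN⟩ := hc ε hε
    exact ⟨N, fun m hm l hl => lt_of_le_of_lt (nrm0_le_nS P 0 _) (hN m hm l hl)⟩
  have hn0 : Tendsto (fun m => (S0 P B).nrm 0 (nabL B (c m))) atTop (𝓝 0) :=
    squeeze_zero (fun m => apply_nonneg _ _) (fun m => nrm0_le_nS P 0 _) hn
  obtain ⟨z, hz, hH, -, hlim⟩ := T.l2_split hCau hn0
  obtain ⟨E, hE0, hE⟩ := nS_le_nrm0 P (B := B) 0
  have he : Tendsto (fun N => nS P B 0 (c N - z - nabL B (T.K (c N)))) atTop (𝓝 0) := by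
    have h3 := hlim.const_mul E
    rw [mul_zero] at h3
    exact squeeze_zero (fun m => nS_nonneg P B 0 _) (fun m => hE _) h3
  -- a cut-off
  have hKc : IsCompact (range ι) := isCompact_range R.cont
  obtain ⟨f, hf, hf1, hfU⟩ : ∃ f : M → ℂ, A.Sm f ∧ (∀ y, f (ι y) = 1) ∧ tsupport f ⊆ U := by
    obtain ⟨φ, g1, -, g2, g3, g4⟩ := QN2b734.exists_bump A hKc hU (by
      rintro _ ⟨y, rfl⟩
      exact hFU y)
    refine ⟨fun x => ((φ x : ℝ) : ℂ), fun i => smAt_ofReal (QN2b734.sm_iff.2 g1 i), fun y => ?_, ?_⟩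
    · have g5 := (eventually_nhdsSet_iff_forall.1 g2 (ι y) ⟨y, rfl⟩).self_of_nhds
      show ((φ (ι y) : ℝ) : ℂ) = 1
      rw [g5, ofReal_one]
    · rw [tsupport_ofReal]
      exact g4
  obtain ⟨C, hC0, hC⟩ := R.pr_bound P PF D w (s := Fintype.card (RI n) + 1) (by omega)
  let Tf : Sec B →ₗ[ℂ] ℂ := (pr D PF).flip w ∘ₗ R.res
  have hTf : ∀ u, Tf u = pr D PF (R.res u) w := fun u => rfl
  have hlim2 := functional_limit P B h2 hU (y := fun N => T.K (c N)) hz he hn hnU Tf hf hfU (C := C)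
    (fun u => by
      rw [hTf, ← R.fmul_one hf hf1 u]
      exact hC _)
    (fun u => by
      rw [hTf, ← R.nab, Pai323.pr_nab, hw, map_zero])
  refine ⟨z, hz, T.limit_deg hq (hH 0), ?_⟩
  have h3 : Tendsto (fun N => Tf (c N)) atTop (𝓝 1) := by
    simp only [hTf, h1]
    exact tendsto_const_nhds
  exact (tendsto_nhds_unique hlim2 h3)

end Rst

end

end Crest.Agent.R273.T8_774
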