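import Crest.Agent.R273.TorBd_422
import Crest.Agent.R273.Cpl_522
import Crest.Agent.R273.TorAct_422
import Crest.Agent.R273.RetE_155
import Crest.Agent.R273.Gordan_106_Mg
import Crest.Agent.R273.HodgeP_578
import Crest.Agent.R273.D2U_505
import Crest.Agent.R273.SteinD_794
import Crest.Agent.R273.SteinE_794
import Crest.Agent.R273.NormC_505
import Crest.Agent.R273.Vm_333
import Crest.Agent.R273.T8A_774
import Crest.Agent.R273.LogCut_5
import Crest.Agent.R273.PW_799
import Crest.Agent.R273.ChiPoly_290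
import Crest.Agent.R273.SerA_945

-- ▼ part R273/TorEps_422
section

/-!
# R273 (S0416), torus step (helper422): the flow of a real functional on the characters

`Rx T x`     : the subgroup `W` generated by the ratios, `x : Additive W →+ ℝ`, weights
               `xw k = x (χ k / χ k0)`; `flo` the complex flow; `RFx` : the `RF`;
`appr`       : `Appr T (RFx ..)`.
-/

set_option autoImplicit false
set_option linter.unusedSectionVars false

open Set Filter Topology Complex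
open scoped ContDiff Matrix ComplexConjugate Manifold

namespace Crest.Agent.R273.TorEps_422

open Crest.Agent.R275.Geo Crest.Agent.R275.Core144
open Crest.Agent.R273.Defs_333 Crest.Agent.R273.Map_835 Crest.Agent.R273.TorDefs_422
open Crest.Agent.R273.TorMin_422 Crest.Agent.R273.PFlow_522 Crest.Agent.R273.Ret_155
open Crest.Agent.R273.TorFr_422 Crest.Agent.R273.TorBd_422

noncomputable section

variable {n : ℕ} {M : Type} [TopologicalSpace M] {A : Atl n M}

/-- a complex flow with its limit retraction -/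
def _root_.Crest.Agent.R273.PFlow_522.Flo.rf [CompactSpace M] {P : ProjD A}
    {x : Fin (P.N + 1) → ℝ} (D : Flo P x) {m : ℝ} (hm : ∀ k, m ≤ x k) : RF P where
  x := x
  m := m
  D := D.D
  hol z := (D.holM z).toMap
  spec := D.spec
  T := D.ret hm
  rspec _ hy _ hv := D.r_spec hm hy hv
  lim _ hy := D.r_lim hm hy

variable {Γ : Type} [CommGroup Γ] [MulAction Γ M] (T : TorD A Γ)

/-- the group of characters generated by the ratios -/
def WW : Subgroup (Γ →* Circle) := Subgroup.closure {w : Γ →* Circle | ∃ k l, w = T.χ k / T.χ l}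

theorem WW_fg : (WW T).FG := by
  have : {w : Γ →* Circle | ∃ k l, w = T.χ k / T.χ l} =
      Set.range fun q : Fin (T.P.N + 1) × Fin (T.P.N + 1) => T.χ q.1 / T.χ q.2 := by
    ext w
    constructor
    · rintro ⟨k, l, rfl⟩
      exact ⟨(k, l), rfl⟩
    · rintro ⟨⟨k, l⟩, rfl⟩
      exact ⟨k, l, rfl⟩
  refine (Subgroup.fg_iff _).2 ⟨_, rfl, ?_⟩
  rw [this]
  exact Set.finite_range _

theorem mem_WW (k l : Fin (T.P.N + 1)) : T.χ k / T.χ l ∈ WW T := Subgroup.subset_closure ⟨k, l, rfl⟩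

/-- the weights of a functional -/
def xw (x : Additive (WW T) →+ ℝ) (k : Fin (T.P.N + 1)) : ℝ :=
  x (Additive.ofMul ⟨T.χ k / T.χ 0, mem_WW T k 0⟩)

theorem xw_sub (x : Additive (WW T) →+ ℝ) (k l : Fin (T.P.N + 1)) :
    xw T x k - xw T x l = x (Additive.ofMul ⟨T.χ k / T.χ l, mem_WW T k l⟩) := by
  rw [xw, xw, ← map_sub]
  congr 1
  apply Additive.toMul.injective
  apply Subtype.ext
  show (T.χ k / T.χ 0) / (T.χ l / T.χ 0) = T.χ k / T.χ l
  rw [div_div_div_cancel_right]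

theorem act_R (γ : Γ) (y : M) (v : E T.P) (hv : R T.P y v) :
    R T.P (γ • y) (fun k => (T.χ k γ : ℂ) * v k) := by
  obtain ⟨i, hi⟩ := A.cover y
  obtain ⟨j, hj⟩ := A.cover (γ • y)
  obtain ⟨c, hc0, hc⟩ := diag_ne T γ hi hj
  obtain ⟨d, hd0, hd⟩ := hv.chart hi
  have h1 : (fun k => (T.χ k γ : ℂ) * v k) = (c⁻¹ * d) • T.P.F j (γ • y) := by
    funext k
    rw [Pi.smul_apply, hc k, smul_eq_mul]
    have h2 := congrFun hd k
    simp only [Pi.smul_apply, smul_eq_mul] at h2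
    rw [h2]
    field_simp
  rw [h1]
  exact (R_F hj).smul (mul_ne_zero (inv_ne_zero hc0) hd0)

/-- Kronecker for a multiplicative group -/
theorem kron_mul {G : Type*} [CommGroup G] (W : Subgroup (G →* Circle)) (hfg : W.FG)
    (htf : ∀ w ∈ W, ∀ m : ℕ, m ≠ 0 → w ^ m = 1 → w = 1) (x : Additive W →+ ℝ) (S : Finset W)
    {ε : ℝ} (hε : 0 < ε) : ∃ g : G, ∀ w ∈ S,
      ‖(((w : G →* Circle) g : Circle) : ℂ) - Complex.exp ((x (Additive.ofMul w) : ℝ) * I)‖ < ε := by
  classical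
  let e : Additive (G →* Circle) ≃+ AddChar (Additive G) Circle :=
    { toFun := fun χ => toAdd χ.toMul
      invFun := fun ψ => Additive.ofMul
        { toFun := fun g => ψ (Additive.ofMul g)
          map_one' := ψ.map_zero_eq_one
          map_mul' := fun a b => ψ.map_add_eq_mul _ _ }
      left_inv := fun χ => rfl
      right_inv := fun ψ => rfl
      map_add' := fun _ _ => rfl }
  let W1 : AddSubgroup (Additive (G →* Circle)) := Subgroup.toAddSubgroup W
  let W2 : AddSubgroup (AddChar (Additive G) Circle) := W1.map e.toAddMonoidHom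
  have hW2 : ∀ {w : G →* Circle}, w ∈ W → e (Additive.ofMul w) ∈ AddSubgroup.toIntSubmodule W2 := by
    intro w hw
    exact ⟨Additive.ofMul w, hw, rfl⟩
  have hinv : ∀ w ∈ AddSubgroup.toIntSubmodule W2, (e.symm w).toMul ∈ W := by
    rintro _ ⟨w, hw, rfl⟩
    have h1 : e.symm (e.toAddMonoidHom w) = w := e.symm_apply_apply w
    rw [h1]
    exact hw
  have hfg1 : W1.FG := (Subgroup.fg_iff_add_fg W).1 hfg
  have hfg2 : (AddSubgroup.toIntSubmodule W2).FG := by
    have h1 : (AddSubgroup.toIntSubmodule W1).FG := by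
      rw [Submodule.fg_iff_addSubgroup_fg, AddSubgroup.toIntSubmodule_toAddSubgroup]
      exact hfg1
    exact h1.map e.toAddMonoidHom.toIntLinearMap
  have htf2 : ∀ w ∈ AddSubgroup.toIntSubmodule W2, ∀ m : ℤ, m ≠ 0 → m • w = 0 → w = 0 := by
    intro w hw m hm h
    have h1 := hinv w hw
    have h2 : (e.symm w).toMul ^ m = 1 := by
      have h3 : e.symm (m • w) = m • e.symm w := map_zsmul e.symm m w
      rw [h, map_zero] at h3
      have h4 := congrArg Additive.toMul h3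
      exact h4.symm
    have h3 : (e.symm w).toMul ^ m.natAbs = 1 := by
      rcases Int.natAbs_eq m with h5 | h5
      · rw [h5, zpow_natCast] at h2
        exact h2
      · rw [h5, zpow_neg, zpow_natCast, inv_eq_one] at h2
        exact h2
    have h4 := htf _ h1 _ (Int.natAbs_ne_zero.2 hm) h3
    have h5 : e.symm w = 0 := h4
    rw [← e.apply_symm_apply w, h5, map_zero]
  let f : AddSubgroup.toIntSubmodule W2 →+ Additive W :=
    { toFun := fun w => Additive.ofMul ⟨(e.symm w.1).toMul, hinv w.1 w.2⟩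
      map_zero' := by
        apply Additive.toMul.injective
        apply Subtype.ext
        show (e.symm 0).toMul = 1
        rw [map_zero]
        rfl
      map_add' := by
        intro a b
        apply Additive.toMul.injective
        apply Subtype.ext
        show (e.symm (a.1 + b.1)).toMul = (e.symm a.1).toMul * (e.symm b.1).toMul
        rw [map_add]
        rfl }
  obtain ⟨γ, hγ⟩ := TorG_522.kron_flow (AddSubgroup.toIntSubmodule W2) hfg2 htf2 (x.comp f)
    (S.image fun w : W => ⟨e (Additive.ofMul (w : G →* Circle)), hW2 w.prop⟩) hε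
  refine ⟨γ.toMul, fun w hw => ?_⟩
  have h1 := hγ _ (Finset.mem_image_of_mem _ hw)
  have h2 : f ⟨e (Additive.ofMul (w : G →* Circle)), hW2 w.prop⟩ = Additive.ofMul w := by
    apply Additive.toMul.injective
    apply Subtype.ext
    show (e.symm (e (Additive.ofMul (w : G →* Circle)))).toMul = (w : G →* Circle)
    rw [e.symm_apply_apply]
    rfl
  rw [AddMonoidHom.comp_apply, h2] at h1
  exact h1

/-- a sequence in the group approximating the imaginary time -/
theorem exists_seq (x : Additive (WW T) →+ ℝ) (t : ℝ) : ∃ γ : ℕ → Γ, ∀ k,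
    Tendsto (fun m => (((T.χ k / T.χ 0 : Γ →* Circle) (γ m) : Circle) : ℂ)) atTop
      (𝓝 (Complex.exp ((t * xw T x k : ℝ) * I))) := by
  classical
  set S : Finset (WW T) := Finset.univ.image fun k => (⟨T.χ k / T.χ 0, mem_WW T k 0⟩ : WW T)
    with hS
  have hex : ∀ m : ℕ, ∃ γ : Γ, ∀ w ∈ S, ‖(((w : Γ →* Circle) γ : Circle) : ℂ) -
      Complex.exp ((t * x (Additive.ofMul w) : ℝ) * I)‖ < 1 / ((m : ℝ) + 1) := by
    intro m
    exact kron_mul (WW T) (WW_fg T) T.tf ((AddMonoidHom.mulLeft t).comp x) S (by positivity)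
  choose γ hγ using hex
  refine ⟨γ, fun k => ?_⟩
  rw [tendsto_iff_norm_sub_tendsto_zero]
  refine squeeze_zero (fun _ => norm_nonneg _) (fun m => ?_)
    tendsto_one_div_add_atTop_nhds_zero_nat
  exact (hγ m _ (Finset.mem_image_of_mem _ (Finset.mem_univ k))).le

theorem tendsto_act (x : Additive (WW T) →+ ℝ) {t : ℝ} {γ : ℕ → Γ}
    (hγ : ∀ k, Tendsto (fun m => (((T.χ k / T.χ 0 : Γ →* Circle) (γ m) : Circle) : ℂ)) atTop
      (𝓝 (Complex.exp ((t * xw T x k : ℝ) * I)))) [CompactSpace M] {y : M} {v : E T.P}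
    (hv : R T.P y v) : ∃ y', R T.P y' (Ez (xw T x) ((t : ℂ) * I) v) ∧
      Tendsto (fun m => γ m • y) atTop (𝓝 y') := by
  have h1 : Tendsto (fun m (k : Fin (T.P.N + 1)) =>
      (((T.χ k / T.χ 0 : Γ →* Circle) (γ m) : Circle) : ℂ) * v k) atTop
      (𝓝 (Ez (xw T x) ((t : ℂ) * I) v)) := by
    rw [tendsto_pi_nhds]
    intro k
    have h3 : Ez (xw T x) ((t : ℂ) * I) v k = Complex.exp ((t * xw T x k : ℝ) * I) * v k := by
      simp only [Ez]
      congr 2
      push_cast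
      ring
    rw [h3]
    exact (hγ k).mul_const (v k)
  refine exists_lim (P := T.P) h1 (Ez_ne _ hv.ne) (Eventually.of_forall fun m => ?_)
  have h2 := (act_R T (γ m) y v hv).smul (c := ((T.χ 0 (γ m) : Circle) : ℂ)⁻¹)
    (inv_ne_zero (Circle.coe_ne_zero _))
  have h3 : (((T.χ 0 (γ m) : Circle) : ℂ)⁻¹ • fun k => (T.χ k (γ m) : ℂ) * v k) =
      fun k => (((T.χ k / T.χ 0 : Γ →* Circle) (γ m) : Circle) : ℂ) * v k := by
    funext k
    rw [Pi.smul_apply, smul_eq_mul, MonoidHom.div_apply, Circle.coe_div]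
    ring
  rwa [h3] at h2

/-- the flow of a functional -/
theorem exists_flow [CompactSpace M] (x : Additive (WW T) →+ ℝ) : Nonempty (Flo T.P (xw T x)) := by
  refine exists_flo fun t y v hv => ?_
  obtain ⟨γ, hγ⟩ := exists_seq T x t
  obtain ⟨y', hy', -⟩ := tendsto_act T x hγ hv
  exact ⟨y', hy'⟩

variable {T}

/-- imaginary times are limits of the group -/
theorem appr [CompactSpace M] {x : Additive (WW T) →+ ℝ} (D : Flo T.P (xw T x)) {m : ℝ}
    (hm : ∀ k, m ≤ xw T x k) : Appr T (D.rf hm) := by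
  intro t y
  obtain ⟨v, hv⟩ := exists_R (P := T.P) y
  obtain ⟨γ, hγ⟩ := exists_seq T x t
  obtain ⟨y', hy', hlim⟩ := tendsto_act T x hγ hv
  refine ⟨γ, ?_⟩
  have h1 : R T.P (D.D ((t : ℂ) * I) y) (Ez (xw T x) ((t : ℂ) * I) v) := D.spec _ _ _ hv
  have h2 : D.D ((t : ℂ) * I) y = y' := h1.uniq hy'
  show Tendsto (fun k => γ k • y) atTop (𝓝 (D.D ((t : ℂ) * I) y))
  rw [h2]
  exact hlim

/-- the fixed locus is compact and connected as soon as `m` is attained -/
theorem conn_F [CompactSpace M] [PreconnectedSpace M] {x : Additive (WW T) →+ ℝ}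
    (D : Flo T.P (xw T x)) {m : ℝ} (hm : ∀ k, m ≤ xw T x k) {k : Fin (T.P.N + 1)}
    (hk : xw T x k = m) : IsConnected (D.rf hm).T.F := by
  obtain ⟨i, y, hy, h0⟩ := T.nz k
  exact D.isConnected_F hm hk hy h0

end

end Crest.Agent.R273.TorEps_422
end

-- ▼ part R273/TorEq_422
section

/-!
# R273 (S0416), torus step (helper422), T8': semi-invariant null polyvectors

`quad_ge`, `nq_bdd`, `push_bdd` : orbits of the group on null polyvectors are bounded;
`rs_push`   : restriction to the fixed locus of the lowered push forward;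
`exists_semi` : a semi-invariant null polyvector with character `vF^k`.
-/

set_option autoImplicit false
set_option linter.unusedSectionVars false

open Set Filter Topology Complex
open scoped ContDiff Matrix ComplexConjugate Manifold ComplexOrder Kronecker

namespace Crest.Agent.R273.TorEq_422

open Crest.Agent.R275.Geo Crest.Agent.R275.Core144
open Crest.Agent.R273.Defs_333 Crest.Agent.R273.Map_835 Crest.Agent.R273.Kah_333
open Crest.Agent.R273.HM_333 (LB_pow_g)
open Crest.Agent.R273.Fock_243 Crest.Agent.R273.NV_578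
open Crest.Agent.R273.TorFr_422 Crest.Agent.R273.TorDefs_422 Crest.Agent.R273.TorBd_422
open Crest.Agent.R273.TorAct_422 Crest.Agent.R273.TorMin_422
open Crest.Agent.R273.LamN127 (BN) 
open Crest.Agent.R273.DVec_733 Crest.Agent.R273.DMet_733 Crest.Agent.R273.HodgeP_578
open Crest.Agent.R273.Ret_155 Crest.Agent.R273.GamR_155 Crest.Agent.R273.PullF_155

noncomputable section

/-- lower bound of a positive definite form -/
theorem quad_ge {κ : Type} [Fintype κ] {G : Matrix κ κ ℂ} (hG : G.PosDef) :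
    ∃ c : ℝ, 0 < c ∧ ∀ u : κ → ℂ, ∀ k, c * ‖u k‖ ^ 2 ≤ (star u ⬝ᵥ (G *ᵥ u)).re := by
  classical
  set f : (κ → ℂ) → ℝ := fun u => (star u ⬝ᵥ (G *ᵥ u)).re with hf
  have hfc : Continuous f := by
    refine Complex.continuous_re.comp ?_
    simp only [dotProduct, Matrix.mulVec, Pi.star_apply]
    fun_prop
  have hpos : ∀ u, u ≠ 0 → 0 < f u := fun u hu => hG.re_dotProduct_pos hu
  have hhom : ∀ (t : ℝ) (u : κ → ℂ), f ((t : ℂ) • u) = t ^ 2 * f u := by
    intro t u
    simp only [hf, Matrix.mulVec_smul, star_smul, smul_dotProduct, dotProduct_smul, smul_eq_mul]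
    rw [← mul_assoc, Complex.star_def, Complex.conj_ofReal, ← Complex.ofReal_mul,
      Complex.re_ofReal_mul]
    ring
  by_cases hne : (Metric.sphere (0 : κ → ℂ) 1).Nonempty
  · obtain ⟨u0, hu0, hmin⟩ := (isCompact_sphere (0 : κ → ℂ) 1).exists_isMinOn hne hfc.continuousOn
    have hu0' : u0 ≠ 0 := by
      rintro rfl
      simp at hu0
    refine ⟨f u0, hpos u0 hu0', fun u k => ?_⟩
    by_cases hu : u = 0
    · subst hu
      simp
    have hn : 0 < ‖u‖ := norm_pos_iff.2 hu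
    have h1 : f u = ‖u‖ ^ 2 * f (((‖u‖⁻¹ : ℝ) : ℂ) • u) := by
      rw [hhom]
      field_simp
    have h2 : f u0 ≤ f (((‖u‖⁻¹ : ℝ) : ℂ) • u) := by
      refine hmin ?_
      rw [mem_sphere_zero_iff_norm, norm_smul, Complex.norm_real, norm_inv, norm_norm,
        inv_mul_cancel₀ hn.ne']
    have h3 : ‖u k‖ ^ 2 ≤ ‖u‖ ^ 2 := by
      have := norm_le_pi_norm u k
      gcongr
    calc f u0 * ‖u k‖ ^ 2 ≤ f u0 * ‖u‖ ^ 2 := mul_le_mul_of_nonneg_left h3 (hpos u0 hu0').le
      _ ≤ f (((‖u‖⁻¹ : ℝ) : ℂ) • u) * ‖u‖ ^ 2 := mul_le_mul_of_nonneg_right h2 (by positivity)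
      _ = f u := by rw [h1, mul_comm]
  · refine ⟨1, one_pos, fun u k => ?_⟩
    exfalso
    apply hne
    refine ⟨Pi.single k 1, ?_⟩
    rw [mem_sphere_zero_iff_norm, Pi.norm_single, norm_one]

variable {n : ℕ} {M : Type} [TopologicalSpace M] {A : Atl n M}

theorem cont_of_smAt {W : Type*} [NormedAddCommGroup W] [NormedSpace ℝ W] {i : A.ι} {f : M → W}
    (hf : A.SmAt i f) {x : M} (hx : x ∈ (A.e i).source) : ContinuousAt f x := by
  have h1 : ContinuousAt (fun z => f ((A.e i).symm z)) (A.e i x) :=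
    (ContDiffOn.continuousOn hf).continuousAt ((A.e i).open_target.mem_nhds ((A.e i).map_source hx))
  have h2 : ContinuousAt (fun y => f ((A.e i).symm (A.e i y))) x :=
    ContinuousAt.comp (f := fun y => A.e i y) (g := fun z => f ((A.e i).symm z)) h1
      ((A.e i).continuousAt hx)
  refine h2.congr ?_
  filter_upwards [(A.e i).open_source.mem_nhds hx] with y hy
  rw [(A.e i).left_inv hy]

variable {Γ : Type} [CommGroup Γ] [MulAction Γ M] (T : TorD A Γ)

theorem cont_nq {m q : ℕ} {v : A.ι → M → FI n → ℂ} (hv : v ∈ PV ((aK A) ^ m) q) {i : A.ι} {x : M}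
    (hx : x ∈ (A.e i).source) : ContinuousAt (nq T m v i) x := by
  have hvm := DMetB_733.PV_le hv
  have h1 : ∀ S, ContinuousAt (fun y => v i y S) x := fun S => cont_of_smAt (hvm.1 i S) hx
  have h2 : ∀ S S', ContinuousAt (fun y => GK T.K i y S S') x := fun S S' =>
    cont_of_smAt (GK_smooth T.K i S S') hx
  have h3 : ContinuousAt (T.h.w i) x := cont_of_smAt (i := i) (f := T.h.w i) (T.h.sm i) hx
  refine (h3.pow m).mul ?_
  refine Complex.continuous_re.continuousAt.comp ?_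
  simp only [dotProduct, Matrix.mulVec, Pi.star_apply]
  refine tendsto_finsetSum _ fun S _ => ?_
  refine Tendsto.mul ?_ (tendsto_finsetSum _ fun S' _ => (h2 S S').mul (h1 S'))
  exact (continuous_star.continuousAt (x := v i x S)).tendsto.comp (h1 S)

theorem nq_bdd [CompactSpace M] {m q : ℕ} {v : A.ι → M → FI n → ℂ}
    (hv : v ∈ PV ((aK A) ^ m) q) : ∃ C : ℝ, ∀ i, ∀ x ∈ (A.e i).source, nq T m v i x ≤ C := by
  set f : M → ℝ := fun x => nq T m v (ci A x) x with hf
  have hfi : ∀ i, ∀ x ∈ (A.e i).source, f x = nq T m v i x := fun i x hx =>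
    nq_chart T hv ⟨ci_mem A x, hx⟩
  have hfc : Continuous f := by
    rw [continuous_iff_continuousAt]
    intro x
    refine (cont_nq T hv (ci_mem A x)).congr ?_
    filter_upwards [(A.e (ci A x)).open_source.mem_nhds (ci_mem A x)] with y hy
    exact (hfi _ y hy).symm
  obtain ⟨C, hC⟩ := (isCompact_univ (X := M)).exists_bound_of_continuousOn hfc.continuousOn
  refine ⟨C, fun i x hx => ?_⟩
  rw [← hfi i x hx]
  exact (le_abs_self _).trans (hC x (mem_univ x))

include T in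
/-- the orbits of the group are bounded -/
theorem push_bdd [CompactSpace M] {m q : ℕ} {v : A.ι → M → FI n → ℂ}
    (hv : v ∈ PV ((aK A) ^ m) q) (i : A.ι) (x : M) (S : FI n) :
    ∃ C : ℝ, ∀ γ : Γ, ‖push m γ v i x S‖ ≤ C := by
  by_cases hx : x ∈ (A.e i).source
  · obtain ⟨C, hC⟩ := nq_bdd T hv
    obtain ⟨c, hc, hcu⟩ := quad_ge (G := GK T.K i x)
      (Pos_243.Gam_posDef ((T.K.pos i x hx).transpose))
    have hw := T.h.pos i x hx
    refine ⟨Real.sqrt (C / (T.h.w i x ^ m * c)), fun γ => ?_⟩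
    refine Real.le_sqrt_of_sq_le ?_
    rw [le_div_iff₀ (by positivity)]
    have h1 : nq T m (push m γ v) i x ≤ C := by
      have h2 : γ • (γ⁻¹ • x) = x := smul_inv_smul γ x
      have h3 := nq_push T γ hv (ci_mem A (γ⁻¹ • x)) (j := i) (by rw [h2]; exact hx)
      rw [h2] at h3
      rw [h3]
      exact hC _ _ (ci_mem A _)
    have h2 := hcu (push m γ v i x) S
    calc ‖push m γ v i x S‖ ^ 2 * (T.h.w i x ^ m * c)
        = T.h.w i x ^ m * (c * ‖push m γ v i x S‖ ^ 2) := by ring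
      _ ≤ T.h.w i x ^ m * (star (push m γ v i x) ⬝ᵥ (GK T.K i x *ᵥ push m γ v i x)).re :=
          mul_le_mul_of_nonneg_left h2 (by positivity)
      _ ≤ C := h1
  · refine ⟨0, fun γ => ?_⟩
    rw [push_off γ hx]
    simp

/-! ### restriction to the fixed locus -/

/-- the lowered push forward at a fixed point -/
theorem GK_push {m q : ℕ} {v : A.ι → M → FI n → ℂ} (hv : v ∈ PV ((aK A) ^ m) q) {γ : Γ} {p : M}
    (hp : γ • p = p) {i : A.ι} (hi : p ∈ (A.e i).source) :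
    GK T.K i p *ᵥ push m γ v i p = (Ja A γ i i p).det ^ m •
      (Gam (((Ja A γ⁻¹ i i p).map conj)ᵀ) *ᵥ (GK T.K i p *ᵥ v i p)) := by
  have hi' : γ • p ∈ (A.e i).source := by rw [hp]; exact hi
  have h1 := push_eq T.hol γ hv hi hi'
  rw [hp] at h1
  have h2 := T.K_inv γ i i p hi hi'
  rw [hp] at h2
  have h3 := Ja_inv T.hol γ hi hi'
  rw [hp] at h3
  have h4 : ((Ja A γ⁻¹ i i p).map conj)ᵀ * (T.K.g i p)ᵀ = (T.K.g i p)ᵀ * Ja A γ i i p := by
    have h5 : (T.K.g i p)ᵀ = ((Ja A γ i i p).map conj)ᵀ * ((T.K.g i p)ᵀ * Ja A γ i i p) := by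
      conv_lhs => rw [h2]
      rw [Matrix.transpose_mul, Matrix.transpose_mul, Matrix.transpose_transpose]
    have h6 : ((Ja A γ⁻¹ i i p).map conj)ᵀ * ((Ja A γ i i p).map conj)ᵀ = 1 := by
      rw [← Matrix.transpose_mul, ← Matrix.map_mul, mul_eq_one_comm.1 h3,
        Matrix.map_one _ (map_zero _) (map_one _), Matrix.transpose_one]
    conv_lhs => rw [h5]
    rw [← Matrix.mul_assoc, h6, Matrix.one_mul]
  rw [h1, Matrix.mulVec_smul]
  unfold GK
  rw [Matrix.mulVec_mulVec, Matrix.mulVec_mulVec, ← Gam_mul, ← Gam_mul, h4]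

variable {T} (Q : RF T.P) (S : FAtl Q.T)

/-- restriction of the lowered push forward -/
theorem rs_push {k q : ℕ} (v : NV ((aK A) ^ k) T.h q) {γ : Γ} (c : ℂ)
    (hfix : ∀ p ∈ Q.T.F, γ • p = p)
    (hdet : ∀ p ∈ Q.T.F, ∀ j, p ∈ (A.e j).source → (Ja A γ j j p).det = c) :
    S.rs (aK A) k (low T.K _ (inc _ T.h q ⟨push k γ v.1, push_nul T γ v.2⟩)) =
      c ^ k • S.rs (aK A) k (low T.K _ (inc _ T.h q v)) := by
  apply Subtype.ext
  funext i' x
  by_cases hi' : x ∈ (S.B.e i').source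
  · obtain ⟨j, hj⟩ := A.cover (x : M)
    have hp : γ • (x : M) = x := hfix _ x.2
    have hp' : γ⁻¹ • (x : M) = x := by
      conv_lhs => rw [← hp]
      rw [inv_smul_smul]
    have e1 := S.rs_eq (L := aK A) k (low T.K _ (inc _ T.h q ⟨push k γ v.1, push_nul T γ v.2⟩))
      hi' hj
    have e2 := S.rs_eq (L := aK A) k (low T.K _ (inc _ T.h q v)) hi' hj
    rw [e1]
    show _ = c ^ k • (S.rs (aK A) k (low T.K _ (inc _ T.h q v))).1 i' x
    rw [e2]
    have h1 : (low T.K _ (inc _ T.h q ⟨push k γ v.1, push_nul T γ v.2⟩)).1 j (x : M) =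
        iB ((aK A) ^ k) (GK T.K j x *ᵥ push k γ v.1 j x) := rfl
    have h2 : (low T.K _ (inc _ T.h q v)).1 j (x : M) = iB ((aK A) ^ k) (GK T.K j x *ᵥ v.1 j x) :=
      rfl
    rw [h1, h2, GK_push T v.2.1 hp hj, hdet _ x.2 j hj, iB_smul, Matrix.mulVec_smul]
    congr 1
    set u := GK T.K j x *ᵥ v.1 j x with hu
    set J' : Matrix (Fin n) (Fin n) ℂ := Ja A γ⁻¹ j j (x : M) with hJ'
    have h3 : iB ((aK A) ^ k) (Gam (J'.map conj)ᵀ *ᵥ u) =
        kB ((aK A) ^ k) ((aK A) ^ k) (Gam (J'.map conj)ᵀ) 1 *ᵥ iB ((aK A) ^ k) u := by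
      have := kB_iB ((aK A) ^ k) ((aK A) ^ k) (Gam (J'.map conj)ᵀ) 1 u
      rw [one_smul] at this
      exact this.symm
    rw [h3, Matrix.mulVec_mulVec]
    congr 1
    show (GamR (Jpb S.B A (Subtype.val : Q.T.F → M) i' j x) ⊗ₖ cU _ :
      Matrix (FI S.d × Unit) (FI n × Unit) ℂ) *
        (Gam (J'.map conj)ᵀ ⊗ₖ cU 1 : Matrix (FI n × Unit) (FI n × Unit) ℂ) =
      (GamR (Jpb S.B A (Subtype.val : Q.T.F → M) i' j x) ⊗ₖ cU _ :
        Matrix (FI S.d × Unit) (FI n × Unit) ℂ)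
    rw [kU_mul, mul_one, ← GamR_eq_Gam, ← GamR_mul]
    congr 2
    have h4 : Ja A γ⁻¹ j j (x : M) * Jp S.B A (Subtype.val : Q.T.F → M) i' j x =
        Jp S.B A (Subtype.val : Q.T.F → M) i' j x := by
      have h5 := Jp_comp (T.hol γ⁻¹) S.holMap_val (i := i') (j := j) (l := j) hi' hj
        (by rw [hp']; exact hj)
      refine h5.trans ?_
      congr 1
      funext y
      have hy : γ • (y : M) = y := hfix _ y.2
      show γ⁻¹ • (y : M) = y
      conv_lhs => rw [← hy]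
      rw [inv_smul_smul]
    unfold Jpb
    rw [← Matrix.transpose_mul, ← Matrix.map_mul, h4]
  · rw [(S.rs (aK A) k _).2.2.1 i' x hi']
    show 0 = c ^ k • (S.rs (aK A) k (low T.K _ (inc _ T.h q v))).1 i' x
    rw [(S.rs (aK A) k _).2.2.1 i' x hi', smul_zero]

variable (T) in
/-- the representation of the group on null polyvectors -/
def repr (k q : ℕ) : Γ →* Module.End ℂ (NV ((aK A) ^ k) T.h q) where
  toFun γ :=
    { toFun := fun v => ⟨push k γ v.1, push_nul T γ v.2⟩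
      map_add' := fun v w => Subtype.ext (push_add T.hol k γ v.1 w.1)
      map_smul' := fun c v => Subtype.ext (push_smul T.hol k γ c v.1) }
  map_one' := by
    ext1 v
    exact Subtype.ext (push_one T.hol v.2.1)
  map_mul' γ γ' := by
    ext1 v
    exact Subtype.ext (push_mul T.hol γ γ' v.2.1)

theorem repr_val (k q : ℕ) (γ : Γ) (v : NV ((aK A) ^ k) T.h q) :
    (repr T k q γ v).1 = push k γ v.1 := rfl

/-- **T8'**: a class on `M` seen by a functional on the fixed locus gives a semi-invariant null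
polyvector -/
theorem exists_semi [T2Space M] [CompactSpace M] [Finite A.ι] (PA : Part A)
    (hfix : ∀ γ : Γ, ∀ p ∈ Q.T.F, γ • p = p) (vF : Γ →* Circle)
    (hdet : ∀ γ : Γ, ∀ p ∈ Q.T.F, ∀ j, p ∈ (A.e j).source →
      (Ja A γ j j p).det * (vF γ : ℂ) = 1)
    {k q : ℕ} (φ : Sec (BN (S.res (aK A) ^ k)) →ₗ[ℂ] ℂ) (hφ : ∀ y, φ (nabL _ y) = 0)
    {z : Sec (BN ((aK A) ^ k))} (hz : nabL _ z = 0) (hq : pqL _ q z = z)
    (hne : φ (S.rs (aK A) k z) ≠ 0) :
    ∃ w ∈ NV ((aK A) ^ k) T.h q, w ≠ 0 ∧ SemiV k (vF ^ k) w := by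
  have hD := D13_505.d2Ex PA T.K
  have hfin0 := (d2_fin PA hD (hpow T.h k) (hpow_semipos T.semi k) q).1
  have eNV : NV ((aK A) ^ k) (hpow T.h k) q = NV ((aK A) ^ k) T.h q := NV_hpow T.h k _ q
  rw [eNV] at hfin0
  -- the harmonic representative
  obtain ⟨v0, y, hy⟩ := hD _ (hpow T.h k) (hpow_semipos T.semi k) q z hz hq
  set v : NV ((aK A) ^ k) T.h q := ⟨v0.1, by rw [← eNV]; exact v0.2⟩ with hv
  have hlow : low T.K _ (inc _ (hpow T.h k) q v0) = low T.K _ (inc _ T.h q v) := rfl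
  rw [hlow] at hy
  -- the functional on the null polyvectors
  set Φ : NV ((aK A) ^ k) T.h q →ₗ[ℂ] ℂ :=
    φ ∘ₗ (S.rs (aK A) k) ∘ₗ (low T.K _).toLinearMap ∘ₗ inc _ T.h q with hΦ
  have hΦv : Φ v ≠ 0 := by
    have h1 : S.rs (aK A) k z = S.rs (aK A) k (low T.K _ (inc _ T.h q v)) +
        nabL _ (S.rs (aK A) k y) := by
      rw [S.rs_nab, hy, map_sub]
      abel
    rw [h1, map_add, hφ, add_zero] at hne
    exact hne
  have hΦ0 : Φ ≠ 0 := fun h => hΦv (by rw [h]; rfl)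
  have hvF : ∀ γ : Γ, (vF γ : ℂ) ≠ 0 := fun γ => Circle.coe_ne_zero _
  have heq : ∀ (γ : Γ) (u : NV ((aK A) ^ k) T.h q),
      Φ (repr T k q γ u) = ((vF γ : ℂ)⁻¹) ^ k * Φ u := by
    intro γ u
    have h1 := rs_push Q S u (γ := γ) ((vF γ : ℂ)⁻¹) (hfix γ) (fun p hp j hj =>
      eq_inv_of_mul_eq_one_left (hdet γ p hp j hj))
    have h2 : Φ (repr T k q γ u) = φ (S.rs (aK A) k (low T.K _ (inc _ T.h q
      ⟨push k γ u.1, push_nul T γ u.2⟩))) := rfl
    rw [h2, h1, map_smul]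
    rfl
  -- separating functionals
  obtain ⟨w, hw, hw0⟩ := BDiag_733.exists_vec_fun (V := NV ((aK A) ^ k) T.h q)
    (ρ := repr T k q) (σ := A.ι × M × FI n)
    (fun s => { toFun := fun v => v.1 s.1 s.2.1 s.2.2
                map_add' := fun _ _ => rfl
                map_smul' := fun _ _ => rfl })
    (fun u hu => Subtype.ext (by
      funext i x U
      exact hu (i, x, U)))
    (fun s u => push_bdd T u.2.1 s.1 s.2.1 s.2.2) Φ hΦ0 (fun γ => ((vF γ : ℂ)⁻¹) ^ k) heq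
  refine ⟨w.1, w.2, fun h => hw0 ?_, ?_⟩
  · have : w = 0 := Subtype.ext h
    rw [this, map_zero]
  · intro γ i j x hi hj
    have h1 := congrArg (fun u : NV ((aK A) ^ k) T.h q => u.1 j (γ • x)) (hw γ)
    simp only [repr_val] at h1
    rw [push_eq T.hol γ w.2.1 hi hj] at h1
    have h2 : (((vF γ : ℂ)⁻¹) ^ k • w).1 j (γ • x) = ((vF γ : ℂ)⁻¹) ^ k • w.1 j (γ • x) := rfl
    rw [h2] at h1
    have h3 : w.1 j (γ • x) = (vF γ : ℂ) ^ k • (((vF γ : ℂ)⁻¹) ^ k • w.1 j (γ • x)) := by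
      rw [smul_smul, ← mul_pow, mul_inv_cancel₀ (hvF γ), one_pow, one_smul]
    rw [h3, ← h1, smul_smul, MonoidHom.pow_apply, Circle.coe_pow]

end

end Crest.Agent.R273.TorEq_422
end

-- ▼ part R273/TorT8_422
section

/-!
# R273 (S0416), torus step (helper422): the statement of T8

`T8Out Q S`  : for infinitely many `k` some class of `(K⁻¹)^k` is seen by a functional on the fixed
locus which kills the exact forms;
`T8Stmt`     : it holds for the retraction of a flow approximated by the group.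
-/

set_option autoImplicit false
set_option linter.unusedSectionVars false

open Set Filter Topology Complex
open scoped ContDiff Matrix ComplexConjugate Manifold

namespace Crest.Agent.R273.TorT8_422

open Crest.Agent.R275.Geo Crest.Agent.R275.Core144 Crest.Agent.R275.GC293
open Crest.Agent.R273.Defs_333 Crest.Agent.R273.Map_835 Crest.Agent.R273.TorDefs_422
open Crest.Agent.R273.PFlow_522 Crest.Agent.R273.Ret_155
open Crest.Agent.R273.LamN127 (BN)
open Crest.Agent.R273.TorFr_422 Crest.Agent.R273.TorBd_422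

noncomputable section

/-- the output of T8 -/
def T8Out {n : ℕ} {M : Type} [TopologicalSpace M] {A : Atl n M} {P : ProjD A} (Q : RF P)
    (S : FAtl Q.T) : Prop :=
  ∀ k0 : ℕ, ∃ k, k0 ≤ k ∧ ∃ q, ∃ φ : Sec (BN (S.res (aK A) ^ k)) →ₗ[ℂ] ℂ,
    (∀ y, φ (nabL _ y) = 0) ∧
      ∃ z : Sec (BN ((aK A) ^ k)), nabL _ z = 0 ∧ pqL _ q z = z ∧ φ (S.rs (aK A) k z) ≠ 0

/-- T8 -/
def T8Stmt : Prop :=
  ∀ (n : ℕ) (M : Type) [TopologicalSpace M] [T2Space M] [CompactSpace M] [ConnectedSpace M]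
    (A : Atl n M) [Finite A.ι], GoodA A → Part A →
    ∀ (Γ : Type) [CommGroup Γ] [MulAction Γ M] (T : TorD A Γ) (Q : RF T.P), Appr T Q →
      (∀ k, Q.m ≤ Q.x k) → (∀ y v, R T.P y v → (prm Q.x Q.m v ≠ 0 ↔ y ∈ Q.T.U)) →
      IsCompact Q.T.F → IsConnected Q.T.F → ∀ S : FAtl Q.T, T8Out Q S

end

end Crest.Agent.R273.TorT8_422
end

-- ▼ part R273/TorAsm_422
section

/-!
# R273 (S0416), torus step (helper422): the assembly

`torMain (h8 : T8Stmt) : TorMain`.
-/

set_option autoImplicit false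
set_option linter.unusedSectionVars false

open Set Filter Topology Complex
open scoped ContDiff Matrix ComplexConjugate Manifold

namespace Crest.Agent.R273.TorAsm_422

open Crest.Agent.R275.Geo Crest.Agent.R275.Core144 Crest.Agent.R275.GC293
open Crest.Agent.R273.Defs_333 Crest.Agent.R273.Map_835 Crest.Agent.R273.TorDefs_422
open Crest.Agent.R273.PFlow_522 Crest.Agent.R273.Ret_155
open Crest.Agent.R273.Fock_243 (FI Gam)
open Crest.Agent.R273.NV_578 (NV PV)
open Crest.Agent.R273.LamN127 (BN)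
open Crest.Agent.R273.TorFr_422 Crest.Agent.R273.TorBd_422 Crest.Agent.R273.TorMin_422
open Crest.Agent.R273.TorEps_422 Crest.Agent.R273.TorT8_422 Crest.Agent.R273.TorEq_422

noncomputable section

variable {n : ℕ} {M : Type} [TopologicalSpace M] {A : Atl n M}
variable {Γ : Type} [CommGroup Γ] [MulAction Γ M]

/-! ### products of semi-invariant sections -/

/-- a nonzero section of `(K⁻¹)^(m c)` with character `u^m` -/
def Gd2 (A : Atl n M) (u : Γ →* Circle) (c : ℕ) : Prop :=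
  ∃ m : ℕ, 0 < m ∧ ∃ s : A.ι → M → ℂ, IsHS ((aK A) ^ (m * c)) univ s ∧
    (∃ i, ∃ x ∈ (A.e i).source, s i x ≠ 0) ∧ SemiS (m * c) (u ^ m) s

theorem semiS_pow {m : ℕ} {u : Γ →* Circle} {s : A.ι → M → ℂ} (hs : SemiS m u s) (r : ℕ) :
    SemiS (m * r) (u ^ r) (s ^ r) := by
  intro γ i j x hi hj
  show s j (γ • x) ^ r = _ * s i x ^ r
  rw [hs γ i j x hi hj, MonoidHom.pow_apply, Circle.coe_pow, pow_mul]
  ring

theorem semiS_mul {m m' : ℕ} {u u' : Γ →* Circle} {s s' : A.ι → M → ℂ} (hs : SemiS m u s)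
    (hs' : SemiS m' u' s') : SemiS (m + m') (u * u') (s * s') := by
  intro γ i j x hi hj
  show s j (γ • x) * s' j (γ • x) = _ * (s i x * s' i x)
  rw [hs γ i j x hi hj, hs' γ i j x hi hj, MonoidHom.mul_apply, Circle.coe_mul, pow_add]
  ring

theorem isHS_pow' {L : LB A} {s : A.ι → M → ℂ} (hs : IsHS L univ s) {r : ℕ} (hr : 0 < r) :
    IsHS (L ^ r) univ (s ^ r) := by
  obtain ⟨r, rfl⟩ := Nat.exists_eq_succ_of_ne_zero hr.ne'
  exact SteinE_794.isHS_pow hs r

theorem Gd2.mul [ConnectedSpace M] {u u' : Γ →* Circle} {c c' : ℕ} (h : Gd2 A u c)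
    (h' : Gd2 A u' c') : Gd2 A (u * u') (c + c') := by
  obtain ⟨m, hm, s, hs, h0, hc⟩ := h
  obtain ⟨m', hm', s', hs', h0', hc'⟩ := h'
  have e1 := isHS_pow' hs hm'
  have e2 := isHS_pow' hs' hm
  refine ⟨m * m', Nat.mul_pos hm hm', s ^ m' * s' ^ m, ?_, ?_, ?_⟩
  · have h1 := e1.mul e2
    have h2 : ((aK A) ^ (m * c)) ^ m' * ((aK A) ^ (m' * c')) ^ m = (aK A) ^ (m * m' * (c + c')) := by
      rw [← pow_mul, ← pow_mul, ← pow_add]
      congr 1
      ring
    rwa [h2] at h1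
  · refine SteinD_794.mul_ne_zero_sec e1 e2 ?_ ?_
    · obtain ⟨i, x, hx, hne⟩ := h0
      exact ⟨i, x, hx, pow_ne_zero _ hne⟩
    · obtain ⟨i, x, hx, hne⟩ := h0'
      exact ⟨i, x, hx, pow_ne_zero _ hne⟩
  · have h1 := semiS_mul (semiS_pow hc m') (semiS_pow hc' m)
    have h2 : m * c * m' + m' * c' * m = m * m' * (c + c') := by ring
    have h3 : (u ^ m) ^ m' * (u' ^ m') ^ m = (u * u') ^ (m * m') := by
      rw [← pow_mul, ← pow_mul, mul_pow, mul_comm m' m]
    rwa [h2, h3] at h1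

open Classical in
theorem Gd2.one [Nonempty M] : Gd2 A (1 : Γ →* Circle) 0 := by
  refine ⟨1, one_pos, fun i x => if x ∈ (A.e i).source then 1 else 0, ?_, ?_, ?_⟩
  · rw [mul_zero, pow_zero]
    refine ⟨fun i => ?_, fun i z hz => if_neg hz, fun i j z hz _ => ?_⟩
    · exact (holAt_const (A := A) (i := i) (1 : ℂ)).congr fun z hz _ => (if_pos hz).symm
    · rw [if_pos hz.1, if_pos hz.2, mul_one]
      rfl
  · obtain ⟨x⟩ := (inferInstance : Nonempty M)
    obtain ⟨i, hi⟩ := A.cover x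
    exact ⟨i, x, hi, by simp [hi]⟩
  · intro γ i j x hi hj
    simp only [if_pos hi, if_pos hj, mul_zero, pow_zero, mul_one, one_pow, MonoidHom.one_apply,
      Circle.coe_one]

theorem Gd2.of {v : Γ →* Circle} (h : Gd A v) : Gd2 A v 1 := by
  obtain ⟨m, hm, s, hs, h0, hc⟩ := h
  exact ⟨m, hm, s, by rwa [mul_one], h0, by rwa [mul_one]⟩

theorem Gd2.pow [ConnectedSpace M] {u : Γ →* Circle} {c : ℕ} (h : Gd2 A u c) (r : ℕ) :
    Gd2 A (u ^ r) (r * c) := by
  induction r with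
  | zero => rw [pow_zero, zero_mul]; exact Gd2.one
  | succ r ih =>
    rw [pow_succ, Nat.succ_mul]
    exact ih.mul h

theorem Gd2.prod [ConnectedSpace M] {ι : Type*} (F : Finset ι) (u : ι → Γ →* Circle) (c : ι → ℕ)
    (h : ∀ i, Gd2 A (u i) (c i)) : Gd2 A (∏ i ∈ F, u i) (∑ i ∈ F, c i) := by
  classical
  induction F using Finset.induction_on with
  | empty => rw [Finset.prod_empty, Finset.sum_empty]; exact Gd2.one
  | insert i F hi ih =>
    rw [Finset.prod_insert hi, Finset.sum_insert hi]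
    exact (h i).mul ih

theorem Gd2.toGd {c : ℕ} (hc : 0 < c) (h : Gd2 A (1 : Γ →* Circle) c) : Gd A (1 : Γ →* Circle) := by
  obtain ⟨m, hm, s, hs, h0, hc'⟩ := h
  refine ⟨m * c, Nat.mul_pos hm hc, s, hs, h0, ?_⟩
  rwa [one_pow] at hc' ⊢

/-! ### the characters -/

variable (T : TorD A Γ)

theorem v_eq (k : Fin (T.P.N + 1)) (S : Unit ⊕ Fin n → Fin (T.P.N + 1)) :
    T.χ k ^ (n + 1) / chS T S = ∏ r, T.χ k / T.χ (S r) := by
  have h : Fintype.card (Unit ⊕ Fin n) = n + 1 := by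
    rw [Fintype.card_sum, Fintype.card_unit, Fintype.card_fin, add_comm]
  rw [Finset.prod_div_distrib, Finset.prod_const, Finset.card_univ, h]
  rfl

theorem v_mem (k : Fin (T.P.N + 1)) (S : Unit ⊕ Fin n → Fin (T.P.N + 1)) :
    T.χ k ^ (n + 1) / chS T S ∈ WW T := by
  rw [v_eq]
  exact Subgroup.prod_mem _ fun r _ => mem_WW T _ _

theorem c_eq (S S' : Unit ⊕ Fin n → Fin (T.P.N + 1)) :
    chS T S / chS T S' = ∏ r, T.χ (S r) / T.χ (S' r) := by
  rw [Finset.prod_div_distrib]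
  rfl

theorem c_mem (S S' : Unit ⊕ Fin n → Fin (T.P.N + 1)) : chS T S / chS T S' ∈ WW T := by
  rw [c_eq]
  exact Subgroup.prod_mem _ fun r _ => mem_WW T _ _

theorem x_prod (x : Additive (WW T) →+ ℝ) {ι : Type*} [Fintype ι] (a b : ι → Fin (T.P.N + 1))
    (w : WW T) (hw : (w : Γ →* Circle) = ∏ r, T.χ (a r) / T.χ (b r)) :
    x (Additive.ofMul w) = ∑ r, (xw T x (a r) - xw T x (b r)) := by
  have h1 : w = ∏ r, (⟨T.χ (a r) / T.χ (b r), mem_WW T _ _⟩ : WW T) := by
    apply Subtype.ext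
    rw [hw, Subgroup.val_finsetProd]
  rw [h1, ofMul_prod, map_sum]
  exact Finset.sum_congr rfl fun r _ => (xw_sub T x _ _).symm

theorem WW_finite : Module.Finite ℤ (Additive (WW T)) := by
  rw [Module.Finite.iff_addGroup_fg]
  have h1 : Group.FG (WW T) := (Group.fg_iff_subgroup_fg _).2 (WW_fg T)
  exact (GroupFG.iff_add_fg).1 h1

theorem WW_tf (w : Additive (WW T)) (m : ℕ) (hm : m ≠ 0) (h : m • w = 0) : w = 0 := by
  have h1 : ((w.toMul : WW T) : Γ →* Circle) ^ m = 1 := by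
    have h2 : (w.toMul : WW T) ^ m = 1 := h
    have := congrArg (Subtype.val) h2
    simpa using this
  have h2 := T.tf _ w.toMul.2 m hm h1
  exact Subtype.ext h2

/-! ### the step -/

/-- pigeonhole on the degree -/
theorem fix_deg {h : HM (aK A)} {v : Γ →* Circle}
    (H : ∀ k0 : ℕ, ∃ k, k0 ≤ k ∧ ∃ q, ∃ w ∈ NV ((aK A) ^ k) h q, w ≠ 0 ∧ SemiV k (v ^ k) w) :
    ∃ q : ℕ, ∀ k0 : ℕ, ∃ k, k0 ≤ k ∧ ∃ w ∈ NV ((aK A) ^ k) h q, w ≠ 0 ∧ SemiV k (v ^ k) w := by
  by_contra hcon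
  push Not at hcon
  choose K hK using hcon
  obtain ⟨k, hk, q, w, hw, hw0, hs⟩ := H (∑ q ∈ Finset.range (n + 1), K q)
  have hq : q ≤ n := by
    by_contra hq
    exact hw0 (HodgeP_578.PV_eq_zero (not_le.1 hq) hw.1)
  have h1 : K q ≤ ∑ q ∈ Finset.range (n + 1), K q :=
    Finset.single_le_sum (f := K) (fun _ _ => Nat.zero_le _) (Finset.mem_range.2 (by omega))
  exact hK q k (h1.trans hk) w hw hw0 hs

/-- **the torus step**, from T8 -/
theorem torMain (h8 : T8Stmt) : TorMain := by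
  intro n M _ _ _ _ A _ hG hPA Γ _ _ _ T hBB
  obtain ⟨PA⟩ := hPA
  classical
  by_contra hcon
  let vv : Fin (T.P.N + 1) × (Unit ⊕ Fin n → Fin (T.P.N + 1)) → WW T :=
    fun p => ⟨T.χ p.1 ^ (n + 1) / chS T p.2, v_mem T p.1 p.2⟩
  let I := {p : Fin (T.P.N + 1) × (Unit ⊕ Fin n → Fin (T.P.N + 1)) // Gd A (vv p : Γ →* Circle)}
  -- there is no relation
  have hrel : ∀ c : I → ℕ, ∑ i, c i • (Additive.ofMul (vv i.1) : Additive (WW T)) = 0 → c = 0 := by
    intro c hc
    by_contra hne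
    apply hcon
    obtain ⟨i0, hi0⟩ := Function.ne_iff.1 hne
    have h1 := Gd2.prod (A := A) Finset.univ (fun i : I => ((vv i.1 : WW T) : Γ →* Circle) ^ c i)
      (fun i => c i * 1) (fun i => (Gd2.of i.2).pow (c i))
    have h2 : ∏ i : I, ((vv i.1 : WW T) : Γ →* Circle) ^ c i = 1 := by
      have h3 : ∏ i : I, (vv i.1) ^ c i = 1 := hc
      have h4 := congrArg (Subtype.val) h3
      rw [Subgroup.val_finsetProd] at h4
      simpa using h4
    rw [h2] at h1
    refine Gd2.toGd ?_ h1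
    have h3 : c i0 * 1 ≤ ∑ i : I, c i * 1 :=
      Finset.single_le_sum (f := fun i => c i * 1) (fun _ _ => Nat.zero_le _) (Finset.mem_univ i0)
    have h4 : 0 < c i0 := Nat.pos_of_ne_zero hi0
    omega
  -- the generic functional
  let G1 : Finset (Additive (WW T)) := Finset.univ.image
    fun p : Fin (T.P.N + 1) × Fin (T.P.N + 1) =>
      (Additive.ofMul ⟨T.χ p.1 / T.χ p.2, mem_WW T p.1 p.2⟩ : Additive (WW T))
  let G2 : Finset (Additive (WW T)) := Finset.univ.image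
    fun p : (Unit ⊕ Fin n → Fin (T.P.N + 1)) × (Unit ⊕ Fin n → Fin (T.P.N + 1)) =>
      (Additive.ofMul ⟨chS T p.1 / chS T p.2, c_mem T p.1 p.2⟩ : Additive (WW T))
  obtain ⟨x, hx1, hx2⟩ := Gordan_106.gordan (WW_finite T) (WW_tf T)
    (fun i : I => (Additive.ofMul (vv i.1) : Additive (WW T))) hrel
    ((G1 ∪ G2).filter fun w => w ≠ 0) (fun w hw => (Finset.mem_filter.1 hw).2)
  have hgen1 : ∀ k l, xw T x k = xw T x l → T.χ k = T.χ l := by
    intro k l hkl
    by_contra hne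
    refine hx2 (Additive.ofMul ⟨T.χ k / T.χ l, mem_WW T k l⟩) (Finset.mem_filter.2 ⟨?_, ?_⟩) ?_
    · exact Finset.mem_union_left _ (Finset.mem_image.2 ⟨(k, l), Finset.mem_univ _, rfl⟩)
    · intro h
      have h1 : T.χ k / T.χ l = 1 := congrArg (fun w : Additive (WW T) => (w.toMul : Γ →* Circle)) h
      exact hne (div_eq_one.1 h1)
    · rw [← xw_sub, hkl, sub_self]
  have hgen2 : ∀ S S' : Unit ⊕ Fin n → Fin (T.P.N + 1),
      ∑ r, xw T x (S r) = ∑ r, xw T x (S' r) → chS T S = chS T S' := by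
    intro S S' hS
    by_contra hne
    refine hx2 (Additive.ofMul ⟨chS T S / chS T S', c_mem T S S'⟩) (Finset.mem_filter.2 ⟨?_, ?_⟩) ?_
    · exact Finset.mem_union_right _ (Finset.mem_image.2 ⟨(S, S'), Finset.mem_univ _, rfl⟩)
    · intro h
      have h1 : chS T S / chS T S' = 1 :=
        congrArg (fun w : Additive (WW T) => (w.toMul : Γ →* Circle)) h
      exact hne (div_eq_one.1 h1)
    · rw [x_prod T x S S' _ (c_eq T S S'), Finset.sum_sub_distrib, hS, sub_self]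
  -- the flow
  obtain ⟨D⟩ := exists_flow T x
  obtain ⟨k0, hk0⟩ := Finite.exists_min (xw T x)
  have hm : ∀ k, xw T x k0 ≤ xw T x k := hk0
  set Q : RF T.P := D.rf hm with hQ
  have hconn : IsConnected Q.T.F := conn_F D hm (k := k0) rfl
  have hcomp : IsCompact Q.T.F := D.isCompact_F hm
  obtain ⟨S⟩ := Q.T.exists_fAtl hcomp hconn
  have hχ : ∀ k l, Q.x k = Q.m → Q.x l = Q.m → T.χ k = T.χ l := by
    intro k l hk hl
    exact hgen1 k l (hk.trans hl.symm)
  obtain ⟨p0, hp0⟩ := hconn.nonempty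
  obtain ⟨i0, hi0⟩ := A.cover p0
  obtain ⟨S0, hS0⟩ := exists_GS_ne T.P hi0
  set vF : Γ →* Circle := T.χ k0 ^ (n + 1) / chS T S0 with hvF
  have hfix : ∀ γ : Γ, ∀ p ∈ Q.T.F, γ • p = p := fun γ p hp => act_fix hχ hp γ
  have hdet : ∀ γ : Γ, ∀ p ∈ Q.T.F, ∀ j, p ∈ (A.e j).source →
      (Ja A γ j j p).det * (vF γ : ℂ) = 1 := by
    intro γ p hp j hj
    obtain ⟨S1, hS1⟩ := exists_GS_ne T.P hj
    have h1 := char_fix hχ hp γ hj hj (k := k0) rfl hS1
    have h2 : chS T S0 = chS T S1 :=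
      hgen2 S0 S1 (wt_const Q hconn.isPreconnected hp0 hp hi0 hj hS0 hS1)
    rw [← h2, J_self j hj, Matrix.det_one] at h1
    exact h1
  have hU : ∀ y v, R T.P y v → (prm Q.x Q.m v ≠ 0 ↔ y ∈ Q.T.U) := fun y v hv =>
    (D.mem_U _ hv).symm
  -- T8 and T8'
  have h1 : ∀ k1 : ℕ, ∃ k, k1 ≤ k ∧ ∃ q, ∃ w ∈ NV ((aK A) ^ k) T.h q, w ≠ 0 ∧
      SemiV k (vF ^ k) w := by
    intro k1
    obtain ⟨k, hk, q, φ, hφ, z, hz, hq, hne⟩ :=
      h8 n M A hG PA Γ T Q (appr D hm) hm hU hcomp hconn S k1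
    exact ⟨k, hk, q, exists_semi Q S PA hfix vF hdet φ hφ hz hq hne⟩
  have h2 : Gd A vF := hBB vF (fix_deg h1)
  -- contradiction
  have h3 : 0 < x (Additive.ofMul (vv (k0, S0))) := hx1 ⟨(k0, S0), h2⟩
  rw [x_prod T x (fun _ : Unit ⊕ Fin n => k0) S0 _ (v_eq T k0 S0)] at h3
  have h4 : ∑ r, (xw T x k0 - xw T x (S0 r)) ≤ 0 :=
    Finset.sum_nonpos fun r _ => sub_nonpos.2 (hm (S0 r))
  exact absurd h3 (not_lt.2 h4)

end

end Crest.Agent.R273.TorAsm_422
end

-- ▼ part R273/Supn_106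
section

/-!
# R273 (S0416), Part B, torus step (helper106): `L²` norms from pointwise bounds

`h : HM (KB A)⁻¹` any volume form, `vm h` its measure (`Vm_333`), `nS P B 0` the `L²` norm of
`L2K_774`.

* `nS_sq_le`        : `nS P B 0 v ^ 2 ≤ C ∫⁻ f dvm` if `∑ₖ ‖v i x k‖² ≤ f x` on `tsupport (χ i)`;
* `cauchy_of_cut`   : `χ_N u` is Cauchy in `L²` if `|u|² ≤ f`, `∫⁻_U f < ∞`, `χ_N → 1` on `U`;
* `tendsto_of_bound`: `nS P B 0 (w N) → 0` from `∑ₖ ‖w N i x k‖² ≤ f N x`, `∫⁻ f N → 0`.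
-/

set_option autoImplicit false
set_option linter.unusedSectionVars false
set_option linter.unusedSimpArgs false
set_option linter.unusedVariables false

open Set Filter Topology Complex MeasureTheory
open scoped ContDiff Matrix ComplexConjugate ENNReal NNReal

namespace Crest.Agent.R273.Supn_106

open Crest.Agent.R275 Crest.Agent.R275.Geo Crest.Agent.R275.Tor812 Crest.Agent.R275.TorS666
  Crest.Agent.R275.C1d194 Crest.Agent.R275.C2812 Crest.Agent.R275.Pai323
  Crest.Agent.R275.Core144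
  Crest.Agent.R273.L2K_774 Crest.Agent.R273.DnInt_505 Crest.Agent.R273.NormC_505
  Crest.Agent.R273.Defs_333 Crest.Agent.R273.HM_333 Crest.Agent.R273.Vm_333

noncomputable section

variable {n : ℕ} {M : Type} [TopologicalSpace M] {A : Atl n M}

section main

variable [MeasurableSpace M] [BorelSpace M] [T2Space M] [CompactSpace M] [Finite A.ι]
  (P : Part A) {B : FBun A} (h : HM (KB A)⁻¹)

/-- the square of the localised section -/
def G (v : Sec B) (i : A.ι) (x : M) : ℝ≥0∞ :=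
  ENNReal.ofReal (∑ k, ‖(P.ψ i x : ℂ) * v.1 i x k‖ ^ 2)

theorem G_off (v : Sec B) {i : A.ι} {x : M} (hx : x ∉ tsupport (P.χ i)) : G P v i x = 0 := by
  have h0 : P.ψ i x = 0 := image_eq_zero_of_notMem_tsupport fun h => hx (tsupport_psi P i h)
  unfold G
  simp [h0]

theorem continuous_G (v : Sec B) (i : A.ι) : Continuous (G P v i) := by
  rw [continuous_iff_continuousAt]
  intro x
  by_cases hx : x ∈ (A.e i).source
  · have h1 : ContinuousOn (fun y => ∑ k, ‖(P.ψ i y : ℂ) * v.1 i y k‖ ^ 2) (A.e i).source := by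
      refine continuousOn_finsetSum _ fun k _ => ContinuousOn.pow (ContinuousOn.norm ?_) 2
      refine ContinuousOn.mul ?_ (continuousOn_of_smAt (v.2.1 i k))
      exact continuous_ofReal.comp_continuousOn (continuousOn_of_smAt (P.ψ_sm i i))
    exact ENNReal.continuous_ofReal.continuousAt.comp
      (h1.continuousAt ((A.e i).open_source.mem_nhds hx))
  · have h2 : ∀ᶠ y in 𝓝 x, G P v i y = 0 := by
      filter_upwards [(isClosed_tsupport (P.χ i)).isOpen_compl.mem_nhds fun h =>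
        hx (P.χ_sub i h)] with y hy
      exact G_off P v hy
    exact (continuousAt_const (y := (0 : ℝ≥0∞))).congr (h2.mono fun y hy => hy.symm)

theorem ofReal_aN (v : Sec B) (i : A.ι) :
    ENNReal.ofReal (aN P v i) = ∫⁻ y in Ui A i, G P v i (sg A i y) := by
  have h1 : ∀ k, nrm 0 (loc A i (P.psi B.κ i) (v.1 i) k) ^ 2 =
      ∫ x, ‖rd A i (fun x => (P.psi B.κ i x *ᵥ v.1 i x) k) x‖ ^ 2 := by
    intro k
    rw [nrm_zero_sq, C1d194.loc_eq ((P.amp_psi B.κ).amp i) (v.2.1 i), l2_perz]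
  have hint : ∀ k, Integrable (fun x : RI n → ℝ =>
      ‖rd A i (fun x => (P.psi B.κ i x *ᵥ v.1 i x) k) x‖ ^ 2) := by
    intro k
    have h3 := amp_isCC ((P.amp_psi B.κ).amp i) (v.2.1 i) k
    have h4 : Continuous (fun x => ‖rd A i (fun x => (P.psi B.κ i x *ᵥ v.1 i x) k) x‖ ^ 2) :=
      (h3.smooth.continuous.norm).pow 2
    refine h4.integrable_of_hasCompactSupport ?_
    exact h3.hasCompactSupport.comp_left (g := fun y : ℂ => ‖y‖ ^ 2) (by simp)
  have h2 : aN P v i = ∫ x, ∑ k, ‖rd A i (fun x => (P.psi B.κ i x *ᵥ v.1 i x) k) x‖ ^ 2 := by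
    unfold aN
    simp only [h1]
    rw [← integral_finsetSum _ fun k _ => hint k]
  rw [h2, ofReal_integral_eq_lintegral_ofReal (integrable_finsetSum _ fun k _ => hint k)
    (Eventually.of_forall fun x => Finset.sum_nonneg fun k _ => sq_nonneg _)]
  have h3 : ∀ x, ENNReal.ofReal (∑ k, ‖rd A i (fun x => (P.psi B.κ i x *ᵥ v.1 i x) k) x‖ ^ 2) =
      (Ui A i).indicator (fun y => G P v i (sg A i y)) x := by
    intro x
    by_cases hx : x ∈ Ui A i
    · rw [indicator_of_mem hx]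
      simp only [C1d194.rd_of_mem hx]
      unfold G sg
      congr 1
      refine Finset.sum_congr rfl fun k _ => ?_
      congr 2
      simp [Part.psi, Matrix.smul_mulVec]
    · rw [indicator_of_notMem hx]
      simp [C1d194.rd_off hx]
  simp only [h3]
  rw [lintegral_indicator (C1d194.isOpen_Ui i).measurableSet]

theorem exists_lower_w (i : A.ι) : ∃ c : ℝ≥0, 0 < c ∧ ∀ x ∈ tsupport (P.χ i),
    (c : ℝ≥0∞) ≤ ENNReal.ofReal (h.w i x) := by
  have hK := P.χ_cpt i
  have hc : ContinuousOn (h.w i) (tsupport (P.χ i)) :=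
    (continuousOn_of_smAt (h.sm i)).mono (P.χ_sub i)
  by_cases hne : (tsupport (P.χ i)).Nonempty
  · obtain ⟨x0, hx0, hmin⟩ := hK.exists_isMinOn hne hc
    have hpos : 0 < h.w i x0 := h.pos i x0 (P.χ_sub i hx0)
    refine ⟨(h.w i x0).toNNReal, Real.toNNReal_pos.2 hpos, fun x hx => ?_⟩
    exact ENNReal.ofReal_le_ofReal (hmin hx)
  · exact ⟨1, one_pos, fun x hx => absurd ⟨x, hx⟩ hne⟩

/-- the local estimate -/
theorem aN_le (i : A.ι) : ∃ C : ℝ≥0, ∀ v : Sec B,
    ENNReal.ofReal (aN P v i) ≤ C * ∫⁻ x, G P v i x ∂(vm h) := by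
  obtain ⟨c, hc0, hc⟩ := exists_lower_w P h i
  refine ⟨c⁻¹, fun v => ?_⟩
  rw [ofReal_aN]
  have h1 : ∀ y ∈ Ui A i, G P v i (sg A i y) ≤ (c⁻¹ : ℝ≥0) * (dn h i y * G P v i (sg A i y)) := by
    intro y hy
    by_cases hx : sg A i y ∈ tsupport (P.χ i)
    · have h2 := hc _ hx
      rw [← mul_assoc]
      refine le_mul_of_one_le_left (zero_le) ?_
      have h3 : (1 : ℝ≥0∞) = ((c⁻¹ : ℝ≥0) : ℝ≥0∞) * (c : ℝ≥0∞) := by
        rw [← ENNReal.coe_mul, inv_mul_cancel₀ hc0.ne', ENNReal.coe_one]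
      rw [h3]
      exact mul_le_mul_right h2 _
    · rw [G_off P v hx]
      exact zero_le
  have hmeas : Measurable (G P v i) := (continuous_G P v i).measurable
  calc ∫⁻ y in Ui A i, G P v i (sg A i y)
      ≤ ∫⁻ y in Ui A i, (c⁻¹ : ℝ≥0) * (dn h i y * G P v i (sg A i y)) :=
        setLIntegral_mono' (C1d194.isOpen_Ui i).measurableSet h1
    _ = (c⁻¹ : ℝ≥0) * ∫⁻ y in Ui A i, dn h i y * G P v i (sg A i y) := by
        rw [lintegral_const_mul' _ _ ENNReal.coe_ne_top]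
    _ = (c⁻¹ : ℝ≥0) * ∫⁻ x in (A.e i).source, G P v i x ∂(vm h) := by
        rw [setLIntegral_vm h i hmeas]
    _ ≤ (c⁻¹ : ℝ≥0) * ∫⁻ x, G P v i x ∂(vm h) :=
        mul_le_mul_right (setLIntegral_le_lintegral _ _) _

theorem exists_upper_psi (i : A.ι) : ∃ C : ℝ, 0 ≤ C ∧ ∀ x, P.ψ i x ^ 2 ≤ C := by
  obtain ⟨C, hC⟩ := (isCompact_univ : IsCompact (univ : Set M)).exists_bound_of_continuousOn
    (continuous_of_sm (P.ψ_sm i)).continuousOn
  refine ⟨C ^ 2, sq_nonneg _, fun x => ?_⟩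
  have := hC x (mem_univ x)
  rw [Real.norm_eq_abs] at this
  rw [← sq_abs]
  exact pow_le_pow_left₀ (abs_nonneg _) this 2

/-- **(1)** the `L²` norm is bounded by the integral of any pointwise bound -/
theorem nS_sq_le : ∃ C : ℝ≥0, ∀ (v : Sec B) (f : M → ℝ≥0∞),
    (∀ i, ∀ x ∈ tsupport (P.χ i), ENNReal.ofReal (∑ k, ‖v.1 i x k‖ ^ 2) ≤ f x) →
    ENNReal.ofReal (nS P B 0 v ^ 2) ≤ C * ∫⁻ x, f x ∂(vm h) := by
  have := Fintype.ofFinite A.ι
  choose C1 h1 using fun i => aN_le (B := B) P h i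
  choose C2 h20 h2 using fun i => exists_upper_psi P i
  set D : ℝ≥0 := (Fintype.card B.κ : ℝ≥0) ^ 2 * (Fintype.card A.ι : ℝ≥0) *
    ∑ i, C1 i * (C2 i).toNNReal with hD
  refine ⟨D, fun v f hf => ?_⟩
  have h3 : ∀ i, ENNReal.ofReal (aN P v i) ≤
      ((C1 i * (C2 i).toNNReal : ℝ≥0) : ℝ≥0∞) * ∫⁻ x, f x ∂(vm h) := by
    intro i
    refine (h1 i v).trans ?_
    rw [ENNReal.coe_mul, mul_assoc]
    refine mul_le_mul_right ?_ _
    rw [← lintegral_const_mul' _ _ ENNReal.coe_ne_top]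
    refine lintegral_mono fun x => ?_
    by_cases hx : x ∈ tsupport (P.χ i)
    · refine le_trans ?_ (mul_le_mul_right (hf i x hx) _)
      unfold G
      rw [← ENNReal.ofReal_coe_nnreal, Real.coe_toNNReal _ (h20 i),
        ← ENNReal.ofReal_mul (h20 i)]
      refine ENNReal.ofReal_le_ofReal ?_
      rw [Finset.mul_sum]
      refine Finset.sum_le_sum fun k _ => ?_
      rw [norm_mul, mul_pow, Complex.norm_real, Real.norm_eq_abs, sq_abs]
      exact mul_le_mul_of_nonneg_right (h2 i x) (sq_nonneg _)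
    · rw [G_off P v hx]
      exact zero_le
  have h4 : nS P B 0 v ^ 2 ≤ (Fintype.card B.κ : ℝ) ^ 2 * (Fintype.card A.ι : ℝ) *
      ∑ i, aN P v i := by
    have h5 := nS_le_aN P v
    have h6 : nS P B 0 v ^ 2 ≤ ((Fintype.card B.κ : ℝ) * ∑ i, Real.sqrt (aN P v i)) ^ 2 :=
      pow_le_pow_left₀ (nS_nonneg P B 0 v) h5 2
    refine h6.trans ?_
    rw [mul_pow, mul_assoc]
    refine mul_le_mul_of_nonneg_left ?_ (sq_nonneg _)
    have h7 := sq_sum_le_card_mul_sum_sq (s := (Finset.univ : Finset A.ι))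
      (f := fun i => Real.sqrt (aN P v i))
    refine h7.trans (le_of_eq ?_)
    rw [Finset.card_univ]
    congr 1
    exact Finset.sum_congr rfl fun i _ => Real.sq_sqrt (aN_nonneg P v i)
  calc ENNReal.ofReal (nS P B 0 v ^ 2)
      ≤ ENNReal.ofReal ((Fintype.card B.κ : ℝ) ^ 2 * (Fintype.card A.ι : ℝ) *
          ∑ i, aN P v i) := ENNReal.ofReal_le_ofReal h4
    _ = ((Fintype.card B.κ : ℝ≥0) ^ 2 * (Fintype.card A.ι : ℝ≥0) : ℝ≥0) *
          ∑ i, ENNReal.ofReal (aN P v i) := by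
        rw [ENNReal.ofReal_mul (by positivity), ENNReal.ofReal_sum_of_nonneg fun i _ =>
          aN_nonneg P v i]
        congr 1
        rw [← ENNReal.ofReal_coe_nnreal]
        congr 1
    _ ≤ ((Fintype.card B.κ : ℝ≥0) ^ 2 * (Fintype.card A.ι : ℝ≥0) : ℝ≥0) *
          ∑ i, (((C1 i * (C2 i).toNNReal : ℝ≥0) : ℝ≥0∞) * ∫⁻ x, f x ∂(vm h)) :=
        mul_le_mul_right (Finset.sum_le_sum fun i _ => h3 i) _
    _ = D * ∫⁻ x, f x ∂(vm h) := by
        rw [← Finset.sum_mul, ← mul_assoc, hD]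
        push_cast
        rfl

/-- **(3)** convergence to zero -/
theorem tendsto_of_bound {w : ℕ → Sec B} {f : ℕ → M → ℝ≥0∞}
    (hf : ∀ N i, ∀ x ∈ tsupport (P.χ i),
      ENNReal.ofReal (∑ k, ‖(w N).1 i x k‖ ^ 2) ≤ f N x)
    (h0 : Tendsto (fun N => ∫⁻ x, f N x ∂(vm h)) atTop (𝓝 0)) :
    Tendsto (fun N => nS P B 0 (w N)) atTop (𝓝 0) := by
  obtain ⟨C, hC⟩ := nS_sq_le (B := B) P h
  have h1 : Tendsto (fun N => (C : ℝ≥0∞) * ∫⁻ x, f N x ∂(vm h)) atTop (𝓝 0) := by
    have := ENNReal.Tendsto.const_mul h0 (a := (C : ℝ≥0∞)) (Or.inr ENNReal.coe_ne_top)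
    rwa [mul_zero] at this
  have h2 : Tendsto (fun N => ENNReal.ofReal (nS P B 0 (w N) ^ 2)) atTop (𝓝 0) :=
    tendsto_of_tendsto_of_tendsto_of_le_of_le tendsto_const_nhds h1 (fun _ => zero_le)
      fun N => hC (w N) (f N) (hf N)
  have h3 : Tendsto (fun N => nS P B 0 (w N) ^ 2) atTop (𝓝 0) := by
    have h4 := (ENNReal.tendsto_toReal (a := 0) ENNReal.zero_ne_top).comp h2
    refine h4.congr fun N => ?_
    simp [ENNReal.toReal_ofReal (sq_nonneg _)]
  have h5 := (Real.continuous_sqrt.tendsto 0).comp h3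
  rw [Real.sqrt_zero] at h5
  refine h5.congr fun N => ?_
  simp [Real.sqrt_sq (nS_nonneg P B 0 (w N))]

/-- **(2)** cut-offs of an `L²` section on an open set are Cauchy -/
theorem cauchy_of_cut {U : Set M} (hU : IsOpen U) {u : A.ι → M → B.κ → ℂ} {f : M → ℝ≥0∞}
    (hfm : Measurable f) (hfU : ∫⁻ x in U, f x ∂(vm h) ≠ ⊤)
    (hu : ∀ i, ∀ x ∈ tsupport (P.χ i), x ∈ U → ENNReal.ofReal (∑ k, ‖u i x k‖ ^ 2) ≤ f x)
    {χ : ℕ → M → ℝ} (hc : ∀ N, Continuous (χ N)) (h0 : ∀ N x, 0 ≤ χ N x) (h1 : ∀ N x, χ N x ≤ 1)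
    (hlim : ∀ x ∈ U, Tendsto (fun N => χ N x) atTop (𝓝 1)) {v : ℕ → Sec B}
    (hv : ∀ N i, ∀ x ∈ (A.e i).source, x ∈ U → (v N).1 i x = (χ N x : ℂ) • u i x)
    (hv0 : ∀ N i, ∀ x ∈ (A.e i).source, x ∉ U → (v N).1 i x = 0) :
    ∀ ε > 0, ∃ N₀, ∀ m ≥ N₀, ∀ k ≥ N₀, nS P B 0 (v m - v k) < ε := by
  intro ε hε
  obtain ⟨C, hC⟩ := nS_sq_le (B := B) P h
  -- dominated convergence
  have hD : Tendsto (fun N => ∫⁻ x in U, ENNReal.ofReal ((1 - χ N x) ^ 2) * f x ∂(vm h)) atTop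
      (𝓝 0) := by
    have h2 := tendsto_lintegral_of_dominated_convergence (μ := (vm h).restrict U)
      (F := fun N x => ENNReal.ofReal ((1 - χ N x) ^ 2) * f x) (f := fun _ => 0) f
      (fun N => ?_) (fun N => ?_) hfU ?_
    · simpa using h2
    · exact ((((continuous_const.sub (hc N)).pow 2).measurable).ennreal_ofReal).mul hfm
    · refine Eventually.of_forall fun x => ?_
      show ENNReal.ofReal ((1 - χ N x) ^ 2) * f x ≤ f x
      have h3 : ENNReal.ofReal ((1 - χ N x) ^ 2) ≤ 1 := by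
        rw [← ENNReal.ofReal_one]
        refine ENNReal.ofReal_le_ofReal ?_
        have := h0 N x
        have := h1 N x
        nlinarith
      calc ENNReal.ofReal ((1 - χ N x) ^ 2) * f x ≤ 1 * f x := mul_le_mul_left h3 _
        _ = f x := one_mul _
    · have hfin : ∀ᵐ x ∂((vm h).restrict U), f x < ⊤ := ae_lt_top hfm hfU
      filter_upwards [hfin, ae_restrict_mem hU.measurableSet] with x hx hxU
      have h3 : Tendsto (fun N => ENNReal.ofReal ((1 - χ N x) ^ 2)) atTop (𝓝 0) := by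
        have h4 : Tendsto (fun N => (1 - χ N x) ^ 2) atTop (𝓝 0) := by
          have h5 := ((tendsto_const_nhds (x := (1 : ℝ))).sub (hlim x hxU)).pow 2
          simpa using h5
        have h6 := ENNReal.tendsto_ofReal h4
        rwa [ENNReal.ofReal_zero] at h6
      have h7 := ENNReal.Tendsto.mul_const h3 (b := f x) (Or.inr hx.ne)
      rwa [zero_mul] at h7
  -- choose `N₀`
  have hδ : ENNReal.ofReal (ε ^ 2) ≠ 0 := by
    rw [Ne, ENNReal.ofReal_eq_zero, not_le]
    positivity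
  have h2 : Tendsto (fun N => 4 * (C : ℝ≥0∞) *
      ∫⁻ x in U, ENNReal.ofReal ((1 - χ N x) ^ 2) * f x ∂(vm h)) atTop (𝓝 0) := by
    have := ENNReal.Tendsto.const_mul hD (a := 4 * (C : ℝ≥0∞))
      (Or.inr (ENNReal.mul_ne_top (by norm_num) ENNReal.coe_ne_top))
    rwa [mul_zero] at this
  obtain ⟨N₀, hN₀⟩ := eventually_atTop.1
    ((tendsto_order.1 h2).2 (ENNReal.ofReal (ε ^ 2)) (pos_iff_ne_zero.2 hδ))
  refine ⟨N₀, fun m hm k hk => ?_⟩
  set g : ℕ → M → ℝ≥0∞ := fun N => U.indicator fun x => ENNReal.ofReal ((1 - χ N x) ^ 2) * f x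
    with hg
  have hgm : ∀ N, Measurable (g N) := fun N =>
    (((((continuous_const.sub (hc N)).pow 2).measurable).ennreal_ofReal).mul hfm).indicator
      hU.measurableSet
  have hgi : ∀ N, ∫⁻ x, g N x ∂(vm h) =
      ∫⁻ x in U, ENNReal.ofReal ((1 - χ N x) ^ 2) * f x ∂(vm h) := fun N =>
    lintegral_indicator hU.measurableSet _
  have h3 : ∀ i, ∀ x ∈ tsupport (P.χ i), ENNReal.ofReal (∑ l, ‖(v m - v k).1 i x l‖ ^ 2) ≤
      2 * (g m x + g k x) := by
    intro i x hx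
    have hxs := P.χ_sub i hx
    by_cases hxU : x ∈ U
    · have e1 : (v m - v k).1 i x = ((χ m x - χ k x : ℝ) : ℂ) • u i x := by
        have : (v m - v k).1 i x = (v m).1 i x - (v k).1 i x := rfl
        rw [this, hv m i x hxs hxU, hv k i x hxs hxU, ← sub_smul]
        push_cast
        rfl
      have e2 : ∑ l, ‖(v m - v k).1 i x l‖ ^ 2 = (χ m x - χ k x) ^ 2 * ∑ l, ‖u i x l‖ ^ 2 := by
        rw [e1, Finset.mul_sum]
        refine Finset.sum_congr rfl fun l _ => ?_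
        rw [Pi.smul_apply, smul_eq_mul, norm_mul, mul_pow, Complex.norm_real, Real.norm_eq_abs,
          sq_abs]
      have e3 : (χ m x - χ k x) ^ 2 ≤ 2 * ((1 - χ m x) ^ 2 + (1 - χ k x) ^ 2) := by
        nlinarith [sq_nonneg ((1 - χ m x) + (1 - χ k x))]
      rw [e2, ENNReal.ofReal_mul (sq_nonneg _)]
      calc ENNReal.ofReal ((χ m x - χ k x) ^ 2) * ENNReal.ofReal (∑ l, ‖u i x l‖ ^ 2)
          ≤ ENNReal.ofReal (2 * ((1 - χ m x) ^ 2 + (1 - χ k x) ^ 2)) * f x :=
            mul_le_mul' (ENNReal.ofReal_le_ofReal e3) (hu i x hx hxU)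
        _ = 2 * (g m x + g k x) := by
            rw [hg]
            simp only [indicator_of_mem hxU]
            rw [ENNReal.ofReal_mul (by norm_num), ENNReal.ofReal_add (sq_nonneg _) (sq_nonneg _),
              ENNReal.ofReal_ofNat, mul_assoc, add_mul]
    · have e1 : (v m - v k).1 i x = 0 := by
        have : (v m - v k).1 i x = (v m).1 i x - (v k).1 i x := rfl
        rw [this, hv0 m i x hxs hxU, hv0 k i x hxs hxU, sub_zero]
      rw [e1]
      simp
  have h4 := hC (v m - v k) _ h3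
  have h5 : ∫⁻ x, 2 * (g m x + g k x) ∂(vm h) =
      2 * (∫⁻ x in U, ENNReal.ofReal ((1 - χ m x) ^ 2) * f x ∂(vm h) +
        ∫⁻ x in U, ENNReal.ofReal ((1 - χ k x) ^ 2) * f x ∂(vm h)) := by
    rw [lintegral_const_mul (f := fun x => g m x + g k x) _ ((hgm m).add (hgm k)),
      lintegral_add_left (hgm m), hgi, hgi]
  rw [h5] at h4
  have h6 : ENNReal.ofReal (nS P B 0 (v m - v k) ^ 2) < ENNReal.ofReal (ε ^ 2) := by
    set a := ∫⁻ x in U, ENNReal.ofReal ((1 - χ m x) ^ 2) * f x ∂(vm h)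
    set b := ∫⁻ x in U, ENNReal.ofReal ((1 - χ k x) ^ 2) * f x ∂(vm h)
    have ha : 4 * (C : ℝ≥0∞) * a < ENNReal.ofReal (ε ^ 2) := hN₀ m hm
    have hb : 4 * (C : ℝ≥0∞) * b < ENNReal.ofReal (ε ^ 2) := hN₀ k hk
    have h7 : (C : ℝ≥0∞) * (2 * (a + b)) ≤ max (4 * (C : ℝ≥0∞) * a) (4 * (C : ℝ≥0∞) * b) := by
      rcases le_total a b with hab | hab
      · refine le_max_of_le_right ?_
        calc (C : ℝ≥0∞) * (2 * (a + b)) ≤ C * (2 * (b + b)) := by gcongr
          _ = 4 * C * b := by ring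
      · refine le_max_of_le_left ?_
        calc (C : ℝ≥0∞) * (2 * (a + b)) ≤ C * (2 * (a + a)) := by gcongr
          _ = 4 * C * a := by ring
    exact (h4.trans h7).trans_lt (max_lt ha hb)
  rw [ENNReal.ofReal_lt_ofReal_iff (by positivity)] at h6
  exact lt_of_pow_lt_pow_left₀ 2 hε.le h6

end main

end

end Crest.Agent.R273.Supn_106
end

-- ▼ part R273/T8B_774
section

/-!
# R273 (S0416), torus step, leaf T8 (helper774), part B : pointwise bounds

* `exists_lower` : continuous families of positive definite matrices on a compact set;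
* `bb_hol`, `lev_HS` : the Levi form of `log ∑ |F_k|²` (`k` of weight `m`) is the pull-back by the
  retraction of the Fubini-Study form of the fixed locus;
* `pw_up` : pointwise bound of `r^* u` and `∂̄χ ∧ r^* u`.
-/

set_option autoImplicit false
set_option linter.unusedSectionVars false

open Set Filter Topology Complex MeasureTheory
open scoped ContDiff Matrix ComplexConjugate ComplexOrder Kronecker

namespace Crest.Agent.R273.T8_774

open Crest.Agent.R275 Crest.Agent.R275.Geo Crest.Agent.R275.Core144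
open Crest.Agent.R273.Defs_333 Crest.Agent.R273.Hess_333 Crest.Agent.R273.HessB_333
open Crest.Agent.R273.HM_333 Crest.Agent.R273.Kah_333 Crest.Agent.R273.FS_333
open Crest.Agent.R273.Map_835 Crest.Agent.R273.PB_835
open Crest.Agent.R273.FPB_155 Crest.Agent.R273.PullF_155 Crest.Agent.R273.GamR_155
open Crest.Agent.R273.Ret_155 Crest.Agent.R273.TorFr_422 Crest.Agent.R273.PFlow_522
open Crest.Agent.R273.LamN127 (BN)
open Crest.Agent.R273.Fock_243
open Crest.Agent.R273.PW_799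
open Crest.Agent.R273.LogA_5 Crest.Agent.R273.LogCut_5

noncomputable section

/-! ### matrices -/

section mat

variable {n : ℕ}

theorem continuous_nq : Continuous (nq : (Fin n → ℂ) → ℝ) := by
  unfold nq
  fun_prop

theorem nq_smul (c : ℂ) (v : Fin n → ℂ) : nq (c • v) = ‖c‖ ^ 2 * nq v := by
  unfold nq
  rw [Finset.mul_sum]
  refine Finset.sum_congr rfl fun k _ => ?_
  rw [Pi.smul_apply, smul_eq_mul, norm_mul, mul_pow]

theorem nq_pos {v : Fin n → ℂ} (hv : v ≠ 0) : 0 < nq v := by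
  obtain ⟨k, hk⟩ := Function.ne_iff.1 hv
  refine lt_of_lt_of_le (by have : v k ≠ 0 := hk
                            positivity : 0 < ‖v k‖ ^ 2) ?_
  exact Finset.single_le_sum (f := fun k => ‖v k‖ ^ 2) (fun k _ => by positivity)
    (Finset.mem_univ k)

/-- a continuous family of positive definite matrices is bounded below on compact sets -/
theorem exists_lower {X : Type*} [TopologicalSpace X] {C : Set X} (hC : IsCompact C)
    {G : X → Matrix (Fin n) (Fin n) ℂ} (hG : ContinuousOn G C) (hp : ∀ x ∈ C, (G x).PosDef) :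
    ∃ δ : ℝ, 0 < δ ∧ ∀ x ∈ C, (G x - (δ : ℂ) • (1 : Matrix (Fin n) (Fin n) ℂ)).PosSemidef := by
  set Sp : Set (Fin n → ℂ) := {v | nq v = 1} with hSp
  have hSpc : IsCompact Sp := by
    refine Metric.isCompact_of_isClosed_isBounded (isClosed_eq continuous_nq continuous_const) ?_
    refine (Metric.isBounded_closedBall (x := (0 : Fin n → ℂ)) (r := 1)).subset fun v hv => ?_
    rw [mem_closedBall_zero_iff, pi_norm_le_iff_of_nonneg zero_le_one]
    intro i
    have h1 : ‖v i‖ ^ 2 ≤ nq v := Finset.single_le_sum (f := fun k => ‖v k‖ ^ 2)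
      (fun k _ => by positivity) (Finset.mem_univ i)
    have h2 : nq v = 1 := hv
    rw [h2] at h1
    nlinarith [norm_nonneg (v i)]
  have hf : ContinuousOn (fun q : X × (Fin n → ℂ) => (star q.2 ⬝ᵥ (G q.1 *ᵥ q.2)).re) (C ×ˢ Sp) := by
    have h1 : ContinuousOn (fun q : X × (Fin n → ℂ) => G q.1) (C ×ˢ Sp) :=
      hG.comp continuousOn_fst fun q hq => hq.1
    have h2 : ∀ i j, ContinuousOn (fun q : X × (Fin n → ℂ) => G q.1 i j) (C ×ˢ Sp) := fun i j =>
      (continuousOn_pi.1 ((continuousOn_pi.1 h1) i)) j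
    refine Complex.continuous_re.comp_continuousOn ?_
    show ContinuousOn (fun q : X × (Fin n → ℂ) => ∑ i, star (q.2 i) * ∑ j, G q.1 i j * q.2 j) _
    refine continuousOn_finsetSum _ fun i _ => ContinuousOn.mul ?_ ?_
    · exact (continuous_star.comp ((continuous_apply i).comp continuous_snd)).continuousOn
    · refine continuousOn_finsetSum _ fun j _ => (h2 i j).mul ?_
      exact ((continuous_apply j).comp continuous_snd).continuousOn
  have hpos : ∀ q ∈ C ×ˢ Sp, 0 < (star q.2 ⬝ᵥ (G q.1 *ᵥ q.2)).re := by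
    rintro ⟨x, v⟩ ⟨hx, hv⟩
    have hv0 : v ≠ 0 := by
      rintro rfl
      have h2 : nq (0 : Fin n → ℂ) = 1 := hv
      simp [nq] at h2
    exact (Complex.lt_def.1 ((hp x hx).dotProduct_mulVec_pos hv0)).1
  obtain ⟨δ, hδ, hδ2⟩ := (hC.prod hSpc).exists_forall_le' hf hpos
  refine ⟨δ, hδ, fun x hx => ?_⟩
  refine Matrix.PosSemidef.of_dotProduct_mulVec_nonneg ?_ fun v => ?_
  · refine (hp x hx).isHermitian.sub ?_
    unfold Matrix.IsHermitian
    rw [Matrix.conjTranspose_smul, Matrix.conjTranspose_one]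
    congr 1
    exact Complex.conj_ofReal δ
  · rw [Matrix.sub_mulVec, Matrix.smul_mulVec, Matrix.one_mulVec, dotProduct_sub,
      dotProduct_smul, star_dot_self, smul_eq_mul, sub_nonneg]
    have him := (Complex.le_def.1 ((hp x hx).posSemidef.dotProduct_mulVec_nonneg v)).2
    rw [Complex.le_def]
    refine ⟨?_, ?_⟩
    · rw [← ofReal_mul, ofReal_re]
      by_cases hv : v = 0
      · subst hv
        simp [nq]
      have hnq := nq_pos hv
      set t : ℝ := (√(nq v))⁻¹ with ht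
      have ht2 : t ^ 2 * nq v = 1 := by
        rw [ht, inv_pow, Real.sq_sqrt hnq.le, inv_mul_cancel₀ hnq.ne']
      have hw : ((t : ℂ) • v) ∈ Sp := by
        show nq ((t : ℂ) • v) = 1
        rw [nq_smul, norm_real, Real.norm_eq_abs, sq_abs, ht2]
      have h3 := hδ2 (x, (t : ℂ) • v) ⟨hx, hw⟩
      have h4 : star ((t : ℂ) • v) ⬝ᵥ (G x *ᵥ ((t : ℂ) • v)) =
          ((t ^ 2 : ℝ) : ℂ) * (star v ⬝ᵥ (G x *ᵥ v)) := by
        rw [Matrix.mulVec_smul, dotProduct_smul, star_smul, smul_dotProduct, smul_eq_mul,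
          smul_eq_mul, RCLike.star_def, conj_ofReal]
        push_cast
        ring
      simp only at h3
      rw [h4, Complex.re_ofReal_mul] at h3
      calc δ * nq v ≤ (t ^ 2 * (star v ⬝ᵥ (G x *ᵥ v)).re) * nq v :=
            mul_le_mul_of_nonneg_right h3 hnq.le
        _ = (star v ⬝ᵥ (G x *ᵥ v)).re := by rw [mul_right_comm, ht2, one_mul]
    · rw [← ofReal_mul, ofReal_im]
      simpa using him

end mat

/-! ### the Levi form of `log ∑ |F_k|²` -/

variable {n : ℕ} {M : Type} [TopologicalSpace M] {A : Atl n M} {P : ProjD A} (Q : RF P)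

/-- the indices of weight `m` -/
def Sx : Finset (Fin (P.N + 1)) := by
  classical exact Finset.univ.filter fun k => Q.x k = Q.m

theorem mem_Sx {k : Fin (P.N + 1)} : k ∈ Sx Q ↔ Q.x k = Q.m := by
  classical
  unfold Sx
  simp

theorem sum_Sx (v : Fin (P.N + 1) → ℂ) : ∑ k ∈ Sx Q, ‖v k‖ ^ 2 = ∑ k, ‖prm Q.x Q.m v k‖ ^ 2 := by
  classical
  unfold Sx prm
  rw [Finset.sum_filter]
  refine Finset.sum_congr rfl fun k _ => ?_
  split_ifs <;> simp

/-- the comparison factor is holomorphic -/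
theorem bb_hol (i j : A.ι) :
    HolAt A i (Q.T.U ∩ Q.T.r ⁻¹' (A.e j).source) (bb Q i j) := by
  refine holAt_of_local fun y hy hyU => ?_
  obtain ⟨k, hk⟩ : ∃ k, P.F j (Q.T.r y) k ≠ 0 := Function.ne_iff.1 (P.ne j _ hyU.2)
  set V0 : Set M := {q | q ∈ (A.e j).source ∧ P.F j q k ≠ 0} with hV0
  have hV0o : IsOpen V0 := by
    rw [isOpen_iff_mem_nhds]
    rintro q ⟨h1, h3⟩
    have hc : ContinuousAt (fun q => P.F j q k) q :=
      (continuous_apply k).continuousAt.comp (continuousAt_F h1)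
    filter_upwards [(A.e j).open_source.mem_nhds h1, hc.eventually_ne h3] with q' a1 a3
    exact ⟨a1, a3⟩
  set V : Set M := Q.T.U ∩ Q.T.r ⁻¹' V0 with hV
  have hVo : IsOpen V := Q.T.isOpen_pre hV0o
  refine ⟨V, hVo, ⟨hyU.1, hyU.2, hk⟩, ?_⟩
  have hpull : ∀ f : M → ℂ, HolAt A j univ f → HolAt A i V (fun y => f (Q.T.r y)) := by
    intro f hf
    have h1 : DifferentiableOn ℂ (fun z => f ((A.e j).symm (A.e j (Q.T.r ((A.e i).symm z)))))
        ((A.e i).target ∩ (A.e i).symm ⁻¹' V) := by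
      refine DifferentiableOn.comp (t := (A.e j).target ∩ (A.e j).symm ⁻¹' univ)
        (g := fun z => f ((A.e j).symm z)) hf ((Q.T.hol i j).mono ?_) ?_
      · rintro z ⟨h1, h2⟩
        exact ⟨h1, h2.1, h2.2.1⟩
      · rintro z ⟨_, h2⟩
        exact ⟨(A.e j).map_source h2.2.1, mem_univ _⟩
    refine DifferentiableOn.congr h1 fun z hz => ?_
    show f (Q.T.r ((A.e i).symm z)) = _
    rw [(A.e j).left_inv hz.2.2.1]
  have hkx : Q.x k = Q.m := by
    by_contra hne
    have := congrFun (bb_spec Q hyU.1 hy hyU.2).2 k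
    simp only [prm, if_neg hne, Pi.smul_apply, smul_eq_mul] at this
    exact (mul_ne_zero (bb_spec Q hyU.1 hy hyU.2).1 hk) this.symm
  have h1 : HolAt A i V (fun y => P.F i y k * (P.F j (Q.T.r y) k)⁻¹) :=
    HolAt.mul ((P.hol i k).mono (subset_univ _))
      ((hpull _ (P.hol j k)).inv fun x _ hx => hx.2.2)
  refine h1.congr fun x hx hxV => ?_
  have h2 := congrFun (bb_spec Q hxV.1 hx hxV.2.1).2 k
  simp only [prm, if_pos hkx, Pi.smul_apply, smul_eq_mul] at h2
  rw [h2, mul_assoc, mul_inv_cancel₀ hxV.2.2, mul_one]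

variable (S : FAtl Q.T)

open FAtl in
/-- `|F_i(y)|²_S = |b|² |F_j(r y)|²` -/
theorem tsq_rho (p : Q.T.F) {i : A.ι} {j : S.B.ι} {x : M} (hx : x ∈ (A.e i).source)
    (hU : x ∈ Q.T.U) (hj : rho Q.T p x ∈ (S.B.e j).source) :
    tsq P (Sx Q) i x = ‖bb Q i (S.refV.r j) x‖ ^ 2 *
      ∑ k, ‖(S.projD P).F j (rho Q.T p x) k‖ ^ 2 := by
  have hl : Q.T.r x ∈ (A.e (S.refV.r j)).source := by
    have := S.refV.sub j _ hj
    rwa [rho_val p hU] at this
  have h1 := bb_spec Q hU hx hl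
  unfold tsq
  rw [sum_Sx, h1.2, Finset.mul_sum]
  refine Finset.sum_congr rfl fun k _ => ?_
  rw [Pi.smul_apply, smul_eq_mul, norm_mul, mul_pow]
  congr 2
  show _ = ‖P.F (S.refV.r j) (rho Q.T p x) k‖
  rw [rho_val p hU]

open FAtl in
theorem lev_HS (p : Q.T.F) {i : A.ι} {j : S.B.ι} {x : M} (hx : x ∈ (A.e i).source)
    (hU : x ∈ Q.T.U) (hj : rho Q.T p x ∈ (S.B.e j).source) (v : Cn n) :
    lev (fun z => Real.log (tsq P (Sx Q) i ((A.e i).symm z))) (A.e i x) v =
      lev ((fs (S.projD P)).wt j) (S.B.e j (rho Q.T p x))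
        (fderiv ℂ (rd A S.B (rho Q.T p) i j) (A.e i x) v) := by
  set z := A.e i x with hzx
  have hp := S.holOn_rho p
  have hz : z ∈ dmU A S.B Q.T.U (rho Q.T p) i j := mem_dmU hx hU hj
  have hval : rd A S.B (rho Q.T p) i j z = S.B.e j (rho Q.T p x) := by
    simp only [Map_835.rd]
    rw [hzx, (A.e i).left_inv hx]
  have hsx : (A.e i).symm z = x := (A.e i).left_inv hx
  have hmU : ∀ y, y ∈ Q.T.U → rho Q.T p y ∈ (S.B.e j).source →
      Q.T.r y ∈ (A.e (S.refV.r j)).source := by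
    intro y hy hy2
    have := S.refV.sub j _ hy2
    rwa [rho_val p hy] at this
  have h1 : bb Q i (S.refV.r j) x ≠ 0 := (bb_spec Q hU hx (hmU x hU hj)).1
  -- holomorphy of the factor
  have ho : IsOpen (Q.T.U ∩ Q.T.r ⁻¹' (A.e (S.refV.r j)).source) :=
    Q.T.isOpen_pre (A.e (S.refV.r j)).open_source
  have hc : AnalyticAt ℂ (fun y => bb Q i (S.refV.r j) ((A.e i).symm y)) z := by
    refine Crest.Agent.R266.SCV.analyticOnNhd_of_differentiableOn
      ((A.e i).isOpen_inter_preimage_symm ho) (bb_hol Q i (S.refV.r j)) z ?_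
    refine ⟨(A.e i).map_source hx, ?_⟩
    rw [mem_preimage, hsx]
    exact ⟨hU, hmU x hU hj⟩
  have hrd : AnalyticAt ℂ (rd A S.B (rho Q.T p) i j) z :=
    Crest.Agent.R266.SCV.analyticOnNhd_of_differentiableOn (hp.isOpen_dm i j) (hp.hol i j) z hz
  have hu : ContDiffAt ℝ 2 ((fs (S.projD P)).wt j) (rd A S.B (rho Q.T p) i j z) := by
    rw [hval]
    exact ((HM_333.wt_smooth (fs (S.projD P)) j).contDiffAt
      ((S.B.e j).open_target.mem_nhds ((S.B.e j).map_source hj))).of_le (by norm_cast)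
  have hcomp : ContDiffAt ℝ 2 (fun y => (fs (S.projD P)).wt j (rd A S.B (rho Q.T p) i j y)) z :=
    hu.comp z (hrd.contDiffAt.restrict_scalars ℝ)
  have he : (fun z => Real.log (tsq P (Sx Q) i ((A.e i).symm z))) =ᶠ[𝓝 z]
      fun y => (fs (S.projD P)).wt j (rd A S.B (rho Q.T p) i j y) +
        Real.log (‖bb Q i (S.refV.r j) ((A.e i).symm y)‖ ^ 2) := by
    filter_upwards [(hp.isOpen_dm i j).mem_nhds hz] with y hy
    have hys := (A.e i).map_target hy.1
    have hyU : (A.e i).symm y ∈ Q.T.U := hy.2.1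
    have hyj : rho Q.T p ((A.e i).symm y) ∈ (S.B.e j).source := hy.2.2
    rw [tsq_rho Q S p hys hyU hyj]
    have h2 := (bb_spec Q hyU hys (hmU _ hyU hyj)).1
    have h3 : 0 < ∑ k, ‖(S.projD P).F j (rho Q.T p ((A.e i).symm y)) k‖ ^ 2 := by
      have := sq_pos (n := 0) (F := fun _ => (S.projD P).F j (rho Q.T p ((A.e i).symm y)))
        (z := 0) ((S.projD P).ne j _ hyj)
      exact this
    rw [Real.log_mul (by positivity) h3.ne', add_comm]
    congr 1
    simp only [HM.wt, fs, Real.log_inv, neg_neg, Map_835.rd]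
    rw [(S.B.e j).left_inv hyj]
  have h1' : (fun y => bb Q i (S.refV.r j) ((A.e i).symm y)) z ≠ 0 := by
    show bb Q i (S.refV.r j) ((A.e i).symm z) ≠ 0
    rw [hsx]; exact h1
  rw [lev_congr' he, lev_bridge, Levi_145.lev_add hcomp
    (Levi_145.c2_log_normSq hc h1' 2), Levi_145.lev_log_normSq hc h1', add_zero,
    Levi_145.lev_comp hrd hu, ← lev_bridge, hval]

theorem U_sub_US : Q.T.U ⊆ US P (Sx Q) := by
  intro x hU
  obtain ⟨i, hi⟩ := A.cover x
  obtain ⟨j, hj⟩ := A.cover (Q.T.r x)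
  have h1 := bb_spec Q hU hi hj
  obtain ⟨k, hk⟩ : ∃ k, P.F j (Q.T.r x) k ≠ 0 := Function.ne_iff.1 (P.ne j _ hj)
  have h2 := congrFun h1.2 k
  have h3 : (bb Q i j x • P.F j (Q.T.r x)) k ≠ 0 := mul_ne_zero h1.1 hk
  rw [← h2] at h3
  simp only [prm] at h3
  split_ifs at h3 with h4
  · exact (mem_US_iff P (Sx Q) hi).2 ⟨k, (mem_Sx Q).2 h4, h3⟩
  · exact absurd rfl h3

open FAtl in
/-- the Hermitian form of the Hessian is the pull-back form -/
theorem dot_HS (p : Q.T.F) {i : A.ι} {j : S.B.ι} {x : M} (hx : x ∈ (A.e i).source)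
    (hU : x ∈ Q.T.U) (hj : rho Q.T p x ∈ (S.B.e j).source) (w : Fin n → ℂ) :
    star w ⬝ᵥ (HS P (Sx Q) i x *ᵥ w) =
      star ((Jp A S.B (rho Q.T p) i j x).map conj *ᵥ w) ⬝ᵥ
        ((fsKah (S.projD P)).g j (rho Q.T p x) *ᵥ ((Jp A S.B (rho Q.T p) i j x).map conj *ᵥ w)) := by
  have e1 : (Jp A S.B (rho Q.T p) i j x).map conj *ᵥ w = fun b =>
      conj ((fderiv ℂ (rd A S.B (rho Q.T p) i j) (A.e i x)
        (WithLp.toLp 2 (fun a => conj (w a)))) b) := by
    funext b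
    rw [mt_apply, map_sum]
    show ∑ a, conj (Jp A S.B (rho Q.T p) i j x b a) * w a = _
    refine Finset.sum_congr rfl fun a _ => ?_
    rw [map_mul, ← Jp_eq]
    simp
  have e2 : (fsKah (S.projD P)).g j (rho Q.T p x) =
      hess ((fs (S.projD P)).wt j) (S.B.e j (rho Q.T p x)) := rfl
  have hus := U_sub_US Q hU
  have e3 : star w ⬝ᵥ (HS P (Sx Q) i x *ᵥ w) = _ := hq_eq_dot _ (A.e i x) w
  rw [e3, hq_real (logt_contDiffAt P (Sx Q) hx hus), lev_HS Q S p hx hU hj,
    ← hq_real (wt_contDiffAt (fs (S.projD P)) j ((S.B.e j).map_source hj)), e2, hq_eq_dot, e1]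
  congr 1
  ext b
  simp

variable [T2Space M] [CompactSpace M] [MeasurableSpace M] [BorelSpace M] [Finite A.ι]

open FAtl in
theorem psd_HS (K : Kah A) (p : Q.T.F) {i : A.ι} {j : S.B.ι} {x : M}
    (hx : x ∈ (A.e i).source) (hU : x ∈ Q.T.U) (hj : rho Q.T p x ∈ (S.B.e j).source) {C : ℝ} (hC : 0 < C)
    (hF : ((C : ℂ) • (fsKah (S.projD P)).g j (rho Q.T p x) -
      (1 : Matrix (Fin S.d) (Fin S.d) ℂ)).PosSemidef) :
    ((C : ℂ) • KH P (Sx Q) K i x - (Jp A S.B (rho Q.T p) i j x)ᵀ *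
      (Jp A S.B (rho Q.T p) i j x).map conj).PosSemidef := by
  set J := Jp A S.B (rho Q.T p) i j x with hJ
  have hus := U_sub_US Q hU
  have hCh : ∀ {H : Matrix (Fin n) (Fin n) ℂ}, H.IsHermitian → ((C : ℂ) • H).IsHermitian := by
    intro H hH
    unfold Matrix.IsHermitian
    rw [Matrix.conjTranspose_smul, hH.eq]
    congr 1
    exact Complex.conj_ofReal C
  refine Matrix.PosSemidef.of_dotProduct_mulVec_nonneg ?_ fun w => ?_
  · refine (hCh (KH_pos P (Sx Q) K hx hus).isHermitian).sub ?_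
    unfold Matrix.IsHermitian
    rw [Matrix.conjTranspose_mul]
    congr 1
    · ext a b
      simp
  · have h1 := dot_HS Q S p hx hU hj w
    rw [← hJ] at h1
    have h2 := hF.dotProduct_mulVec_nonneg (J.map conj *ᵥ w)
    rw [Matrix.sub_mulVec, Matrix.smul_mulVec, Matrix.one_mulVec, dotProduct_sub,
      dotProduct_smul, smul_eq_mul, ← h1] at h2
    have h3 := (K.pos i x hx).posSemidef.dotProduct_mulVec_nonneg w
    have h4 : star w ⬝ᵥ ((Jᵀ * J.map conj) *ᵥ w) = star (J.map conj *ᵥ w) ⬝ᵥ (J.map conj *ᵥ w) := by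
      rw [Matrix.star_mulVec, ← Matrix.dotProduct_mulVec, Matrix.mulVec_mulVec]
      congr 3
      ext a b
      simp
    unfold KH
    rw [Matrix.sub_mulVec, Matrix.smul_mulVec, Matrix.add_mulVec, dotProduct_sub,
      dotProduct_smul, dotProduct_add, smul_eq_mul, h4, mul_add, add_sub_assoc]
    refine add_nonneg (mul_nonneg ?_ h3) h2
    exact_mod_cast hC.le

/-- sum over the indices of `BN` -/
theorem sum_unit {N : ℕ} (f : FI N × Unit → ℝ) : ∑ l, f l = ∑ l, f (l, ()) := by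
  rw [Fintype.sum_prod_type]
  simp

theorem kU_mulVec {r s : ℕ} (X : Matrix (FI r) (FI s) ℂ) (c : ℂ) (v : FI s × Unit → ℂ)
    (l : FI r × Unit) :
    ((X ⊗ₖ cU c : Matrix (FI r × Unit) (FI s × Unit) ℂ) *ᵥ v) l =
      c * (X *ᵥ fun t => v (t, ())) l.1 := by
  simp only [Matrix.mulVec, dotProduct]
  rw [Fintype.sum_prod_type, Finset.mul_sum]
  refine Finset.sum_congr rfl fun t _ => ?_
  simp only [Finset.univ_unique, Finset.sum_singleton, Matrix.kroneckerMap_apply, cU,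
    Matrix.of_apply]
  show X l.1 t * c * v (t, ()) = _
  ring

open FAtl in
/-- **pointwise bounds** -/
theorem pw_up {L : LB A} (E : Eps Q.T L) (K : Kah A) (p : Q.T.F) {i : A.ι} {j : S.B.ι} {x : M}
    (hx : x ∈ (A.e i).source) (hU : x ∈ Q.T.U) (hj : rho Q.T p x ∈ (S.B.e j).source)
    {δ C W : ℝ} (hδ : 0 < δ) (hC : 0 < C)
    (hK : (K.g i x - (δ : ℂ) • (1 : Matrix (Fin n) (Fin n) ℂ)).PosSemidef)
    (hF : ((C : ℂ) • (fsKah (S.projD P)).g j (rho Q.T p x) -
      (1 : Matrix (Fin S.d) (Fin S.d) ℂ)).PosSemidef)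
    (hW : ‖E.e i (S.refV.r j) x‖ ^ 2 ≤ W) (k : ℕ) (u : Sec (BN (S.res L ^ k))) :
    ∑ l, ‖S.up E p k u i x l‖ ^ 2 ≤ W ^ k * (cPW n S.d δ C * (KH P (Sx Q) K i x).det.re *
        ∑ l, ‖u.1 j (rho Q.T p x) l‖ ^ 2) ∧
    ∀ a : Fin n → ℂ, ∑ l, ‖(∑ b, a b • ((BN (L ^ k)).e b *ᵥ S.up E p k u i x)) l‖ ^ 2 ≤
      W ^ k * (cPW n S.d δ C * (∑ r, ∑ s, (KH P (Sx Q) K i x).adjugate s r * conj (a r) * a s).re *
        ∑ l, ‖u.1 j (rho Q.T p x) l‖ ^ 2) := by
  set J := Jp A S.B (rho Q.T p) i j x with hJ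
  set v : FI S.d → ℂ := fun t => u.1 j (rho Q.T p x) (t, ()) with hv
  set c : ℂ := E.e i (S.refV.r j) x ^ k with hc
  have hnv : ∑ l, ‖u.1 j (rho Q.T p x) l‖ ^ 2 = nq v :=
    sum_unit (fun l => ‖u.1 j (rho Q.T p x) l‖ ^ 2)
  have hcW : ‖c‖ ^ 2 ≤ W ^ k := by
    rw [hc, norm_pow, ← pow_mul, mul_comm k 2, pow_mul]
    exact pow_le_pow_left₀ (by positivity) hW k
  -- the formula for `r^* u`
  have hup : ∀ l : FI n × Unit, S.up E p k u i x l =
      c * (GamR (Jpb A S.B (rho Q.T p) i j x) *ᵥ v) l.1 := by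
    intro l
    rw [S.up_eq E p k u hx hU hj]
    exact kU_mulVec (GamR (Jpb A S.B (rho Q.T p) i j x)) c (u.1 j (rho Q.T p x)) l
  have hJb : Jpb A S.B (rho Q.T p) i j x = Jᴴ := rfl
  rw [hJb] at hup
  have hG : (KH P (Sx Q) K i x - (δ : ℂ) • (1 : Matrix (Fin n) (Fin n) ℂ)).PosSemidef := by
    unfold KH
    rw [add_sub_right_comm]
    exact hK.add (HS_psd P (Sx Q) hx (U_sub_US Q hU))
  have hΓ : ∀ X : Matrix (Fin n) (Fin n) ℂ, (GamR Jᴴ)ᴴ * Gam X * GamR Jᴴ = Gam (J * X * Jᴴ) := by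
    intro X
    have h1 : (GamR Jᴴ)ᴴ = GamR J := by
      have h2 : (GamR Jᴴ)ᴴ = ((GamR Jᴴ)ᵀ).map (starRingEnd ℂ) := rfl
      rw [h2, GamR_transpose, GamR_map]
      congr 1
      ext a b
      simp
    rw [h1, ← GamR_eq_Gam, ← GamR_eq_Gam, GamR_mul, GamR_mul]
  obtain ⟨p1, p2⟩ := pw_of hδ hC hG (psd_HS Q S K p hx hU hj hC hF) hΓ v
  have hW0 : 0 ≤ W ^ k := le_trans (by positivity) hcW
  rw [hnv]
  refine ⟨?_, fun a => ?_⟩
  · have h1 : ∑ l, ‖S.up E p k u i x l‖ ^ 2 = ‖c‖ ^ 2 * nq (GamR Jᴴ *ᵥ v) := by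
      have h2 : ∑ l, ‖S.up E p k u i x l‖ ^ 2 = ∑ l : FI n, ‖S.up E p k u i x (l, ())‖ ^ 2 :=
        sum_unit (fun l => ‖S.up E p k u i x l‖ ^ 2)
      rw [h2]
      unfold nq
      rw [Finset.mul_sum]
      refine Finset.sum_congr rfl fun l _ => ?_
      rw [hup, norm_mul, mul_pow]
    rw [h1]
    exact mul_le_mul hcW p1 (nq_nonneg _) hW0
  · have hX : ∀ l : FI n × Unit, (∑ b, a b • ((BN (L ^ k)).e b *ᵥ S.up E p k u i x)) l =
        c * (eW a *ᵥ (GamR Jᴴ *ᵥ v)) l.1 := by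
      intro l
      have h3 : ∀ b, ((BN (L ^ k)).e b *ᵥ S.up E p k u i x) l =
          c * ((eW (ep b) : Matrix (FI n) (FI n) ℂ) *ᵥ (GamR Jᴴ *ᵥ v)) l.1 := by
        intro b
        set w : FI n × Unit → ℂ := fun l => c * (GamR Jᴴ *ᵥ v) l.1 with hw
        have hw' : (S.up E p k u i x : FI n × Unit → ℂ) = w := funext hup
        have h4 : ((BN (L ^ k)).e b *ᵥ S.up E p k u i x) l =
            ((eW (ep b) ⊗ₖ cU 1 : Matrix (FI n × Unit) (FI n × Unit) ℂ) *ᵥ w) l := by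
          rw [cU_one, ← hw']
          rfl
        have h5 : (fun t => w (t, ())) = c • (GamR Jᴴ *ᵥ v) := rfl
        rw [h4, kU_mulVec, one_mul, h5, Matrix.mulVec_smul]
        rfl
      rw [Finset.sum_apply]
      simp only [Pi.smul_apply, smul_eq_mul, h3]
      rw [eW_eq_sum, Matrix.sum_mulVec, Finset.sum_apply, Finset.mul_sum]
      refine Finset.sum_congr rfl fun b _ => ?_
      rw [Matrix.smul_mulVec, Pi.smul_apply, smul_eq_mul]
      ring
    have h1 : ∑ l, ‖(∑ b, a b • ((BN (L ^ k)).e b *ᵥ S.up E p k u i x)) l‖ ^ 2 =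
        ‖c‖ ^ 2 * nq (eW a *ᵥ (GamR Jᴴ *ᵥ v)) := by
      have h2 : ∑ l, ‖(∑ b, a b • ((BN (L ^ k)).e b *ᵥ S.up E p k u i x)) l‖ ^ 2 =
          ∑ l : FI n, ‖(∑ b, a b • ((BN (L ^ k)).e b *ᵥ S.up E p k u i x)) (l, ())‖ ^ 2 :=
        sum_unit (fun l => ‖(∑ b, a b • ((BN (L ^ k)).e b *ᵥ S.up E p k u i x)) l‖ ^ 2)
      rw [h2]
      unfold nq
      rw [Finset.mul_sum]
      refine Finset.sum_congr rfl fun l _ => ?_
      rw [hX, norm_mul, mul_pow]
    rw [h1]
    exact mul_le_mul hcW (p2 a) (nq_nonneg _) hW0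

end

end Crest.Agent.R273.T8_774
end

-- ▼ part R273/T8C_774
section

/-!
# R273 (S0416), torus step, leaf T8 (helper774), part C : from the fixed locus to `M`

* `rst` : restriction of forms to the fixed locus as a `Rst`;
* `exists_pw` : uniform pointwise bounds;
* `lift_closed` : for `u` closed of degree `q` on the fixed locus and `w` closed with
  `⟨u, w⟩ = 1`, there is a closed `z` of degree `q` on `M` with `⟨z|_F, w⟩ = 1`.
-/

set_option autoImplicit false
set_option linter.unusedSectionVars false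

open Set Filter Topology Complex MeasureTheory
open scoped ContDiff Matrix ComplexConjugate ComplexOrder Kronecker ENNReal

namespace Crest.Agent.R273.T8_774

open Crest.Agent.R275 Crest.Agent.R275.Geo Crest.Agent.R275.Core144
open Crest.Agent.R273.Defs_333 Crest.Agent.R273.Hess_333 Crest.Agent.R273.HessB_333
open Crest.Agent.R273.HM_333 Crest.Agent.R273.Kah_333 Crest.Agent.R273.FS_333
open Crest.Agent.R273.Vol_333 Crest.Agent.R273.Vm_333
open Crest.Agent.R273.Map_835 Crest.Agent.R273.PB_835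
open Crest.Agent.R273.FPB_155 Crest.Agent.R273.PullF_155 Crest.Agent.R273.GamR_155
open Crest.Agent.R273.Ret_155 Crest.Agent.R273.TorFr_422 Crest.Agent.R273.PFlow_522
open Crest.Agent.R273.LamN127 (BN DN)
open Crest.Agent.R273.Fock_243
open Crest.Agent.R273.PW_799
open Crest.Agent.R273.GreenM_5 Crest.Agent.R273.GreenG_5
open Crest.Agent.R273.LogA_5 Crest.Agent.R273.LogCut_5
open Crest.Agent.R273.L2K_774

noncomputable section

variable {n : ℕ} {M : Type} [TopologicalSpace M] {A : Atl n M} {P : ProjD A}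

theorem db_const' (i : A.ι) (a : Fin n) (c : ℂ) (x : M) : A.db i a (fun _ => c) x = 0 :=
  dbj_const c _ a

theorem pqL_iff {B : FBun A} {q : ℕ} {u : Sec B} : Geo.pqL B q u = u ↔ IsDeg B q u.1 := by
  constructor
  · intro h i x k hk
    by_contra hne
    apply hk
    have h1 : (Geo.pqL B q u).1 i x k = 0 := by
      rw [pqL_coe, pq_apply, if_neg hne]
    rw [← h1, h]
  · intro h
    apply Subtype.ext
    funext i x k
    rw [pqL_coe, pq_apply]
    split_ifs with h1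
    · rfl
    · by_contra hne
      exact h1 (h i x k fun h0 => hne h0.symm)

/-- restriction of forms to the fixed locus -/
def rst {R : HRet A} (S : FAtl R) (L : LB A) (k : ℕ) :
    Rst (BN (L ^ k)) (BN (S.res L ^ k)) (Subtype.val : R.F → M) where
  cont := continuous_subtype_val
  m := (S.rsT L k).T
  m_cont i j a b := by
    have h1 : ContinuousOn (fun z => (S.rsT L k).T i j ((S.B.e i).symm z) a b)
        (dmU S.B A univ (Subtype.val : R.F → M) i j) := ((S.rsT L k).sm i j a b).continuousOn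
    have h2 : ContinuousOn (fun y => (S.rsT L k).T i j ((S.B.e i).symm (S.B.e i y)) a b)
        ((S.B.e i).source ∩ Subtype.val ⁻¹' (A.e j).source) := by
      refine h1.comp ((S.B.e i).continuousOn.mono inter_subset_left) ?_
      rintro y ⟨hy, hy2⟩
      exact mem_dmU hy (mem_univ _) hy2
    refine h2.congr fun y hy => ?_
    simp only [(S.B.e i).left_inv hy.1]
  res := S.rs L k
  val u i j y hy hj := S.rs_eq k u hy hj
  nab u := S.rs_nab k u

variable (Q : RF P) (S : FAtl Q.T)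
variable [T2Space M] [CompactSpace M] [MeasurableSpace M] [BorelSpace M] [Finite A.ι]

theorem bdd_on {X : Type*} [TopologicalSpace X] {C : Set X} (hC : IsCompact C) {f : X → ℝ}
    (hf : ContinuousOn f C) : ∃ c, 0 ≤ c ∧ ∀ x ∈ C, f x ≤ c := by
  obtain ⟨c, hc⟩ := hC.bddAbove_image hf
  exact ⟨max c 0, le_max_right _ _, fun x hx => (hc ⟨x, hx, rfl⟩).trans (le_max_left _ _)⟩

theorem pos_on {X : Type*} [TopologicalSpace X] {C : Set X} (hC : IsCompact C) {f : X → ℝ}
    (hf : ContinuousOn f C) (h : ∀ x ∈ C, 0 < f x) : ∃ c, 0 < c ∧ ∀ x ∈ C, c ≤ f x :=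
  hC.exists_forall_le' hf h

theorem cont_of_smAt' {m : ℕ} {N : Type} [TopologicalSpace N] {B : Atl m N} {W : Type*}
    [NormedAddCommGroup W] [NormedSpace ℝ W] {i : B.ι} {f : N → W} (h : B.SmAt i f) :
    ContinuousOn f (B.e i).source := by
  have h1 : ContinuousOn (fun x => f ((B.e i).symm (B.e i x))) (B.e i).source :=
    ContDiffOn.continuousOn h |>.comp (B.e i).continuousOn (B.e i).mapsTo
  refine h1.congr fun x hx => ?_
  simp only [(B.e i).left_inv hx]

theorem cont_w {m : ℕ} {N : Type} [TopologicalSpace N] {B : Atl m N} {L : LB B} (h : HM L)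
    (i : B.ι) : ContinuousOn (h.w i) (B.e i).source := cont_of_smAt' (h.sm i)

theorem cont_g {m : ℕ} {N : Type} [TopologicalSpace N] {B : Atl m N} (K : Kah B) (i : B.ι) :
    ContinuousOn (K.g i) (B.e i).source :=
  continuousOn_pi.2 fun a => continuousOn_pi.2 fun b => cont_of_smAt' (K.sm i a b)

theorem re_split {K : Kah A} {i : A.ι} {x : M} (hx : x ∈ (A.e i).source) {a f : ℂ}
    (h : f = a / (K.g i x).det) : a.re = f.re * (K.g i x).det.re := by
  have h1 := K.pos i x hx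
  have h2 : (K.g i x).det.im = 0 := ((Complex.lt_def.1 h1.det_pos).2).symm
  have h3 : a = f * (K.g i x).det := by
    rw [h, div_mul_cancel₀ _ h1.det_pos.ne']
  conv_lhs => rw [h3]
  rw [Complex.mul_re, h2, mul_zero, sub_zero]

open FAtl in
/-- **uniform pointwise bounds** -/
theorem exists_pw [Finite S.B.ι] (K : Kah A) (Pt : Part A) (PtF : Part S.B) {L : LB A}
    (E : Eps Q.T L) (h : HM L)
    (hE : ∀ i j x, x ∈ (A.e i).source → x ∈ Q.T.U → Q.T.r x ∈ (A.e j).source →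
      ‖E.e i j x‖ ^ 2 * h.w i x ≤ h.w j (Q.T.r x))
    (p : Q.T.F) (k : ℕ) (u : Sec (BN (S.res L ^ k))) :
    ∃ c : ℝ, 0 ≤ c ∧ ∀ i, ∀ x ∈ tsupport (Pt.χ i), x ∈ Q.T.U →
      (∑ l, ‖S.up E p k u i x l‖ ^ 2 ≤
        c * (fnD K (fun i x => (KH P (Sx Q) K i x).det) x).re) ∧
      ∀ χ : M → ℝ, A.Sm χ →
        ∑ l, ‖(∑ b, A.db i b (fun y => (χ y : ℂ)) x •
          ((BN (L ^ k)).e b *ᵥ S.up E p k u i x)) l‖ ^ 2 ≤
        c * (fnD K (grd (KH P (Sx Q) K) (fun y => (χ y : ℂ)) (fun y => (χ y : ℂ))) x).re := by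
  have := Fintype.ofFinite A.ι
  have := Fintype.ofFinite S.B.ι
  -- constants on `M`
  choose δ hδ hδ2 using fun i : A.ι => exists_lower (Pt.χ_cpt i) (G := K.g i)
    ((cont_g K i).mono (Pt.χ_sub i)) fun x hx => K.pos i x (Pt.χ_sub i hx)
  choose D hD0 hD using fun i : A.ι => bdd_on (Pt.χ_cpt i) (f := fun x => (K.g i x).det.re) (by
    have h1 : ContinuousOn (fun x => (K.g i x).det) (A.e i).source :=
      (Continuous.matrix_det continuous_id).comp_continuousOn (cont_g K i)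
    exact Complex.continuous_re.comp_continuousOn (h1.mono (Pt.χ_sub i)))
  choose c1 hc1 hc1' using fun i : A.ι => pos_on (Pt.χ_cpt i) ((cont_w h i).mono (Pt.χ_sub i))
    fun x hx => h.pos i x (Pt.χ_sub i hx)
  -- constants on `F`
  choose δ' hδ' hδ2' using fun j : S.B.ι => exists_lower (PtF.χ_cpt j)
    (G := (fsKah (S.projD P)).g j)
    ((cont_g (fsKah (S.projD P)) j).mono (PtF.χ_sub j)) fun x hx =>
      (fsKah (S.projD P)).pos j x (PtF.χ_sub j hx)
  choose U hU0 hU using fun j : S.B.ι => bdd_on (PtF.χ_cpt j)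
    (f := fun y => ∑ l, ‖u.1 j y l‖ ^ 2)
    (continuousOn_finsetSum _ fun l _ =>
      (((cont_of_smAt' (u.2.1 j l)).mono (PtF.χ_sub j)).norm).pow 2)
  choose H hH0 hH using fun j : S.B.ι => bdd_on (PtF.χ_cpt j)
    (f := fun y : Q.T.F => h.w (S.refV.r j) (y : M)) (by
      refine (cont_w h (S.refV.r j)).comp continuous_subtype_val.continuousOn ?_
      intro y hy
      exact S.refV.sub j y (PtF.χ_sub j hy))
  set cc : A.ι → S.B.ι → ℝ := fun i j =>
    (H j / c1 i) ^ k * (cPW n S.d (δ i) (δ' j)⁻¹ * D i * U j) with hcc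
  have hcc0 : ∀ i j, 0 ≤ cc i j := fun i j => by
    have h1 := cPW_pos n S.d (C := (δ' j)⁻¹) (hδ i)
    have h2 := hD0 i
    have h3 := hU0 j
    have h4 : 0 ≤ H j / c1 i := div_nonneg (hH0 j) (hc1 i).le
    positivity
  refine ⟨∑ i, ∑ j, cc i j, Finset.sum_nonneg fun i _ => Finset.sum_nonneg fun j _ => hcc0 i j, ?_⟩
  intro i x hx hxU
  have hxs := Pt.χ_sub i hx
  have hus := U_sub_US Q hxU
  obtain ⟨j, hj⟩ : ∃ j, rho Q.T p x ∈ tsupport (PtF.χ j) := by
    by_contra hne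
    push Not at hne
    have h0 : ∀ j, PtF.ψ j (rho Q.T p x) = 0 := fun j =>
      image_eq_zero_of_notMem_tsupport fun h => hne j (Pai323.tsupport_psi PtF j h)
    have h1 := PtF.sum_one (rho Q.T p x)
    simp only [h0, finsum_zero] at h1
    exact zero_ne_one h1
  have hjs := PtF.χ_sub j hj
  have hlr : Q.T.r x ∈ (A.e (S.refV.r j)).source := by
    have := S.refV.sub j _ hjs
    rwa [rho_val p hxU] at this
  have hC : 0 < (δ' j)⁻¹ := inv_pos.2 (hδ' j)
  have hF : ((((δ' j)⁻¹ : ℝ) : ℂ) • (fsKah (S.projD P)).g j (rho Q.T p x) -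
      (1 : Matrix (Fin S.d) (Fin S.d) ℂ)).PosSemidef := by
    have h1 : (((δ' j)⁻¹ : ℝ) : ℂ) • (fsKah (S.projD P)).g j (rho Q.T p x) -
        (1 : Matrix (Fin S.d) (Fin S.d) ℂ) = (((δ' j)⁻¹ : ℝ) : ℂ) •
        ((fsKah (S.projD P)).g j (rho Q.T p x) -
          ((δ' j : ℝ) : ℂ) • (1 : Matrix (Fin S.d) (Fin S.d) ℂ)) := by
      rw [smul_sub, smul_smul, ← ofReal_mul, inv_mul_cancel₀ (hδ' j).ne', ofReal_one, one_smul]
    rw [h1]
    refine (hδ2' j _ hj).smul ?_
    exact_mod_cast hC.le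
  have hW : ‖E.e i (S.refV.r j) x‖ ^ 2 ≤ H j / c1 i := by
    have h1 := hE i (S.refV.r j) x hxs hxU hlr
    have h2 := hH j _ hj
    simp only [rho_val p hxU] at h2
    have h3 := hc1' i x hx
    rw [le_div_iff₀ (hc1 i)]
    calc ‖E.e i (S.refV.r j) x‖ ^ 2 * c1 i ≤ ‖E.e i (S.refV.r j) x‖ ^ 2 * h.w i x :=
          mul_le_mul_of_nonneg_left h3 (by positivity)
      _ ≤ h.w (S.refV.r j) (Q.T.r x) := h1
      _ ≤ H j := h2
  obtain ⟨p1, p2⟩ := pw_up Q S E K p hxs hxU hjs (hδ i) hC (hδ2 i x hx) hF hW k u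
  have hle : cc i j ≤ ∑ i, ∑ j, cc i j := by
    have e1 : cc i j ≤ ∑ j, cc i j :=
      Finset.single_le_sum (f := fun j => cc i j) (fun j _ => hcc0 i j) (Finset.mem_univ j)
    have e2 : ∑ j, cc i j ≤ ∑ i, ∑ j, cc i j :=
      Finset.single_le_sum (f := fun i => ∑ j, cc i j)
        (fun i _ => Finset.sum_nonneg fun j _ => hcc0 i j) (Finset.mem_univ i)
    exact e1.trans e2
  have hWk : 0 ≤ (H j / c1 i) ^ k := pow_nonneg (div_nonneg (hH0 j) (hc1 i).le) k
  have hcP : 0 ≤ cPW n S.d (δ i) (δ' j)⁻¹ := (cPW_pos n S.d (hδ i)).le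
  -- the general step
  have key : ∀ {s a f : ℝ}, 0 ≤ f → a = f * (K.g i x).det.re →
      s ≤ (H j / c1 i) ^ k * (cPW n S.d (δ i) (δ' j)⁻¹ * a *
        ∑ l, ‖u.1 j (rho Q.T p x) l‖ ^ 2) → s ≤ (∑ i, ∑ j, cc i j) * f := by
    intro s a f hf ha hs
    have hdet : 0 ≤ (K.g i x).det.re := ((Complex.lt_def.1 (K.pos i x hxs).det_pos).1).le
    have h1 : a ≤ f * D i := by
      rw [ha]
      exact mul_le_mul_of_nonneg_left (hD i x hx) hf
    have ha0 : 0 ≤ a := by rw [ha]; exact mul_nonneg hf hdet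
    calc s ≤ _ := hs
      _ ≤ (H j / c1 i) ^ k * (cPW n S.d (δ i) (δ' j)⁻¹ * (f * D i) * U j) := by
          refine mul_le_mul_of_nonneg_left ?_ hWk
          refine mul_le_mul (mul_le_mul_of_nonneg_left h1 hcP) (hU j _ hj)
            (Finset.sum_nonneg fun _ _ => by positivity) ?_
          exact mul_nonneg hcP (mul_nonneg hf (hD0 i))
      _ = cc i j * f := by rw [hcc]; ring
      _ ≤ _ := mul_le_mul_of_nonneg_right hle hf
  refine ⟨?_, fun χ hχ => ?_⟩
  · have e1 := fnD_det P (Sx Q) K hxs hus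
    refine key ?_ (re_split hxs e1) p1
    rw [e1]
    exact (Complex.le_def.1 (div_nonneg (KH_pos P (Sx Q) K hxs hus).det_pos.le
      (K.pos i x hxs).det_pos.le)).1
  · have hχc : ∀ i, A.SmAt i (fun y => (χ y : ℂ)) := fun i =>
      Crest.Agent.R275.C1d194.smAt_ofReal (hχ i)
    have e1 := fnD_grd P (Sx Q) K hχc hχc hxs hus
    have e2 := p2 (fun b => A.db i b (fun y => (χ y : ℂ)) x)
    have e3 : (∑ r, ∑ s, (KH P (Sx Q) K i x).adjugate s r *
        conj (A.db i r (fun y => (χ y : ℂ)) x) * A.db i s (fun y => (χ y : ℂ)) x) =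
        grd (KH P (Sx Q) K) (fun y => (χ y : ℂ)) (fun y => (χ y : ℂ)) i x := by
      unfold grd
      refine Finset.sum_congr rfl fun r _ => Finset.sum_congr rfl fun s _ => ?_
      rw [db_ofReal χ i r x, Complex.conj_conj]
    rw [e3] at e2
    refine key ?_ (re_split hxs e1) e2
    rw [e1]
    exact (Complex.le_def.1 (div_nonneg (grd_nonneg χ (KH_pos P (Sx Q) K hxs hus))
      (K.pos i x hxs).det_pos.le)).1

/-! ### the limit -/

/-- the dominating function -/
def domF (K : Kah A) (c : ℝ) (x : M) : ℝ≥0∞ :=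
  (US P (Sx Q)).indicator (fun x => ENNReal.ofReal
    (c * (fnD K (fun i x => (KH P (Sx Q) K i x).det) x).re)) x

theorem measurable_domF (K : Kah A) (c : ℝ) : Measurable (domF Q K c) := by
  refine measurable_of_tendsto_metrizable (f := fun m x => (US P (Sx Q)).indicator
    (fun x => ENNReal.ofReal (c * (fnD K (fun i x => (Kw P (Sx Q) K (dm_pos m) i x).det) x).re)) x)
    (fun m => ?_) ?_
  · refine Measurable.indicator ?_ (isOpen_US P (Sx Q)).measurableSet
    have h1 := Kw_cf P (Sx Q) K (dm_pos m)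
    exact (measurable_const.mul (sm_continuous (sm_re (sm_fnD K (CF.tn h1).det
      fun i => smAt_det (h1.sm i)))).measurable).ennreal_ofReal
  · rw [tendsto_pi_nhds]
    intro x
    by_cases hx : x ∈ US P (Sx Q)
    · unfold domF
      simp only [indicator_of_mem hx]
      have h1 := tendsto_Kw P (Sx Q) K (mem_ci x) hx
      have h2 : Tendsto (fun m => (Kw P (Sx Q) K (dm_pos m) (ci A x) x).det) atTop
          (𝓝 (KH P (Sx Q) K (ci A x) x).det) :=
        ((Continuous.matrix_det continuous_id).tendsto _).comp h1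
      have h3 : Tendsto (fun m => (fnD K (fun i x => (Kw P (Sx Q) K (dm_pos m) i x).det) x).re)
          atTop (𝓝 (fnD K (fun i x => (KH P (Sx Q) K i x).det) x).re) :=
        (Complex.continuous_re.tendsto _).comp (h2.div_const _)
      exact ENNReal.tendsto_ofReal (h3.const_mul c)
    · unfold domF
      simp only [indicator_of_notMem hx]
      exact tendsto_const_nhds

theorem domF_fin (K : Kah A) (Pt : Part A) {c : ℝ} (hc : 0 ≤ c) (V : Set M) :
    ∫⁻ x in V, domF Q K c x ∂(vm (volK K)) ≠ ⊤ := by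
  refine ne_of_lt (lt_of_le_of_lt (setLIntegral_le_lintegral V _) ?_)
  unfold domF
  rw [lintegral_indicator (isOpen_US P (Sx Q)).measurableSet]
  have h1 : ∀ x, ENNReal.ofReal (c * (fnD K (fun i x => (KH P (Sx Q) K i x).det) x).re) =
      ENNReal.ofReal c * ENNReal.ofReal (fnD K (fun i x => (KH P (Sx Q) K i x).det) x).re :=
    fun x => ENNReal.ofReal_mul hc
  simp only [h1]
  rw [lintegral_const_mul' _ _ ENNReal.ofReal_ne_top]
  exact ENNReal.mul_lt_top ENNReal.ofReal_lt_top (finite_vol_lt P (Sx Q) K Pt)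

/-- uniform neighbourhood of a compact set -/
theorem exists_nhd {χ : ℕ → M → ℝ} {V C : Set M} (hC : IsCompact C) (hCV : C ⊆ V)
    (hon : ∀ x ∈ V, ∃ W ∈ 𝓝 x, ∃ m₀, ∀ m ≥ m₀, ∀ y ∈ W, χ m y = 1) :
    ∃ W : Set M, IsOpen W ∧ C ⊆ W ∧ ∃ m₀, ∀ m ≥ m₀, ∀ y ∈ W, χ m y = 1 := by
  have h1 : ∀ x ∈ C, ∃ V : Set M, IsOpen V ∧ x ∈ V ∧ ∃ m₀, ∀ m ≥ m₀, ∀ y ∈ V, χ m y = 1 := by
    intro x hx
    obtain ⟨V, hV, m₀, h⟩ := hon x (hCV hx)
    obtain ⟨W, hWV, hW, hxW⟩ := mem_nhds_iff.1 hV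
    exact ⟨W, hW, hxW, m₀, fun m hm y hy => h m hm y (hWV hy)⟩
  choose! V hVo hxV m₀ hm₀ using h1
  obtain ⟨t, htC, ht⟩ := hC.elim_nhds_subcover V fun x hx => (hVo x hx).mem_nhds (hxV x hx)
  refine ⟨⋃ x ∈ t, V x, isOpen_biUnion fun x hx => hVo x (htC x hx), ht, t.sup m₀,
    fun m hm y hy => ?_⟩
  obtain ⟨x, hx, hyV⟩ := mem_iUnion₂.1 hy
  exact hm₀ x (htC x hx) m ((Finset.le_sup hx).trans hm) y hyV

open FAtl in
/-- **T8** : from the fixed locus to `M` -/
theorem lift_closed [Finite S.B.ι] [CompactSpace Q.T.F] (hUS : US P (Sx Q) ⊆ Q.T.U) (K : Kah A)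
    (Pt : Part A) (PtF : Part S.B) {L : LB A}
    (E : Eps Q.T L) (h : HM L)
    (hE : ∀ i j x, x ∈ (A.e i).source → x ∈ Q.T.U → Q.T.r x ∈ (A.e j).source →
      ‖E.e i j x‖ ^ 2 * h.w i x ≤ h.w j (Q.T.r x))
    (p : Q.T.F) (k : ℕ) {q : ℕ} {u : Sec (BN (S.res L ^ k))} (hu : nabL _ u = 0)
    (hq : Geo.pqL _ q u = u) {w : Sec (BN (KB S.B * (S.res L ^ k)⁻¹))} (hw : nabL _ w = 0)
    (h1 : Pai323.pr (DN (S.res L ^ k)) PtF u w = 1) :
    ∃ z : Sec (BN (L ^ k)), nabL _ z = 0 ∧ Geo.pqL _ q z = z ∧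
      Pai323.pr (DN (S.res L ^ k)) PtF (S.rs L k z) w = 1 := by
  obtain ⟨c, hc0, hc⟩ := exists_pw Q S K Pt PtF E h hE p k u
  obtain ⟨χ, hsm, h0, hle, hoff, hon, hlim⟩ := exists_cutoff P (Sx Q) K Pt
  -- supports
  have hχU : ∀ m, tsupport (fun x => (χ m x : ℂ)) ⊆ Q.T.U := by
    intro m
    rw [Crest.Agent.R275.C1d194.tsupport_ofReal]
    intro x hx
    by_contra hxU
    have hx2 : x ∈ (US P (Sx Q))ᶜ := fun h => hxU (hUS h)
    have h2 := eventually_nhdsSet_iff_forall.1 (hoff m) x hx2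
    exact (notMem_tsupport_iff_eventuallyEq.2 h2) hx
  have hχs : ∀ m, A.Sm (fun x => (χ m x : ℂ)) := fun m i =>
    Crest.Agent.R275.C1d194.smAt_ofReal (hsm m i)
  set v : ℕ → Sec (BN (L ^ k)) := fun m => S.cutUp E p k u _ (hχs m) (hχU m) with hv
  -- the neighbourhood of the fixed locus
  have hFc : IsCompact Q.T.F := isCompact_iff_compactSpace.2 inferInstance
  obtain ⟨W, hWo, hFW, m₀, hW⟩ := exists_nhd hFc
    (V := US P (Sx Q)) (fun x hx => U_sub_US Q hx.1) hon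
  -- `∇ v`
  have hup0 : ∀ i x, S.up E p k (0 : Sec (BN (S.res L ^ k))) i x = 0 := by
    intro i x
    have h2 := (S.upT E p k).pull_smul 0 u.1
    rw [zero_smul, zero_smul] at h2
    exact congrFun (congrFun h2 i) x
  have hnab : ∀ m i x, x ∈ (A.e i).source → (nabL _ (v m)).1 i x =
      ∑ a, A.db i a (fun y => (χ m y : ℂ)) x • ((BN (L ^ k)).e a *ᵥ S.up E p k u i x) := by
    intro m i x hx
    rw [hv]
    simp only
    rw [S.nab_cutUp E p k u (hχs m) (hχU m) hx, hu, hup0, smul_zero, zero_add]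
  -- `∇ v → 0`
  have hn : Tendsto (fun m => nS Pt (BN (L ^ k)) 0 (nabL _ (v m))) atTop (𝓝 0) := by
    refine Supn_106.tendsto_of_bound Pt (volK K) (f := fun m x =>
      (US P (Sx Q)).indicator (fun x => ENNReal.ofReal (c * (fnD K (grd (KH P (Sx Q) K)
        (fun y => (χ m y : ℂ)) (fun y => (χ m y : ℂ))) x).re)) x) ?_ ?_
    · intro m i x hx
      have hxs := Pt.χ_sub i hx
      by_cases hxU : x ∈ US P (Sx Q)
      · rw [indicator_of_mem hxU, hnab m i x hxs]
        exact ENNReal.ofReal_le_ofReal ((hc i x hx (hUS hxU)).2 (χ m) (hsm m))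
      · rw [indicator_of_notMem hxU]
        have h2 := eventually_nhdsSet_iff_forall.1 (hoff m) x hxU
        have h3 : ∀ a, A.db i a (fun y => (χ m y : ℂ)) x = 0 := by
          intro a
          have h4 : (fun y => (χ m y : ℂ)) =ᶠ[𝓝 x] fun _ => 0 := by
            filter_upwards [h2] with y hy
            rw [hy, ofReal_zero]
          rw [Atl.db_congr hxs h4 a]
          exact db_const' _ _ _ _
        rw [hnab m i x hxs]
        simp only [h3, zero_smul, Finset.sum_const_zero]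
        simp
    · have h2 : ∀ m, ∫⁻ x, (US P (Sx Q)).indicator (fun x => ENNReal.ofReal
          (c * (fnD K (grd (KH P (Sx Q) K)
            (fun y => (χ m y : ℂ)) (fun y => (χ m y : ℂ))) x).re)) x ∂(vm (volK K)) =
          ENNReal.ofReal c * ∫⁻ x in US P (Sx Q), ENNReal.ofReal (fnD K (grd (KH P (Sx Q) K)
            (fun y => (χ m y : ℂ)) (fun y => (χ m y : ℂ))) x).re ∂(vm (volK K)) := by
        intro m
        rw [lintegral_indicator (isOpen_US P (Sx Q)).measurableSet,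
          ← lintegral_const_mul' _ _ ENNReal.ofReal_ne_top]
        refine lintegral_congr fun x => ?_
        exact ENNReal.ofReal_mul hc0
      simp only [h2]
      have h3 := ENNReal.Tendsto.const_mul hlim (a := ENNReal.ofReal c)
        (Or.inr ENNReal.ofReal_ne_top)
      rwa [mul_zero] at h3
  -- `v` is a Cauchy sequence
  have hca := Supn_106.cauchy_of_cut Pt (volK K) Q.T.isOpen_U (u := S.up E p k u)
    (measurable_domF Q K c) (domF_fin Q K Pt hc0 Q.T.U) (fun i x hx hxU => by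
      unfold domF
      rw [indicator_of_mem (U_sub_US Q hxU)]
      exact ENNReal.ofReal_le_ofReal (hc i x hx hxU).1)
    (χ := χ) (fun m => sm_continuous (hsm m)) h0 hle (fun x hx => by
      obtain ⟨V, hV, m₁, h2⟩ := hon x (U_sub_US Q hx)
      refine tendsto_const_nhds.congr' ?_
      filter_upwards [eventually_ge_atTop m₁] with m hm
      exact (h2 m hm x (mem_of_mem_nhds hV)).symm)
    (v := v) (fun m i x _ _ => S.cutUp_val E p k u (hχs m) (hχU m) i x)
    (fun m i x _ hxU => by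
      rw [hv]
      simp only
      rw [S.cutUp_val E p k u (hχs m) (hχU m) i x]
      have h2 : (χ m x : ℂ) = 0 := by
        by_contra h3
        exact hxU (hχU m (subset_tsupport _ h3))
      rw [h2, zero_smul])
  -- the limit
  obtain ⟨z, hz1, hz2, hz3⟩ := (rst S L k).exists_closed Pt PtF
    (LamN127.nab_nab_BN (L ^ k)) hWo (fun y => hFW y.2) (c := fun N => v (N + m₀))
    (fun ε hε => by
      obtain ⟨N₀, hN₀⟩ := hca ε hε
      exact ⟨N₀, fun m hm l hl => hN₀ _ (le_trans hm (Nat.le_add_right _ _)) _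
        (le_trans hl (Nat.le_add_right _ _))⟩)
    (hn.comp (tendsto_add_atTop_nat m₀))
    (fun N i x hx => by
      by_cases hxs : x ∈ (A.e i).source
      · rw [hnab _ i x hxs]
        refine Finset.sum_eq_zero fun a _ => ?_
        have h4 : (fun y => (χ (N + m₀) y : ℂ)) =ᶠ[𝓝 x] fun _ => 1 := by
          filter_upwards [hWo.mem_nhds hx] with y hy
          rw [hW _ (Nat.le_add_left _ _) y hy, ofReal_one]
        rw [Atl.db_congr hxs h4 a, db_const', zero_smul]
      · exact Sec.off _ (nabL (BN (L ^ k)) (v (N + m₀))).2 hxs)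
    (DN (S.res L ^ k)) hw (fun N => by
      have h2 : (rst S L k).res (v (N + m₀)) = u := S.rs_cutUp E p k u (hχs _) (hχU _) (by
        intro x hx
        rw [hW _ (Nat.le_add_left _ _) x (hFW hx), ofReal_one])
      rw [h2]
      exact h1)
    (q := q) (fun N => pqL_iff.2 (S.cutUp_isDeg E p k (pqL_iff.1 hq) (hχs _) (hχU _)))
  exact ⟨z, hz1, hz2, hz3⟩

end

end Crest.Agent.R273.T8_774
end

-- ▼ part R273/T8D_774
section

/-!
# R273 (S0416), torus step, leaf T8 (helper774), part D : the output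

* `epsE` : the frame comparison `eps` of `TorFr_422` as `Eps`;
* `coh_F` : `H^q(O_F) = 0` for `q ≥ 1`;
* `t8` : for all large `k` there are a degree `q`, a closed `w` on the fixed locus and a closed `z`
  of degree `q` on `M` with `⟨z|_F, w⟩ = 1`.
-/

set_option autoImplicit false
set_option linter.unusedSectionVars false

open Set Filter Topology Complex MeasureTheory
open scoped ContDiff Matrix ComplexConjugate ComplexOrder Kronecker ENNReal

namespace Crest.Agent.R273.T8_774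

open Crest.Agent.R275 Crest.Agent.R275.Geo Crest.Agent.R275.Core144
open Crest.Agent.R275.SerG398 (hB fr FinS Zd Bd mem_Zd mem_Bd)
open Crest.Agent.R273.Defs_333 Crest.Agent.R273.Kah_333 Crest.Agent.R273.FS_333
open Crest.Agent.R273.Ret_155 Crest.Agent.R273.TorFr_422 Crest.Agent.R273.TorDefs_422
open Crest.Agent.R273.TorBd_422
open Crest.Agent.R273.LamN127 (BN DN lamN BN_exact_iff BN_finite nab_nab_BN)
open Crest.Agent.R273.ChiPoly_290 (chB)
open Crest.Agent.R273.LogA_5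
open Crest.Agent.R273.SerA_945

noncomputable section

/-! ### linear algebra and cohomology -/

theorem le_of_fr' {K V : Type*} [Field K] [AddCommGroup V] [Module K V] {Z B : Submodule K V}
    (hfin : FinS Z B) (h : fr Z B = 0) : Z ≤ B := by
  have hfin' : FiniteDimensional K (Z ⧸ B.submoduleOf Z) := hfin
  have hs : Subsingleton (Z ⧸ B.submoduleOf Z) := Module.finrank_zero_iff.1 h
  intro z hz
  have h1 : (Submodule.Quotient.mk ⟨z, hz⟩ : Z ⧸ B.submoduleOf Z) = 0 := Subsingleton.elim _ _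
  rw [Submodule.Quotient.mk_eq_zero] at h1
  exact h1

theorem fr_of_le {K V : Type*} [Field K] [AddCommGroup V] [Module K V] {Z B : Submodule K V}
    (h : Z ≤ B) : fr Z B = 0 := by
  have h1 : B.submoduleOf Z = ⊤ := by
    rw [eq_top_iff]
    intro z _
    exact h z.2
  unfold fr
  rw [h1]
  have : Subsingleton (Z ⧸ (⊤ : Submodule K Z)) := Submodule.Quotient.subsingleton_iff.2 rfl
  exact Module.finrank_zero_of_subsingleton

section coh

variable {b : ℕ} {N : Type} [TopologicalSpace N] {B : Atl b N}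

theorem topDeg_BN (L : LB B) : topDeg (BN L) ≤ b :=
  Finset.sup_le fun S _ =>
    (Finset.card_le_univ (α := Fin b) S.1).trans_eq (Fintype.card_fin b)

theorem nab_deg0 {L : LB B} {w : B.ι → N → (BN L).κ → ℂ} (i : B.ι) (x : N) (k : (BN L).κ)
    (hk : (BN L).deg k = 0) : nab (BN L) w i x k = 0 := by
  by_cases hx : x ∈ (B.e i).source
  · rw [nab_apply (BN L) hx, Pi.add_apply, Finset.sum_apply]
    have h1 : ∀ a, ((BN L).e a *ᵥ B.db i a (w i) x) k = 0 := by
      intro a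
      have h3 : ∀ l, (BN L).e a k l * B.db i a (w i) x l = 0 := by
        intro l
        by_cases h : (BN L).e a k l = 0
        · rw [h, zero_mul]
        · have := (BN L).e_deg a k l h
          omega
      exact Finset.sum_eq_zero fun l _ => h3 l
    have h2 : ((BN L).α i x *ᵥ w i x) k = 0 := by
      have h3 : ∀ l, (BN L).α i x k l * w i x l = 0 := by
        intro l
        by_cases h : (BN L).α i x k l = 0
        · rw [h, zero_mul]
        · have := (BN L).α_deg i x k l h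
          omega
      exact Finset.sum_eq_zero fun l _ => h3 l
    rw [h2, add_zero]
    exact Finset.sum_eq_zero fun a _ => h1 a
  · rw [nab_off (BN L) hx]
    rfl

/-- a closed form is exact if the cohomology vanishes -/
theorem exact_of_hB [CompactSpace N] [T2Space N] [Finite B.ι] (P : Part B) {L : LB B} {q : ℕ}
    (h : hB (BN L) q = 0) {z : Sec (BN L)} (hz : nabL _ z = 0) (hq : Geo.pqL _ q z = z) :
    ∃ y, nabL (BN L) y = z := by
  have h1 : z ∈ Bd (BN L) q := le_of_fr' (BN_finite P L q) h (mem_Zd.2 ⟨hz, hq⟩)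
  obtain ⟨⟨y, hy⟩, -⟩ := mem_Bd.1 h1
  exact ⟨y, hy⟩

/-- nonzero cohomology gives a closed form which is not exact -/
theorem exists_of_hB {L : LB B} {q : ℕ} (h : hB (BN L) q ≠ 0) :
    ∃ u : Sec (BN L), nabL _ u = 0 ∧ Geo.pqL _ q u = u ∧ ¬ ∃ y, nabL (BN L) y = u := by
  by_contra hne
  push Not at hne
  apply h
  refine fr_of_le fun u hu => ?_
  obtain ⟨h1, h2⟩ := mem_Zd.1 hu
  obtain ⟨y, hy⟩ := hne u h1 h2
  exact mem_Bd.2 ⟨⟨y, hy⟩, h2⟩

/-- **duality** : a form which is not exact pairs with a closed form -/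
theorem exists_dual [CompactSpace N] [T2Space N] [Finite B.ι] (P : Part B) {L : LB B} {q : ℕ}
    {u : Sec (BN L)} (hq : Geo.pqL _ q u = u)
    (hne : ¬ ∃ y, nabL (BN L) y = u) :
    q ≤ b ∧ ∃ w : Sec (BN (KB B * L⁻¹)), nabL _ w = 0 ∧ Pai323.pr (DN L) P u w = 1 := by
  have hqb : q ≤ b := by
    by_contra h
    push Not at h
    have h1 : Geo.pqL (BN L) q = 0 := pqL_top (lt_of_le_of_lt (topDeg_BN L) h)
    rw [h1] at hq
    apply hne
    refine ⟨0, ?_⟩
    rw [map_zero, ← hq]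
    rfl
  refine ⟨hqb, ?_⟩
  have h1 := (BN_exact_iff P L hqb hq).not.1 hne
  push Not at h1
  obtain ⟨w, hw, -, hne'⟩ := h1
  refine ⟨(Pai323.pr (DN L) P u w)⁻¹ • w, ?_, ?_⟩
  · rw [map_smul, hw, smul_zero]
  · rw [map_smul, smul_eq_mul, inv_mul_cancel₀ hne']

open Classical in
/-- the constant function one -/
def unoF (B : Atl b N) : B.ι → N → ℂ := fun i x => if x ∈ (B.e i).source then 1 else 0

theorem unoF_apply {i : B.ι} {x : N} (h : x ∈ (B.e i).source) : unoF B i x = 1 := if_pos h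

theorem isHS_unoF : IsHS (1 : LB B) univ (unoF B) := by
  refine ⟨fun i => ?_, fun i z hz => if_neg hz, fun i j z hz _ => ?_⟩
  · exact (holAt_const (A := B) (i := i) (1 : ℂ)).congr fun z hz _ => (unoF_apply hz).symm
  · rw [unoF_apply hz.1, unoF_apply hz.2, mul_one]
    rfl

/-- `H^0(O) ≠ 0` -/
theorem hB_zero_ne [CompactSpace N] [T2Space N] [Finite B.ι] [Nonempty N] (P : Part B) :
    hB (BN (1 : LB B)) 0 ≠ 0 := by
  intro h
  obtain ⟨x⟩ := (inferInstance : Nonempty N)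
  obtain ⟨i, hi⟩ := B.cover x
  have hs : IsHS (1 : LB B) univ (unoF B) := isHS_unoF
  have hm := embN_mem (IsHS.smS hs) hs.off
  obtain ⟨y, hy⟩ := exact_of_hB P h (z := ⟨embN (unoF B), hm.1⟩)
    (Subtype.ext (Db_embN_hol hs)) (pqL_iff.2 hm.2)
  have h1 : nab (BN (1 : LB B)) y.1 i x ((∅ : Finset (Fin b)), ()) =
      embN (unoF B) i x ((∅ : Finset (Fin b)), ()) :=
    congrFun (congrFun (congrFun (congrArg Subtype.val hy) i) x) ((∅ : Finset (Fin b)), ())
  have h2 : nab (BN (1 : LB B)) y.1 i x ((∅ : Finset (Fin b)), ()) = 0 :=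
    nab_deg0 i x ((∅ : Finset (Fin b)), ()) rfl
  have h3 : embN (unoF B) i x ((∅ : Finset (Fin b)), ()) = 1 := by
    show (if (∅ : Finset (Fin b)) = ∅ then unoF B i x else 0) = 1
    rw [if_pos rfl, unoF_apply hi]
  rw [h2, h3] at h1
  exact zero_ne_one h1

/-- **nonvanishing** : if `H^q(O) = 0` for `q ≥ 1`, then for every line bundle `L` the bundle `L^k`
has some nonzero cohomology for all large `k` -/
theorem exists_coh [CompactSpace N] [T2Space N] [Finite B.ι] [Nonempty N] (P : Part B)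
    (hc : ∀ q, 1 ≤ q → hB (BN (1 : LB B)) q = 0) (L : LB B) :
    ∃ k0 : ℕ, ∀ k : ℕ, k0 ≤ k → ∃ q, hB (BN (L ^ k)) q ≠ 0 := by
  have h0 : chB (BN (1 : LB B)) b ≠ 0 := by
    have h1 : chB (BN (1 : LB B)) b = hB (BN (1 : LB B)) 0 := by
      unfold chB
      rw [Finset.sum_eq_single 0]
      · norm_num
      · intro q _ hq
        rw [hc q (Nat.one_le_iff_ne_zero.2 hq)]
        norm_num
      · intro h
        exact absurd (Finset.mem_range.2 (Nat.succ_pos b)) h
    rw [h1]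
    exact_mod_cast hB_zero_ne P
  have htop : topDeg (lamN B) ≤ b := Finset.sup_le fun S _ =>
    (Finset.card_le_univ (α := Fin b) S).trans_eq (Fintype.card_fin b)
  obtain ⟨k0, hk0⟩ := ChiPoly_290.exists_hB_ne (B := lamN B) (fun i x _ => rfl) P htop 1 L h0
  refine ⟨k0.toNat, fun k hk => ?_⟩
  obtain ⟨-, q, -, hq⟩ := hk0 k (by omega)
  refine ⟨q, ?_⟩
  rw [one_mul, zpow_natCast] at hq
  exact hq

end coh

/-! ### the main statements -/

variable {n : ℕ} {M : Type} [TopologicalSpace M] {A : Atl n M} {P : ProjD A}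

/-- the frame comparison -/
def epsE (Q : RF P) : Eps Q.T (KB A)⁻¹ where
  e := eps Q
  hol i j := eps_hol Q i j
  ne _ _ _ hx hU hj := eps_ne Q hU hx hj
  left _ _ _ _ hx hU hj := eps_left Q hU hx hj
  right _ _ _ _ hx hU hj := eps_right Q hU hx hj
  onF _ _ _ hx hF := eps_fix Q hF hx.1 hx.2

variable [T2Space M] [CompactSpace M] [Finite A.ι]

section main

variable (Q : RF P) (S : FAtl Q.T) [Finite S.B.ι] [CompactSpace Q.T.F] [Nonempty Q.T.F]
  (hUS : US P (Sx Q) ⊆ Q.T.U) (K : Kah A) (Pt : Part A) (PtF : Part S.B) {L : LB A}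
  (E : Eps Q.T L) (h : HM L)
  (hE : ∀ i j x, x ∈ (A.e i).source → x ∈ Q.T.U → Q.T.r x ∈ (A.e j).source →
    ‖E.e i j x‖ ^ 2 * h.w i x ≤ h.w j (Q.T.r x))

include hUS K Pt E h hE

/-- non exact forms on the fixed locus are detected by closed forms on `M` -/
theorem detect (k : ℕ) {q : ℕ} {u : Sec (BN (S.res L ^ k))} (hu : nabL _ u = 0)
    (hq : Geo.pqL _ q u = u) (hne : ¬ ∃ y, nabL (BN (S.res L ^ k)) y = u) :
    q ≤ S.d ∧ ∃ w : Sec (BN (KB S.B * (S.res L ^ k)⁻¹)), nabL _ w = 0 ∧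
      ∃ z : Sec (BN (L ^ k)), nabL _ z = 0 ∧ Geo.pqL _ q z = z ∧
        Pai323.pr (DN (S.res L ^ k)) PtF (S.rs L k z) w = 1 := by
  obtain ⟨p⟩ := (inferInstance : Nonempty Q.T.F)
  obtain ⟨hqb, w, hw, h1⟩ := exists_dual PtF hq hne
  let _ : MeasurableSpace M := borel M
  have _ : BorelSpace M := ⟨rfl⟩
  obtain ⟨z, hz⟩ := lift_closed Q S hUS K Pt PtF E h hE p k hu hq hw h1
  exact ⟨hqb, w, hw, z, hz⟩

include PtF in
/-- **`H^q(O_F) = 0`** -/
theorem coh_F (hc : ∀ q, 1 ≤ q → hB (BN (1 : LB A)) q = 0) :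
    ∀ q, 1 ≤ q → hB (BN (1 : LB S.B)) q = 0 := by
  intro q hq1
  by_contra hne
  have h0 : hB (BN (S.res L ^ 0)) q ≠ 0 := by rw [pow_zero]; exact hne
  obtain ⟨u, hu, hq, hne'⟩ := exists_of_hB h0
  obtain ⟨-, w, hw, z, hz, hzq, h1⟩ := detect Q S hUS K Pt PtF E h hE 0 hu hq hne'
  have h2 : hB (BN (L ^ 0)) q = 0 := by rw [pow_zero]; exact hc q hq1
  obtain ⟨y, hy⟩ := exact_of_hB Pt h2 hz hzq
  rw [← hy, ← S.rs_nab, Pai323.pr_nab, hw, map_zero] at h1
  exact zero_ne_one h1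

/-- **T8, general form** -/
theorem t8_of (hc : ∀ q, 1 ≤ q → hB (BN (1 : LB A)) q = 0) :
    ∃ k0 : ℕ, ∀ k : ℕ, k0 ≤ k → ∃ q, q ≤ S.d ∧
      ∃ w : Sec (BN (KB S.B * (S.res L ^ k)⁻¹)), nabL _ w = 0 ∧
        ∃ z : Sec (BN (L ^ k)), nabL _ z = 0 ∧ Geo.pqL _ q z = z ∧
          Pai323.pr (DN (S.res L ^ k)) PtF (S.rs L k z) w = 1 := by
  obtain ⟨k0, hk0⟩ := exists_coh PtF (coh_F Q S hUS K Pt PtF E h hE hc) (S.res L)
  refine ⟨k0, fun k hk => ?_⟩
  obtain ⟨q, hq⟩ := hk0 k hk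
  obtain ⟨u, hu, hq, hne⟩ := exists_of_hB hq
  obtain ⟨h1, w, hw, z, hz⟩ := detect Q S hUS K Pt PtF E h hE k hu hq hne
  exact ⟨q, h1, w, hw, z, hz⟩

end main

/-- **T8** for the data of the torus step -/
theorem t8 {Γ : Type} [CommGroup Γ] [MulAction Γ M] (T : TorD A Γ) {Q : RF T.P}
    (hA : Appr T Q) (hUS : US T.P (Sx Q) ⊆ Q.T.U) (S : FAtl Q.T) [Finite S.B.ι]
    [CompactSpace Q.T.F] [Nonempty Q.T.F] (Pt : Part A) (PtF : Part S.B) :
    ∃ k0 : ℕ, ∀ k : ℕ, k0 ≤ k → ∃ q, q ≤ S.d ∧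
      ∃ w : Sec (BN (KB S.B * (S.res (aK A) ^ k)⁻¹)), nabL _ w = 0 ∧
        ∃ z : Sec (BN (aK A ^ k)), nabL _ z = 0 ∧ Geo.pqL _ q z = z ∧
          Pai323.pr (DN (S.res (aK A) ^ k)) PtF (S.rs (aK A) k z) w = 1 :=
  t8_of Q S hUS T.K Pt PtF (epsE Q) T.h
    (fun _ _ _ hx hU hj => eps_le hA hU hx hj) T.coh

end

end Crest.Agent.R273.T8_774
end

-- ▼ part R273/T8E_774

/-!
# R273 (S0416), torus step, leaf T8 (helper774), part E : `T8Stmt` of `TorT8_422`
-/

set_option autoImplicit false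
set_option linter.unusedSectionVars false

open Set Filter Topology Complex
open scoped ContDiff Matrix ComplexConjugate

namespace Crest.Agent.R273.T8_774

open Crest.Agent.R275 Crest.Agent.R275.Geo Crest.Agent.R275.Core144
open Crest.Agent.R273.Defs_333 Crest.Agent.R273.PFlow_522
open Crest.Agent.R273.Ret_155 Crest.Agent.R273.TorFr_422 Crest.Agent.R273.TorDefs_422
open Crest.Agent.R273.TorBd_422 Crest.Agent.R273.TorT8_422
open Crest.Agent.R273.LamN127 (BN DN)
open Crest.Agent.R273.LogA_5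

noncomputable section

/-- **T8** -/
theorem t8_holds : T8Stmt := by
  intro n M _ _ _ _ A _ _ PA Γ _ _ T Q hA _ hU hFc hFn S
  have hfin : Finite S.B.ι := S.fin
  have hcs : CompactSpace Q.T.F := isCompact_iff_compactSpace.1 hFc
  have hne : Nonempty Q.T.F := hFn.nonempty.to_subtype
  obtain ⟨PtF⟩ := S.part
  have hUS : US T.P (Sx Q) ⊆ Q.T.U := by
    intro x hx
    obtain ⟨i, hi⟩ := A.cover x
    obtain ⟨k, hk, hne⟩ := (mem_US_iff T.P (Sx Q) hi).1 hx
    refine (hU x _ (R_F hi)).1 fun h0 => hne ?_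
    have h1 := congrFun h0 k
    simp only [prm, if_pos ((mem_Sx Q).1 hk)] at h1
    exact h1
  obtain ⟨k1, hk1⟩ := t8 T hA hUS S PA PtF
  intro k0
  obtain ⟨q, -, w, hw, z, hz, hq, h1⟩ := hk1 (max k0 k1) (le_max_right _ _)
  refine ⟨max k0 k1, le_max_left _ _, q, (Pai323.pr (DN _) PtF).flip w, fun y => ?_,
    z, hz, hq, ?_⟩
  · rw [LinearMap.flip_apply, Pai323.pr_nab, hw, map_zero]
  · rw [LinearMap.flip_apply, h1]
    exact one_ne_zero

end

end Crest.Agent.R273.T8_774
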