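import Crest.Agent.R273.YauTop_635
import Crest.Agent.R273.C2f_793
import Crest.Agent.R273.YauC3_812
import Crest.Agent.R273.T8E_774_Mg
import Crest.Agent.R273.AsmA_73
import Crest.Agent.R273.Psi_145
import Crest.Agent.R273.T4B_844
import Crest.Agent.R273.Pen_93
import Crest.Agent.R271.Engine_51
import Crest.Agent.R273.T4E_223
import Crest.Agent.R273.RegC_844
import Crest.Agent.R273.PenAlg_93
import Crest.Agent.R273.AsmC_73
import Crest.Agent.R273.AppD_834
import Crest.Agent.R273.TR0_769_Mg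
import Crest.Agent.R273.YDx6_945
import Crest.Agent.R273.R4y_73
import Crest.Agent.R273.FG_259
import Mathlib

-- ▼ part R273/YauFin_635
section

/-!
# R273 (S0416): the theorem of Yau, unconditional (helper635, with 793, 812, 933)
-/

set_option autoImplicit false

namespace Crest.Agent.R273.YauFin_635

/-- **Yau** -/
theorem yau : Crest.Agent.R273.YauDefs_635.YauStmt :=
  Crest.Agent.R273.YauTop_635.yau_of Crest.Agent.R273.C2f_793.c2_holds
    Crest.Agent.R273.YauC3_812.c3Stmt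

end Crest.Agent.R273.YauFin_635
end

-- ▼ part R273/TorTop_422
section

/-!
# R273 (S0416): the torus step, unconditional (helper422)
-/

set_option autoImplicit false

namespace Crest.Agent.R273.TorTop_422

/-- **the torus step** -/
theorem tor : TorDefs_422.TorMain := TorAsm_422.torMain T8_774.t8_holds

end Crest.Agent.R273.TorTop_422
end

-- ▼ part R273/PsiYD_145
section

/-!
# R273: the weight `Psi` for the data `YD` of `AsmA_73` (helper145)
-/

set_option autoImplicit false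
set_option linter.unusedSectionVars false

open Set Filter Topology Complex MeasureTheory
open scoped ContDiff Matrix ENNReal

namespace Crest.Agent.R273.PsiYD_145

open Crest.Agent.R275.Geo Crest.Agent.R275.Core144 Crest.Agent.R275.GC293
open Crest.Agent.R273.SteinA_794
open Crest.Agent.R273.SteinB_794 Crest.Agent.R273.SteinC_794 Crest.Agent.R273.SteinD_794
open Crest.Agent.R273.SteinM_794 Crest.Agent.R273.SteinN_794 Crest.Agent.R273.SteinL_794
open Crest.Agent.R273.Defs_333 (ProjD HM HM.wt HM.Semipos HasSec)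
open Crest.Agent.R273.Vm_333 (vm)
open Crest.Agent.R273.Kah_333 (cur)
open Crest.Agent.R271.Ho51 (RDom cp ch IsCh IsLeb Hol Sm mem_ch isCh_ch Levi exists_leb)
open Crest.Agent.R271.W792 (lev)
open Crest.Agent.R273.Pen_93 Crest.Agent.R273.PenAlg_93
open Crest.Agent.R273.Reg_844 (PSH)
open Crest.Agent.R273.AsmA_73 Crest.Agent.R273.Psi_145

noncomputable section

variable {n : ℕ} {M : Type} [TopologicalSpace M] {A : Atl n M}

theorem one_le_of_YD {h : HM (KB A)⁻¹} {L : LB A} {hL : HM L} (Y : YD h L hL) : 1 ≤ n := by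
  obtain ⟨i, x, _, hx⟩ := Y.rk_eq
  have h1 := Matrix.rank_le_card_width (cur h i x)
  rw [Fintype.card_fin] at h1
  exact Y.ν_pos.trans (hx.trans h1)

variable [T2Space M] [CompactSpace M] [Finite A.ι] [SecondCountableTopology M]
  [MeasurableSpace M] [BorelSpace M]

/-- the volume form has finite mass on the domain -/
theorem mass_lt_top (h : HM (KB A)⁻¹) {S : SD A} {μ : Measure (Mo S)} (hμ : IsLeb μ) :
    ∫⁻ x : Mo S, ENNReal.ofReal (Real.exp (-(wtS h (kf S) x.val))) ∂μ < ⊤ := by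
  have hfin : IsFiniteMeasure (vm h) := Vm_333.isFinite_vm h
  have h1 := lintegral_mu h hμ (fun _ => 1) measurable_const
  simp only [mul_one] at h1
  have h2 : ∫⁻ x : Mo S, ENNReal.ofReal (Real.exp (-(wtS h (kf S) x.val))) ∂μ =
      ∫⁻ _ in S.U, 1 ∂(vm h) := h1
  rw [h2, lintegral_const, one_mul]
  exact measure_lt_top _ _

/-- **the weight `Psi`** -/
theorem psi_of_YD {h : HM (KB A)⁻¹} (hh : h.Semipos) {L : LB A} {hL : HM L}
    (hhL : hL.Semipos) (Y : YD h L hL) :
    ∃ Ψ : Mo Y.S → ℝ, PSH Ψ ∧ ∃ C : ℝ, ∀ x, |Ψ x - (Real.log (Bf (evp Y.y Y.p') Y.m' x) -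
      Real.log (Bf (evp Y.y Y.p) Y.m x))| ≤ C := by
  obtain ⟨μ, hμ⟩ := exists_leb (M := Mo Y.S)
  obtain ⟨Ca, hCa, hUa⟩ := Y.Ua
  obtain ⟨Cb, hCb, hUb⟩ := Y.Ub
  refine psi_YD (n := n) (φL := fun x : Mo Y.S => wtS hL Y.σ x.val)
    (φK := fun x : Mo Y.S => wtS h (kf Y.S) x.val) (lam := Y.lam) (j0 := Y.j0) (e := Y.e)
    (y := Y.y) (p := Y.p) (p' := Y.p') (m := Y.m) (m' := Y.m') hμ (one_le_of_YD Y)
    (rho_sm Y.E) (rho_compact Y.E) (rho_levi Y.E)
    (wtS_sm hL Y.hσ Y.σ0) (Levi_wtS_nonneg hL hhL Y.hσ Y.σ0)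
    (wtS_sm h (isHS_kf Y.S) kf_ne) (Levi_wtS_nonneg h hh (isHS_kf Y.S) kf_ne)
    (mass_lt_top h hμ).ne Y.hlam Y.lam0 Y.hy Y.e_pos Y.c0 Y.c0' ?_ ?_ ?_
  · refine ⟨Ca, fun x => ?_⟩
    have h1 := hUa x
    have h2 : (‖Y.lam x‖ ^ 2 * Real.exp (-(Y.j0 * wtS hL Y.σ x.val))) ^ Y.e =
        ‖Y.lam x‖ ^ (2 * Y.e) * Real.exp (-(Y.j0 * Y.e * wtS hL Y.σ x.val)) := by
      rw [mul_pow, ← pow_mul, ← Real.exp_nat_mul]
      ring_nf
    rw [h2] at h1
    exact h1
  · refine ⟨Cb, fun x Mb hMb => ?_⟩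
    have h0 : 0 ≤ Mb := le_trans (by positivity) (hMb x fun _ => rfl)
    exact hUb x Mb h0 hMb
  · intro k i F hF hI x x' hx
    refine (Y.RK μ hμ k i F hF (lt_of_le_of_lt (le_of_eq ?_) hI) x x' fun l => (hx l).symm).symm
    refine lintegral_congr fun x => ?_
    congr 1
    rw [div_eq_mul_inv]
    congr 3
    ring

end

end Crest.Agent.R273.PsiYD_145
end

-- ▼ part R273/T4C_844
section

/-!
# Row 273, leaf T4 (helper844), part C: weakly psh functions on Riemann domains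

`WPsh μ f` : `f` is locally weakly psh.  `exists_reg_weak` : near a compact set a locally integrable
weakly psh function is a decreasing limit of smooth psh functions.
-/

set_option autoImplicit false
set_option linter.unusedSectionVars false

open MeasureTheory Set Metric Filter Topology
open scoped ENNReal ContDiff Pointwise

noncomputable section

namespace Crest.Agent.R273.Reg_844

open Crest.Agent.R275.FL606 Crest.Agent.R271.Ho51
open Crest.Agent.R271.W792 (lev)
open Crest.Agent.R271.Ball399 (lev0)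

variable {n : ℕ} {κ : (Fin n → ℂ) → ℝ}
variable {G : Type*} [TopologicalSpace G] [RDom n G] [T2Space G] [MeasurableSpace G] [BorelSpace G]

/-- weak inequality for tests supported in `W` -/
def GW (μ : Measure G) (f : G → ℝ) (W : Set G) : Prop :=
  ∀ χ : G → ℝ, Sm χ → HasCompactSupport χ → tsupport χ ⊆ W → (∀ y, 0 ≤ χ y) →
    ∀ v : Fin n → ℂ, 0 ≤ ∫ y, f y * lev χ y v ∂μ

/-- locally weakly psh functions -/
def WPsh (μ : Measure G) (f : G → ℝ) : Prop := ∀ x : G, ∃ W ∈ 𝓝 x, GW μ f W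

lemma GW.mono {μ : Measure G} {f : G → ℝ} {W W' : Set G} (h : GW μ f W) (hW : W' ⊆ W) :
    GW μ f W' := fun χ h1 h2 h3 h4 v => h χ h1 h2 (h3.trans hW) h4 v

/-! ### null sets -/

lemma ae_chart_of_flat {μ : Measure G} (hμ : IsLeb μ) {e : OpenPartialHomeomorph G (Fin n → ℂ)}
    (he : IsCh e) {p : (Fin n → ℂ) → Prop} (h : ∀ᵐ z, p z) :
    ∀ᵐ y ∂μ, y ∈ e.source → p (cp y) := by
  obtain ⟨N, hN1, hN2, hN3⟩ := exists_measurable_superset_of_null (show volume {z | ¬ p z} = 0 from h)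
  have hm : MeasurableSet (cp ⁻¹' N : Set G) := hN2.preimage cp_cont.measurable
  have h1 : μ (e.source ∩ cp ⁻¹' N) = 0 := by
    have h2 : μ.restrict e.source (cp ⁻¹' N) = 0 := by
      rw [hμ e he]
      change chm e (cp ⁻¹' N) = 0
      rw [chm_apply e hm]
      refine measure_mono_null ?_ hN3
      rintro z ⟨hz1, hz2⟩
      rwa [mem_preimage, mem_preimage, he.cp_symm hz1] at hz2
    rwa [Measure.restrict_apply hm, inter_comm] at h2
  rw [ae_iff]
  refine measure_mono_null ?_ h1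
  intro y hy
  rw [mem_ofPred_eq, Classical.not_imp] at hy
  exact ⟨hy.1, hN1 hy.2⟩

lemma ae_flat_of_chart {μ : Measure G} (hμ : IsLeb μ) {e : OpenPartialHomeomorph G (Fin n → ℂ)}
    (he : IsCh e) {p : G → Prop} (h : ∀ᵐ y ∂μ, p y) :
    ∀ᵐ z, z ∈ e.target → p (e.symm z) := by
  obtain ⟨N, hN1, hN2, hN3⟩ := exists_measurable_superset_of_null (show μ {z | ¬ p z} = 0 from h)
  have h1 : volume (e.target ∩ e.symm ⁻¹' N) = 0 := by
    rw [← chm_apply e hN2]
    change ((volume.restrict e.target).map e.symm) N = 0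
    rw [← hμ e he]
    exact le_antisymm ((Measure.restrict_apply_le _ _).trans hN3.le) (zero_le)
  rw [ae_iff]
  refine measure_mono_null ?_ h1
  intro y hy
  rw [mem_ofPred_eq, Classical.not_imp] at hy
  exact ⟨hy.1, hN1 hy.2⟩

/-! ### local representatives -/

lemma measurable_ind_of_measurable {f : G → ℝ} (hf : Measurable f)
    (e : OpenPartialHomeomorph G (Fin n → ℂ)) {B : Set (Fin n → ℂ)} (hB : IsOpen B)
    (hBe : B ⊆ e.target) : Measurable (B.indicator (f ∘ e.symm)) := by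
  refine measurable_of_restrict_of_restrict_compl hB.measurableSet ?_ ?_
  · have h1 : B.domRestrict (B.indicator (f ∘ e.symm)) = f ∘ (B.domRestrict e.symm) := by
      funext z
      show B.indicator (f ∘ e.symm) z.1 = f (e.symm z.1)
      rw [indicator_of_mem z.2]
      rfl
    rw [h1]
    exact hf.comp (continuousOn_iff_continuous_domRestrict.1
      (e.symm.continuousOn.mono hBe)).measurable
  · have h1 : Bᶜ.domRestrict (B.indicator (f ∘ e.symm)) = fun _ => 0 := by
      funext z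
      show B.indicator (f ∘ e.symm) z.1 = 0
      rw [indicator_of_notMem z.2]
    rw [h1]
    exact measurable_const

lemma integrable_ind {μ : Measure G} (hμ : IsLeb μ) {f : G → ℝ} (hfm : Measurable f)
    (hf : LocallyIntegrable f μ) {e : OpenPartialHomeomorph G (Fin n → ℂ)} (he : IsCh e)
    {z : Fin n → ℂ} {s : ℝ} (hs : closedBall z s ⊆ e.target) :
    Integrable ((ball z s).indicator (f ∘ e.symm)) := by
  have hbs : ball z s ⊆ e.target := ball_subset_closedBall.trans hs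
  -- the corresponding subset of `G`
  set S : Set G := e.source ∩ cp ⁻¹' ball z s with hS
  have hSo : IsOpen S := e.open_source.inter (isOpen_ball.preimage cp_cont)
  have hSK : S ⊆ e.symm '' closedBall z s := by
    rintro y ⟨hy1, hy2⟩
    exact ⟨cp y, ball_subset_closedBall hy2, he.symm_cp hy1⟩
  have hK : IsCompact (e.symm '' closedBall z s) :=
    (isCompact_closedBall z s).image_of_continuousOn (e.symm.continuousOn.mono hs)
  have h1 : IntegrableOn f S μ := (hf.integrableOn_isCompact hK).mono_set hSK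
  have h2 : Integrable (S.indicator f) μ := (integrable_indicator_iff hSo.measurableSet).2 h1
  have h3 : Integrable (S.indicator f) (μ.restrict e.source) := h2.restrict
  rw [hμ e he, integrable_map_measure ((hfm.indicator hSo.measurableSet).aestronglyMeasurable)
    (aem_symm e)] at h3
  have h4 : IntegrableOn ((ball z s).indicator (f ∘ e.symm)) e.target := by
    refine (integrable_congr ?_).1 h3
    filter_upwards [ae_restrict_mem e.open_target.measurableSet] with y hy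
    simp only [Function.comp_apply]
    by_cases hyb : y ∈ ball z s
    · have h5 : e.symm y ∈ S := ⟨e.map_target hy, by rwa [mem_preimage, he.cp_symm hy]⟩
      rw [indicator_of_mem hyb, indicator_of_mem h5]
      rfl
    · have h5 : e.symm y ∉ S := fun h => hyb (by
        have := h.2
        rwa [mem_preimage, he.cp_symm hy] at this)
      rw [indicator_of_notMem hyb, indicator_of_notMem h5]
  refine (integrableOn_iff_integrable_of_support_subset ?_).1 h4
  exact (support_indicator_subset).trans hbs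

lemma lev_pull {e : OpenPartialHomeomorph G (Fin n → ℂ)} (he : IsCh e)
    {χ : (Fin n → ℂ) → ℝ} (hχ : ContDiff ℝ (⊤ : ℕ∞) χ) {z : Fin n → ℂ} (hz : z ∈ e.target)
    (w : Fin n → ℂ) : lev (pull e χ) (e.symm z) w = lev0 χ z w := by
  have hx : e.symm z ∈ e.source := e.map_target hz
  have h1 : (pull e χ ∘ e.symm) =ᶠ[𝓝 z] χ := by
    filter_upwards [e.open_target.mem_nhds hz] with y hy
    simp only [Function.comp_apply]
    rw [pull_of_mem e χ (e.map_target hy), he.cp_symm hy]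
  have h2 : ContDiffAt ℝ 2 χ z := (hχ.of_le (by norm_cast)).contDiffAt
  rw [lev_eq_chart he hx (by rw [he.cp_symm hz]; exact h2.congr_of_eventuallyEq h1),
    he.cp_symm hz, h1.fderiv.fderiv_eq, lev0_eq_snd h2]

lemma FW_of_GW {μ : Measure G} (hμ : IsLeb μ) {f : G → ℝ} (hfm : Measurable f)
    {e : OpenPartialHomeomorph G (Fin n → ℂ)} (he : IsCh e) {F : (Fin n → ℂ) → ℝ}
    {B : Set (Fin n → ℂ)} (hB : B ⊆ e.target) (hFe : EqOn F (f ∘ e.symm) B)
    (h : GW μ f (e.symm '' B)) : FW F B := by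
  intro χ hχ hc hsupp hnn w
  have hts : tsupport χ ⊆ e.target := hsupp.trans hB
  have h1 := h (pull e χ) (pull_sm he hχ hts hc) (pull_hasCompactSupport he hts hc)
    ((pull_tsupport he hts hc).trans (image_mono hsupp)) (fun y => by
      by_cases hy : y ∈ e.source
      · rw [pull_of_mem e χ hy]; exact hnn _
      · simp [pull, indicator_of_notMem hy]) w
  have hsm := pull_sm he hχ hts hc
  have h0 : ∀ y, y ∉ e.source → f y * lev (pull e χ) y w = 0 := by
    intro y hy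
    have hy' : y ∉ e.symm '' (tsupport χ) := by
      rintro ⟨z, hz, rfl⟩
      exact hy (e.map_target (hts hz))
    have h2 : pull e χ =ᶠ[𝓝 y] fun _ => 0 := pull_eventually_zero he hts hc hy'
    have h3 : lev (pull e χ) y w = 0 := by
      have h4 : ∀ v : Fin n → ℂ, (fun y => D (pull e χ) y v) =ᶠ[𝓝 y] fun _ => 0 := by
        intro v
        filter_upwards [h2.eventuallyEq_nhds] with t ht
        rw [D_congr ht, D_const]
        rfl
      unfold Crest.Agent.R271.W792.lev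
      rw [D_congr (h4 w), D_congr (h4 (Complex.I • w)), D_const]
      simp
    rw [h3, mul_zero]
  rw [← setIntegral_eq_integral_of_forall_compl_eq_zero (s := e.source) (fun y hy => h0 y hy)]
    at h1
  have hlc : Continuous fun y => lev (pull e χ) y w := by
    unfold Crest.Agent.R271.W792.lev
    exact ((Sm.const _).mulR (((hsm.D.apply w).D.apply w).add
      ((hsm.D.apply (Complex.I • w)).D.apply (Complex.I • w)))).continuous
  have hmm : Measurable fun y => f y * lev (pull e χ) y w := hfm.mul hlc.measurable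
  rw [integral_chart hμ he hmm.aestronglyMeasurable] at h1
  have h5 : ∫ z in e.target, f (e.symm z) * lev (pull e χ) (e.symm z) w =
      ∫ z in e.target, F z * lev0 χ z w := by
    refine setIntegral_congr_fun e.open_target.measurableSet fun z hz => ?_
    show f (e.symm z) * lev (pull e χ) (e.symm z) w = F z * lev0 χ z w
    rw [lev_pull he hχ hz]
    by_cases hzB : z ∈ B
    · rw [hFe hzB]; rfl
    · have h6 : lev0 χ z w = 0 := by
        have h7 : χ =ᶠ[𝓝 z] fun _ => 0 :=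
          notMem_tsupport_iff_eventuallyEq.1 fun h => hzB (hsupp h)
        have h8 : ∀ v : Fin n → ℂ, (fun y => fderiv ℝ χ y v) =ᶠ[𝓝 z] fun _ => 0 := by
          intro v
          filter_upwards [h7.eventuallyEq_nhds] with t ht
          rw [ht.fderiv_eq]
          simp
        unfold Crest.Agent.R271.Ball399.lev0
        rw [(h8 w).fderiv_eq, (h8 (Complex.I • w)).fderiv_eq]
        simp
      rw [h6, mul_zero, mul_zero]
  rw [h5] at h1
  rwa [setIntegral_eq_integral_of_forall_compl_eq_zero] at h1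
  intro z hz
  have h6 : lev0 χ z w = 0 := by
    have h7 : χ =ᶠ[𝓝 z] fun _ => 0 :=
      notMem_tsupport_iff_eventuallyEq.1 fun h => hz (hts h)
    have h8 : ∀ v : Fin n → ℂ, (fun y => fderiv ℝ χ y v) =ᶠ[𝓝 z] fun _ => 0 := by
      intro v
      filter_upwards [h7.eventuallyEq_nhds] with t ht
      rw [ht.fderiv_eq]
      simp
    unfold Crest.Agent.R271.Ball399.lev0
    rw [(h8 w).fderiv_eq, (h8 (Complex.I • w)).fderiv_eq]
    simp
  rw [h6, mul_zero]

/-- admissible points -/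
def AdmW (μ : Measure G) (f : G → ℝ) (r : ℝ) (x : G) : Prop :=
  ∃ e : OpenPartialHomeomorph G (Fin n → ℂ), IsCh e ∧ x ∈ e.source ∧
    ball (cp x) r ⊆ e.target ∧ GW μ f (e.symm '' ball (cp x) r)

lemma AdmW.mono {μ : Measure G} {f : G → ℝ} {r s : ℝ} {x : G} (h : AdmW μ f r x) (hs : s ≤ r) :
    AdmW μ f s x := by
  obtain ⟨e, he, hx, hb, hW⟩ := h
  exact ⟨e, he, hx, (ball_subset_ball hs).trans hb, hW.mono (image_mono (ball_subset_ball hs))⟩

lemma exists_admW {μ : Measure G} {f : G → ℝ} (h : WPsh μ f) {C : Set G} (hC : IsCompact C) :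
    ∃ r : ℝ, 0 < r ∧ ∀ x ∈ C, AdmW μ f r x := by
  refine hC.induction_on (p := fun s => ∃ r : ℝ, 0 < r ∧ ∀ x ∈ s, AdmW μ f r x) ?_ ?_ ?_ ?_
  · exact ⟨1, one_pos, by simp⟩
  · rintro s t hst ⟨r, hr, h⟩
    exact ⟨r, hr, fun x hx => h x (hst hx)⟩
  · rintro s t ⟨r, hr, h⟩ ⟨r', hr', h'⟩
    refine ⟨min r r', lt_min hr hr', fun x hx => ?_⟩
    rcases hx with hx | hx
    · exact (h x hx).mono (min_le_left _ _)
    · exact (h' x hx).mono (min_le_right _ _)
  · intro x _
    obtain ⟨W, hW, hGW⟩ := h x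
    have hT : (ch x).target ∩ (ch x).symm ⁻¹' W ∈ 𝓝 (cp x) := by
      have h0 : cp x ∈ (ch x).target := (isCh_ch x).cp_mem (mem_ch x)
      refine Filter.inter_mem ((ch x).open_target.mem_nhds h0) ?_
      have h1 : ContinuousAt (ch x).symm (cp x) := (ch x).symm.continuousAt (by simpa using h0)
      apply h1.preimage_mem_nhds
      rw [symm_cp]
      exact hW
    obtain ⟨r, hr, hb⟩ := Metric.mem_nhds_iff.1 hT
    refine ⟨(ch x).source ∩ cp ⁻¹' ball (cp x) (r / 2), ?_, r / 2, by positivity, ?_⟩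
    · apply mem_nhdsWithin_of_mem_nhds
      exact Filter.inter_mem ((ch x).open_source.mem_nhds (mem_ch x))
        (cp_cont.continuousAt.preimage_mem_nhds (ball_mem_nhds _ (by positivity)))
    · rintro y ⟨hy1, hy2⟩
      rw [mem_preimage, mem_ball] at hy2
      have hsub : ball (cp y) (r / 2) ⊆ ball (cp x) r := by
        apply ball_subset_ball'
        linarith
      refine ⟨ch x, isCh_ch x, hy1, fun z hz => (hb (hsub hz)).1, hGW.mono ?_⟩
      rintro _ ⟨z, hz, rfl⟩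
      exact (hb (hsub hz)).2

/-- local description -/
lemma AdmW.reg_loc {μ : Measure G} (hμ : IsLeb μ) {f : G → ℝ} (hfm : Measurable f)
    (hf : LocallyIntegrable f μ) (hκ : Ker volume κ) {ε r : ℝ} (hε : 0 < ε) (hr : ε < r) {x : G}
    (hx : AdmW μ f r x) : ∃ (e : OpenPartialHomeomorph G (Fin n → ℂ)) (F : (Fin n → ℂ) → ℝ)
      (δ : ℝ), IsCh e ∧ x ∈ e.source ∧ 0 < δ ∧ ball (cp x) (ε + δ) ⊆ e.target ∧ Measurable F ∧
      Integrable F ∧ EqOn F (f ∘ e.symm) (ball (cp x) (ε + δ)) ∧ FW F (ball (cp x) (ε + δ)) ∧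
      EqOn (reg κ ε f ∘ e.symm) (regF volume κ ε F) (ball (cp x) δ) := by
  obtain ⟨e, he, hxe, hb, hW⟩ := hx
  set δ : ℝ := (r - ε) / 2 with hδ
  have hδ0 : 0 < δ := by rw [hδ]; linarith
  have hlt : ε + δ < r := by rw [hδ]; linarith
  have hsub : ball (cp x) (ε + δ) ⊆ e.target := (ball_subset_ball hlt.le).trans hb
  have hcl : closedBall (cp x) (ε + δ) ⊆ e.target := (closedBall_subset_ball hlt).trans hb
  have heq : EqOn ((ball (cp x) (ε + δ)).indicator (f ∘ e.symm)) (f ∘ e.symm)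
      (ball (cp x) (ε + δ)) := fun y hy => indicator_of_mem hy _
  refine ⟨e, (ball (cp x) (ε + δ)).indicator (f ∘ e.symm), δ, he, hxe, hδ0, hsub,
    measurable_ind_of_measurable hfm e isOpen_ball hsub, integrable_ind hμ hfm hf he hcl, heq,
    FW_of_GW hμ hfm he hsub heq (hW.mono (image_mono (ball_subset_ball hlt.le))), ?_⟩
  intro z hz
  have h1 : ball z ε ⊆ ball (cp x) (ε + δ) := by
    intro y hy
    rw [mem_ball] at *
    calc dist y (cp x) ≤ dist y z + dist z (cp x) := dist_triangle _ _ _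
      _ < _ := by linarith
  simp only [Function.comp_apply]
  rw [reg_symm hκ hε f he (h1.trans hsub)]
  apply regF_congr volume hκ hε
  intro y hy
  exact (heq (h1 hy)).symm

section

variable {μ : Measure G} (hμ : IsLeb μ) {f : G → ℝ} (hfm : Measurable f)
  (hf : LocallyIntegrable f μ) (hκ : Ker volume κ) (hs : ContDiff ℝ ∞ κ)

include hμ hfm hf hκ hs

lemma AdmW.contDiffAt_reg {ε r : ℝ} (hε : 0 < ε) (hr : ε < r) {x : G} (hx : AdmW μ f r x) :
    ContDiffAt ℝ (⊤ : ℕ∞) (reg κ ε f ∘ (ch x).symm) (cp x) := by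
  obtain ⟨e, F, δ, he, hxe, hδ, hsub, hFm, hF, hFe, hFW, hreg⟩ := hx.reg_loc hμ hfm hf hκ hε hr
  have h1 := (contDiff_regF_int hκ hs hF hε).contDiffAt (x := cp x)
  exact h1.congr_of_eventuallyEq ((comp_germ (isCh_ch x) he (mem_ch x) hxe _).trans
      (hreg.eventuallyEq_of_mem (ball_mem_nhds _ hδ)))

lemma AdmW.continuousAt_reg {ε r : ℝ} (hε : 0 < ε) (hr : ε < r) {x : G} (hx : AdmW μ f r x) :
    ContinuousAt (reg κ ε f) x := by
  have h1 := (hx.contDiffAt_reg hμ hfm hf hκ hs hε hr).continuousAt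
  have h2 : ContinuousAt (fun y => (reg κ ε f ∘ (ch x).symm) (cp y)) x :=
    ContinuousAt.comp (g := reg κ ε f ∘ (ch x).symm) h1 cp_cont.continuousAt
  exact h2.congr (eventually_eq_comp (isCh_ch x) (mem_ch x) _).symm

lemma AdmW.lev_reg_nonneg {ε r : ℝ} (hε : 0 < ε) (hr : ε < r) {x : G} (hx : AdmW μ f r x)
    (w : Fin n → ℂ) : 0 ≤ lev (reg κ ε f) x w := by
  obtain ⟨e, F, δ, he, hxe, hδ, hsub, hFm, hF, hFe, hFW, hreg⟩ := hx.reg_loc hμ hfm hf hκ hε hr
  have h1 := (contDiff_regF_int hκ hs hF hε).contDiffAt (x := cp x)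
  have h2 : (reg κ ε f ∘ e.symm) =ᶠ[𝓝 (cp x)] regF volume κ ε F :=
    hreg.eventuallyEq_of_mem (ball_mem_nhds _ hδ)
  have h3 : ContDiffAt ℝ 2 (regF volume κ ε F) (cp x) := h1.of_le (by norm_cast)
  rw [lev_eq_chart he hxe (h3.congr_of_eventuallyEq h2), h2.fderiv.fderiv_eq, ← lev0_eq_snd h3]
  refine lev0_regF_nonneg hκ hs hFm hF hFW (isOpen_ball (x := cp x) (ε := δ)) hε
    (fun z hz => ?_) (mem_ball_self hδ) w
  apply ball_subset_ball'
  rw [mem_ball] at hz
  linarith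

/-- `f ≤ f_ε` a.e. near an admissible point -/
lemma AdmW.ae_le_reg {ε r : ℝ} (hε : 0 < ε) (hr : ε < r) {x : G} (hx : AdmW μ f r x) :
    ∃ W ∈ 𝓝 x, ∀ᵐ y ∂μ, y ∈ W → f y ≤ reg κ ε f y := by
  obtain ⟨e, F, δ, he, hxe, hδ, hsub, hFm, hF, hFe, hFW, hreg⟩ := hx.reg_loc hμ hfm hf hκ hε hr
  have h1 := ae_chart_of_flat hμ he (ae_le_regF hκ hs hFm hF isOpen_ball hFW hε)
  refine ⟨e.source ∩ cp ⁻¹' ball (cp x) (δ / 2), Filter.inter_mem (e.open_source.mem_nhds hxe)
    (cp_cont.continuousAt.preimage_mem_nhds (ball_mem_nhds _ (by positivity))), ?_⟩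
  filter_upwards [h1] with y hy hyW
  have hyb : dist (cp y) (cp x) < δ / 2 := hyW.2
  have h2 : closedBall (cp y) ε ⊆ ball (cp x) (ε + δ) := by
    intro z hz
    rw [mem_closedBall] at hz
    rw [mem_ball]
    calc dist z (cp x) ≤ dist z (cp y) + dist (cp y) (cp x) := dist_triangle _ _ _
      _ < ε + δ := by linarith
  have h3 := hy hyW.1 h2
  have h4 : cp y ∈ ball (cp x) δ := by rw [mem_ball]; linarith
  have h5 : cp y ∈ ball (cp x) (ε + δ) := by rw [mem_ball]; linarith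
  have h6 := hreg h4
  have h7 := hFe h5
  simp only [Function.comp_apply, he.symm_cp hyW.1] at h6 h7
  rwa [h7, ← h6] at h3

/-- `f_ε → f` a.e. near an admissible point -/
lemma AdmW.ae_tendsto_reg {r : ℝ} (hr : 0 < r) {x : G} (hx : AdmW μ f r x) :
    ∃ W ∈ 𝓝 x, ∀ᵐ y ∂μ, y ∈ W → Tendsto (fun ε : ℝ => reg κ ε f y) (𝓝[>] 0) (𝓝 (f y)) := by
  obtain ⟨e, F, δ, he, hxe, hδ, hsub, hFm, hF, hFe, hFW, hreg⟩ :=
    hx.reg_loc hμ hfm hf hκ (ε := r / 2) (by positivity) (by linarith)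
  have h1 := ae_chart_of_flat hμ he (ae_tendsto_regF hκ hF)
  refine ⟨e.source ∩ cp ⁻¹' ball (cp x) δ, Filter.inter_mem (e.open_source.mem_nhds hxe)
    (cp_cont.continuousAt.preimage_mem_nhds (ball_mem_nhds _ (by positivity))), ?_⟩
  filter_upwards [h1] with y hy hyW
  have hyb : dist (cp y) (cp x) < δ := hyW.2
  have h5 : cp y ∈ ball (cp x) (r / 2 + δ) := by rw [mem_ball]; linarith
  have h7 := hFe h5
  simp only [Function.comp_apply, he.symm_cp hyW.1] at h7
  have h2 := hy hyW.1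
  rw [h7] at h2
  refine h2.congr' ?_
  have h8 : ∀ᶠ ε : ℝ in 𝓝[>] 0, ε < r / 2 := nhdsWithin_le_nhds (gt_mem_nhds (by positivity))
  filter_upwards [h8, self_mem_nhdsWithin] with ε hε hε0
  have hε0 : 0 < ε := hε0
  have h9 : ball (cp y) ε ⊆ ball (cp x) (r / 2 + δ) := by
    apply ball_subset_ball'
    linarith
  rw [reg_eq hκ hε0 f he hyW.1 (h9.trans hsub)]
  apply regF_congr volume hκ hε0
  intro z hz
  exact hFe (h9 hz)

/-- Hartogs type bound -/
lemma reg_lt_weak (hw : WPsh μ f) {C : Set G} (hC : IsCompact C) {g : G → ℝ}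
    (hg : ∀ x ∈ C, ContinuousAt g x)
    (hlt : ∀ x ∈ C, ∃ c, c < g x ∧ ∃ W ∈ 𝓝 x, ∀ᵐ y ∂μ, y ∈ W → f y ≤ c) :
    ∃ ε₀ : ℝ, 0 < ε₀ ∧ ∀ ε, 0 < ε → ε ≤ ε₀ → ∀ x ∈ C, reg κ ε f x < g x := by
  refine hC.induction_on (p := fun S => ∃ ε₀ : ℝ, 0 < ε₀ ∧ ∀ ε, 0 < ε → ε ≤ ε₀ → ∀ x ∈ S,
      reg κ ε f x < g x) ?_ ?_ ?_ ?_
  · exact ⟨1, one_pos, by simp⟩
  · rintro s t hst ⟨r, hr, h⟩
    exact ⟨r, hr, fun ε h1 h2 x hx => h ε h1 h2 x (hst hx)⟩
  · rintro s t ⟨r, hr, h⟩ ⟨r', hr', h'⟩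
    refine ⟨min r r', lt_min hr hr', fun ε h1 h2 x hx => ?_⟩
    rcases hx with hx | hx
    · exact h ε h1 (h2.trans (min_le_left _ _)) x hx
    · exact h' ε h1 (h2.trans (min_le_right _ _)) x hx
  · intro x hx
    obtain ⟨c, hc, W, hW, hae⟩ := hlt x hx
    obtain ⟨r₀, hr₀, hadm⟩ := exists_admW hw (isCompact_singleton (x := x))
    obtain ⟨e, he, hxe, hb, hGW⟩ := hadm x rfl
    have hT : e.symm ⁻¹' W ∈ 𝓝 (cp x) := by
      have h0 : cp x ∈ e.target := he.cp_mem hxe
      have h1 : ContinuousAt e.symm (cp x) := e.symm.continuousAt (by simpa using h0)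
      apply h1.preimage_mem_nhds
      rw [he.symm_cp hxe]
      exact hW
    have hT2 : ∀ᶠ z in 𝓝 (cp x), c < g (e.symm z) := by
      have h0 : cp x ∈ e.target := he.cp_mem hxe
      have h1 : ContinuousAt e.symm (cp x) := e.symm.continuousAt (by simpa using h0)
      have h3 : Tendsto e.symm (𝓝 (cp x)) (𝓝 x) := by
        have := h1
        rwa [ContinuousAt, he.symm_cp hxe] at this
      exact h3.eventually ((hg x hx).eventually (lt_mem_nhds hc))
    obtain ⟨r₂, hr₂, hb₂⟩ := Metric.eventually_nhds_iff_ball.1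
      ((hT |> fun h => (h : ∀ᶠ z in 𝓝 (cp x), e.symm z ∈ W)).and hT2)
    set r := min r₀ r₂ with hr
    have hr0 : 0 < r := lt_min hr₀ hr₂
    have hrt : ball (cp x) r ⊆ e.target := (ball_subset_ball (min_le_left _ _)).trans hb
    refine ⟨e.source ∩ cp ⁻¹' ball (cp x) (r / 3), ?_, r / 3, by positivity, ?_⟩
    · apply mem_nhdsWithin_of_mem_nhds
      exact Filter.inter_mem (e.open_source.mem_nhds hxe)
        (cp_cont.continuousAt.preimage_mem_nhds (ball_mem_nhds _ (by positivity)))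
    · rintro ε hε hεr y ⟨hy1, hy2⟩
      rw [mem_preimage, mem_ball] at hy2
      have hsub : ball (cp y) (2 * (r / 3)) ⊆ ball (cp x) r := by
        apply ball_subset_ball'
        linarith
      have hadmy : AdmW μ f (2 * (r / 3)) y :=
        ⟨e, he, hy1, hsub.trans hrt, hGW.mono (image_mono (hsub.trans
          (ball_subset_ball (min_le_left _ _))))⟩
      obtain ⟨e', F, δ, he', hye, hδ, hse, hFm, hF, hFe, hFW, hreg⟩ :=
        hadmy.reg_loc hμ hfm hf hκ hε (r := 2 * (r / 3)) (by linarith)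
      have h3 := hreg (mem_ball_self hδ)
      simp only [Function.comp_apply, he'.symm_cp hye] at h3
      rw [h3]
      have h6 : ball (cp y) ε ⊆ ball (cp y) (ε + δ) := ball_subset_ball (by linarith)
      have h7 : ball (cp y) ε ⊆ ball (cp x) r := (ball_subset_ball (by linarith)).trans hsub
      have h5 := symm_eqOn he' he (convex_ball (cp y) ε).isPreconnected (h6.trans hse)
        (h7.trans hrt) (mem_ball_self hε) (by rw [he'.symm_cp hye, he.symm_cp hy1])
      have h4 : regF volume κ ε F (cp y) ≤ c := by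
        refine regF_le_ae hκ hF hε ?_
        filter_upwards [ae_flat_of_chart hμ he' hae] with z hz hzb
        rw [hFe (h6 hzb)]
        refine hz (hse (h6 hzb)) ?_
        rw [h5 hzb]
        exact (hb₂ z (ball_subset_ball (min_le_right _ _) (h7 hzb))).1
      have h8 : c < g y := by
        have := (hb₂ (cp y) (ball_subset_ball (min_le_right _ _) (h7 (mem_ball_self hε)))).2
        rwa [he.symm_cp hy1] at this
      linarith

end

lemma ae_of_locally [SecondCountableTopology G] {μ : Measure G} {U : Set G} {p : G → Prop}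
    (h : ∀ x ∈ U, ∃ W ∈ 𝓝 x, ∀ᵐ y ∂μ, y ∈ W → p y) : ∀ᵐ y ∂μ, y ∈ U → p y := by
  have h1 : μ {y | y ∈ U ∧ ¬ p y} = 0 := by
    apply measure_null_of_locally_null
    rintro x ⟨hxU, -⟩
    obtain ⟨W, hW, hae⟩ := h x hxU
    refine ⟨{y | y ∈ U ∧ ¬ p y} ∩ W, inter_mem_nhdsWithin _ hW, ?_⟩
    rw [ae_iff] at hae
    refine measure_mono_null ?_ hae
    rintro y ⟨⟨-, hy2⟩, hy3⟩
    rw [mem_ofPred_eq, Classical.not_imp]
    exact ⟨hy3, hy2⟩
  rw [ae_iff]
  refine measure_mono_null ?_ h1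
  intro y hy
  rw [mem_ofPred_eq, Classical.not_imp] at hy
  exact hy

/-- **Regularisation of weakly psh functions.** -/
theorem exists_reg_weak [SecondCountableTopology G] {μ : Measure G} (hμ : IsLeb μ) {f : G → ℝ}
    (hfm : Measurable f) (hf : LocallyIntegrable f μ) (hw : WPsh μ f) {C : Set G}
    (hC : IsCompact C) :
    ∃ (U : Set G) (φ : ℕ → G → ℝ), IsOpen U ∧ C ⊆ U ∧
      (∀ k, ∀ x ∈ U, ContDiffAt ℝ (⊤ : ℕ∞) (φ k ∘ (ch x).symm) (cp x)) ∧
      (∀ k, ∀ x ∈ U, ∀ w, 0 ≤ lev (φ k) x w) ∧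
      (∀ x ∈ U, Antitone fun k => φ k x) ∧
      (∀ᵐ x ∂μ, x ∈ U → (∀ k, f x ≤ φ k x) ∧ Tendsto (fun k => φ k x) atTop (𝓝 (f x))) := by
  have := locallyCompact_rdom n G
  obtain ⟨C', hC', hCC'⟩ := exists_compact_superset hC
  obtain ⟨r, hr, hadm⟩ := exists_admW hw hC'
  obtain ⟨κ, hκ, hs⟩ := exists_ker_pi n
  have step : ∀ (k : ℕ) (ε : {ε : ℝ // 0 < ε ∧ ε < r}), ∃ ε' : {ε : ℝ // 0 < ε ∧ ε < r},
      (ε' : ℝ) ≤ ε / 2 ∧ ∀ x ∈ C', reg κ ε'.1 f x < reg κ ε.1 f x + (1 / 2 : ℝ) ^ k := by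
    rintro k ⟨ε, hε, hεr⟩
    obtain ⟨ε₀, hε₀, h0⟩ := reg_lt_weak hμ hfm hf hκ hs hw hC'
      (g := fun x => reg κ ε f x + (1 / 2 : ℝ) ^ k)
      (fun x hx => ((hadm x hx).continuousAt_reg hμ hfm hf hκ hs hε hεr).add continuousAt_const)
      (fun x hx => by
        have h2 : (0 : ℝ) < (1 / 2 : ℝ) ^ k := by positivity
        refine ⟨reg κ ε f x + (1 / 2 : ℝ) ^ k / 2, by linarith, ?_⟩
        obtain ⟨W, hW, hae⟩ := (hadm x hx).ae_le_reg hμ hfm hf hκ hs hε hεr
        have hcont := (hadm x hx).continuousAt_reg hμ hfm hf hκ hs hε hεr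
        have h3 : ∀ᶠ y in 𝓝 x, reg κ ε f y < reg κ ε f x + (1 / 2 : ℝ) ^ k / 2 :=
          hcont.eventually (gt_mem_nhds (by linarith))
        refine ⟨W ∩ {y | reg κ ε f y < reg κ ε f x + (1 / 2 : ℝ) ^ k / 2},
          Filter.inter_mem hW h3, ?_⟩
        filter_upwards [hae] with y hy hyW
        exact (hy hyW.1).trans (le_of_lt hyW.2))
    refine ⟨⟨min ε₀ (ε / 2), lt_min hε₀ (by positivity),
      (min_le_right _ _).trans_lt (by linarith)⟩, min_le_right _ _, fun x hx => ?_⟩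
    exact h0 _ (lt_min hε₀ (by positivity)) (min_le_left _ _) x hx
  choose nxt hnxt1 hnxt2 using step
  let e : ℕ → {ε : ℝ // 0 < ε ∧ ε < r} := fun k =>
    Nat.rec ⟨r / 2, by positivity, by linarith⟩ (fun k ε => nxt k ε) k
  have he : ∀ k, e (k + 1) = nxt k (e k) := fun k => rfl
  have hsmall : ∀ k : ℕ, (e k).1 ≤ r * (1 / 2 : ℝ) ^ k := by
    intro k
    induction k with
    | zero => rw [pow_zero, mul_one]; exact (e 0).2.2.le
    | succ k ih =>
      rw [he, pow_succ]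
      have := hnxt1 k (e k)
      linarith
  have htend : Tendsto (fun k : ℕ => ((e k).1 : ℝ)) atTop (𝓝 0) := by
    have h1 : Tendsto (fun k : ℕ => r * (1 / 2 : ℝ) ^ k) atTop (𝓝 (r * 0)) :=
      (tendsto_pow_atTop_nhds_zero_of_lt_one (by norm_num) (by norm_num)).const_mul r
    rw [mul_zero] at h1
    exact squeeze_zero (fun k => (e k).2.1.le) hsmall h1
  have htend' : Tendsto (fun k : ℕ => ((e k).1 : ℝ)) atTop (𝓝[>] 0) :=
    tendsto_nhdsWithin_iff.2 ⟨htend, Eventually.of_forall fun k => (e k).2.1⟩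
  have hae1 : ∀ k : ℕ, ∀ᵐ y ∂μ, y ∈ interior C' → f y ≤ reg κ (e k).1 f y := fun k =>
    ae_of_locally fun x hx =>
      (hadm x (interior_subset hx)).ae_le_reg hμ hfm hf hκ hs (e k).2.1 (e k).2.2
  have hae2 : ∀ᵐ y ∂μ, y ∈ interior C' →
      Tendsto (fun ε : ℝ => reg κ ε f y) (𝓝[>] 0) (𝓝 (f y)) :=
    ae_of_locally fun x hx => (hadm x (interior_subset hx)).ae_tendsto_reg hμ hfm hf hκ hs hr
  refine ⟨interior C', fun k x => reg κ (e k).1 f x + 2 * (1 / 2 : ℝ) ^ k, isOpen_interior, hCC',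
    ?_, ?_, ?_, ?_⟩
  · intro k x hx
    exact ((hadm x (interior_subset hx)).contDiffAt_reg hμ hfm hf hκ hs (e k).2.1
      (e k).2.2).add contDiffAt_const
  · intro k x hx w
    rw [lev_add_const]
    exact (hadm x (interior_subset hx)).lev_reg_nonneg hμ hfm hf hκ hs (e k).2.1 (e k).2.2 w
  · intro x hx
    refine antitone_nat_of_succ_le fun k => ?_
    have h1 := hnxt2 k (e k) x (interior_subset hx)
    rw [← he] at h1
    simp only [pow_succ]
    linarith
  · filter_upwards [ae_all_iff.2 hae1, hae2] with y h1 h2 hy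
    refine ⟨fun k => ?_, ?_⟩
    · have h3 := h1 k hy
      have h4 : (0 : ℝ) < (1 / 2 : ℝ) ^ k := by positivity
      linarith
    · have h3 : Tendsto (fun k : ℕ => reg κ (e k).1 f y) atTop (𝓝 (f y)) :=
        (h2 hy).comp htend'
      have h4 : Tendsto (fun k : ℕ => 2 * (1 / 2 : ℝ) ^ k) atTop (𝓝 (2 * 0)) :=
        (tendsto_pow_atTop_nhds_zero_of_lt_one (by norm_num) (by norm_num)).const_mul 2
      simpa using h3.add h4

end Crest.Agent.R273.Reg_844
end
end

-- ▼ part R273/SolvA_93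
section

/-!
# R273: open subsets of a Riemann domain, sublevel sets of the exhaustion (helper93)
-/

set_option autoImplicit false
set_option linter.unusedSectionVars false

noncomputable section

open Set Filter Topology MeasureTheory ComplexConjugate
open scoped ENNReal
open TopologicalSpace (Opens)

namespace Crest.Agent.R273.SolvA_93

open Crest.Agent.R271.Ho51
open Crest.Agent.R271.W792 (lev dsq dsq_nonneg lev_comp Levi_eq_lev)

variable {n : ℕ} {M : Type*} [TopologicalSpace M] [RDom n M]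

/-- an open subset, as a space -/
def Sb (O : Opens M) : Type _ := {x : M // x ∈ O}

variable {O : Opens M}

instance : TopologicalSpace (Sb O) := instTopologicalSpaceSubtype

instance [T2Space M] : T2Space (Sb O) := inferInstanceAs (T2Space {x : M // x ∈ O})

instance [SecondCountableTopology M] : SecondCountableTopology (Sb O) :=
  inferInstanceAs (SecondCountableTopology {x : M // x ∈ O})

instance : MeasurableSpace (Sb O) := borel _

instance : BorelSpace (Sb O) := ⟨rfl⟩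

/-- inclusion -/
def Sb.val (x : Sb O) : M := Subtype.val x

theorem Sb.prop (x : Sb O) : x.val ∈ O := Subtype.property x

theorem val_inj {x y : Sb O} (h : x.val = y.val) : x = y := Subtype.ext h

theorem oe : IsOpenEmbedding (Sb.val : Sb O → M) := O.isOpen.isOpenEmbedding_subtypeVal

theorem range_val : range (Sb.val : Sb O → M) = O := Subtype.range_val

instance : RDom n (Sb O) where
  p := fun x => cp x.val
  hp := cp_lh.comp oe.isLocalHomeomorph

theorem cp_val (x : Sb O) : cp x = cp x.val := rfl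

/-- a chart of the subset, as a chart of `M` -/
def extCh {e : OpenPartialHomeomorph (Sb O) (Fin n → ℂ)} (he : IsCh e) :
    OpenPartialHomeomorph M (Fin n → ℂ) where
  toFun := cp
  invFun z := (e.symm z).val
  source := Sb.val '' e.source
  target := e.target
  map_source' := by
    rintro _ ⟨y, hy, rfl⟩
    exact he.cp_mem hy
  map_target' z hz := mem_image_of_mem _ (e.map_target hz)
  left_inv' := by
    rintro _ ⟨y, hy, rfl⟩
    have := he.symm_cp hy
    rw [cp_val] at this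
    rw [this]
  right_inv' z hz := he.cp_symm hz
  open_source := oe.isOpenMap _ e.open_source
  open_target := e.open_target
  continuousOn_toFun := cp_cont.continuousOn
  continuousOn_invFun := oe.continuous.comp_continuousOn e.symm.continuousOn

theorem isCh_ext {e : OpenPartialHomeomorph (Sb O) (Fin n → ℂ)} (he : IsCh e) :
    IsCh (extCh he) := rfl

theorem ext_source {e : OpenPartialHomeomorph (Sb O) (Fin n → ℂ)} (he : IsCh e) :
    (extCh he).source = Sb.val '' e.source := rfl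

theorem ext_target {e : OpenPartialHomeomorph (Sb O) (Fin n → ℂ)} (he : IsCh e) :
    (extCh he).target = e.target := rfl

theorem ext_symm {e : OpenPartialHomeomorph (Sb O) (Fin n → ℂ)} (he : IsCh e)
    (z : Fin n → ℂ) : (extCh he).symm z = (e.symm z).val := rfl

theorem mem_ext (x : Sb O) : x.val ∈ (extCh (isCh_ch x)).source := mem_image_of_mem _ (mem_ch x)

variable {G : Type*} [NormedAddCommGroup G] [NormedSpace ℝ G]

theorem D_val (f : M → G) (x : Sb O) : D (fun y : Sb O => f y.val) x = D f x.val := by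
  rw [D_eq (isCh_ext (isCh_ch x)) (mem_ext x) f]
  rfl

/-- smooth near every point of `O` -/
def SmO (O : Set M) (f : M → G) : Prop :=
  ∀ x ∈ O, ContDiffAt ℝ (⊤ : ℕ∞) (f ∘ (ch x).symm) (cp x)

theorem sm_val {f : M → G} (hf : SmO (O : Set M) f) : Sm (fun y : Sb O => f y.val) := by
  intro x
  have h1 := hf x.val x.prop
  have h2 := comp_germ (isCh_ext (isCh_ch x)) (isCh_ch x.val) (mem_ext x) (mem_ch x.val) f
  exact h1.congr_of_eventuallyEq h2

theorem sm_val' {f : M → G} (hf : Sm f) : Sm (fun y : Sb O => f y.val) :=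
  sm_val fun x _ => hf x

theorem db_val (f : M → ℂ) (j : Fin n) (x : Sb O) :
    db j (fun y : Sb O => f y.val) x = db j f x.val := by
  rw [db, db, D_val]



theorem lev_val (φ : M → ℝ) (x : Sb O) (w : Fin n → ℂ) :
    lev (fun y : Sb O => φ y.val) x w = lev φ x.val w := by
  have h : ∀ v : Fin n → ℂ, D (fun y : Sb O => D (fun y : Sb O => φ y.val) y v) x v =
      D (fun y => D φ y v) x.val v := by
    intro v
    have h1 : (fun y : Sb O => D (fun y : Sb O => φ y.val) y v) = fun y : Sb O => D φ y.val v := by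
      funext y
      rw [D_val]
    rw [h1, D_val (fun y => D φ y v)]
  unfold Crest.Agent.R271.W792.lev
  rw [h, h]


section measure

variable [MeasurableSpace M] [BorelSpace M]

theorem me : MeasurableEmbedding (Sb.val : Sb O → M) := oe.measurableEmbedding

theorem isLeb_val {μ : Measure M} (hμ : IsLeb μ) : IsLeb (μ.comap (Sb.val : Sb O → M)) := by
  intro e he
  have h1 := hμ (extCh he) (isCh_ext he)
  rw [ext_source, ext_target] at h1
  refine Measure.ext fun s hs => ?_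
  have hsv : MeasurableSet (Sb.val '' s) := me.measurableSet_image.2 hs
  have h2 : (μ.restrict (Sb.val '' e.source)) (Sb.val '' s) =
      (Measure.map (extCh he).symm (volume.restrict e.target)) (Sb.val '' s) := by rw [h1]
  have haem : AEMeasurable (extCh he).symm ((volume : Measure (Fin n → ℂ)).restrict e.target) :=
    aem_symm (extCh he)
  rw [Measure.restrict_apply hsv, Measure.map_apply_of_aemeasurable haem hsv] at h2
  rw [Measure.restrict_apply hs, me.comap_apply, image_inter oe.injective, h2,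
    Measure.map_apply_of_aemeasurable (aem_symm e) hs]
  congr 1
  ext z
  constructor
  · rintro ⟨y, hy, hyz⟩
    have : y = e.symm z := val_inj hyz
    rwa [mem_preimage, ← this]
  · intro hz
    exact ⟨e.symm z, hz, rfl⟩

theorem lintegral_val {μ : Measure M} (f : M → ℝ≥0∞) :
    ∫⁻ x : Sb O, f x.val ∂(μ.comap (Sb.val : Sb O → M)) = ∫⁻ x in (O : Set M), f x ∂μ := by
  rw [← me.lintegral_map, me.map_comap, range_val]

end measure

/-! ### sublevel sets -/

/-- `{ρ < t}` -/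
def Sl {ρ : M → ℝ} (hρ : Continuous ρ) (t : ℝ) : Opens M := ⟨{x | ρ x < t}, isOpen_lt hρ continuous_const⟩

/-- the exhaustion of `{ρ < t}` -/
def rt (ρ : M → ℝ) (t : ℝ) (x : M) : ℝ := ρ x + (t - ρ x)⁻¹

theorem sm_rt {ρ : M → ℝ} (hρ : Sm ρ) (t : ℝ) :
    Sm (fun y : Sb (Sl hρ.continuous t) => rt ρ t y.val) := by
  have h1 : Sm (fun y : Sb (Sl hρ.continuous t) => ρ y.val) := sm_val' hρ
  refine h1.add (Sm.comp_at (g := fun s : ℝ => (t - s)⁻¹) h1 fun y => ?_)
  have h2 : t - ρ y.val ≠ 0 := sub_ne_zero.2 (ne_of_gt y.prop)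
  exact (contDiffAt_const.sub contDiffAt_id).inv h2

theorem levi_rt {ρ : M → ℝ} (hρ : Sm ρ) (hL : ∀ x w, nsq w ≤ Levi ρ x w) (t : ℝ)
    (x : Sb (Sl hρ.continuous t)) (w : Fin n → ℂ) :
    nsq w ≤ Levi (fun y : Sb (Sl hρ.continuous t) => rt ρ t y.val) x w := by
  have h1 : Sm (fun y : Sb (Sl hρ.continuous t) => ρ y.val) := sm_val' hρ
  have hx : ρ x.val < t := x.prop
  have hpos : ∀ s, s < t → HasDerivAt (fun s : ℝ => s + (t - s)⁻¹) (1 + ((t - s) ^ 2)⁻¹) s := by
    intro s hs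
    have h2 : HasDerivAt (fun s : ℝ => t - s) (-1) s := by
      simpa using (hasDerivAt_id s).const_sub t
    have h3 := h2.inv (sub_pos.2 hs).ne'
    have h4 := (hasDerivAt_id s).add h3
    have h5 : (1 : ℝ) + - -1 / (t - s) ^ 2 = 1 + ((t - s) ^ 2)⁻¹ := by
      rw [neg_neg, one_div]
    rw [h5] at h4
    exact h4
  have hpos2 : HasDerivAt (fun s : ℝ => 1 + ((t - s) ^ 2)⁻¹) (2 / (t - ρ x.val) ^ 3) (ρ x.val) := by
    have h2 : HasDerivAt (fun s : ℝ => t - s) (-1) (ρ x.val) := by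
      simpa using (hasDerivAt_id (ρ x.val)).const_sub t
    have hne : t - ρ x.val ≠ 0 := (sub_pos.2 hx).ne'
    have h3 := ((h2.pow 2).inv (pow_ne_zero 2 hne)).const_add 1
    refine h3.congr_deriv ?_
    simp only [Nat.cast_ofNat, Nat.add_one_sub_one, pow_one, Pi.pow_apply]
    field_simp
  have hev : ∀ᶠ s in 𝓝 ((fun y : Sb (Sl hρ.continuous t) => ρ y.val) x),
      HasDerivAt (fun s : ℝ => s + (t - s)⁻¹) ((fun s : ℝ => 1 + ((t - s) ^ 2)⁻¹) s) s := by
    filter_upwards [Iio_mem_nhds hx] with s hs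
    exact hpos s hs
  have hsm : Sm (fun y : Sb (Sl hρ.continuous t) => (fun s : ℝ => 1 + ((t - s) ^ 2)⁻¹) (ρ y.val)) := by
    refine Sm.comp_at (g := fun s : ℝ => 1 + ((t - s) ^ 2)⁻¹) h1 fun y => ?_
    have h2 : t - ρ y.val ≠ 0 := sub_ne_zero.2 (ne_of_gt y.prop)
    exact contDiffAt_const.add (((contDiffAt_const.sub contDiffAt_id).pow 2).inv
      (pow_ne_zero 2 h2))
  have h6 := lev_comp h1 (g := fun s : ℝ => s + (t - s)⁻¹)
    (g' := fun s : ℝ => 1 + ((t - s) ^ 2)⁻¹) x hev hpos2 w hsm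
  rw [Levi_eq_lev (sm_rt hρ t)]
  have h7 : lev (fun y : Sb (Sl hρ.continuous t) => rt ρ t y.val) x w = _ := h6
  rw [h7, lev_val, ← Levi_eq_lev hρ]
  have h8 := hL x.val w
  have h9 : 0 ≤ nsq w := nsq_nonneg w
  have h10 : 0 < t - ρ x.val := sub_pos.2 hx
  have h11 := dsq_nonneg (fun y : Sb (Sl hρ.continuous t) => ρ y.val) x w
  have h12 : 0 ≤ 2 / (t - ρ x.val) ^ 3 * dsq (fun y : Sb (Sl hρ.continuous t) => ρ y.val) x w := by
    positivity
  have h13 : 0 ≤ ((t - ρ x.val) ^ 2)⁻¹ * Levi ρ x.val w := by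
    have : 0 ≤ Levi ρ x.val w := h9.trans h8
    positivity
  nlinarith

theorem compact_rt {ρ : M → ℝ} (hρ : Sm ρ) (hcpt : ∀ t : ℝ, IsCompact {x | ρ x ≤ t}) [T2Space M]
    (t c : ℝ) : IsCompact {x : Sb (Sl hρ.continuous t) | rt ρ t x.val ≤ c} := by
  rw [oe.isInducing.isCompact_iff]
  obtain ⟨b, hb⟩ := (hcpt t).bddBelow_image hρ.continuous.continuousOn
  set δ : ℝ := (|c - b| + 1)⁻¹ with hδ
  have hδ0 : 0 < δ := by positivity
  have himg : Sb.val '' {x : Sb (Sl hρ.continuous t) | rt ρ t x.val ≤ c} =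
      {x | ρ x ≤ t - δ} ∩ {x | (ρ x - c) * (t - ρ x) + 1 ≤ 0} := by
    ext x
    constructor
    · rintro ⟨y, hy, rfl⟩
      have h1 : ρ y.val < t := y.prop
      have h2 : 0 < t - ρ y.val := sub_pos.2 h1
      have h3 : ρ y.val + (t - ρ y.val)⁻¹ ≤ c := hy
      have h4 : b ≤ ρ y.val := hb (mem_image_of_mem _ h1.le)
      refine ⟨?_, ?_⟩
      · have h5 : (t - ρ y.val)⁻¹ ≤ |c - b| + 1 := by
          have := le_abs_self (c - b)
          linarith
        have h6 : δ ≤ t - ρ y.val := by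
          rw [hδ]
          exact inv_le_of_inv_le₀ h2 h5
        show ρ y.val ≤ t - δ
        linarith
      · have h5 : (ρ y.val + (t - ρ y.val)⁻¹) * (t - ρ y.val) ≤ c * (t - ρ y.val) :=
          mul_le_mul_of_nonneg_right h3 h2.le
        rw [add_mul, inv_mul_cancel₀ h2.ne'] at h5
        show (ρ y.val - c) * (t - ρ y.val) + 1 ≤ 0
        linarith
    · rintro ⟨h1, h2⟩
      have h1' : ρ x ≤ t - δ := h1
      have h2' : (ρ x - c) * (t - ρ x) + 1 ≤ 0 := h2
      have h3 : ρ x < t := by linarith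
      refine ⟨⟨x, h3⟩, ?_, rfl⟩
      have h4 : 0 < t - ρ x := sub_pos.2 h3
      show ρ x + (t - ρ x)⁻¹ ≤ c
      have h5 : (ρ x + (t - ρ x)⁻¹) * (t - ρ x) ≤ c * (t - ρ x) := by
        rw [add_mul, inv_mul_cancel₀ h4.ne']
        linarith
      exact le_of_mul_le_mul_right h5 h4
  rw [himg]
  refine (hcpt (t - δ)).inter_right ?_
  exact isClosed_le (((hρ.continuous.sub continuous_const).mul
    (continuous_const.sub hρ.continuous)).add continuous_const) continuous_const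

end Crest.Agent.R273.SolvA_93
end
end

-- ▼ part R273/SolvB_93
section

/-!
# R273: limits of functions which are holomorphic on larger and larger sublevel sets (helper93)

Adapted from `R271/T7a_297` and `R273/TwL_34`.
-/

set_option autoImplicit false
set_option linter.unusedSectionVars false

noncomputable section

open Set Filter Topology MeasureTheory Metric
open scoped ENNReal
open TopologicalSpace (Opens)

namespace Crest.Agent.R273.SolvB_93

open Crest.Agent.R271.Ho51 Crest.Agent.R271.T7a297 Crest.Agent.R273.SolvA_93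
open Crest.Agent.R273.Pen_93 (hol_cont)

variable {n : ℕ} {M : Type*} [TopologicalSpace M] [RDom n M]

/-- holomorphic on the set `O` -/
def HolOn (O : Set M) (F : M → ℂ) : Prop := ∀ e : OpenPartialHomeomorph M (Fin n → ℂ), IsCh e →
  DifferentiableOn ℂ (F ∘ e.symm) (e.target ∩ e.symm ⁻¹' O)

open Classical in
/-- extension by zero -/
def ext0 {O : Opens M} (F : Sb O → ℂ) (x : M) : ℂ := if h : x ∈ O then F ⟨x, h⟩ else 0

theorem ext0_val {O : Opens M} (F : Sb O → ℂ) (x : Sb O) : ext0 F x.val = F x := by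
  unfold ext0
  rw [dif_pos x.prop]
  rfl

theorem holOn_ext0 {O : Opens M} {F : Sb O → ℂ} (hF : Hol F) : HolOn (O : Set M) (ext0 F) := by
  intro e he z hz
  obtain ⟨hz1, hz2⟩ := hz
  set x : Sb O := ⟨e.symm z, hz2⟩ with hx
  have hxv : x.val = e.symm z := rfl
  have hcp : cp x = z := by
    rw [cp_val, hxv]; exact he.cp_symm hz1
  have h1 : (e.symm : (Fin n → ℂ) → M) =ᶠ[𝓝 z] (extCh (isCh_ch x)).symm := by
    have := he.germ (isCh_ext (isCh_ch x)) (x := x.val) (by rw [hxv]; exact e.map_target hz1)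
      (mem_ext x)
    rwa [← cp_val, hcp] at this
  have h2 : DifferentiableAt ℂ (F ∘ (ch x).symm) z := by
    have h3 := (hF (ch x) (isCh_ch x)).differentiableAt (x := z)
    refine h3 ((ch x).open_target.mem_nhds ?_)
    rw [← hcp]
    exact (isCh_ch x).cp_mem (mem_ch x)
  refine (h2.congr_of_eventuallyEq ?_).differentiableWithinAt
  filter_upwards [h1] with y hy
  simp only [Function.comp_apply]
  rw [hy, ext_symm, ext0_val]

theorem continuousAt_of_holOn {O : Set M} (hO : IsOpen O) {F : M → ℂ} (hF : HolOn O F) {x : M}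
    (hx : x ∈ O) : ContinuousAt F x := by
  have hmem : cp x ∈ (ch x).target ∩ (ch x).symm ⁻¹' O := by
    refine ⟨(isCh_ch x).cp_mem (mem_ch x), ?_⟩
    rw [mem_preimage, (isCh_ch x).symm_cp (mem_ch x)]
    exact hx
  have hop : IsOpen ((ch x).target ∩ (ch x).symm ⁻¹' O) :=
    (ch x).symm.isOpen_inter_preimage hO
  have h1 : ContinuousAt (F ∘ (ch x).symm) (cp x) :=
    ((hF (ch x) (isCh_ch x)).differentiableAt (hop.mem_nhds hmem)).continuousAt
  have h2 : ContinuousAt (fun y => (F ∘ (ch x).symm) (cp y)) x :=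
    ContinuousAt.comp (g := F ∘ (ch x).symm) h1 cp_cont.continuousAt
  exact h2.congr (eventually_eq_comp (isCh_ch x) (mem_ch x) F).symm

variable [T2Space M] [SecondCountableTopology M] [MeasurableSpace M] [BorelSpace M]

theorem measurable_ext0 {O : Opens M} {F : Sb O → ℂ} (hF : Hol F) : Measurable (ext0 F) := by
  classical
  have h1 : ContinuousOn (ext0 F) (O : Set M) := fun x hx =>
    (continuousAt_of_holOn O.isOpen (holOn_ext0 hF) hx).continuousWithinAt
  have h2 : ext0 F = (O : Set M).piecewise (ext0 F) (fun _ => 0) := by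
    funext x
    by_cases hx : x ∈ (O : Set M)
    · rw [piecewise_eq_of_mem _ _ _ hx]
    · rw [piecewise_eq_of_notMem _ _ _ hx]
      exact dif_neg hx
  rw [h2]
  exact h1.measurable_piecewise continuousOn_const O.isOpen.measurableSet

theorem locU_congr {X : Type*} [TopologicalSpace X] {F F' : ℕ → X → ℂ} {f : X → ℂ}
    {l : Filter ℕ} {s : Set X} (h : ∀ᶠ j in l, F j = F' j) (hF : TendstoLocallyUniformlyOn F f l s) :
    TendstoLocallyUniformlyOn F' f l s := by
  intro u hu x hx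
  obtain ⟨t, ht, hev⟩ := hF u hu x hx
  refine ⟨t, ht, ?_⟩
  filter_upwards [hev, h] with j h1 h2 y hy
  rw [← h2]
  exact h1 y hy

section main

variable {μ ν : Measure M} {ρ : M → ℝ} {G : M → ℂ} {F : ℕ → M → ℂ} {K : ℝ≥0∞}

/-- local comparison of the measures -/
def LocC (μ ν : Measure M) : Prop := ∀ C : Set M, IsCompact C → ∃ c : ℝ≥0∞, c ≠ ⊤ ∧
  ∀ f : M → ℝ≥0∞, Measurable f → ∫⁻ x in C, f x ∂μ ≤ c * ∫⁻ x in C, f x ∂ν

theorem local_montel (hμ : IsLeb μ) (hρ : Continuous ρ) (hc : LocC μ ν) (hG : Continuous G)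
    (hF : ∀ k : ℕ, HolOn {x | ρ x < k} (F k)) (hFm : ∀ k, Measurable (F k))
    (hK : K ≠ ⊤)
    (hb : ∀ k : ℕ, ∫⁻ x in {x | ρ x < k}, ENNReal.ofReal (‖F k x - G x‖ ^ 2) ∂ν ≤ K)
    {e : OpenPartialHomeomorph M (Fin n → ℂ)} (he : IsCh e) {z : Fin n → ℂ} (hz : z ∈ e.target) :
    ∃ r : ℝ, 0 < r ∧ ball z r ⊆ e.target ∧ ∃ f0 : (Fin n → ℂ) → ℂ,
      DifferentiableOn ℂ f0 (ball z r) ∧
      TendstoLocallyUniformlyOn (fun j => F j ∘ e.symm) f0 (hyperfilter ℕ : Filter ℕ)
        (ball z r) := by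
  classical
  have hlf := hμ.locallyFinite
  obtain ⟨r, hr, hB⟩ := Metric.nhds_basis_closedBall.mem_iff.1 (e.open_target.mem_nhds hz)
  set B : Set (Fin n → ℂ) := closedBall z r with hBdef
  have hBc : IsCompact B := isCompact_closedBall z r
  set S : Set M := e.symm '' B with hSdef
  have hSc : IsCompact S := hBc.image_of_continuousOn (e.symm.continuousOn.mono hB)
  have hSm : MeasurableSet S := hSc.isClosed.measurableSet
  obtain ⟨b, hb'⟩ := hSc.bddAbove_image hρ.continuousOn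
  obtain ⟨k0, hk0⟩ := exists_nat_gt b
  have hSk : ∀ x ∈ S, ρ x < k0 := fun x hx => (hb' (mem_image_of_mem _ hx)).trans_lt hk0
  obtain ⟨g, hg'⟩ := hSc.bddAbove_image hG.norm.continuousOn
  have hSg : ∀ x ∈ S, ‖G x‖ ≤ g := fun x hx => hg' (mem_image_of_mem _ hx)
  obtain ⟨c, hc0, hcS⟩ := hc S hSc
  set C : ℝ≥0∞ := 2 * (c * K) + 2 * ENNReal.ofReal (g ^ 2) * μ S with hCdef
  have hC : C ≠ ⊤ := by
    refine ENNReal.add_ne_top.2 ⟨ENNReal.mul_ne_top (by simp) (ENNReal.mul_ne_top hc0 hK),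
      ENNReal.mul_ne_top (ENNReal.mul_ne_top (by simp)
      ENNReal.ofReal_ne_top) hSc.measure_lt_top.ne⟩
  have hbound : ∀ j, k0 ≤ j → ∫⁻ y in ball z r, ‖(F j ∘ e.symm) y‖ₑ ^ 2 ≤ C := by
    intro j hj
    have hfm : Measurable fun x => ‖F j x‖ₑ ^ 2 := (hFm j).enorm.pow_const 2
    have h1 : ∫⁻ y in B, ‖F j (e.symm y)‖ₑ ^ 2 ≤ ∫⁻ x in S, ‖F j x‖ₑ ^ 2 ∂μ :=
      lintegral_ball_le hμ he hBc hB hfm
    have h2 : ∀ x ∈ S, ‖F j x‖ₑ ^ 2 ≤ 2 * ENNReal.ofReal (‖F j x - G x‖ ^ 2) +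
        2 * ENNReal.ofReal (g ^ 2) := by
      intro x hx
      refine (enorm_sq_le_aux (F j x) (G x)).trans (add_le_add le_rfl ?_)
      refine mul_le_mul_right (ENNReal.ofReal_le_ofReal ?_) _
      have := hSg x hx
      exact pow_le_pow_left₀ (norm_nonneg _) this 2
    have hmeas : Measurable fun x => ENNReal.ofReal (‖F j x - G x‖ ^ 2) :=
      ((((hFm j).sub hG.measurable).norm.pow_const 2)).ennreal_ofReal
    have h5 : S ⊆ {x | ρ x < (j : ℝ)} := fun x hx => (hSk x hx).trans_le (by exact_mod_cast hj)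
    calc ∫⁻ y in ball z r, ‖(F j ∘ e.symm) y‖ₑ ^ 2
        ≤ ∫⁻ y in B, ‖F j (e.symm y)‖ₑ ^ 2 := lintegral_mono_set ball_subset_closedBall
      _ ≤ ∫⁻ x in S, ‖F j x‖ₑ ^ 2 ∂μ := h1
      _ ≤ ∫⁻ x in S, (2 * ENNReal.ofReal (‖F j x - G x‖ ^ 2) +
        2 * ENNReal.ofReal (g ^ 2)) ∂μ := setLIntegral_mono' hSm h2
      _ = 2 * ∫⁻ x in S, ENNReal.ofReal (‖F j x - G x‖ ^ 2) ∂μ +
          2 * ENNReal.ofReal (g ^ 2) * μ S := by
        rw [lintegral_add_left (hmeas.const_mul _), lintegral_const_mul _ hmeas,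
          setLIntegral_const]
      _ ≤ 2 * (c * ∫⁻ x in S, ENNReal.ofReal (‖F j x - G x‖ ^ 2) ∂ν) +
          2 * ENNReal.ofReal (g ^ 2) * μ S :=
        add_le_add (mul_le_mul_right (hcS _ hmeas) _) le_rfl
      _ ≤ C := by
        refine add_le_add (mul_le_mul_right (mul_le_mul_right ?_ _) _) le_rfl
        exact (lintegral_mono_set h5).trans (hb j)
  set F' : ℕ → (Fin n → ℂ) → ℂ := fun j => if k0 ≤ j then F j ∘ e.symm else 0 with hF'
  have hev : ∀ᶠ j in (hyperfilter ℕ : Filter ℕ), k0 ≤ j := by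
    have h6 : ∀ᶠ j in (atTop : Filter ℕ), k0 ≤ j := eventually_ge_atTop k0
    rw [← Nat.cofinite_eq_atTop] at h6
    exact hyperfilter_le_cofinite h6
  obtain ⟨f0, hf0, hf0'⟩ := Crest.Agent.R271.Montel297.montel_L2 (ball z r) isOpen_ball F'
    (fun j => by
      by_cases hj : k0 ≤ j
      · simp only [hF', if_pos hj]
        refine (hF j e he).mono fun y hy => ⟨hB (ball_subset_closedBall hy), ?_⟩
        exact (hSk _ (mem_image_of_mem _ (ball_subset_closedBall hy))).trans_le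
          (by exact_mod_cast hj)
      · simp only [hF', if_neg hj]
        exact differentiableOn_const _) C hC (hyperfilter ℕ)
    (by
      filter_upwards [hev] with j hj
      simp only [hF', if_pos hj]
      exact hbound j hj)
  refine ⟨r, hr, ball_subset_closedBall.trans hB, f0, hf0, locU_congr ?_ hf0'⟩
  filter_upwards [hev] with j hj
  simp only [hF', if_pos hj]

/-- **limit lemma** -/
theorem limit_hol (hμ : IsLeb μ) (hρ : Continuous ρ) (hcpt : ∀ t : ℝ, IsCompact {x | ρ x ≤ t})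
    (hc : LocC μ ν) (hG : Continuous G)
    (hF : ∀ k : ℕ, HolOn {x | ρ x < k} (F k)) (hFm : ∀ k, Measurable (F k))
    (hK : K ≠ ⊤)
    (hb : ∀ k : ℕ, ∫⁻ x in {x | ρ x < k}, ENNReal.ofReal (‖F k x - G x‖ ^ 2) ∂ν ≤ K) :
    ∃ F0 : M → ℂ, Hol F0 ∧ ∫⁻ x, ENNReal.ofReal (‖F0 x - G x‖ ^ 2) ∂ν ≤ K := by
  have hloc := fun {e : OpenPartialHomeomorph M (Fin n → ℂ)} (he : IsCh e) {z : Fin n → ℂ}
    (hz : z ∈ e.target) => local_montel hμ hρ hc hG hF hFm hK hb he hz
  set l : Filter ℕ := (hyperfilter ℕ : Filter ℕ) with hl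
  set F0 : M → ℂ := fun x => limUnder l (fun j => F j x) with hF0
  have hlim : ∀ x, Tendsto (fun j => F j x) l (𝓝 (F0 x)) := by
    intro x
    obtain ⟨r, hr, -, f0, -, hf0⟩ := hloc (isCh_ch x) ((isCh_ch x).cp_mem (mem_ch x))
    have h1 := hf0.tendsto_at (mem_ball_self hr)
    have h2 : Tendsto (fun j => F j x) l (𝓝 (f0 (cp x))) := by
      simpa [symm_cp] using h1
    exact tendsto_nhds_limUnder ⟨_, h2⟩
  have hagree : ∀ {e : OpenPartialHomeomorph M (Fin n → ℂ)} {z : Fin n → ℂ} {r : ℝ}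
      {f0 : (Fin n → ℂ) → ℂ}, TendstoLocallyUniformlyOn (fun j => F j ∘ e.symm) f0 l (ball z r) →
      ∀ y ∈ ball z r, f0 y = F0 (e.symm y) := by
    intro e z r f0 hf0 y hy
    exact tendsto_nhds_unique (hf0.tendsto_at hy) (hlim (e.symm y))
  have hHol : Hol F0 := by
    intro e he z hz
    obtain ⟨r, hr, hsub, f0, hd, hf0⟩ := hloc he hz
    have h1 : DifferentiableAt ℂ f0 z := hd.differentiableAt (isOpen_ball.mem_nhds (mem_ball_self hr))
    refine (h1.congr_of_eventuallyEq ?_).differentiableWithinAt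
    filter_upwards [isOpen_ball.mem_nhds (mem_ball_self hr)] with y hy
    exact (hagree hf0 y hy).symm
  have hF0c : Continuous F0 := hol_cont hHol
  have hLU : TendstoLocallyUniformly F F0 l := by
    intro u hu x
    obtain ⟨r, hr, hsub, f0, hd, hf0⟩ := hloc (isCh_ch x) ((isCh_ch x).cp_mem (mem_ch x))
    obtain ⟨t, ht, hev⟩ := hf0 u hu (cp x) (mem_ball_self hr)
    rw [isOpen_ball.nhdsWithin_eq (mem_ball_self hr)] at ht
    refine ⟨(ch x).source ∩ cp ⁻¹' (t ∩ ball (cp x) r), inter_mem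
      ((ch x).open_source.mem_nhds (mem_ch x)) (cp_cont.continuousAt.preimage_mem_nhds
        (inter_mem ht (isOpen_ball.mem_nhds (mem_ball_self hr)))), ?_⟩
    filter_upwards [hev] with j hj y hy
    have h1 := hj (cp y) hy.2.1
    rw [hagree hf0 _ hy.2.2] at h1
    simpa [(isCh_ch x).symm_cp hy.1] using h1
  have hle : l ≤ atTop := by
    rw [← Nat.cofinite_eq_atTop]
    exact hyperfilter_le_cofinite
  have hsub : ∀ m : ℕ, ∃ j : ℕ, m + 1 ≤ j ∧
      ∀ x, ρ x ≤ m → dist (F0 x) (F j x) < 1 / ((m : ℝ) + 1) := by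
    intro m
    have h1 : TendstoUniformlyOn F F0 l {x | ρ x ≤ (m : ℝ)} :=
      (tendstoLocallyUniformlyOn_iff_tendstoUniformlyOn_of_compact (hcpt m)).1
        hLU.tendstoLocallyUniformlyOn
    have h2 := (Metric.tendstoUniformlyOn_iff.1 h1) (1 / ((m : ℝ) + 1)) (by positivity)
    have h3 : ∀ᶠ j in l, m + 1 ≤ j := hle (eventually_ge_atTop (m + 1))
    obtain ⟨j, hj1, hj2⟩ := (h3.and h2).exists
    exact ⟨j, hj1, fun x hx => hj2 x hx⟩
  choose J hJ1 hJ2 using hsub
  have hJlim : ∀ x, Tendsto (fun m => F (J m) x) atTop (𝓝 (F0 x)) := by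
    intro x
    rw [tendsto_iff_dist_tendsto_zero]
    refine squeeze_zero' (Eventually.of_forall fun _ => dist_nonneg) ?_
      tendsto_one_div_add_atTop_nhds_zero_nat
    obtain ⟨m0, hm0⟩ := exists_nat_ge (ρ x)
    filter_upwards [eventually_ge_atTop m0] with m hm
    rw [dist_comm]
    exact (hJ2 m x (hm0.trans (by exact_mod_cast hm))).le
  -- Fatou
  have hfatou : ∀ k : ℕ, ∫⁻ x in {x | ρ x < (k : ℝ)},
      ENNReal.ofReal (‖F0 x - G x‖ ^ 2) ∂ν ≤ K := by
    intro k
    have h1 : ∀ x, ENNReal.ofReal (‖F0 x - G x‖ ^ 2) =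
        liminf (fun m => ENNReal.ofReal (‖F (J m) x - G x‖ ^ 2)) atTop := by
      intro x
      have h2 : Tendsto (fun m => ENNReal.ofReal (‖F (J m) x - G x‖ ^ 2))
          atTop (𝓝 (ENNReal.ofReal (‖F0 x - G x‖ ^ 2))) :=
        (ENNReal.continuous_ofReal.tendsto _).comp
          ((((hJlim x).sub_const (G x)).norm).pow 2)
      rw [h2.liminf_eq]
    simp only [h1]
    refine (lintegral_liminf_le fun m => ?_).trans ?_
    · exact ((((hFm (J m)).sub hG.measurable).norm.pow_const 2)).ennreal_ofReal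
    · refine liminf_le_of_frequently_le' (Eventually.frequently ?_)
      filter_upwards [eventually_ge_atTop k] with m hm
      have hkJ : k ≤ J m := hm.trans ((Nat.le_succ m).trans (hJ1 m))
      refine le_trans (lintegral_mono_set fun x hx => ?_) (hb (J m))
      exact lt_of_lt_of_le (show ρ x < (k : ℝ) from hx) (by exact_mod_cast hkJ)
  refine ⟨F0, hHol, ?_⟩
  have hun : (⋃ k : ℕ, {x | ρ x < (k : ℝ)}) = univ := by
    refine eq_univ_of_forall fun x => ?_
    obtain ⟨k, hk⟩ := exists_nat_gt (ρ x)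
    exact mem_iUnion.2 ⟨k, hk⟩
  have hdir : Directed (· ⊆ ·) fun k : ℕ => {x | ρ x < (k : ℝ)} := by
    refine Monotone.directed_le fun a b hab x hx => ?_
    exact lt_of_lt_of_le (show ρ x < (a : ℝ) from hx) (by exact_mod_cast hab)
  rw [← setLIntegral_univ, ← hun, setLIntegral_iUnion_of_directed _ hdir]
  exact iSup_le hfatou

end main

end Crest.Agent.R273.SolvB_93
end
end

-- ▼ part R273/SolvC_93
section

/-!
# R273: solvability of `∂̄` for weights with local regularisations (helper93)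

`LReg μ V Q`  : near every compact set `V` is a.e. the decreasing limit of smooth functions `φ_k` with
`Q ≤ lev φ_k`.
`solv_of_lreg`: `LReg μ V (a • Levi P)`, `0 < a` ⇒ `Solv (e^{-V} μ) P`.
-/

set_option autoImplicit false
set_option linter.unusedSectionVars false

noncomputable section

open Set Filter Topology MeasureTheory Metric ComplexConjugate
open scoped ENNReal
open TopologicalSpace (Opens)

namespace Crest.Agent.R273.SolvC_93

open Crest.Agent.R271.Ho51 Crest.Agent.R273.SolvA_93 Crest.Agent.R273.SolvB_93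
open Crest.Agent.R273.Pen_93
open Crest.Agent.R271.W792 (lev lev_add lev_const_mul Levi_eq_lev)

section defs

variable {n : ℕ} {M : Type*} [TopologicalSpace M] [RDom n M] [MeasurableSpace M] [BorelSpace M]

/-- local regularisations -/
structure LReg (μ : Measure M) (V : M → ℝ) (Q : M → (Fin n → ℂ) → ℝ) : Prop where
  meas : AEMeasurable V μ
  reg : ∀ C : Set M, IsCompact C → ∃ (U : Set M) (φ : ℕ → M → ℝ), IsOpen U ∧ C ⊆ U ∧
    (∀ k, ∀ x ∈ U, ContDiffAt ℝ (⊤ : ℕ∞) (φ k ∘ (ch x).symm) (cp x)) ∧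
    (∀ k, ∀ x ∈ U, ∀ w, Q x w ≤ lev (φ k) x w) ∧
    (∀ x ∈ U, Antitone fun k => φ k x) ∧
    ∀ᵐ x ∂μ, x ∈ U → (∀ k, V x ≤ φ k x) ∧ Tendsto (fun k => φ k x) atTop (𝓝 (V x))

theorem LReg.mono {μ : Measure M} {V : M → ℝ} {Q Q' : M → (Fin n → ℂ) → ℝ} (h : LReg μ V Q)
    (hQ : ∀ x w, Q' x w ≤ Q x w) : LReg μ V Q' := by
  refine ⟨h.meas, fun C hC => ?_⟩
  obtain ⟨U, φ, h1, h2, h3, h4, h5, h6⟩ := h.reg C hC
  exact ⟨U, φ, h1, h2, h3, fun k x hx w => (hQ x w).trans (h4 k x hx w), h5, h6⟩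

/-- `D` of a function which is smooth near `x` only -/
theorem cont_of_cd {φ : M → ℝ} {x : M} (h : ContDiffAt ℝ (⊤ : ℕ∞) (φ ∘ (ch x).symm) (cp x)) :
    ContinuousAt φ x := by
  have h2 : ContinuousAt (fun y => (φ ∘ (ch x).symm) (cp y)) x :=
    ContinuousAt.comp (g := φ ∘ (ch x).symm) h.continuousAt cp_cont.continuousAt
  exact h2.congr (eventually_eq_comp (isCh_ch x) (mem_ch x) φ).symm

theorem lev_add_on {U : Set M} (hU : IsOpen U) {φ ψ : M → ℝ}
    (hφ : ∀ x ∈ U, ContDiffAt ℝ (⊤ : ℕ∞) (φ ∘ (ch x).symm) (cp x))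
    (hψ : ∀ x ∈ U, ContDiffAt ℝ (⊤ : ℕ∞) (ψ ∘ (ch x).symm) (cp x)) {x : M} (hx : x ∈ U)
    (w : Fin n → ℂ) : lev (fun y => φ y + ψ y) x w = lev φ x w + lev ψ x w := by
  set O : Opens M := ⟨U, hU⟩ with hO
  set y : Sb O := ⟨x, hx⟩ with hy
  have hyx : y.val = x := rfl
  have h1 : Sm (fun y : Sb O => φ y.val) := sm_val hφ
  have h2 : Sm (fun y : Sb O => ψ y.val) := sm_val hψ
  have h3 := lev_add h1 h2 y w
  rw [lev_val φ, lev_val ψ, lev_val (fun y => φ y + ψ y), hyx] at h3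
  exact h3

theorem LReg.add {μ : Measure M} {V V' : M → ℝ} {Q Q' : M → (Fin n → ℂ) → ℝ} (h : LReg μ V Q)
    (h' : LReg μ V' Q') : LReg μ (fun x => V x + V' x) (fun x w => Q x w + Q' x w) := by
  refine ⟨h.meas.add h'.meas, fun C hC => ?_⟩
  obtain ⟨U, φ, h1, h2, h3, h4, h5, h6⟩ := h.reg C hC
  obtain ⟨U', φ', h1', h2', h3', h4', h5', h6'⟩ := h'.reg C hC
  refine ⟨U ∩ U', fun k x => φ k x + φ' k x, h1.inter h1', subset_inter h2 h2',
    fun k x hx => (h3 k x hx.1).add (h3' k x hx.2), fun k x hx w => ?_,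
    fun x hx => (h5 x hx.1).add (h5' x hx.2), ?_⟩
  · rw [lev_add_on (h1.inter h1') (fun y hy => h3 k y hy.1) (fun y hy => h3' k y hy.2) hx]
    exact add_le_add (h4 k x hx.1 w) (h4' k x hx.2 w)
  · filter_upwards [h6, h6'] with x h7 h7' hx
    obtain ⟨a1, a2⟩ := h7 hx.1
    obtain ⟨b1, b2⟩ := h7' hx.2
    exact ⟨fun k => add_le_add (a1 k) (b1 k), a2.add b2⟩

theorem LReg.of_smooth {μ : Measure M} {V : M → ℝ} (hV : Sm V) :
    LReg μ V (fun x w => Levi V x w) := by
  refine ⟨hV.continuous.measurable.aemeasurable, fun C _ => ⟨univ, fun _ => V, isOpen_univ,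
    subset_univ C, fun _ x _ => hV x, fun _ x _ w => ?_, fun _ _ => antitone_const, ?_⟩⟩
  · rw [Levi_eq_lev hV]
  · exact Eventually.of_forall fun x _ => ⟨fun _ => le_rfl, tendsto_const_nhds⟩

theorem LReg.zero {μ : Measure M} : LReg (n := n) μ (fun _ => 0) (fun _ _ => 0) := by
  refine ⟨aemeasurable_const, fun C _ => ⟨univ, fun _ _ => 0, isOpen_univ,
    subset_univ C, fun _ x _ => Sm.const 0 x, fun _ x _ w => ?_, fun _ _ => antitone_const, ?_⟩⟩
  · rw [Crest.Agent.R271.W792.lev_const]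
  · exact Eventually.of_forall fun x _ => ⟨fun _ => le_rfl, tendsto_const_nhds⟩

/-- natural multiples -/
theorem LReg.nsmul {μ : Measure M} {V : M → ℝ} {Q : M → (Fin n → ℂ) → ℝ} (h : LReg μ V Q)
    (k : ℕ) : LReg μ (fun x => k * V x) (fun x w => k * Q x w) := by
  induction k with
  | zero =>
    have h0 := LReg.zero (n := n) (μ := μ)
    simpa using h0
  | succ k ih =>
    have := ih.add h
    refine ⟨?_, ?_⟩
    · convert this.meas using 2 with x
      push_cast; ring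
    · have h2 := this.reg
      have e1 : (fun x => (k : ℝ) * V x + V x) = fun x => ((k + 1 : ℕ) : ℝ) * V x := by
        funext x; push_cast; ring
      have e2 : (fun x w => (k : ℝ) * Q x w + Q x w) = fun x w => ((k + 1 : ℕ) : ℝ) * Q x w := by
        funext x w; push_cast; ring
      rw [e1, e2] at this
      exact this.reg

theorem LReg.locC {μ : Measure M} {V : M → ℝ} {Q : M → (Fin n → ℂ) → ℝ} [T2Space M]
    (h : LReg μ V Q) : LocC μ (wm μ fun x => Real.exp (-V x)) := by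
  intro C hC
  obtain ⟨U, φ, h1, h2, h3, h4, h5, h6⟩ := h.reg C hC
  have hcont : ContinuousOn (φ 0) C := fun x hx =>
    (cont_of_cd (h3 0 x (h2 hx))).continuousWithinAt
  obtain ⟨m, hm⟩ := hC.bddAbove_image hcont
  refine ⟨ENNReal.ofReal (Real.exp m), ENNReal.ofReal_ne_top, fun f hf => ?_⟩
  have hme : AEMeasurable (fun x => ENNReal.ofReal (Real.exp (-V x))) μ :=
    (Real.measurable_exp.comp_aemeasurable h.meas.neg).ennreal_ofReal
  have hCm : MeasurableSet C := hC.isClosed.measurableSet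
  unfold wm
  rw [setLIntegral_withDensity_eq_setLIntegral_mul_non_measurable₀ μ hme.restrict _ hCm
    (Eventually.of_forall fun x => ENNReal.ofReal_lt_top), ← lintegral_const_mul' _ _
    ENNReal.ofReal_ne_top]
  refine lintegral_mono_ae ?_
  rw [ae_restrict_iff' hCm]
  filter_upwards [h6] with x hx hxC
  obtain ⟨h7, -⟩ := hx (h2 hxC)
  rw [Pi.mul_apply, ← mul_assoc, ← ENNReal.ofReal_mul (Real.exp_pos m).le, ← Real.exp_add]
  have h8 : V x ≤ m := (h7 0).trans (hm (mem_image_of_mem _ hxC))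
  have h9 : 1 ≤ ENNReal.ofReal (Real.exp (m + -V x)) := by
    rw [← ENNReal.ofReal_one]
    exact ENNReal.ofReal_le_ofReal (Real.one_le_exp (by linarith))
  calc f x = 1 * f x := (one_mul _).symm
    _ ≤ _ := mul_le_mul_left h9 _

end defs

/-! ### the engine -/

variable {n : ℕ} {M : Type} [TopologicalSpace M] [T2Space M] [SecondCountableTopology M]
  [RDom n M] [MeasurableSpace M] [BorelSpace M] {μ : Measure M}

theorem engine_sub (hμ : IsLeb μ) {ρ : M → ℝ} (hρ : Sm ρ)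
    (hcpt : ∀ t : ℝ, IsCompact {x | ρ x ≤ t}) (hL : ∀ x w, nsq w ≤ Levi ρ x w)
    {V P : M → ℝ} (hP0 : ∀ x w, 0 ≤ Levi P x w) {a : ℝ} (ha : 0 < a)
    (hV : LReg μ V fun x w => a * Levi P x w) {g : M → ℂ} (hg : Sm g) {kap : M → ℝ}
    (hk0 : ∀ x, 0 ≤ kap x)
    (hk : ∀ x (w : Fin n → ℂ), ‖∑ j, db j g x * conj (w j)‖ ^ 2 ≤ kap x * Levi P x w)
    (t : ℝ) : ∃ F : Sb (Sl hρ.continuous t) → ℂ, Hol F ∧
      ∫⁻ x in {x | ρ x < t}, ENNReal.ofReal (‖ext0 F x - g x‖ ^ 2) ∂(wm μ fun x => Real.exp (-V x))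
        ≤ 2 * ∫⁻ x, ENNReal.ofReal (kap x / a) ∂(wm μ fun x => Real.exp (-V x)) := by
  obtain ⟨U, φ, h1, h2, h3, h4, h5, h6⟩ := hV.reg _ (hcpt t)
  set O := Sl hρ.continuous t with hO
  have hOU' : ∀ x : M, ρ x < t → x ∈ U := fun x hx => h2 (show ρ x ≤ t from le_of_lt hx)
  have hOU : ∀ x : Sb O, x.val ∈ U := fun x => hOU' x.val x.prop
  have hme : AEMeasurable (fun x => ENNReal.ofReal (Real.exp (-V x))) μ :=
    (Real.measurable_exp.comp_aemeasurable hV.meas.neg).ennreal_ofReal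
  have hOm : MeasurableSet {x | ρ x < t} := (isOpen_lt hρ.continuous continuous_const).measurableSet
  have hsm : ∀ k, Sm (fun y : Sb O => φ k y.val) := fun k => sm_val fun x hx => h3 k x (hOU' x hx)
  have hlev : ∀ k (y : Sb O) w, a * Levi P y.val w ≤ Levi (fun y : Sb O => φ k y.val) y w := by
    intro k y w
    rw [Levi_eq_lev (hsm k), lev_val]
    exact h4 k y.val (hOU y) w
  set K : ℝ≥0∞ := ∫⁻ x, ENNReal.ofReal (kap x / a) ∂(wm μ fun x => Real.exp (-V x)) with hK
  have hKO : ∫⁻ x in {x | ρ x < t}, ENNReal.ofReal (Real.exp (-V x)) * ENNReal.ofReal (kap x / a) ∂μ ≤ K := by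
    rw [hK]
    unfold wm
    refine le_trans ?_ (setLIntegral_le_lintegral {x | ρ x < t} _)
    rw [setLIntegral_withDensity_eq_setLIntegral_mul_non_measurable₀ μ hme.restrict _ hOm
      (Eventually.of_forall fun x => ENNReal.ofReal_lt_top)]
    rfl
  obtain ⟨F, hF, hFi⟩ := engineP n (Sb O) (μ.comap (Sb.val : Sb O → M)) (isLeb_val hμ)
    (fun y => rt ρ t y.val) (sm_rt hρ t) (fun c => compact_rt hρ hcpt t c)
    (fun x w => levi_rt hρ hL t x w) (fun k y => φ k y.val) hsm (fun y => h5 _ (hOU y))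
    (fun k y w => le_trans (mul_nonneg ha.le (hP0 _ _)) (hlev k y w))
    (fun y => g y.val) (sm_val' hg) (fun _ y => kap y.val / a)
    (fun k y w => by
      simp only [db_val]
      refine (hk y.val w).trans ?_
      calc kap y.val * Levi P y.val w = kap y.val / a * (a * Levi P y.val w) := by
            field_simp
        _ ≤ _ := mul_le_mul_of_nonneg_left (hlev k y w) (div_nonneg (hk0 _) ha.le)) K
    (fun k => by
      rw [lintegral_val (fun x => ENNReal.ofReal (kap x / a * Real.exp (-φ k x)))]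
      refine le_trans (lintegral_mono_ae ?_) hKO
      refine (ae_restrict_iff' hOm).2 ?_
      filter_upwards [h6] with x hx hxO
      obtain ⟨h7, -⟩ := hx (hOU' x hxO)
      rw [mul_comm (ENNReal.ofReal _), ← ENNReal.ofReal_mul (div_nonneg (hk0 _) ha.le)]
      refine ENNReal.ofReal_le_ofReal (mul_le_mul_of_nonneg_left ?_ (div_nonneg (hk0 _) ha.le))
      exact Real.exp_le_exp.2 (neg_le_neg (h7 k)))
  refine ⟨F, hF, le_trans ?_ hFi⟩
  have e1 : ∫⁻ y : Sb O, ENNReal.ofReal (‖F y - g y.val‖ ^ 2) *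
      (⨆ k, ENNReal.ofReal (Real.exp (-φ k y.val))) ∂(μ.comap (Sb.val : Sb O → M)) =
      ∫⁻ x in {x | ρ x < t}, ENNReal.ofReal (‖ext0 F x - g x‖ ^ 2) *
        (⨆ k, ENNReal.ofReal (Real.exp (-φ k x))) ∂μ := by
    refine Eq.trans ?_ (lintegral_val (O := O) (μ := μ)
      (fun x => ENNReal.ofReal (‖ext0 F x - g x‖ ^ 2) *
        (⨆ k, ENNReal.ofReal (Real.exp (-φ k x)))))
    refine lintegral_congr fun y => ?_
    rw [ext0_val]
  rw [e1]
  unfold wm
  rw [setLIntegral_withDensity_eq_setLIntegral_mul_non_measurable₀ μ hme.restrict _ hOm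
    (Eventually.of_forall fun x => ENNReal.ofReal_lt_top)]
  refine lintegral_mono_ae ((ae_restrict_iff' hOm).2 ?_)
  filter_upwards [h6] with x hx hxO
  obtain ⟨-, h8⟩ := hx (hOU' x hxO)
  rw [Pi.mul_apply, mul_comm]
  refine mul_le_mul_right ?_ _
  have h9 : Tendsto (fun k => ENNReal.ofReal (Real.exp (-φ k x))) atTop
      (𝓝 (ENNReal.ofReal (Real.exp (-V x)))) :=
    (ENNReal.continuous_ofReal.tendsto _).comp
      ((Real.continuous_exp.tendsto _).comp h8.neg)
  exact le_of_tendsto h9 (Eventually.of_forall fun k =>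
    le_iSup (fun k => ENNReal.ofReal (Real.exp (-φ k x))) k)

/-- **solvability** -/
theorem solv_of_lreg (hμ : IsLeb μ) {ρ : M → ℝ} (hρ : Sm ρ)
    (hcpt : ∀ t : ℝ, IsCompact {x | ρ x ≤ t}) (hL : ∀ x w, nsq w ≤ Levi ρ x w)
    {V P : M → ℝ} (hP0 : ∀ x w, 0 ≤ Levi P x w) {a : ℝ} (ha : 0 < a)
    (hV : LReg μ V fun x w => a * Levi P x w) : Solv (wm μ fun x => Real.exp (-V x)) P := by
  intro g hg kap hkc hk0 hk hfin
  choose F hF hFb using fun k : ℕ => engine_sub hμ hρ hcpt hL hP0 ha hV hg hk0 hk (k : ℝ)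
  have hK : 2 * ∫⁻ x, ENNReal.ofReal (kap x / a) ∂(wm μ fun x => Real.exp (-V x)) ≠ ⊤ := by
    refine ENNReal.mul_ne_top (by simp) (ne_of_lt ?_)
    exact lint_le_lt (C := a⁻¹) (inv_pos.2 ha).le (fun x => by
      rw [div_eq_inv_mul]) hfin
  obtain ⟨F0, hF0, hb⟩ := limit_hol hμ hρ.continuous hcpt hV.locC hg.continuous
    (F := fun k => ext0 (F k)) (fun k => holOn_ext0 (hF k)) (fun k => measurable_ext0 (hF k)) hK
    hFb
  exact ⟨F0, hF0, lt_of_le_of_lt hb (lt_top_iff_ne_top.2 hK)⟩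

end Crest.Agent.R273.SolvC_93
end
end

-- ▼ part R273/T4F_223
section

/-!
# R273 (S0416), A-V0 = T4a (helper223), part 4

* `t4a`  : `φ_K + η u - η δ P` is locally integrable and weakly psh on `Mo S`
* `lreg` : `LReg μ (φ_K + η u) (η δ • Levi P)`
* `lint_V0` : `∫ e^{-(φ_K + η u)} dμ < ∞`
-/

set_option autoImplicit false
set_option linter.unusedSectionVars false

open Set Filter Topology Complex MeasureTheory
open scoped ContDiff Matrix ComplexConjugate ComplexOrder ENNReal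

namespace Crest.Agent.R273.T4F_223

open Crest.Agent.R271.Ho51 (RDom cp ch IsCh IsLeb Sm Levi mem_ch isCh_ch)
open Crest.Agent.R275.Geo Crest.Agent.R275.Core144 Crest.Agent.R273.SteinA_794
open Crest.Agent.R273.SteinB_794 Crest.Agent.R273.SteinC_794 Crest.Agent.R273.SteinD_794
open Crest.Agent.R273.SteinM_794 Crest.Agent.R273.SteinN_794
open Crest.Agent.R273.Defs_333 (ProjD HM HM.wt HM.Semipos)
open Crest.Agent.R273.Kah_333 (cur hsf Kah)
open Crest.Agent.R273.Vm_333 (vm)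
open Crest.Agent.R273.T4C_223 Crest.Agent.R273.T4D_223 Crest.Agent.R273.T4E_223
open Crest.Agent.R273.TLd_201
open Crest.Agent.R271.W792 (lev)
open Crest.Agent.R273.Reg_844 (GW WPsh)
open Crest.Agent.R273.SolvC_93 (LReg)

noncomputable section

variable {n : ℕ} {M : Type} [TopologicalSpace M] {A : Atl n M} {S : SD A}
  [T2Space M] [CompactSpace M] [SecondCountableTopology M] [MeasurableSpace M] [BorelSpace M]
  [Countable A.ι] {μ : Measure (Mo S)}

/-- the weight `V₀ = φ_K + η u` -/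
def V0 (h : HM (KB A)⁻¹) (S : SD A) (η : ℝ) (u : M → ℝ) (x : Mo S) : ℝ :=
  wtS h (kf S) x.val + η * u x.val

theorem meas_V0 (h : HM (KB A)⁻¹) {η : ℝ} {u : M → ℝ} (hm : Measurable u) :
    Measurable (V0 h S η u) :=
  (ph_sm h).continuous.measurable.add ((hm.comp me_val.measurable).const_mul η)

/-- **T4a** -/
theorem t4a (hμ : IsLeb μ) {h : HM (KB A)⁻¹} (hh : h.Semipos) {D : TD A} {K : Kah A}
    {δ η : ℝ} {u : M → ℝ} (h0 : 0 ≤ η) (h1 : η ≤ 1) (hm : Measurable u) (hu : MemLp u 2 (vm h))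
    (H : Appr h D K δ u) (hU : S.U ⊆ D.U) {P : Mo S → ℝ} (hP : Sm P)
    (hb : ∀ i, ∀ x : Mo S, x.val ∈ (A.e i).source → D.be i x.val = hsf A (xr P) i x.val) :
    Measurable (fun x => V0 h S η u x - (η * δ) * P x) ∧
      LocallyIntegrable (fun x => V0 h S η u x - (η * δ) * P x) μ ∧
      WPsh μ (fun x => V0 h S η u x - (η * δ) * P x) := by
  have hlf := hμ.locallyFinite
  have hui : LocallyIntegrable (fun x : Mo S => u x.val) μ := locInt_mu h hμ (int_of h hu)
  refine ⟨(meas_V0 h hm).sub (hP.continuous.measurable.const_mul _), ?_, ?_⟩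
  · have i1 : LocallyIntegrable (ph h S) μ := (ph_sm h).continuous.locallyIntegrable
    have i2 : LocallyIntegrable (fun x => (η * δ) * P x) μ :=
      (continuous_const.mul hP.continuous).locallyIntegrable
    have i3 : LocallyIntegrable (fun x : Mo S => η * u x.val) μ := by
      intro x
      obtain ⟨V, hV, hi⟩ := hui x
      exact ⟨V, hV, hi.const_mul η⟩
    exact (i1.add i3).sub i2
  · intro x
    obtain ⟨i, hi⟩ := A.cover x.val
    refine ⟨Mo.val ⁻¹' (A.e i).source,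
      ((A.e i).open_source.preimage continuous_val).mem_nhds hi, ?_⟩
    intro χ hχ hc hs hp w
    have hΛ : Sm (fun x : Mo S => lev χ x w) := sm_lev hχ w
    have hΛc : HasCompactSupport (fun x : Mo S => lev χ x w) := hcs_lev hc w
    have e1 := weak1 hμ hu H hU (P := xr P) (fun i => xr_smooth hP i)
      (fun i x hx hxU => hb i ⟨x, hxU⟩ hx) hχ hc hs hp w
    simp only [xr_val] at e1
    have e2 : 0 ≤ ∫ x : Mo S, ph h S x * lev χ x w ∂μ := by
      rw [ibp_lev hμ (ph_sm h) hχ hc w]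
      refine integral_nonneg fun x => mul_nonneg (hp x) ?_
      rw [← Crest.Agent.R271.W792.Levi_eq_lev (ph_sm h)]
      exact Levi_wtS_nonneg h hh (isHS_kf S) kf_ne x w
    have i1 : Integrable (fun x : Mo S => ph h S x * lev χ x w) μ :=
      ((ph_sm h).mulR hΛ).integrable hμ hΛc.mul_left
    have i2 : Integrable (fun x : Mo S => (ph h S x + -δ * P x) * lev χ x w) μ :=
      (((ph_sm h).add ((Sm.const (-δ)).mulR hP)).mulR hΛ).integrable hμ hΛc.mul_left
    have i3 : Integrable (fun x : Mo S => u x.val * lev χ x w) μ :=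
      int_mul h hμ (int_of h hu) hΛ hΛc
    have i4 : Integrable (fun x : Mo S => (ph h S x + -δ * P x + u x.val) * lev χ x w) μ := by
      refine (i2.add i3).congr (Eventually.of_forall fun x => ?_)
      simp only [Pi.add_apply]
      ring
    have e3 : ∫ x : Mo S, (V0 h S η u x - (η * δ) * P x) * lev χ x w ∂μ =
        (1 - η) * ∫ x : Mo S, ph h S x * lev χ x w ∂μ +
          η * ∫ x : Mo S, (ph h S x + -δ * P x + u x.val) * lev χ x w ∂μ := by
      rw [← integral_const_mul, ← integral_const_mul,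
        ← integral_add (i1.const_mul (1 - η)) (i4.const_mul η)]
      refine integral_congr_ae (Eventually.of_forall fun x => ?_)
      simp only [V0, ph]
      ring
    rw [e3]
    have : 0 ≤ 1 - η := by linarith
    positivity

/-- **the export for the engine** -/
theorem lreg (hμ : IsLeb μ) {h : HM (KB A)⁻¹} (hh : h.Semipos) {D : TD A} {K : Kah A}
    {δ η : ℝ} {u : M → ℝ} (h0 : 0 ≤ η) (h1 : η ≤ 1) (hm : Measurable u) (hu : MemLp u 2 (vm h))
    (H : Appr h D K δ u) (hU : S.U ⊆ D.U) {P : Mo S → ℝ} (hP : Sm P)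
    (hb : ∀ i, ∀ x : Mo S, x.val ∈ (A.e i).source → D.be i x.val = hsf A (xr P) i x.val) :
    LReg μ (V0 h S η u) (fun x w => (η * δ) * Levi P x w) := by
  obtain ⟨a1, a2, a3⟩ := t4a hμ hh h0 h1 hm hu H hU hP hb
  refine ⟨(meas_V0 h hm).aemeasurable, fun C hC => ?_⟩
  obtain ⟨U, φ, b1, b2, b3, b4, b5, b6⟩ := Crest.Agent.R273.Reg_844.exists_reg_weak hμ a1 a2 a3 hC
  have hcP : Sm (fun x => (η * δ) * P x) := (Sm.const (η * δ)).mulR hP
  refine ⟨U, fun k x => φ k x + (η * δ) * P x, b1, b2, fun k x hx => (b3 k x hx).add (hcP x),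
    fun k x hx w => ?_, fun x hx k l hkl => ?_, ?_⟩
  · rw [Crest.Agent.R273.SolvC_93.lev_add_on b1 (fun y hy => b3 k y hy) (fun y _ => hcP y) hx,
      Crest.Agent.R271.W792.lev_const_mul hP, Crest.Agent.R271.W792.Levi_eq_lev hP]
    linarith [b4 k x hx w]
  · exact add_le_add_left (b5 x hx hkl) _
  · filter_upwards [b6] with x hx hxU
    obtain ⟨c1, c2⟩ := hx hxU
    refine ⟨fun k => ?_, ?_⟩
    · have := c1 k
      linarith
    · have := c2.add_const ((η * δ) * P x)
      rwa [sub_add_cancel] at this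

/-- finite mass of the weight -/
theorem lint_V0 (hμ : IsLeb μ) {h : HM (KB A)⁻¹} {η : ℝ} {u : M → ℝ} (hm : Measurable u)
    (hi : Integrable (fun x => Real.exp (-(η * u x))) (vm h)) :
    ∫⁻ x, ENNReal.ofReal (Real.exp (-(V0 h S η u x))) ∂μ < ⊤ := by
  have h1 := lintegral_mu (S := S) h hμ (fun x => ENNReal.ofReal (Real.exp (-(η * u x))))
    ((Real.measurable_exp.comp (((hm.comp me_val.measurable).const_mul η).neg)).ennreal_ofReal)
  have h2 : ∀ x : Mo S, ENNReal.ofReal (Real.exp (-(V0 h S η u x))) =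
      vS h S x * ENNReal.ofReal (Real.exp (-(η * u x.val))) := by
    intro x
    rw [vS, ← ENNReal.ofReal_mul (Real.exp_pos _).le, ← Real.exp_add]
    congr 2
    unfold V0
    ring
  simp only [h2]
  rw [h1]
  refine (setLIntegral_le_lintegral _ _).trans_lt ?_
  exact hi.lintegral_lt_top

end

end Crest.Agent.R273.T4F_223
end

-- ▼ part R273/SolvD_93
section

/-!
# R273: `LReg` from 844's regularisation theorems (helper93)
-/

set_option autoImplicit false
set_option linter.unusedSectionVars false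

noncomputable section

open Set Filter Topology MeasureTheory

namespace Crest.Agent.R273.SolvD_93

open Crest.Agent.R271.Ho51 Crest.Agent.R273.SolvC_93 Crest.Agent.R273.Reg_844
open Crest.Agent.R271.W792 (lev Levi_eq_lev lev_const_mul)

variable {n : ℕ} {M : Type*} [TopologicalSpace M] [T2Space M]
  [RDom n M] [MeasurableSpace M] [BorelSpace M] {μ : Measure M}

/-- plurisubharmonic weights (844) -/
theorem PSH.lreg {ψ : M → ℝ} (h : PSH ψ) : LReg μ ψ fun _ _ => 0 := by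
  refine ⟨h.usc.measurable.aemeasurable, fun C hC => ?_⟩
  obtain ⟨U, φ, h1, h2, h3, h4, h5, h6, h7⟩ := exists_reg h hC
  exact ⟨U, φ, h1, h2, h3, h4, h5, Eventually.of_forall fun x hx =>
    ⟨fun k => h6 k x hx, h7 x hx⟩⟩

/-- weakly plurisubharmonic weights (844) -/
theorem WPsh.lreg [SecondCountableTopology M] (hμ : IsLeb μ) {f : M → ℝ} (hfm : Measurable f)
    (hf : LocallyIntegrable f μ) (hw : WPsh μ f) : LReg μ f fun _ _ => 0 := by
  refine ⟨hfm.aemeasurable, fun C hC => ?_⟩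
  obtain ⟨U, φ, h1, h2, h3, h4, h5, h6⟩ := exists_reg_weak hμ hfm hf hw hC
  exact ⟨U, φ, h1, h2, h3, h4, h5, h6⟩



end Crest.Agent.R273.SolvD_93
end
end

-- ▼ part R273/PenFin_93
section

/-!
# R273: the final corner theorem on a Riemann domain (helper93)
-/

set_option autoImplicit false
set_option linter.unusedSectionVars false

noncomputable section

open Set Filter Topology MeasureTheory ComplexConjugate
open scoped ENNReal

namespace Crest.Agent.R273.PenFin_93

open Crest.Agent.R271.Ho51 Crest.Agent.R273.Pen_93 Crest.Agent.R273.PenAlg_93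
open Crest.Agent.R273.SolvC_93

variable {n : ℕ} {M : Type} [TopologicalSpace M] [T2Space M] [SecondCountableTopology M]
  [RDom n M] [MeasurableSpace M] [BorelSpace M] {μ : Measure M}

/-- weighted measure `e^{-V} μ` -/
def em (μ : Measure M) (V : M → ℝ) : Measure M := wm μ fun x => Real.exp (-V x)

theorem em_def (V : M → ℝ) : em μ V = wm μ fun x => Real.exp (-V x) := rfl

theorem em_wm {V : M → ℝ} (hV : AEMeasurable V μ) {W : M → ℝ} (hW : AEMeasurable W μ)
    {V' : M → ℝ} (h : ∀ x, Real.exp (-V x) * W x = Real.exp (-V' x)) :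
    wm (em μ V) W = em μ V' := by
  unfold em wm
  have h1 : AEMeasurable (fun x => ENNReal.ofReal (Real.exp (-V x))) μ :=
    (Real.measurable_exp.comp_aemeasurable hV.neg).ennreal_ofReal
  rw [← withDensity_mul₀ h1 hW.ennreal_ofReal]
  congr 1
  funext x
  rw [Pi.mul_apply, ← ENNReal.ofReal_mul (Real.exp_pos _).le, h x]

theorem mem_A2_em {V : M → ℝ} (hV : AEMeasurable V μ) {f : M → ℂ} :
    f ∈ A2 (em μ V) ↔ Hol f ∧ ∫⁻ x, ENNReal.ofReal (‖f x‖ ^ 2 * Real.exp (-V x)) ∂μ < ⊤ := by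
  rw [mem_A2]
  have h1 : AEMeasurable (fun x => ENNReal.ofReal (Real.exp (-V x))) μ :=
    (Real.measurable_exp.comp_aemeasurable hV.neg).ennreal_ofReal
  have h2 : ∀ f : M → ℂ, ∫⁻ x, ENNReal.ofReal (‖f x‖ ^ 2) ∂(em μ V) =
      ∫⁻ x, ENNReal.ofReal (‖f x‖ ^ 2 * Real.exp (-V x)) ∂μ := by
    intro f
    unfold em wm
    rw [lintegral_withDensity_eq_lintegral_mul_non_measurable₀ μ h1
      (Eventually.of_forall fun x => ENNReal.ofReal_lt_top)]
    refine lintegral_congr fun x => ?_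
    rw [Pi.mul_apply, mul_comm, ← ENNReal.ofReal_mul (by positivity)]
  rw [h2]

/-- comparison -/
theorem A2_em_le {V V' : M → ℝ} (hV : AEMeasurable V μ) (hV' : AEMeasurable V' μ) {C : ℝ}
    (h : ∀ x, V x ≤ V' x + C) : A2 (em μ V) ≤ A2 (em μ V') := by
  intro f hf
  rw [mem_A2_em hV] at hf
  rw [mem_A2_em hV']
  refine ⟨hf.1, lint_le_lt (C := Real.exp C) (Real.exp_pos C).le (fun x => ?_) hf.2⟩
  have h1 : Real.exp (-V' x) ≤ Real.exp C * Real.exp (-V x) := by
    rw [← Real.exp_add]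
    exact Real.exp_le_exp.2 (by linarith [h x])
  calc ‖f x‖ ^ 2 * Real.exp (-V' x) ≤ ‖f x‖ ^ 2 * (Real.exp C * Real.exp (-V x)) := by gcongr
    _ = _ := by ring

theorem exp_nat_mul_neg (P : ℝ) (k : ℕ) : Real.exp (-P) ^ k = Real.exp (-(k * P)) := by
  rw [← Real.exp_nat_mul]; congr 1; ring

theorem Binv_exp {c : ℕ → M → ℂ} (h0 : ∀ x, c 0 x ≠ 0) (r : ℕ) (x : M) :
    (Bf c r x)⁻¹ = Real.exp (-Pf c r x) := by
  unfold Pf
  rw [Real.exp_neg, Real.exp_log (Bf_pos h0 r x)]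

/-- `∑ e_j P_j` -/
def Ps (c : ℕ → M → ℂ) (m : ℕ) (e : ℕ → ℕ) (x : M) : ℝ :=
  ∑ j ∈ Finset.range (m + 1), (e j : ℝ) * Pf c j x

theorem Wt_exp {c : ℕ → M → ℂ} (h0 : ∀ x, c 0 x ≠ 0) (m : ℕ) (e : ℕ → ℕ) (x : M) :
    Wt c m e x = Real.exp (-Ps c m e x) := by
  unfold Wt Ps
  rw [← Finset.sum_neg_distrib, Real.exp_sum]
  refine Finset.prod_congr rfl fun j _ => ?_
  rw [Binv_exp h0, exp_nat_mul_neg]

theorem Ps_sm {c : ℕ → M → ℂ} (hc : ∀ j, Hol (c j)) (h0 : ∀ x, c 0 x ≠ 0) (m : ℕ)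
    (e : ℕ → ℕ) : Sm (Ps c m e) := by
  unfold Ps
  exact Sm.sum fun j _ => (Sm.const (e j : ℝ)).mulR (Pf_sm hc h0 j)

theorem Levi_Ps_nonneg {c : ℕ → M → ℂ} (hc : ∀ j, Hol (c j)) (h0 : ∀ x, c 0 x ≠ 0) (m : ℕ)
    (e : ℕ → ℕ) (x : M) (w : Fin n → ℂ) : 0 ≤ Levi (Ps c m e) x w := by
  have h1 : ∀ j ∈ Finset.range (m + 1), Sm (fun x => (e j : ℝ) * Pf c j x) := fun j _ =>
    (Sm.const (e j : ℝ)).mulR (Pf_sm hc h0 j)
  rw [Crest.Agent.R271.W792.Levi_eq_lev (Ps_sm hc h0 m e)]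
  unfold Ps
  rw [Crest.Agent.R271.W792.lev_sum _ h1]
  refine Finset.sum_nonneg fun j _ => ?_
  rw [Crest.Agent.R271.W792.lev_const_mul (Pf_sm hc h0 j),
    ← Crest.Agent.R271.W792.Levi_eq_lev (Pf_sm hc h0 j)]
  exact mul_nonneg (Nat.cast_nonneg _) (Levi_Pf_nonneg hc h0 j x w)

theorem Pf_mono (c : ℕ → M → ℂ) (h0 : ∀ x, c 0 x ≠ 0) {i j : ℕ} (hij : i ≤ j) (x : M) :
    Pf c i x ≤ Pf c j x := by
  refine Real.log_le_log (Bf_pos h0 i x) ?_
  induction hij with
  | refl => exact le_rfl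
  | @step k _ ih =>
    have h1 := Bf_succ c k x
    have : 0 ≤ ‖c (k + 1) x‖ ^ 2 := by positivity
    show Bf c i x ≤ Bf c (k + 1) x
    linarith

/-- **the final corner theorem** -/
theorem corner_final (hμ : IsLeb μ) {ρ : M → ℝ} (hρ : Sm ρ)
    (hcpt : ∀ t : ℝ, IsCompact {x | ρ x ≤ t}) (hL : ∀ x w, nsq w ≤ Levi ρ x w)
    {c c' : ℕ → M → ℂ} (hc : ∀ j, Hol (c j)) (h0 : ∀ x, c 0 x ≠ 0)
    (hc' : ∀ j, Hol (c' j)) (h0' : ∀ x, c' 0 x ≠ 0) {m m' : ℕ}
    {V0 : M → ℝ} (hV0 : AEMeasurable V0 μ) {a : ℝ} (ha : 0 < a)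
    (hVc : ∀ r < m, LReg μ V0 fun x w => a * Levi (Pf c (r + 1)) x w)
    (hVc' : ∀ r < m', LReg μ V0 fun x w => a * Levi (Pf c' (r + 1)) x w)
    {Ψ : M → ℝ} (hΨm : Measurable Ψ) (hΨ : LReg μ Ψ fun _ _ => 0) {C : ℝ}
    (hU : ∀ x, |Ψ x + Pf c' m' x - Pf c m x| ≤ C)
    {R : M → ℝ} (hRm : AEMeasurable R μ) (hR : ∀ x, Pf c m x ≤ R x) (hR' : ∀ x, |Pf c' m' x| ≤ R x)
    (hD : ∀ N : ℕ, FiniteDimensional ℂ (A2 (em μ fun x => V0 x + N * R x)))
    (hne : Module.finrank ℂ (A2 (em μ V0)) ≠ 0) :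
    ∃ K0 : ℕ, ∀ k : ℕ, K0 ≤ k → Module.finrank ℂ (A2 (em μ fun x => V0 x + k * Ψ x)) ≠ 0 := by
  have hPc := fun r => Pf_sm hc h0 r
  have hPc' := fun r => Pf_sm hc' h0' r
  have hFm : Measurable fun x => Real.exp (-Ψ x) := Real.measurable_exp.comp hΨm.neg
  have hR0 : ∀ x, 0 ≤ R x := fun x => (abs_nonneg _).trans (hR' x)
  -- bounds
  have hPsle : ∀ (e : ℕ → ℕ) x, Ps c m e x ≤ (∑ j ∈ Finset.range (m + 1), e j : ℕ) * R x := by
    intro e x
    unfold Ps
    rw [Nat.cast_sum, Finset.sum_mul]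
    refine Finset.sum_le_sum fun j hj => ?_
    exact mul_le_mul_of_nonneg_left ((Pf_mono c h0 (Nat.lt_succ_iff.1 (Finset.mem_range.1 hj)) x).trans
      (hR x)) (Nat.cast_nonneg _)
  have hPsle' : ∀ (e : ℕ → ℕ) x, Ps c' m' e x ≤ (∑ j ∈ Finset.range (m' + 1), e j : ℕ) * R x := by
    intro e x
    unfold Ps
    rw [Nat.cast_sum, Finset.sum_mul]
    refine Finset.sum_le_sum fun j hj => ?_
    exact mul_le_mul_of_nonneg_left ((Pf_mono c' h0' (Nat.lt_succ_iff.1 (Finset.mem_range.1 hj)) x).trans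
      ((le_abs_self _).trans (hR' x))) (Nat.cast_nonneg _)
  have hΨle : ∀ (k : ℕ) x, (k : ℝ) * Ψ x ≤ (2 * k : ℕ) * R x + k * C := by
    intro k x
    have h1 := (abs_le.1 (hU x)).2
    have h2 := neg_le_of_abs_le (hR' x)
    have h3 : Ψ x ≤ 2 * R x + C := by linarith [hR x]
    have h4 := mul_le_mul_of_nonneg_left h3 (Nat.cast_nonneg (α := ℝ) k)
    push_cast
    linarith
  -- finite dimension
  have hfd : ∀ (V : M → ℝ) (N : ℕ) (B : ℝ), AEMeasurable V μ → (∀ x, V x ≤ V0 x + N * R x + B) →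
      FiniteDimensional ℂ (A2 (em μ V)) := by
    intro V N B hV hle
    have h1 : A2 (em μ V) ≤ A2 (em μ fun x => V0 x + N * R x) :=
      A2_em_le hV (hV0.add (hRm.const_mul _)) hle
    have := hD N
    exact Submodule.finiteDimensional_of_le h1
  have mΨ : ∀ k : ℕ, AEMeasurable (fun x => (k : ℝ) * Ψ x) μ := fun k =>
    (hΨm.const_mul _).aemeasurable
  -- the weights of the first family
  have key1 : ∀ (k i : ℕ) (e : ℕ → ℕ), wm (em μ V0)
      (fun x => Real.exp (-Ψ x) ^ k * (Bf c' m' x)⁻¹ ^ i * Wt c m e x) =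
      em μ fun x => (k * Ψ x + (i * Pf c' m' x + Ps c m e x)) + V0 x := by
    intro k i e
    refine em_wm hV0 ?_ fun x => ?_
    · exact ((hFm.pow_const k).mul
        ((wA_cont hc' h0' m').measurable.pow_const i)).mul (Wt_cont hc h0 m e).measurable
        |>.aemeasurable
    · rw [Binv_exp h0', exp_nat_mul_neg, exp_nat_mul_neg, Wt_exp h0, ← Real.exp_add,
        ← Real.exp_add, ← Real.exp_add]
      congr 1
      ring
  have key2 : ∀ (k : ℕ) (e : ℕ → ℕ), wm (em μ V0)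
      (fun x => Real.exp (-Ψ x) ^ k * Wt c' m' e x) =
      em μ fun x => (k * Ψ x + Ps c' m' e x) + V0 x := by
    intro k e
    refine em_wm hV0 ?_ fun x => ?_
    · exact (hFm.pow_const k).mul
        (Wt_cont hc' h0' m' e).measurable |>.aemeasurable
    · rw [exp_nat_mul_neg, Wt_exp h0', ← Real.exp_add, ← Real.exp_add]
      congr 1
      ring
  have sm1 : ∀ (i : ℕ) (e : ℕ → ℕ), Sm (fun x => (i : ℝ) * Pf c' m' x + Ps c m e x) := fun i e =>
    ((Sm.const (i : ℝ)).mulR (hPc' m')).add (Ps_sm hc h0 m e)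
  have lr1 : ∀ (i : ℕ) (e : ℕ → ℕ), LReg μ (fun x => (i : ℝ) * Pf c' m' x + Ps c m e x)
      fun _ _ => 0 := by
    intro i e
    refine (LReg.of_smooth (sm1 i e)).mono fun x w => ?_
    rw [Levi_add ((Sm.const (i : ℝ)).mulR (hPc' m')) (Ps_sm hc h0 m e),
      Crest.Agent.R271.W792.Levi_eq_lev ((Sm.const (i : ℝ)).mulR (hPc' m')),
      Crest.Agent.R271.W792.lev_const_mul (hPc' m'),
      ← Crest.Agent.R271.W792.Levi_eq_lev (hPc' m')]
    exact add_nonneg (mul_nonneg (Nat.cast_nonneg _) (Levi_Pf_nonneg hc' h0' m' x w))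
      (Levi_Ps_nonneg hc h0 m e x w)
  have lr2 : ∀ e : ℕ → ℕ, LReg μ (Ps c' m' e) fun _ _ => 0 := fun e =>
    (LReg.of_smooth (Ps_sm hc' h0' m' e)).mono fun x w => Levi_Ps_nonneg hc' h0' m' e x w
  have lrΨ : ∀ k : ℕ, LReg μ (fun x => (k : ℝ) * Ψ x) fun _ _ => 0 := fun k =>
    (hΨ.nsmul k).mono fun _ _ => by simp
  obtain ⟨K0, hK0⟩ := corner (ν := em μ V0) hc h0 hc' h0' (m := m) (m' := m')
    (F := fun x => Real.exp (-Ψ x)) hFm
    (fun x => (Real.exp_pos _).le) (C := Real.exp C)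
    (fun x => by
      rw [Binv_exp h0, Binv_exp h0', ← Real.exp_add, ← Real.exp_add]
      have := abs_le.1 (hU x)
      exact Real.exp_le_exp.2 (by linarith [this.1]))
    (fun x => by
      rw [Binv_exp h0, Binv_exp h0', ← Real.exp_add, ← Real.exp_add]
      have := abs_le.1 (hU x)
      exact Real.exp_le_exp.2 (by linarith [this.2]))
    (fun k i e r hr => by
      rw [key1]
      refine solv_of_lreg hμ hρ hcpt hL (fun x w => Levi_Pf_nonneg hc h0 (r + 1) x w) ha ?_
      exact (((lrΨ k).add (lr1 i e)).add (hVc r hr)).mono fun x w => by simp)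
    (fun k e r hr => by
      rw [key2]
      refine solv_of_lreg hμ hρ hcpt hL (fun x w => Levi_Pf_nonneg hc' h0' (r + 1) x w) ha ?_
      exact (((lrΨ k).add (lr2 e)).add (hVc' r hr)).mono fun x w => by simp)
    (fun k i e => by
      rw [key1]
      refine hfd _ (2 * k + i + ∑ j ∈ Finset.range (m + 1), e j) (k * C)
        (((mΨ k).add (sm1 i e).continuous.measurable.aemeasurable).add hV0) fun x => ?_
      have h1 := hΨle k x
      have h2 := hPsle e x
      have h3 : (i : ℝ) * Pf c' m' x ≤ i * R x :=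
        mul_le_mul_of_nonneg_left ((le_abs_self _).trans (hR' x)) (Nat.cast_nonneg _)
      push_cast at h1 h2 ⊢
      linarith)
    (fun k e => by
      rw [key2]
      refine hfd _ (2 * k + ∑ j ∈ Finset.range (m' + 1), e j) (k * C)
        (((mΨ k).add (Ps_sm hc' h0' m' e).continuous.measurable.aemeasurable).add hV0) fun x => ?_
      have h1 := hΨle k x
      have h2 := hPsle' e x
      push_cast at h1 h2 ⊢
      linarith)
    hne
  refine ⟨K0, fun k hk => ?_⟩
  have h1 := hK0 k hk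
  have h2 : wm (em μ V0) (fun x => Real.exp (-Ψ x) ^ k) = em μ fun x => V0 x + k * Ψ x := by
    refine em_wm hV0 (hFm.pow_const k).aemeasurable fun x => ?_
    rw [exp_nat_mul_neg, ← Real.exp_add]
    congr 1
    ring
  rwa [h2] at h1

end Crest.Agent.R273.PenFin_93
end
end

-- ▼ part R273/AsmD_73
section

/-!
# R273 (S0416), master of Part A, half 1, part D (helper73): assembly

`App Y`         : the T-lemma for all partial families of `Y`, with one `u`
`hasSec_of_app` : `App Y` implies that a power of `L` has a section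
-/

set_option autoImplicit false
set_option linter.unusedSectionVars false

open Set Filter Topology Complex MeasureTheory
open scoped ContDiff Matrix ENNReal

namespace Crest.Agent.R273.AsmA_73

open Crest.Agent.R275.Geo Crest.Agent.R275.Core144 Crest.Agent.R275.GC293
open Crest.Agent.R273.SteinA_794
open Crest.Agent.R273.SteinB_794 Crest.Agent.R273.SteinC_794 Crest.Agent.R273.SteinD_794
open Crest.Agent.R273.SteinM_794 Crest.Agent.R273.SteinN_794 Crest.Agent.R273.SteinL_794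
open Crest.Agent.R273.Defs_333 (ProjD HM HM.wt HM.Semipos HasSec)
open Crest.Agent.R273.Vm_333 (vm)
open Crest.Agent.R273.Kah_333 (cur Kah hsf)
open Crest.Agent.R273.TLd_201 (TD)
open Crest.Agent.R273.T4C_223 (xr)
open Crest.Agent.R273.T4E_223 (Appr)
open Crest.Agent.R271.Ho51 (RDom cp ch IsCh IsLeb Hol Sm mem_ch isCh_ch Levi exists_leb)
open Crest.Agent.R271.W792 (lev)
open Crest.Agent.R273.Pen_93 Crest.Agent.R273.PenAlg_93
open Crest.Agent.R273.Reg_844 (PSH)
open Crest.Agent.R273.SolvC_93 (LReg)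
open Crest.Agent.R273.PenFin_93 (em em_def mem_A2_em corner_final)

noncomputable section

variable {n : ℕ} {M : Type} [TopologicalSpace M] {A : Atl n M}

/-- the T-lemma data for the function `P` on the domain -/
def AppP (h : HM (KB A)⁻¹) (S : SD A) [MeasurableSpace M] [BorelSpace M] [Countable A.ι]
    (K : Kah A) (δ : ℝ) (u : M → ℝ) (P : Mo S → ℝ) : Prop :=
  ∃ D : TD A, Appr h D K δ u ∧ S.U ⊆ D.U ∧
    ∀ i, ∀ x : Mo S, x.val ∈ (A.e i).source → D.be i x.val = hsf A (xr P) i x.val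

/-- the T-lemma for all partial families, with one `u` -/
def App {h : HM (KB A)⁻¹} {L : LB A} {hL : HM L} (Y : YD h L hL) [MeasurableSpace M]
    [BorelSpace M] [Countable A.ι] : Prop :=
  ∃ (K : Kah A) (δ η : ℝ) (u : M → ℝ), 0 < δ ∧ 0 < η ∧ Measurable u ∧ (∀ x, u x ≤ 0) ∧
    MemLp u 2 (vm h) ∧ Integrable (fun x => Real.exp (-(η * u x))) (vm h) ∧
    (∀ r < Y.m, AppP h Y.S K δ u (Pf Y.c (r + 1))) ∧
    (∀ r < Y.m', AppP h Y.S K δ u (Pf Y.c' (r + 1)))

namespace YD

variable {h : HM (KB A)⁻¹} {L : LB A} {hL : HM L} (Y : YD h L hL)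

theorem gw_1B [CompactSpace M] (p : ℕ → MvPolynomial (Fin Y.N) ℂ)
    (h0 : ∀ x, evp Y.y p 0 x ≠ 0) (r : ℕ) : GW Y.S fun x => (1 + Bf (evp Y.y p) r x)⁻¹ := by
  obtain ⟨C, hC, h1, h2⟩ := Y.bounds
  obtain ⟨D, K, hK, h3⟩ := Bf_growth Y.X_pos hC h1 h2 p r
  have hK' : 0 < K + C ^ D := by positivity
  refine (Y.gw_X.pow D).mono (inv_pos.2 hK') fun x => ?_
  have hB := Bf_pos h0 r x
  have hB1 : 0 < 1 + Bf (evp Y.y p) r x := by linarith
  rw [inv_mul_eq_div, div_le_iff₀ hK', inv_mul_eq_div, le_div_iff₀ hB1, mul_comm, add_mul, one_mul]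
  have h4 : Y.X x ^ D ≤ C ^ D := pow_le_pow_left₀ (Y.X_pos x).le (h1 x) D
  linarith [h3 x]

/-- a function which bounds both families -/
def Q (x : Mo Y.S) : ℝ := (1 + Bf Y.c' Y.m' x) * ((1 + Bf Y.c Y.m x) * (1 + (Bf Y.c Y.m x)⁻¹))

theorem B_pos (x : Mo Y.S) : 0 < Bf Y.c Y.m x := Bf_pos Y.cne _ x

theorem B_pos' (x : Mo Y.S) : 0 < Bf Y.c' Y.m' x := Bf_pos Y.cne' _ x

theorem Q_ge (x : Mo Y.S) : 1 ≤ Y.Q x ∧ Bf Y.c' Y.m' x ≤ Y.Q x ∧ Bf Y.c Y.m x ≤ Y.Q x ∧
    (Bf Y.c Y.m x)⁻¹ ≤ Y.Q x := by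
  have h1 := Y.B_pos x
  have h2 := Y.B_pos' x
  have h3 : 0 < (Bf Y.c Y.m x)⁻¹ := inv_pos.2 h1
  unfold Q
  set a := Bf Y.c' Y.m' x
  set b := Bf Y.c Y.m x
  set d := b⁻¹
  have e : (1 + a) * ((1 + b) * (1 + d)) = 1 + a + b + d + (a * b + a * d + b * d + a * (b * d)) := by
    ring
  have h4 : 0 ≤ a * b + a * d + b * d + a * (b * d) := by positivity
  rw [e]
  refine ⟨?_, ?_, ?_, ?_⟩ <;> linarith

theorem Q_pos (x : Mo Y.S) : 0 < Y.Q x := lt_of_lt_of_le one_pos (Y.Q_ge x).1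

theorem Q_cont : Continuous Y.Q := by
  have h1 := Bf_cont Y.hc Y.m
  have h2 := Bf_cont Y.hc' Y.m'
  exact (continuous_const.add h2).mul ((continuous_const.add h1).mul
    (continuous_const.add (h1.inv₀ fun x => (Y.B_pos x).ne')))

theorem gw_Q [CompactSpace M] : GW Y.S fun x => (Y.Q x)⁻¹ := by
  have h1 := (Y.gw_1B Y.p' Y.c0' Y.m').mul ((Y.gw_1B Y.p Y.c0 Y.m).mul
    ((Y.gw_B Y.p Y.c0 Y.m).mul (Y.gw_1B Y.p Y.c0 Y.m)))
  refine h1.mono one_pos fun x => le_of_eq ?_
  have h2 := Y.B_pos x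
  have h3 := Y.B_pos' x
  show 1 * ((1 + Bf Y.c' Y.m' x)⁻¹ * ((1 + Bf Y.c Y.m x)⁻¹ * (Bf Y.c Y.m x *
    (1 + Bf Y.c Y.m x)⁻¹))) = ((1 + Bf Y.c' Y.m' x) * ((1 + Bf Y.c Y.m x) *
      (1 + (Bf Y.c Y.m x)⁻¹)))⁻¹
  field_simp
  ring

theorem nonempty : Nonempty (Mo Y.S) := by
  obtain ⟨i, x, hx, h0⟩ := Y.d0
  have h1 : x ∈ Y.S.U := by
    rw [Y.U_eq]
    exact (mem_nz Y.hd hx).2 h0
  exact ⟨⟨x, h1⟩⟩

end YD

section final

variable [T2Space M] [CompactSpace M] [ConnectedSpace M] [Finite A.ι] [MeasurableSpace M]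
  [BorelSpace M] {h : HM (KB A)⁻¹} {L : LB A} {hL : HM L}

/-- **Half 1**, modulo the T-lemma for the partial families -/
theorem hasSec_of_app (P : Part A) (hh : h.Semipos) (hhL : hL.Semipos) (Y : YD h L hL)
    (hApp : App Y) : ∃ m : ℕ, 0 < m ∧ HasSec (L ^ m) := by
  have _ : SecondCountableTopology M := secM (A := A)
  obtain ⟨μ, hμ⟩ := exists_leb (M := Mo Y.S)
  obtain ⟨K, δ, η₀, u, hδ, hη₀, hum, hu0, hu2, hui₀, hA, hA'⟩ := hApp
  obtain ⟨Ψ, hΨ, C, hΨC⟩ := Crest.Agent.R273.PsiYD_145.psi_of_YD hh hhL Y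
  obtain ⟨CU, hCU, hUa⟩ := Y.Ua
  -- `η ≤ 1`
  set η : ℝ := min η₀ 1 with hη_def
  have hη : 0 < η := lt_min hη₀ one_pos
  have hη1 : η ≤ 1 := min_le_right _ _
  have hui : Integrable (fun x => Real.exp (-(η * u x))) (vm h) := by
    refine hui₀.mono' ((Real.measurable_exp.comp ((hum.const_mul η).neg)).aestronglyMeasurable)
      (Eventually.of_forall fun x => ?_)
    rw [Real.norm_eq_abs, abs_of_pos (Real.exp_pos _)]
    refine Real.exp_le_exp.2 ?_
    have := mul_le_mul_of_nonpos_right (min_le_left η₀ 1) (hu0 x)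
    linarith
  -- the weight
  set V0 : Mo Y.S → ℝ := Crest.Agent.R273.T4F_223.V0 h Y.S η u with hV0
  have hV0m : Measurable V0 := Crest.Agent.R273.T4F_223.meas_V0 h hum
  have hV0le : ∀ x, V0 x ≤ Y.φK x := by
    intro x
    have := mul_nonpos_of_nonneg_of_nonpos hη.le (hu0 x.val)
    show wtS h (kf Y.S) x.val + η * u x.val ≤ wtS h (kf Y.S) x.val
    linarith
  have hreg : ∀ {Q : Mo Y.S → ℝ}, Sm Q → AppP h Y.S K δ u Q →
      LReg μ V0 fun x w => (η * δ) * Levi Q x w := by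
    rintro Q hQ ⟨D, hD, hU, hb⟩
    exact Crest.Agent.R273.T4F_223.lreg hμ hh hη.le hη1 hum hu2 hD hU hQ hb
  have hmass := Crest.Agent.R273.T4F_223.lint_V0 (S := Y.S) hμ hum hui
  -- finite dimension
  have hfd : ∀ N : ℕ, FiniteDimensional ℂ (A2 (em μ fun x => V0 x + N * Real.log (Y.Q x))) := by
    intro N
    rw [em_def]
    refine fd_of_GW P h hμ Y.hd Y.d0 Y.U_eq ?_ ?_
    · exact Real.measurable_exp.comp (hV0m.add ((Y.Q_cont.measurable.log).const_mul _)).neg
    · have h1 := (GW.of_frame (S := Y.S) h (isHS_kf Y.S) kf_ne).mul (Y.gw_Q.pow N)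
      refine h1.mono one_pos fun x => ?_
      rw [one_mul, neg_add, Real.exp_add]
      have h2 : Real.exp (-(N * Real.log (Y.Q x))) = ((Y.Q x)⁻¹) ^ N := by
        rw [← mul_neg, Real.exp_nat_mul, Real.exp_neg, Real.exp_log (Y.Q_pos x)]
      rw [h2]
      have h3 : 0 < (Y.Q x)⁻¹ := inv_pos.2 (Y.Q_pos x)
      have h4 : Real.exp (-(wtS h (kf Y.S) x.val)) ≤ Real.exp (-V0 x) :=
        Real.exp_le_exp.2 (neg_le_neg (hV0le x))
      gcongr
  have hne : Module.finrank ℂ (A2 (em μ V0)) ≠ 0 := by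
    have h1 := hfd 0
    have h1' : (fun x => V0 x + ((0 : ℕ) : ℝ) * Real.log (Y.Q x)) = V0 := by
      funext x
      rw [Nat.cast_zero, zero_mul, add_zero]
    rw [h1'] at h1
    have hone : (fun _ : Mo Y.S => (1 : ℂ)) ∈ A2 (em μ V0) := by
      rw [mem_A2_em hV0m.aemeasurable]
      refine ⟨hol_const 1, ?_⟩
      simpa using hmass
    obtain ⟨x⟩ := Y.nonempty
    have hnt : Nontrivial (A2 (em μ V0)) := by
      refine ⟨⟨⟨_, hone⟩, 0, fun h0 => ?_⟩⟩
      have h2 := congrFun (congrArg Subtype.val h0) x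
      exact one_ne_zero h2
    exact (Module.finrank_pos (R := ℂ) (M := A2 (em μ V0))).ne'
  -- the corner
  obtain ⟨K0, hK0⟩ := corner_final hμ (rho_sm Y.E) (rho_compact Y.E) (rho_levi Y.E)
    (c := Y.c') (c' := Y.c) Y.hc' Y.cne' Y.hc Y.cne (m := Y.m') (m' := Y.m) hV0m.aemeasurable
    (mul_pos hη hδ)
    (fun r hr => hreg (Pf_sm Y.hc' Y.cne' (r + 1)) (hA' r hr))
    (fun r hr => hreg (Pf_sm Y.hc Y.cne (r + 1)) (hA r hr))
    hΨ.usc.measurable (Crest.Agent.R273.SolvD_93.PSH.lreg hΨ) (C := C)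
    (fun x => by
      have h1 := hΨC x
      have h2 : Ψ x + Pf Y.c Y.m x - Pf Y.c' Y.m' x =
          Ψ x - (Real.log (Bf (evp Y.y Y.p') Y.m' x) - Real.log (Bf (evp Y.y Y.p) Y.m x)) := by
        show Ψ x + Real.log (Bf (evp Y.y Y.p) Y.m x) - Real.log (Bf (evp Y.y Y.p') Y.m' x) = _
        ring
      rw [h2]
      exact h1)
    (R := fun x => Real.log (Y.Q x)) (Y.Q_cont.measurable.log).aemeasurable
    (fun x => Real.log_le_log (Y.B_pos' x) (Y.Q_ge x).2.1)
    (fun x => by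
      rw [abs_le]
      constructor
      · have h1 := Real.log_le_log (inv_pos.2 (Y.B_pos x)) (Y.Q_ge x).2.2.2
        rw [Real.log_inv] at h1
        show -Real.log (Y.Q x) ≤ Real.log (Bf Y.c Y.m x)
        linarith
      · exact Real.log_le_log (Y.B_pos x) (Y.Q_ge x).2.2.1)
    hfd hne
  set k : ℕ := max K0 1 with hk
  have hk0 : 0 < k := lt_of_lt_of_le one_pos (le_max_right _ _)
  have h5 := hK0 k (le_max_left _ _)
  obtain ⟨⟨f, hf⟩, hf0⟩ : ∃ f : A2 (em μ fun x => V0 x + k * Ψ x), f ≠ 0 := by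
    by_contra hcon
    push Not at hcon
    have : Subsingleton (A2 (em μ fun x => V0 x + k * Ψ x)) :=
      ⟨fun a b => (hcon a).trans (hcon b).symm⟩
    exact h5 (Module.finrank_zero_of_subsingleton)
  have hmeas : AEMeasurable (fun x => V0 x + k * Ψ x) μ :=
    (hV0m.add ((hΨ.usc.measurable).const_mul _)).aemeasurable
  rw [mem_A2_em hmeas] at hf
  refine ⟨Y.j0 * (Y.e * k), Nat.mul_pos Y.j0_pos (Nat.mul_pos Y.e_pos hk0),
    Y.land hμ hk0 hf.1 (fun h0 => hf0 (Subtype.ext h0)) ?_⟩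
  -- comparison of the weights
  refine lt_of_le_of_lt (lintegral_mono (g := fun x => ENNReal.ofReal ((CU * Real.exp C) ^ k) *
    ENNReal.ofReal (‖f x‖ ^ 2 * Real.exp (-(V0 x + k * Ψ x)))) fun x => ?_) ?_
  · show ENNReal.ofReal _ ≤ _ * ENNReal.ofReal _
    rw [← ENNReal.ofReal_mul (by positivity)]
    refine ENNReal.ofReal_le_ofReal ?_
    have hB := Y.B_pos x
    have hB' := Y.B_pos' x
    have e1 : (‖Y.lam x‖ ^ 2 * Real.exp (-(Y.j0 * Y.φL x))) ^ Y.e ≤
        (CU * Real.exp C) * Real.exp (-Ψ x) := by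
      have h6 : (‖Y.lam x‖ ^ 2 * Real.exp (-(Y.j0 * Y.φL x))) ^ Y.e * Bf Y.c' Y.m' x ≤
        CU * Bf Y.c Y.m x := hUa x
      have h7 : Bf Y.c Y.m x ≤ Real.exp C * Real.exp (-Ψ x) * Bf Y.c' Y.m' x := by
        have h8 := (abs_le.1 (hΨC x)).2
        have h9 : Real.log (Bf Y.c Y.m x) ≤ C + (-Ψ x) + Real.log (Bf Y.c' Y.m' x) := by
          have h10 : Ψ x - (Real.log (Bf Y.c' Y.m' x) - Real.log (Bf Y.c Y.m x)) ≤ C := h8
          linarith
        calc Bf Y.c Y.m x = Real.exp (Real.log (Bf Y.c Y.m x)) := (Real.exp_log hB).symm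
          _ ≤ Real.exp (C + (-Ψ x) + Real.log (Bf Y.c' Y.m' x)) := Real.exp_le_exp.2 h9
          _ = _ := by rw [Real.exp_add, Real.exp_add, Real.exp_log hB']
      have h11 : (‖Y.lam x‖ ^ 2 * Real.exp (-(Y.j0 * Y.φL x))) ^ Y.e * Bf Y.c' Y.m' x ≤
          (CU * Real.exp C) * Real.exp (-Ψ x) * Bf Y.c' Y.m' x := by
        calc _ ≤ CU * Bf Y.c Y.m x := h6
          _ ≤ CU * (Real.exp C * Real.exp (-Ψ x) * Bf Y.c' Y.m' x) := by gcongr
          _ = _ := by ring
      exact le_of_mul_le_mul_right h11 hB'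
    have e2 : Real.exp (-Y.φK x) ≤ Real.exp (-V0 x) := Real.exp_le_exp.2 (neg_le_neg (hV0le x))
    have e3 : (‖Y.lam x‖ ^ 2 * Real.exp (-(Y.j0 * Y.φL x))) ^ (Y.e * k) ≤
        (CU * Real.exp C) ^ k * Real.exp (-(k * Ψ x)) := by
      rw [pow_mul]
      calc ((‖Y.lam x‖ ^ 2 * Real.exp (-(Y.j0 * Y.φL x))) ^ Y.e) ^ k
          ≤ ((CU * Real.exp C) * Real.exp (-Ψ x)) ^ k := by gcongr
        _ = _ := by rw [mul_pow, ← Real.exp_nat_mul, mul_neg]
    calc ‖f x‖ ^ 2 * ((‖Y.lam x‖ ^ 2 * Real.exp (-(Y.j0 * Y.φL x))) ^ (Y.e * k) *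
          Real.exp (-Y.φK x))
        ≤ ‖f x‖ ^ 2 * (((CU * Real.exp C) ^ k * Real.exp (-(k * Ψ x))) * Real.exp (-V0 x)) := by
          gcongr
      _ = (CU * Real.exp C) ^ k * (‖f x‖ ^ 2 * Real.exp (-(V0 x + k * Ψ x))) := by
          rw [neg_add, Real.exp_add]
          ring
  · rw [lintegral_const_mul' _ _ ENNReal.ofReal_ne_top]
    exact ENNReal.mul_lt_top ENNReal.ofReal_lt_top hf.2

/-- **Half 1** from `App` -/
theorem half1_of (hG : GoodA A) (P : Part A) (Pr : ProjD A) (hh : h.Semipos)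
    (HA : ∀ (L : LB A) (hL : HM L), (∀ i, ∀ x ∈ (A.e i).source, cur hL i x = cur h i x) →
      ∀ Y : YD h L hL, App Y) : HasSecOfYD A h := by
  intro L hL hc hY
  obtain ⟨Y⟩ := hY
  have hhL : hL.Semipos := Crest.Agent.R273.Kah_333.semipos_of_cur fun i x hx => by
    rw [hc i x hx]
    exact Crest.Agent.R273.Kah_333.cur_posSemidef hh i hx
  exact hasSec_of_app P hh hhL Y (HA L hL hc Y)

end final

end

end Crest.Agent.R273.AsmA_73
end

-- ▼ part R273/AppE_834
section

/-!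
# R273 (S0416), leaf A-APP, part E (helper834): `App Y` and Half 1 of Part A, unconditional

* `app_yd`  : `App Y` for every `Y : YD h L hL`
* `half1`   : `HasSecOfYD A h`
* `partA_of_yd` : Part A from `ExistsYD`
-/

set_option autoImplicit false
set_option linter.unusedSectionVars false

open Set Filter Topology Complex MeasureTheory
open scoped ContDiff Matrix ENNReal

namespace Crest.Agent.R273.AppE_834

open Crest.Agent.R275.Geo Crest.Agent.R275.Core144 Crest.Agent.R275.GC293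
open Crest.Agent.R273.Defs_333 Crest.Agent.R273.Kah_333
open Crest.Agent.R273.AppB_834 Crest.Agent.R273.AppD_834
open Crest.Agent.R273.AsmA_73 Crest.Agent.R273.T4C_223
open Crest.Agent.R273.Vm_333 (vm)

noncomputable section

variable {n : ℕ} {M : Type} [TopologicalSpace M] [T2Space M] [CompactSpace M] [ConnectedSpace M]
  {A : Atl n M} [Finite A.ι] {L : LB A} {h : HM (KB A)⁻¹} {hL : HM L}

/-- **the T-lemma for all partial families, with one `u`** -/
theorem app_yd [MeasurableSpace M] [BorelSpace M] (hG : GoodA A) (P : Part A) (Pr : ProjD A)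
    (hs : h.Semipos) (Y : YD h L hL) : App Y := by
  obtain ⟨δ, η, u, h1, h2, -, h3, h4, h5, h6, -, h7, h8⟩ :=
    app YauFin_635.yau hG P (FS_333.fs_pos Pr) hs Y
  refine ⟨kah (FS_333.fs Pr) (FS_333.fs_pos Pr), δ, η, u, h1, h2, h3, h4, h5, h6,
    fun r hr => ?_, fun r hr => ?_⟩
  · obtain ⟨a, b, c⟩ := h7 (r + 1) hr
    obtain ⟨-, -, -, -, -, -, a'⟩ := a
    exact ⟨_, a', b, fun i x hx => c _ (fun x => xr_val _ x) x i hx⟩
  · obtain ⟨a, b, c⟩ := h8 (r + 1) hr
    obtain ⟨-, -, -, -, -, -, a'⟩ := a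
    exact ⟨_, a', b, fun i x hx => c _ (fun x => xr_val _ x) x i hx⟩

/-- **Half 1 of Part A** -/
theorem half1 (hG : GoodA A) (P : Nonempty (Part A)) (Pr : ProjD A) (hs : h.Semipos) :
    HasSecOfYD A h := by
  obtain ⟨P⟩ := P
  borelize M
  exact half1_of hG P Pr hs fun L hL _ Y => app_yd hG P Pr hs Y

end

/-- **Part A** from Half 2 -/
theorem partA_of_yd
    (H2 : ∀ (n : ℕ) (M : Type) [TopologicalSpace M] [T2Space M] [CompactSpace M]
      [ConnectedSpace M] (A : Atl n M) [Finite A.ι], GoodA A → Nonempty (Part A) → ProjD A →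
      ∀ h : HM (KB A)⁻¹, h.Semipos → ExistsYD A h) :
    Crest.Agent.R273.PartA_61.PartA :=
  partA_of (fun _ _ _ _ _ _ _ _ hG hP Pr _ hs => half1 hG hP Pr hs) H2

end Crest.Agent.R273.AppE_834
end

-- ▼ part R273/AsmZ_73
section

/-!
# R273 (S0416), Part A: final assembly (helper73)

* `R4Stmt`    : (R4) for all choices `X : HD P L` (helper769)
* `existsYD`  : Half 2, from `F1Stmt` and `R4Stmt`
* `partA`     : Part A, from `F1Stmt` and `R4Stmt`
-/

set_option autoImplicit false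
set_option linter.unusedSectionVars false

open Set Filter Topology Complex MeasureTheory
open scoped ContDiff Matrix ENNReal NNReal

namespace Crest.Agent.R273.AsmZ_73

open Crest.Agent.R275.Geo Crest.Agent.R275.Core144 Crest.Agent.R275.GC293
open Crest.Agent.R273.SteinA_794 Crest.Agent.R273.SteinC_794 Crest.Agent.R273.SteinB_794
open Crest.Agent.R273.SteinE_794
open Crest.Agent.R273.Defs_333 (ProjD HM HM.wt HM.Semipos HM.Pos HasSec)
open Crest.Agent.R273.Kah_333 (cur Kah kah)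
open Crest.Agent.R273.FS_333 (lb fs fs_pos)
open Crest.Agent.R273.FF769
open Crest.Agent.R273.Cram_747 (TS)
open Crest.Agent.R273.Fock_243 (FI)
open Crest.Agent.R273.TD3_733 (D2)
open Crest.Agent.R273.Chow_313
open Crest.Agent.R273.YDx5_945 Crest.Agent.R273.YDx6_945 Crest.Agent.R273.AsmY_73
open Crest.Agent.R273.AsmA_73 (YD ExistsYD)

noncomputable section

section

variable {n : ℕ} {M : Type} [TopologicalSpace M] {A : Atl n M} {P : ProjD A} {L : LB A}
  [T2Space M] [CompactSpace M] [Finite A.ι] [ConnectedSpace M]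

/-- (R4), squared form of #2227 -/
def R4sq (X : HD P L) (hL : HM L) : Prop :=
  ∃ g1 : Reg (lb P ^ X.D.m) X.D.t X.D.ht, g1 ≠ 0 ∧ ∀ x : nz X.D.t, g1.1 x ≠ 0 →
    ∃ b : ℝ, ∀ x' : nz X.D.t, (∀ l, X.y l x'.1 = X.y l x.1) → g1.1 x' ≠ 0 →
      ‖X.lam x'.1‖ ^ 2 * Real.exp (-(X.j0 * wtS hL X.σ x'.1)) ≤ b

theorem Lam_sq (X : HD P L) (hL : HM L) (x : M) :
    Lam X hL x ^ 2 = ‖X.lam x‖ ^ 2 * Real.exp (-(X.j0 * wtS hL X.σ x)) := by
  unfold Lam
  rw [mul_pow, ← Real.exp_nat_mul]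
  congr 2
  push_cast
  ring

theorem Lam_nonneg (X : HD P L) (hL : HM L) (x : M) : 0 ≤ Lam X hL x :=
  mul_nonneg (norm_nonneg _) (Real.exp_pos _).le

theorem r4_iff {X : HD P L} {hL : HM L} : R4 X hL ↔ R4sq X hL := by
  constructor
  · rintro ⟨g, hg, h⟩
    refine ⟨g, hg, fun x hx => ?_⟩
    obtain ⟨b, hb⟩ := h x hx
    refine ⟨b ^ 2, fun x' hy hx' => ?_⟩
    rw [← Lam_sq]
    exact pow_le_pow_left₀ (Lam_nonneg X hL _) (hb x' hx' hy) 2
  · rintro ⟨g, hg, h⟩
    refine ⟨g, hg, fun x hx => ?_⟩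
    obtain ⟨b, hb⟩ := h x hx
    refine ⟨Real.sqrt b, fun x' hx' hy => ?_⟩
    refine Real.le_sqrt_of_sq_le ?_
    rw [Lam_sq]
    exact hb x' hy hx'

end

/-- (R4) for all choices -/
def R4Stmt : Prop :=
  ∀ (n : ℕ) (M : Type) [TopologicalSpace M] [T2Space M] [CompactSpace M] [ConnectedSpace M]
    (A : Atl n M) [Finite A.ι], GoodA A → Part A → D2 A → ∀ (P : ProjD A) (L : LB A) (hL : HM L)
    (X : HD P L), R4sq X hL

section

variable {n : ℕ} {M : Type} [TopologicalSpace M] [T2Space M] [CompactSpace M] [ConnectedSpace M]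
  {A : Atl n M} [Finite A.ι]

/-- **Half 2** -/
theorem existsYD (hF1 : F1Stmt) (hR4 : R4Stmt) (hG : GoodA A) (hP : Nonempty (Part A))
    (P : ProjD A) {h : HM (KB A)⁻¹} (hs : h.Semipos) : ExistsYD A h := by
  obtain ⟨PA⟩ := hP
  have hD : D2 A := Crest.Agent.R273.D13_505.d2 PA (kah (fs P) (fs_pos P))
  intro T t ht q hinf
  set L : LB A := (KB A)⁻¹ * T with hL
  have hc : ∀ i, ∀ x ∈ (A.e i).source, cur (Crest.Agent.R273.HM_333.mul h t) i x = cur h i x :=
    fun i x hx => by rw [Crest.Agent.R273.Kah_333.cur_mul h t i hx, ht i x hx, add_zero]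
  obtain ⟨r, hr, K, hK, w, hw, hp⟩ := Crest.Agent.R273.Cram_747.exists_family (L := L) (q := q)
    (fun k => Crest.Agent.R273.NV_578.NV (L ^ k) h q) (fun k => inf_le_left) hinf
  have ts : ∀ k ∈ K, TS (Fin r) (L ^ k) (w k) := fun k hk => (hw k hk).1
  have ne : ∀ k ∈ K, w k ≠ 0 := fun k hk => (hw k hk).2.1
  obtain ⟨a, ha⟩ := hK.nonempty
  by_cases hFF : FF (ts a ha) (ne a ha) = ⊥
  · exact Or.inl (hasSec_of_bot (preconn_target hG) hK ts ne hp ha hFF)
  · obtain ⟨X⟩ := exists_HD hF1 PA hD P hK ts ne hp ha hFF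
    exact Or.inr (yd_of Crest.Agent.R273.YauFin_635.yau hG PA hD (fs_pos P) hs hc X
      (r4_iff.2 (hR4 n M A hG PA hD P L _ X)))

end

/-- **Part A** -/
theorem partA (hF1 : F1Stmt) (hR4 : R4Stmt) : Crest.Agent.R273.PartA_61.PartA :=
  Crest.Agent.R273.AppE_834.partA_of_yd fun _ _ _ _ _ _ _ _ hG hP P _ hs =>
    existsYD hF1 hR4 hG hP P hs

end

end Crest.Agent.R273.AsmZ_73
end

-- ▼ part R273/R4z_73
section

/-!
# R273 (S0416), Part A, HALF 2, (R4), part 3 (helper73)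

* `r4`     : (R4) for all choices `X : HD P L`
* `r4Stmt` : `AsmZ_73.R4Stmt`
-/

set_option autoImplicit false
set_option linter.unusedSectionVars false

open Set Filter Topology Complex MeasureTheory
open scoped ContDiff Matrix ENNReal NNReal

namespace Crest.Agent.R273.R4x_73

open Crest.Agent.R275.Geo Crest.Agent.R275.Core144 Crest.Agent.R275.GC293
open Crest.Agent.R273.SteinA_794
open Crest.Agent.R273.SteinB_794 Crest.Agent.R273.SteinC_794 Crest.Agent.R273.SteinD_794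
open Crest.Agent.R273.SteinE_794 Crest.Agent.R273.SteinF_794 Crest.Agent.R273.SteinG_794
open Crest.Agent.R273.Defs_333 (ProjD HM HM.wt HM.Semipos HM.Pos HasSec)
open Crest.Agent.R273.FS_333 (lb sec isHS_sec exists_sec_ne fs)
open Crest.Agent.R273.Mer769 Crest.Agent.R273.FF769
open Crest.Agent.R273.TD3_733 (D2)
open Crest.Agent.R273.SerE_945 (ggen_proj)
open Crest.Agent.R273.Chow_313
open Crest.Agent.R273.YDx5_945
open Crest.Agent.R273.Cmp_145 (sq sq_pos cmp0)

noncomputable section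

variable {n : ℕ} {M : Type} [TopologicalSpace M] {A : Atl n M} {P : ProjD A} {L : LB A}
  [ConnectedSpace M] (X : HD P L)

/-- bounded on the fibres of `y`, outside of a divisor -/
def Bd (Φ : nz X.D.t → ℝ) : Prop :=
  ∃ g1 : Reg (lb P ^ X.D.m) X.D.t X.D.ht, g1 ≠ 0 ∧ ∀ x : nz X.D.t, g1.1 x ≠ 0 →
    ∃ b : ℝ, ∀ x' : nz X.D.t, (∀ l, X.y l x'.1 = X.y l x.1) → g1.1 x' ≠ 0 → Φ x' ≤ b

variable {X} [T2Space M]

theorem Bd.zero : Bd X fun _ => 0 := by
  have := reg_domain X.D.ht (Xne (X := X))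
  exact ⟨1, one_ne_zero, fun x _ => ⟨0, fun _ _ _ => le_rfl⟩⟩

theorem Bd.add {Φ Ψ : nz X.D.t → ℝ} (h : Bd X Φ) (h' : Bd X Ψ) : Bd X fun x => Φ x + Ψ x := by
  obtain ⟨g, hg, h1⟩ := h
  obtain ⟨g', hg', h2⟩ := h'
  refine ⟨g * g', mul_ne hg hg', fun x hx => ?_⟩
  have e : ∀ x, (g * g').1 x = g.1 x * g'.1 x := fun x => rfl
  rw [e] at hx
  obtain ⟨b, hb⟩ := h1 x (left_ne_zero_of_mul hx)
  obtain ⟨b', hb'⟩ := h2 x (right_ne_zero_of_mul hx)
  refine ⟨b + b', fun x' hy hx' => ?_⟩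
  rw [e] at hx'
  exact add_le_add (hb x' hy (left_ne_zero_of_mul hx')) (hb' x' hy (right_ne_zero_of_mul hx'))

theorem Bd.sum {κ : Type*} (s : Finset κ) {Φ : κ → nz X.D.t → ℝ} (h : ∀ c ∈ s, Bd X (Φ c)) :
    Bd X fun x => ∑ c ∈ s, Φ c x := by
  classical
  induction s using Finset.induction_on with
  | empty => simpa using Bd.zero
  | insert a s ha ih =>
    have h1 := (h a (Finset.mem_insert_self a s)).add
      (ih fun c hc => h c (Finset.mem_insert_of_mem hc))
    refine Eq.mp ?_ h1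
    congr 1
    funext x
    rw [Finset.sum_insert ha]

theorem Bd.mono {Φ Ψ : nz X.D.t → ℝ} (h : Bd X Φ) {C : ℝ} (hC : 0 ≤ C)
    (hle : ∀ x, Ψ x ≤ C * Φ x) : Bd X Ψ := by
  obtain ⟨g, hg, h1⟩ := h
  refine ⟨g, hg, fun x hx => ?_⟩
  obtain ⟨b, hb⟩ := h1 x hx
  exact ⟨C * b, fun x' hy hx' => (hle x').trans (mul_le_mul_of_nonneg_left (hb x' hy hx') hC)⟩

/-- the bound for one section `τ0` and one coordinate `F_k` -/
theorem exists_Phi [CompactSpace M] [Finite A.ι] (PA : Part A) (hD : D2 A) (k : Fin (P.N + 1))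
    {N : ℕ} {τ0 : A.ι → M → ℂ} (hτ : IsHS ((L ^ X.j0)⁻¹ * lb P ^ N) univ τ0) :
    ∃ Φ : nz X.D.t → ℝ, (∀ x, 0 ≤ Φ x) ∧ Bd X Φ ∧ ∀ x : nz X.D.t,
      1 / (P.N + 1 : ℝ) ≤ rh P k x.1 → ∀ i, x.1 ∈ (A.e i).source →
        ‖X.sb i x.1 * τ0 i x.1‖ ^ 2 ≤ Φ x * ‖X.sa i x.1 * sec P k i x.1 ^ N‖ ^ 2 := by
  classical
  have hδ : (0 : ℝ) < 1 / (P.N + 1 : ℝ) := by positivity
  by_cases hk : ∃ i, ∃ x ∈ (A.e i).source, sec P k i x ≠ 0
  swap
  · push Not at hk
    refine ⟨fun _ => 0, fun _ => le_rfl, Bd.zero, fun x hx i hi => ?_⟩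
    exfalso
    rw [rh_eq k hi, hk i x.1 hi, norm_zero] at hx
    simp at hx
    linarith
  have hμ1 : IsHS (L ^ X.a * lb P ^ X.m * lb P ^ N) univ (X.sb * τ0) := by
    have h := X.hsb.mul hτ
    have e : L ^ (X.a + X.j0) * lb P ^ X.m * ((L ^ X.j0)⁻¹ * lb P ^ N) =
        L ^ X.a * lb P ^ X.m * lb P ^ N := by
      calc L ^ (X.a + X.j0) * lb P ^ X.m * ((L ^ X.j0)⁻¹ * lb P ^ N)
          = (L ^ X.j0 * (L ^ X.j0)⁻¹) * (L ^ X.a * lb P ^ X.m * lb P ^ N) := by
            rw [pow_add]; ac_rfl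
        _ = _ := by rw [mul_inv_cancel, one_mul]
    rwa [e] at h
  have hμ2 : IsHS (L ^ X.a * lb P ^ X.m * lb P ^ N) univ (X.sa * pw (sec P k) N) :=
    X.hsa.mul (isHS_pw (isHS_sec P k) N)
  obtain ⟨x0, hx0⟩ := X.Une
  obtain ⟨i0, hi0⟩ := A.cover x0
  have hsane : X.sa ≠ 0 := by
    intro h
    exact X.sa_ne hi0 hx0 (congrFun (congrFun h i0) x0)
  obtain ⟨μ, hμ⟩ := exists_relS hμ1 hμ2
    (mul_ne0 X.hsa (isHS_pw (isHS_sec P k) N) hsane (pw_ne0 N hk))
  have hGd := mu_gd X PA hD hk hτ hμ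
  refine ⟨fun x => if 1 / (P.N + 1 : ℝ) ≤ rh P k x.1 then ‖ev μ x.1‖ ^ 2 else 0, fun x => ?_, ?_,
    fun x hx i hi => ?_⟩
  · show 0 ≤ (if 1 / (P.N + 1 : ℝ) ≤ rh P k x.1 then ‖ev μ x.1‖ ^ 2 else 0)
    split_ifs <;> positivity
  · obtain ⟨g, hg, D, h1⟩ := hGd
    refine ⟨g, hg, fun x hx => ?_⟩
    obtain ⟨C, hC⟩ := h1 x hx
    refine ⟨max 0 ((C / (1 / (P.N + 1 : ℝ)) ^ D) ^ 2), fun x' hy hx' => ?_⟩
    show (if 1 / (P.N + 1 : ℝ) ≤ rh P k x'.1 then ‖ev μ x'.1‖ ^ 2 else 0) ≤ _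
    split_ifs with hr
    · refine le_trans ?_ (le_max_right _ _)
      have hk0 : x'.1 ∈ nz (sec P k) := by
        obtain ⟨i, hi⟩ := A.cover x'.1
        rw [mem_nz (isHS_sec P k) hi]
        intro h0
        rw [rh_eq k hi, h0, norm_zero] at hr
        simp at hr
        linarith
      have h2 := (hC x' hk0 hx' hy).2
      have h3 : (1 / (P.N + 1 : ℝ)) ^ D ≤ rh P k x'.1 ^ D := pow_le_pow_left₀ hδ.le hr D
      have h4 : ‖ev μ x'.1‖ * (1 / (P.N + 1 : ℝ)) ^ D ≤ C :=
        (mul_le_mul_of_nonneg_left h3 (norm_nonneg _)).trans h2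
      exact pow_le_pow_left₀ (norm_nonneg _) ((le_div_iff₀ (pow_pos hδ D)).2 h4) 2
    · exact le_max_left _ _
  · simp only [if_pos hx]
    have hxU : x.1 ∈ X.D.S.U := by
      rw [X.hU]; exact x.2
    have hs0 : sec P k i x.1 ≠ 0 := by
      intro h0
      rw [rh_eq k hi, h0, norm_zero] at hx
      simp at hx
      linarith
    have hden : (X.sa * pw (sec P k) N) i x.1 = X.sa i x.1 * sec P k i x.1 ^ N := by
      show X.sa i x.1 * pw (sec P k) N i x.1 = _
      rw [pw_apply _ _ hi]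
    have hden0 : X.sa i x.1 * sec P k i x.1 ^ N ≠ 0 :=
      mul_ne_zero (X.sa_ne hi hxU) (pow_ne_zero _ hs0)
    have h1 := (hμ.reg_ev hμ1 hμ2 hi (by rw [hden]; exact hden0)).2
    rw [h1, hden]
    show _ ≤ ‖X.sb i x.1 * τ0 i x.1 / _‖ ^ 2 * _
    rw [← mul_pow, ← norm_mul, div_mul_cancel₀ _ hden0]

variable (X) in
/-- **(R4)** -/
theorem r4 [CompactSpace M] [Finite A.ι] (PA : Part A) (hD : D2 A) (hL : HM L) :
    Crest.Agent.R273.AsmZ_73.R4sq X hL := by
  classical
  obtain ⟨N, hN⟩ := ggen_proj PA hD P (L ^ X.j0)⁻¹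
  obtain ⟨r, τ, hτ, hτ0⟩ := hN N le_rfl
  obtain ⟨C, hC, hcmp⟩ := cmp0 (HM_333.pow hL X.j0) (a := τ)
    (b := fun k : Fin (P.N + 1) => pw (sec P k) N) hτ hτ0 (fun k => isHS_pw (isHS_sec P k) N)
    fun i x hx => by
      obtain ⟨k, hk⟩ := exists_sec_ne P hx
      exact ⟨k, by rw [pw_apply _ _ hx]; exact pow_ne_zero N hk⟩
  choose Φ hΦ0 hΦb hΦ using fun (l : Fin r) (k : Fin (P.N + 1)) =>
    exists_Phi (X := X) PA hD k (hτ l)
  have hB : Bd X fun x => ∑ l, ∑ k, Φ l k x :=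
    Bd.sum _ fun l _ => Bd.sum _ fun k _ => hΦb l k
  refine (hB.mono hC.le fun x => ?_ : Bd X fun x : nz X.D.t =>
    ‖X.lam x.1‖ ^ 2 * Real.exp (-(X.j0 * wtS hL X.σ x.1)))
  obtain ⟨k, hk, hks⟩ := exists_rh (P := P) x.1
  obtain ⟨i, hi⟩ := A.cover x.1
  have hxU : x.1 ∈ X.D.S.U := by
    rw [X.hU]; exact x.2
  have hs0 : sec P k i x.1 ≠ 0 := (mem_nz (isHS_sec P k) hi).1 hks
  have hsa0 := X.sa_ne hi hxU
  rw [Crest.Agent.R273.Cmp2_145.lam_chart' hL X.hσ X.σ0 X.j0 (X.lam x.1) hxU hi]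
  set c : ℂ := X.lam x.1 * X.σ i x.1 ^ X.j0 with hc
  have hsb : X.sb i x.1 = c * X.sa i x.1 := X.rel hi hxU
  obtain ⟨h1, -⟩ := hcmp i x.1 hi
  rw [HM_333.pow_w] at h1
  have hw : 0 ≤ hL.w i x.1 ^ X.j0 := pow_nonneg (hL.pos i _ hi).le _
  have h2 : ‖sec P k i x.1 ^ N‖ ^ 2 ≤ sq (fun k : Fin (P.N + 1) => pw (sec P k) N) i x.1 := by
    have h3 := Finset.single_le_sum (f := fun k : Fin (P.N + 1) => ‖pw (sec P k) N i x.1‖ ^ 2)
      (fun _ _ => sq_nonneg _) (Finset.mem_univ k)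
    simp only [pw_apply _ _ hi] at h3
    refine h3.trans (le_of_eq ?_)
    unfold Crest.Agent.R273.Cmp_145.sq
    exact Finset.sum_congr rfl fun k _ => by simp only [pw_apply _ _ hi]
  have hpos : 0 < ‖X.sa i x.1 * sec P k i x.1 ^ N‖ ^ 2 := by
    have := norm_pos_iff.2 (mul_ne_zero hsa0 (pow_ne_zero N hs0))
    positivity
  refine le_of_mul_le_mul_right ?_ hpos
  calc ‖c‖ ^ 2 * hL.w i x.1 ^ X.j0 * ‖X.sa i x.1 * sec P k i x.1 ^ N‖ ^ 2
      = ‖c * X.sa i x.1‖ ^ 2 * (hL.w i x.1 ^ X.j0 * ‖sec P k i x.1 ^ N‖ ^ 2) := by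
        rw [norm_mul c, norm_mul (X.sa i x.1), mul_pow, mul_pow]; ring
    _ ≤ ‖c * X.sa i x.1‖ ^ 2 * (C * sq τ i x.1) := by
        refine mul_le_mul_of_nonneg_left ?_ (sq_nonneg _)
        exact (mul_le_mul_of_nonneg_left h2 hw).trans h1
    _ = C * ∑ l, ‖X.sb i x.1 * τ l i x.1‖ ^ 2 := by
        rw [hsb]
        unfold Crest.Agent.R273.Cmp_145.sq
        rw [Finset.mul_sum, Finset.mul_sum, Finset.mul_sum]
        refine Finset.sum_congr rfl fun l _ => ?_
        rw [norm_mul (c * X.sa i x.1), mul_pow]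
        ring
    _ ≤ C * ∑ l, Φ l k x * ‖X.sa i x.1 * sec P k i x.1 ^ N‖ ^ 2 := by
        refine mul_le_mul_of_nonneg_left (Finset.sum_le_sum fun l _ => ?_) hC.le
        exact hΦ l k x hk i hi
    _ ≤ C * (∑ l, ∑ k, Φ l k x) * ‖X.sa i x.1 * sec P k i x.1 ^ N‖ ^ 2 := by
        rw [mul_assoc, Finset.sum_mul]
        refine mul_le_mul_of_nonneg_left (Finset.sum_le_sum fun l _ => ?_) hC.le
        refine mul_le_mul_of_nonneg_right ?_ hpos.le
        exact Finset.single_le_sum (f := fun k => Φ l k x) (fun k _ => hΦ0 l k x)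
          (Finset.mem_univ k)

end

/-- (R4) -/
theorem r4Stmt : Crest.Agent.R273.AsmZ_73.R4Stmt :=
  fun _ _ _ _ _ _ _ _ _ PA hD _ _ hL X => r4 X PA hD hL

end Crest.Agent.R273.R4x_73
end

-- ▼ part R273/FGb_259
section

/-!
Row 273, leaf A-FG (769, post 1674), part 2: the primitive model of a finitely generated field
extension: `E = k(y)(v)`, `v` integral over `k[y]` with monic minimal polynomial `P`, a
discriminant `δ` in the ideal `(P, P')`, and every element of `E` is `R(y,v) / q(y)`.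
-/

set_option linter.unusedSectionVars false

namespace Crest.Agent.R273.FG_259

open Polynomial

/-- primitive model over an integrally closed domain -/
theorem prim_core (A E : Type*) [CommRing A] [IsDomain A] [IsIntegrallyClosed A] [CharZero A]
    [Field E] [Algebra A E] [FaithfulSMul A E] [Algebra.EssFiniteType A E]
    [Algebra.IsAlgebraic A E] :
    ∃ (v : E) (P U V : A[X]) (δ : A), P.Monic ∧ aeval v P = 0 ∧ Irreducible P ∧
      (∀ Q : A[X], aeval v Q = 0 → P ∣ Q) ∧ δ ≠ 0 ∧ U * P + V * derivative P = C δ ∧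
      ∀ f : E, ∃ q : A, q ≠ 0 ∧ ∃ R : A[X], algebraMap A E q * f = aeval v R := by
  classical
  let K := FractionRing A
  let _ : Algebra K E := FractionRing.liftAlgebra A E
  have : IsScalarTower A K E := FractionRing.isScalarTower_liftAlgebra A E
  have : CharZero K := charZero_of_injective_algebraMap (IsFractionRing.injective A K)
  have : Algebra.EssFiniteType K E := .of_comp A K E
  have : Algebra.IsAlgebraic K E := Algebra.IsAlgebraic.extendScalars (R := A)
    (IsFractionRing.injective A K)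
  have : FiniteDimensional K E := Algebra.finite_of_essFiniteType_of_isAlgebraic
  obtain ⟨α, hα⟩ := Field.exists_primitive_element K E
  obtain ⟨c, hc, hv⟩ := (Algebra.IsAlgebraic.isAlgebraic (R := A) α).exists_integral_multiple
  have hcK : algebraMap A K c ≠ 0 := by
    rwa [Ne, IsFractionRing.to_map_eq_zero_iff]
  have hvtop : IntermediateField.adjoin K {c • α} = ⊤ := by
    rw [← top_le_iff, ← hα, IntermediateField.adjoin_simple_le_iff]
    have h1 : α = (algebraMap A K c)⁻¹ • (c • α) := by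
      rw [← algebraMap_smul K c α, inv_smul_smul₀ hcK]
    have h2 : (algebraMap A K c)⁻¹ • (c • α) ∈ IntermediateField.adjoin K {c • α} :=
      IntermediateField.smul_mem _ (IntermediateField.mem_adjoin_simple_self K (c • α))
    rwa [← h1] at h2
  have hmin : minpoly K (c • α : E) = (minpoly A (c • α)).map (algebraMap A K) :=
    minpoly.isIntegrallyClosed_eq_field_fractions' K hv
  have hsep : (minpoly K (c • α : E)).Separable := Algebra.IsSeparable.isSeparable K _
  obtain ⟨a, b, hab⟩ := hsep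
  obtain ⟨d₁, hd₁, h₁⟩ := IsLocalization.integerNormalization_spec (nonZeroDivisors A) a
  obtain ⟨d₂, hd₂, h₂⟩ := IsLocalization.integerNormalization_spec (nonZeroDivisors A) b
  have hinj : Function.Injective (Polynomial.map (algebraMap A K)) :=
    Polynomial.map_injective _ (IsFractionRing.injective A K)
  refine ⟨c • α, minpoly A (c • α),
    C d₂ * IsLocalization.integerNormalization (nonZeroDivisors A) a,
    C d₁ * IsLocalization.integerNormalization (nonZeroDivisors A) b,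
    d₁ * d₂, minpoly.monic hv, minpoly.aeval _ _, minpoly.irreducible hv,
    fun Q hQ => minpoly.isIntegrallyClosed_dvd hv hQ,
    mul_ne_zero (nonZeroDivisors.ne_zero hd₁) (nonZeroDivisors.ne_zero hd₂), ?_, ?_⟩
  · apply hinj
    simp only [Polynomial.map_add, Polynomial.map_mul, h₁, h₂, Polynomial.map_C, map_mul,
      ← Polynomial.derivative_map, ← hmin]
    rw [← algebraMap_smul K d₁ a, ← algebraMap_smul K d₂ b, Polynomial.smul_eq_C_mul,
      Polynomial.smul_eq_C_mul]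
    linear_combination (C (algebraMap A K d₁) * C (algebraMap A K d₂)) * hab
  · intro f
    have hf : f ∈ IntermediateField.adjoin K {c • α} := by
      rw [hvtop]
      exact IntermediateField.mem_top
    have hf2 : f ∈ Algebra.adjoin K {c • α} := by
      rw [← IntermediateField.adjoin_simple_toSubalgebra_of_isAlgebraic
        (Algebra.IsAlgebraic.isAlgebraic (R := K) (c • α))]
      exact hf
    rw [Algebra.adjoin_singleton_eq_range_aeval] at hf2
    obtain ⟨R₀, hR₀⟩ := hf2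
    obtain ⟨q, hq0, hq⟩ := IsLocalization.integerNormalization_spec (nonZeroDivisors A) R₀
    refine ⟨q, nonZeroDivisors.ne_zero hq0,
      IsLocalization.integerNormalization (nonZeroDivisors A) R₀, ?_⟩
    have h3 : aeval (c • α) (IsLocalization.integerNormalization (nonZeroDivisors A) R₀) =
        aeval (c • α) ((IsLocalization.integerNormalization (nonZeroDivisors A) R₀).map
          (algebraMap A K)) := by
      rw [Polynomial.aeval_map_algebraMap]
    rw [h3, hq, ← algebraMap_smul K q R₀, map_smul, algebraMap_smul K q, ← Algebra.smul_def, ← hR₀]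
    rfl

/-- enlarging the denominator -/
theorem prim_finset (A E : Type*) [CommRing A] [IsDomain A] [Field E] [Algebra A E]
    [FaithfulSMul A E] (v : E)
    (h : ∀ f : E, ∃ q : A, q ≠ 0 ∧ ∃ R : A[X], algebraMap A E q * f = aeval v R)
    (S : Finset E) : ∃ q : A, q ≠ 0 ∧ ∀ f ∈ S, ∃ R : A[X], algebraMap A E q * f = aeval v R := by
  classical
  choose q hq R hR using h
  refine ⟨∏ f ∈ S, q f, Finset.prod_ne_zero_iff.2 fun f _ => hq f, fun f hf =>
    ⟨C (∏ g ∈ S.erase f, q g) * R f, ?_⟩⟩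
  rw [map_mul, ← hR, aeval_C, ← Finset.prod_erase_mul S q hf, map_mul]
  ring

/-- **primitive model of a finitely generated field extension** (`A = k[y]`) -/
theorem prim_model (k E : Type*) [Field k] [CharZero k] [Field E] [Algebra k E]
    [Algebra.EssFiniteType k E] (S : Finset E) :
    ∃ (b : ℕ) (y : Fin b → E) (v : E) (P U V : (MvPolynomial (Fin b) k)[X])
      (δ : MvPolynomial (Fin b) k), IsTranscendenceBasis k y ∧ AlgebraicIndependent k y ∧
      P.Monic ∧ P.eval₂ (MvPolynomial.aeval y).toRingHom v = 0 ∧ Irreducible P ∧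
      (∀ Q : (MvPolynomial (Fin b) k)[X], Q.eval₂ (MvPolynomial.aeval y).toRingHom v = 0 →
        P ∣ Q) ∧
      δ ≠ 0 ∧ U * P + V * derivative P = C δ ∧
      (∀ f : E, ∃ q : MvPolynomial (Fin b) k, q ≠ 0 ∧ ∃ R : (MvPolynomial (Fin b) k)[X],
        MvPolynomial.aeval y q * f = R.eval₂ (MvPolynomial.aeval y).toRingHom v) ∧
      (∀ f ∈ S, ∃ R : (MvPolynomial (Fin b) k)[X],
        MvPolynomial.aeval y δ * f = R.eval₂ (MvPolynomial.aeval y).toRingHom v) := by
  classical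
  obtain ⟨s, hs⟩ := exists_finset_isTranscendenceBasis k E
  have e : s ≃ Fin s.card := s.equivFin
  obtain ⟨y, hy⟩ : ∃ y : Fin s.card → E, y = fun i => ((e.symm i : s) : E) := ⟨_, rfl⟩
  have hyT : IsTranscendenceBasis k y := by
    rw [hy]
    exact hs.comp_equiv e.symm
  have hyI : AlgebraicIndependent k y := hyT.1
  let _ : Algebra (MvPolynomial (Fin s.card) k) E := (MvPolynomial.aeval y).toRingHom.toAlgebra
  have : IsScalarTower k (MvPolynomial (Fin s.card) k) E := by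
    refine IsScalarTower.of_algebraMap_eq fun x => ?_
    exact (MvPolynomial.aeval_C y x).symm
  have hinj : Function.Injective (algebraMap (MvPolynomial (Fin s.card) k) E) := hyI
  have : FaithfulSMul (MvPolynomial (Fin s.card) k) E :=
    (faithfulSMul_iff_algebraMap_injective _ _).2 hinj
  have : Algebra.EssFiniteType (MvPolynomial (Fin s.card) k) E := .of_comp k _ E
  have halg : Algebra.IsAlgebraic (Algebra.adjoin k (Set.range y)) E := hyT.isAlgebraic
  have hmem : ∀ p : MvPolynomial (Fin s.card) k,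
      MvPolynomial.aeval y p ∈ Algebra.adjoin k (Set.range y) := by
    intro p
    rw [Algebra.adjoin_range_eq_range_aeval]
    exact ⟨p, rfl⟩
  let φ : MvPolynomial (Fin s.card) k →ₐ[k] Algebra.adjoin k (Set.range y) :=
    (MvPolynomial.aeval y).codRestrict _ hmem
  have hφ : Function.Surjective φ := by
    rintro ⟨x, hx⟩
    have hx' := hx
    rw [Algebra.adjoin_range_eq_range_aeval] at hx'
    obtain ⟨p, hp⟩ := hx'
    exact ⟨p, Subtype.ext hp⟩
  have : Algebra.IsAlgebraic (MvPolynomial (Fin s.card) k) E :=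
    Algebra.IsAlgebraic.of_ringHom_of_comp_eq φ.toRingHom (RingHom.id E) hφ
      Function.injective_id rfl
  obtain ⟨v, P, U, V, δ, h1, h2, h3, h4, h5, h6, h7⟩ := prim_core (MvPolynomial (Fin s.card) k) E
  obtain ⟨q, hq0, hq⟩ := prim_finset (MvPolynomial (Fin s.card) k) E v h7 S
  refine ⟨s.card, y, v, P, C q * U, C q * V, q * δ, hyT, hyI, h1, h2, h3, h4, mul_ne_zero hq0 h5,
    ?_, h7, fun f hf => ?_⟩
  · rw [C_mul, ← h6]
    ring
  · obtain ⟨R, hR⟩ := hq f hf
    refine ⟨C δ * R, ?_⟩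
    have : algebraMap (MvPolynomial (Fin s.card) k) E (q * δ) * f = aeval v (C δ * R) := by
      rw [map_mul, map_mul, ← hR, aeval_C]
      ring
    exact this

end Crest.Agent.R273.FG_259
end

-- ▼ part R273/YDf_945
section

/-!
# R273 (S0416), Part A, HALF 2 (helper945): F1, the field `FF` as `ℂ(y_1 … y_b)(θ)`
-/

set_option autoImplicit false
set_option linter.unusedSectionVars false

open Polynomial

namespace Crest.Agent.R273.YDf_945

noncomputable section

/-- polynomials in `T` over `ℂ[y_1 … y_b]` as polynomials in `b + 1` variables -/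
def psi (b : ℕ) : (MvPolynomial (Fin b) ℂ)[X] →+* MvPolynomial (Fin (b + 1)) ℂ :=
  Polynomial.eval₂RingHom (MvPolynomial.rename Fin.castSucc).toRingHom
    (MvPolynomial.X (Fin.last b))

theorem psi_C (b : ℕ) (p : MvPolynomial (Fin b) ℂ) :
    psi b (C p) = MvPolynomial.rename Fin.castSucc p := by
  simp [psi]

theorem psi_X (b : ℕ) : psi b X = MvPolynomial.X (Fin.last b) := by
  simp [psi]

theorem pderiv_rename (b : ℕ) (p : MvPolynomial (Fin b) ℂ) :
    MvPolynomial.pderiv (Fin.last b) (MvPolynomial.rename Fin.castSucc p) = 0 := by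
  induction p using MvPolynomial.induction_on with
  | C a => simp
  | add p q hp hq => simp [hp, hq]
  | mul_X p i hp =>
    rw [map_mul, Derivation.leibniz, hp, MvPolynomial.rename_X,
      MvPolynomial.pderiv_X_of_ne (Fin.castSucc_lt_last i).ne]
    simp

theorem pderiv_psi (b : ℕ) (Q : (MvPolynomial (Fin b) ℂ)[X]) :
    MvPolynomial.pderiv (Fin.last b) (psi b Q) = psi b (derivative Q) := by
  induction Q using Polynomial.induction_on' with
  | add p q hp hq => rw [map_add, map_add, hp, hq, derivative_add, map_add]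
  | monomial k a =>
    have h1 : psi b (C a * X ^ k) =
        MvPolynomial.rename Fin.castSucc a * MvPolynomial.X (Fin.last b) ^ k := by
      rw [map_mul, map_pow, psi_C, psi_X]
    have h2 : psi b (C (a * (k : MvPolynomial (Fin b) ℂ)) * X ^ (k - 1)) =
        MvPolynomial.rename Fin.castSucc a * (k : MvPolynomial (Fin (b + 1)) ℂ) *
          MvPolynomial.X (Fin.last b) ^ (k - 1) := by
      rw [map_mul, map_pow, psi_C, psi_X, map_mul, map_natCast]
    rw [← C_mul_X_pow_eq_monomial, derivative_C_mul_X_pow, h1, h2, Derivation.leibniz,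
      pderiv_rename, smul_zero, add_zero, Derivation.leibniz_pow, MvPolynomial.pderiv_X_self,
      smul_eq_mul, nsmul_eq_mul, smul_eq_mul, mul_one]
    ring

theorem aeval_psi {Ω : Type} [Field Ω] [Algebra ℂ Ω] {b : ℕ} (y : Fin b → Ω) (v : Ω)
    (Q : (MvPolynomial (Fin b) ℂ)[X]) :
    MvPolynomial.aeval (Fin.snoc y v : Fin (b + 1) → Ω) (psi b Q) =
      Q.eval₂ (MvPolynomial.aeval y).toRingHom v := by
  induction Q using Polynomial.induction_on' with
  | add p q hp hq => rw [map_add, map_add, hp, hq, eval₂_add]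
  | monomial k a =>
    rw [← C_mul_X_pow_eq_monomial, map_mul, map_mul, map_pow, map_pow, psi_C, psi_X, eval₂_mul,
      eval₂_C, eval₂_pow, eval₂_X, MvPolynomial.aeval_X, Fin.snoc_last, MvPolynomial.aeval_rename]
    congr 1
    show _ = MvPolynomial.aeval y a
    congr 1
    congr 1
    funext i
    simp

/-- F1 -/
theorem F1 {Ω : Type} [Field Ω] [Algebra ℂ Ω] (KK FF : IntermediateField ℂ Ω)
    (hle : FF ≤ KK) [Algebra.EssFiniteType ℂ KK] (hF : FF ≠ ⊥) :
    ∃ (b : ℕ) (y : Fin (b + 1) → Ω) (R : MvPolynomial (Fin (b + 1)) ℂ), 1 ≤ b ∧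
      AlgebraicIndependent ℂ (fun k : Fin b => y k.castSucc) ∧
      IntermediateField.adjoin ℂ (Set.range y) = FF ∧ MvPolynomial.aeval y R = 0 ∧
      MvPolynomial.aeval y (MvPolynomial.pderiv (Fin.last b) R) ≠ 0 := by
  -- `FF` is finitely generated
  have hess : Algebra.EssFiniteType ℂ FF := by
    have h1 : Algebra.EssFiniteType ℂ (IntermediateField.restrict hle) :=
      FG_259.essFiniteType_of_le (IntermediateField.restrict hle)
    have e : FF ≃ₐ[ℂ] IntermediateField.restrict hle :=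
      IntermediateField.restrictAlgEquiv hle
    exact Algebra.EssFiniteType.of_surjective e.symm.toAlgHom e.symm.surjective
  obtain ⟨b, y, v, P, U, V, δ, hyT, hyI, -, hP, -, -, hδ, hUV, hall, -⟩ :=
    FG_259.prim_model ℂ FF ∅
  have hval : ∀ Q : (MvPolynomial (Fin b) ℂ)[X],
      MvPolynomial.aeval (Fin.snoc (fun k => (y k : Ω)) (v : Ω) : Fin (b + 1) → Ω) (psi b Q) =
        ((Q.eval₂ (MvPolynomial.aeval y).toRingHom v : FF) : Ω) := by
    intro Q
    rw [aeval_psi]
    have h1 := Polynomial.hom_eval₂ Q (MvPolynomial.aeval y : MvPolynomial (Fin b) ℂ →ₐ[ℂ] FF).toRingHom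
      (FF.val : FF →ₐ[ℂ] Ω).toRingHom v
    have h2 : (FF.val : FF →ₐ[ℂ] Ω).toRingHom.comp
        (MvPolynomial.aeval y : MvPolynomial (Fin b) ℂ →ₐ[ℂ] FF).toRingHom =
        (MvPolynomial.aeval (fun k => (y k : Ω)) : MvPolynomial (Fin b) ℂ →ₐ[ℂ] Ω).toRingHom := by
      have h3 : (FF.val : FF →ₐ[ℂ] Ω).comp (MvPolynomial.aeval y) =
          MvPolynomial.aeval (fun k => (y k : Ω)) := by
        ext i
        simp
      exact congrArg AlgHom.toRingHom h3
    rw [h2] at h1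
    exact h1.symm
  refine ⟨b, Fin.snoc (fun k => (y k : Ω)) (v : Ω), psi b P, ?_, ?_, ?_, ?_, ?_⟩
  · -- `1 ≤ b`
    by_contra hb
    have hb0 : b = 0 := by omega
    subst hb0
    apply hF
    have halg : Algebra.IsAlgebraic ℂ FF := by
      have h1 := hyT.isAlgebraic
      have h2 : Algebra.adjoin ℂ (Set.range y) = ⊥ := by
        rw [Set.range_eq_empty, Algebra.adjoin_empty]
      rw [h2] at h1
      exact (Subalgebra.algebra_isAlgebraic_bot_left_iff (algebraMap ℂ FF).injective).1 h1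
    exact IntermediateField.eq_bot_of_isAlgClosed_of_isAlgebraic FF
  · have h1 : (fun k : Fin b => (Fin.snoc (fun k => (y k : Ω)) (v : Ω) : Fin (b + 1) → Ω)
        k.castSucc) = fun k => FF.val (y k) := by
      funext k
      rw [Fin.snoc_castSucc]
      rfl
    rw [h1]
    exact hyI.map' (f := FF.val) FF.val.injective
  · apply le_antisymm
    · rw [IntermediateField.adjoin_le_iff]
      rintro _ ⟨l, rfl⟩
      refine Fin.lastCases ?_ (fun k => ?_) l
      · show (Fin.snoc (fun k => (y k : Ω)) (v : Ω) : Fin (b + 1) → Ω) (Fin.last b) ∈ FF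
        rw [Fin.snoc_last]
        exact v.2
      · show (Fin.snoc (fun k => (y k : Ω)) (v : Ω) : Fin (b + 1) → Ω) k.castSucc ∈ FF
        rw [Fin.snoc_castSucc]
        exact (y k).2
    · intro f hf
      obtain ⟨q, hq, R, hR⟩ := hall ⟨f, hf⟩
      have hmem : ∀ Q : MvPolynomial (Fin (b + 1)) ℂ,
          MvPolynomial.aeval (Fin.snoc (fun k => (y k : Ω)) (v : Ω) : Fin (b + 1) → Ω) Q ∈
            IntermediateField.adjoin ℂ
              (Set.range (Fin.snoc (fun k => (y k : Ω)) (v : Ω) : Fin (b + 1) → Ω)) := by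
        intro Q
        have h1 : MvPolynomial.aeval (Fin.snoc (fun k => (y k : Ω)) (v : Ω) : Fin (b + 1) → Ω) Q ∈
            Algebra.adjoin ℂ
              (Set.range (Fin.snoc (fun k => (y k : Ω)) (v : Ω) : Fin (b + 1) → Ω)) := by
          rw [Algebra.adjoin_range_eq_range_aeval]
          exact ⟨Q, rfl⟩
        exact IntermediateField.algebra_adjoin_le_adjoin ℂ _ h1
      have h2 : ((MvPolynomial.aeval y q : FF) : Ω) * f =
          ((R.eval₂ (MvPolynomial.aeval y).toRingHom v : FF) : Ω) := congrArg Subtype.val hR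
      have h3 : ((MvPolynomial.aeval y q : FF) : Ω) =
          MvPolynomial.aeval (Fin.snoc (fun k => (y k : Ω)) (v : Ω) : Fin (b + 1) → Ω)
            (psi b (C q)) := by
        rw [hval, eval₂_C]
        rfl
      have h4 : ((MvPolynomial.aeval y q : FF) : Ω) ≠ 0 := by
        intro h0
        apply hq
        have h5 : (MvPolynomial.aeval y q : FF) = 0 := Subtype.ext h0
        exact (injective_iff_map_eq_zero _).1 hyI q h5
      have h5 : f = ((R.eval₂ (MvPolynomial.aeval y).toRingHom v : FF) : Ω) /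
          ((MvPolynomial.aeval y q : FF) : Ω) := by
        rw [← h2]
        field_simp
      rw [h5, h3, ← hval]
      exact div_mem (hmem _) (hmem _)
  · rw [hval, hP]
    rfl
  · rw [pderiv_psi, hval]
    intro h0
    have h1 : P.derivative.eval₂ (MvPolynomial.aeval y).toRingHom v = 0 := Subtype.ext h0
    have h2 := congrArg (Polynomial.eval₂ (MvPolynomial.aeval y).toRingHom v) hUV
    rw [eval₂_add, eval₂_mul, eval₂_mul, hP, h1, mul_zero, mul_zero, add_zero, eval₂_C] at h2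
    exact hδ ((injective_iff_map_eq_zero _).1 hyI δ h2.symm)

end

end Crest.Agent.R273.YDf_945
end

-- ▼ part R273/YDx7_945
section

/-!
# R273 (S0416), Part A, HALF 2 (helper945): `exists_HD` without hypothesis
-/

set_option autoImplicit false
set_option linter.unusedSectionVars false

open Set Filter Topology Complex MeasureTheory
open scoped ContDiff Matrix ENNReal

namespace Crest.Agent.R273.YDx7_945

open Crest.Agent.R275.Geo Crest.Agent.R275.Core144 Crest.Agent.R275.GC293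
open Crest.Agent.R273.Defs_333 (ProjD HM HM.wt HM.Semipos HasSec)
open Crest.Agent.R273.Mer769 Crest.Agent.R273.FF769
open Crest.Agent.R273.Cram_747 (TS)
open Crest.Agent.R273.Fock_243 (FI)
open Crest.Agent.R273.YDx5_945 Crest.Agent.R273.YDx6_945
open Crest.Agent.R273.TD3_733 (D2)

noncomputable section

theorem f1 : F1Stmt := fun KK FF hle _ hF => Crest.Agent.R273.YDf_945.F1 KK FF hle hF

variable {n : ℕ} {M : Type} [TopologicalSpace M] {A : Atl n M}


end

end Crest.Agent.R273.YDx7_945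
end

-- ▼ part R273/PartAFin_73

/-!
# R273 (S0416): **Part A**, unconditional (helper73)
-/

set_option autoImplicit false

namespace Crest.Agent.R273.PartAFin_73

/-- **Part A** -/
theorem partA : Crest.Agent.R273.PartA_61.PartA :=
  Crest.Agent.R273.AsmZ_73.partA Crest.Agent.R273.YDx7_945.f1 Crest.Agent.R273.R4x_73.r4Stmt

end Crest.Agent.R273.PartAFin_73
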