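import Crest.Agent.R273.SchE_152
import Crest.Agent.R273.YauCh_635
import Crest.Agent.R273.Vm_333
import Crest.Agent.R273.Green_5
import Crest.Agent.R273.YauMax_635

-- ▼ part R273/SchF_152
section

/-!
Row 273 (S0416), leaf L1 (helper152): GLOBAL Schauder estimate on a compact complex manifold,
part F: finite covers by chart balls, Hölder norms, comparison between charts.
-/

set_option autoImplicit false
set_option linter.unusedSectionVars false

open Set Metric Filter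
open scoped ContDiff Topology Matrix ComplexConjugate

namespace Crest.Agent.R273.SchF_152

open Crest.Agent.R275.Geo Crest.Agent.R275.Core144
open Crest.Agent.R273.SchA_152 Crest.Agent.R273.SchD_152 Crest.Agent.R273.SchE_152
open Crest.Agent.R273.YauDefs_635 (cH inC)
open Crest.Agent.R273.YauCh_635 (Tm)

noncomputable section

/-! ### local-to-global for Hölder bounds -/

/-- Hölder bounds which are locally uniform on a class of functions are uniform on compact
sets. -/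
theorem ho_of_local {X F : Type*} [NormedAddCommGroup X] [NormedAddCommGroup F] {K : Set X}
    (hK : IsCompact K) {a : ℝ} {P : (X → F) → ℝ → Prop} (hP : ∀ f N, P f N → 0 ≤ N)
    (h : ∀ x ∈ K, ∃ C : ℝ, ∃ V ∈ 𝓝 x, ∀ f N, P f N → HO a (C * N) V f) (ha : 0 < a) :
    ∃ C : ℝ, 0 < C ∧ ∀ f N, P f N → HO a (C * N) K f := by
  have key : ∃ C : ℝ, 0 ≤ C ∧ ∃ δ : ℝ, 0 < δ ∧ ∀ f N, P f N → ∀ w ∈ K, ‖f w‖ ≤ C * N ∧
      ∀ w', ‖w - w'‖ < δ → ‖f w - f w'‖ ≤ C * N * ‖w - w'‖ ^ a := by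
    refine hK.induction_on (p := fun s => ∃ C : ℝ, 0 ≤ C ∧ ∃ δ : ℝ, 0 < δ ∧ ∀ f N, P f N →
      ∀ w ∈ s, ‖f w‖ ≤ C * N ∧ ∀ w', ‖w - w'‖ < δ → ‖f w - f w'‖ ≤ C * N * ‖w - w'‖ ^ a)
      ⟨0, le_rfl, 1, one_pos, fun f N _ w hw => hw.elim⟩ ?_ ?_ ?_
    · rintro s t hst ⟨C, hC, δ, hδ, H⟩
      exact ⟨C, hC, δ, hδ, fun f N hf w hw => H f N hf w (hst hw)⟩
    · rintro s t ⟨C, hC, δ, hδ, H⟩ ⟨C', hC', δ', hδ', H'⟩
      refine ⟨max C C', hC.trans (le_max_left _ _), min δ δ', lt_min hδ hδ', ?_⟩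
      intro f N hf w hw
      have hN := hP f N hf
      have e1 : C * N ≤ max C C' * N := mul_le_mul_of_nonneg_right (le_max_left _ _) hN
      have e2 : C' * N ≤ max C C' * N := mul_le_mul_of_nonneg_right (le_max_right _ _) hN
      rcases hw with hw | hw
      · obtain ⟨h1, h2⟩ := H f N hf w hw
        exact ⟨h1.trans e1, fun w' hw' => (h2 w' (hw'.trans_le (min_le_left _ _))).trans
          (mul_le_mul_of_nonneg_right e1 (Real.rpow_nonneg (norm_nonneg _) _))⟩
      · obtain ⟨h1, h2⟩ := H' f N hf w hw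
        exact ⟨h1.trans e2, fun w' hw' => (h2 w' (hw'.trans_le (min_le_right _ _))).trans
          (mul_le_mul_of_nonneg_right e2 (Real.rpow_nonneg (norm_nonneg _) _))⟩
    · intro x hx
      obtain ⟨C, V, hV, H⟩ := h x hx
      obtain ⟨ρ, hρ, hρV⟩ := Metric.mem_nhds_iff.1 hV
      refine ⟨ball x (ρ / 2), mem_nhdsWithin_of_mem_nhds (ball_mem_nhds x (by positivity)),
        max C 0, le_max_right _ _, ρ / 2, by positivity, ?_⟩
      intro f N hf w hw
      have hN := hP f N hf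
      have e1 : C * N ≤ max C 0 * N := mul_le_mul_of_nonneg_right (le_max_left _ _) hN
      have hwV : w ∈ V := hρV (ball_subset_ball (by linarith) hw)
      refine ⟨((H f N hf).bdd w hwV).trans e1, fun w' hw' => ?_⟩
      have hwV' : w' ∈ V := by
        refine hρV ?_
        rw [mem_ball] at hw ⊢
        have h1 : dist w' w < ρ / 2 := by rw [dist_comm, dist_eq_norm]; exact hw'
        linarith [dist_triangle w' w x]
      exact ((H f N hf).hol w hwV w' hwV').trans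
        (mul_le_mul_of_nonneg_right e1 (Real.rpow_nonneg (norm_nonneg _) _))
  obtain ⟨C, hC, δ, hδ, H⟩ := key
  have hδa : 0 < δ ^ (-a) := Real.rpow_pos_of_pos hδ _
  refine ⟨C + 2 * C * δ ^ (-a) + 1, by positivity, fun f N hf => ?_⟩
  have hN := hP f N hf
  have hCN : 0 ≤ C * N := mul_nonneg hC hN
  have e0 : 0 ≤ 2 * C * δ ^ (-a) * N := by positivity
  refine ⟨fun w hw => (H f N hf w hw).1.trans ?_, fun w hw w' hw' => ?_⟩
  · nlinarith
  · have hp : 0 ≤ ‖w - w'‖ ^ a := Real.rpow_nonneg (norm_nonneg _) _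
    rcases lt_or_ge ‖w - w'‖ δ with hlt | hge
    · refine ((H f N hf w hw).2 w' hlt).trans (mul_le_mul_of_nonneg_right ?_ hp)
      nlinarith
    · have h1 : ‖f w - f w'‖ ≤ 2 * (C * N) := by
        refine (norm_sub_le _ _).trans ?_
        linarith [(H f N hf w hw).1, (H f N hf w' hw').1]
      have h2 : 1 ≤ δ ^ (-a) * ‖w - w'‖ ^ a := by
        rw [Real.rpow_neg hδ.le, inv_mul_eq_div, le_div_iff₀ (Real.rpow_pos_of_pos hδ a), one_mul]
        exact Real.rpow_le_rpow hδ.le hge ha.le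
      calc ‖f w - f w'‖ ≤ 2 * (C * N) * 1 := by linarith
        _ ≤ 2 * (C * N) * (δ ^ (-a) * ‖w - w'‖ ^ a) :=
            mul_le_mul_of_nonneg_left h2 (by positivity)
        _ = (2 * C * δ ^ (-a) * N) * ‖w - w'‖ ^ a := by ring
        _ ≤ ((C + 2 * C * δ ^ (-a) + 1) * N) * ‖w - w'‖ ^ a := by
            refine mul_le_mul_of_nonneg_right ?_ hp
            nlinarith

/-- `C¹` functions are Hölder on closed balls -/
theorem ho_of_c1 {X F : Type*} [NormedAddCommGroup X] [NormedSpace ℝ X] [ProperSpace X]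
    [NormedAddCommGroup F] [NormedSpace ℝ F] {a : ℝ} (ha : 0 < a) (ha1 : a ≤ 1) {z : X} {r : ℝ}
    (hr : 0 < r) {U : Set X} (hU : IsOpen U) (hzU : closedBall z r ⊆ U) {f : X → F}
    (hf : ContDiffOn ℝ 1 f U) : ∃ M : ℝ, 0 ≤ M ∧ HO a M (closedBall z r) f := by
  obtain ⟨B0, hB0⟩ := (isCompact_closedBall z r).exists_bound_of_continuousOn
    (hf.continuousOn.mono hzU)
  obtain ⟨B1, hB1⟩ := (isCompact_closedBall z r).exists_bound_of_continuousOn
    ((hf.continuousOn_fderiv_of_isOpen hU le_rfl).mono hzU)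
  have hz : z ∈ closedBall z r := mem_closedBall_self hr.le
  have h0 : 0 ≤ B0 := (norm_nonneg _).trans (hB0 z hz)
  have h1 : 0 ≤ B1 := le_trans (norm_nonneg (fderiv ℝ f z)) (hB1 z hz)
  refine ⟨B0 + B1 * (1 + 2 * r), by positivity, fun x hx => (hB0 x hx).trans ?_,
    fun x hx y hy => ?_⟩
  · have : 0 ≤ B1 * (1 + 2 * r) := by positivity
    linarith
  · have hlip : ‖f x - f y‖ ≤ B1 * ‖x - y‖ :=
      (convex_closedBall z r).norm_image_sub_le_of_norm_fderiv_le (𝕜 := ℝ)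
        (fun w hw => (hf.contDiffAt (hU.mem_nhds (hzU hw))).differentiableAt (by norm_num))
        (fun w hw => hB1 w hw) hy hx
    have hd : ‖x - y‖ ≤ 2 * r := by
      rw [mem_closedBall, dist_eq_norm] at hx hy
      have e : x - y = (x - z) - (y - z) := by abel
      rw [e]
      exact (norm_sub_le _ _).trans (by linarith)
    have h2 := Crest.Agent.R238.Sch.le_rpow_of_le (norm_nonneg _) hd ha ha1
    have hp : 0 ≤ ‖x - y‖ ^ a := Real.rpow_nonneg (norm_nonneg _) _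
    calc ‖f x - f y‖ ≤ B1 * ‖x - y‖ := hlip
      _ ≤ B1 * ((1 + 2 * r) * ‖x - y‖ ^ a) := mul_le_mul_of_nonneg_left h2 h1
      _ ≤ (B0 + B1 * (1 + 2 * r)) * ‖x - y‖ ^ a := by nlinarith

/-! ### covers by chart balls -/

variable {n : ℕ} {M : Type} [TopologicalSpace M] {A : Atl n M}

/-- finite cover of `M` by (half) chart balls -/
structure Cb (A : Atl n M) where
  κ : Type
  fin : Finite κ
  i : κ → A.ι
  z : κ → Cn n
  r : κ → ℝ
  r0 : ∀ k, 0 < r k
  r1 : ∀ k, r k ≤ 1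
  sub : ∀ k, closedBall (z k) (r k) ⊆ (A.e (i k)).target
  cover : ∀ x, ∃ k, x ∈ (A.e (i k)).source ∧ A.e (i k) x ∈ ball (z k) (r k / 2)

namespace Cb

/-- bounded by `N` and Hölder with constant `N` in the half balls -/
def NH (B : Cb A) (a N : ℝ) (f : M → ℝ) : Prop :=
  ∀ k, HO a N (closedBall (B.z k) (B.r k / 2)) (inC A (B.i k) f)

/-- `C^{2,a}` bound in the half balls -/
def N2 (B : Cb A) (a N : ℝ) (v : M → ℝ) : Prop :=
  ∀ k, C2A a N (closedBall (B.z k) (B.r k / 2)) (inC A (B.i k) v)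

theorem sub' (B : Cb A) (k : B.κ) : closedBall (B.z k) (B.r k / 2) ⊆ (A.e (B.i k)).target :=
  (closedBall_subset_closedBall (by linarith [B.r0 k])).trans (B.sub k)

theorem NH.bdd {B : Cb A} {a N : ℝ} {f : M → ℝ} (h : B.NH a N f) (x : M) : |f x| ≤ N := by
  obtain ⟨k, hk, hx⟩ := B.cover x
  have := (h k).bdd _ (ball_subset_closedBall hx)
  simpa only [inC, (A.e (B.i k)).left_inv hk, Real.norm_eq_abs] using this

theorem NH.nonneg {B : Cb A} {a N : ℝ} {f : M → ℝ} [Nonempty M] (h : B.NH a N f) : 0 ≤ N :=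
  (abs_nonneg _).trans (h.bdd (Classical.arbitrary M))

theorem NH.mono {B : Cb A} {a N N' : ℝ} {f : M → ℝ} (h : B.NH a N f) (hN : N ≤ N') :
    B.NH a N' f := fun k => (h k).mono hN

theorem N2.mono {B : Cb A} {a N N' : ℝ} {f : M → ℝ} (h : B.N2 a N f) (hN : N ≤ N') :
    B.N2 a N' f := fun k => (h k).mono hN

theorem N2.nh {B : Cb A} {a N : ℝ} {f : M → ℝ} (h : B.N2 a N f) : B.NH a N f :=
  fun k => (h k).h0

/-- covers adapted to a property which holds locally in some chart -/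
theorem exists_of [CompactSpace M] (Q : A.ι → Cn n → Prop)
    (hQ : ∀ x : M, ∃ i, x ∈ (A.e i).source ∧ ∀ᶠ z in 𝓝 (A.e i x), Q i z) :
    ∃ B : Cb A, ∀ k, ∀ z ∈ closedBall (B.z k) (B.r k), Q (B.i k) z := by
  classical
  choose i hi hQi using hQ
  have hr : ∀ x : M, ∃ r : ℝ, 0 < r ∧ r ≤ 1 ∧
      closedBall (A.e (i x) x) r ⊆ (A.e (i x)).target ∩ {z | Q (i x) z} := by
    intro x
    have h1 := inter_mem ((A.e (i x)).open_target.mem_nhds ((A.e (i x)).map_source (hi x)))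
      (hQi x)
    obtain ⟨r, hr, hs⟩ := Metric.nhds_basis_closedBall.mem_iff.1 h1
    exact ⟨min r 1, lt_min hr one_pos, min_le_right _ _,
      (closedBall_subset_closedBall (min_le_left _ _)).trans hs⟩
  choose r hr0 hr1 hrs using hr
  have hV : ∀ x : M, (A.e (i x)).source ∩ (A.e (i x)) ⁻¹' (ball (A.e (i x) x) (r x / 2)) ∈ 𝓝 x :=
    fun x => ((A.e (i x)).isOpen_inter_preimage isOpen_ball).mem_nhds
      ⟨hi x, mem_ball_self (by linarith [hr0 x])⟩
  obtain ⟨t, -, ht⟩ := isCompact_univ.elim_nhds_subcover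
    (fun x : M => (A.e (i x)).source ∩ (A.e (i x)) ⁻¹' (ball (A.e (i x) x) (r x / 2)))
    (fun x _ => hV x)
  refine ⟨⟨t, inferInstance, fun k => i k, fun k => A.e (i k) k, fun k => r k, fun k => hr0 k,
    fun k => hr1 k, fun k => (hrs k).trans inter_subset_left, fun x => ?_⟩,
    fun k z hz => (hrs k hz).2⟩
  obtain ⟨k, hk, hx⟩ := mem_iUnion₂.1 (ht (mem_univ x))
  exact ⟨⟨k, hk⟩, hx.1, hx.2⟩

theorem nonempty [CompactSpace M] (A : Atl n M) : Nonempty (Cb A) := by
  obtain ⟨B, -⟩ := exists_of (A := A) (fun _ _ => True) fun x => by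
    obtain ⟨i, hi⟩ := A.cover x
    exact ⟨i, hi, Eventually.of_forall fun _ => trivial⟩
  exact ⟨B⟩

/-- comparison of Hölder norms: a compact set in any chart -/
theorem NH.compact [Nonempty M] (B : Cb A) {a : ℝ} (ha : 0 < a) (j : A.ι) {K : Set (Cn n)}
    (hK : IsCompact K) (hKj : K ⊆ (A.e j).target) :
    ∃ C : ℝ, 0 < C ∧ ∀ (f : M → ℝ) (N : ℝ), B.NH a N f → HO a (C * N) K (inC A j f) := by
  suffices hloc : ∀ w0 ∈ K, ∃ C : ℝ, ∃ V ∈ 𝓝 w0, ∀ (g : Cn n → ℝ) (N : ℝ),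
      (∃ f : M → ℝ, B.NH a N f ∧ g = inC A j f) → HO a (C * N) V g by
    obtain ⟨C, hC, H⟩ := ho_of_local (F := ℝ) hK (a := a)
      (P := fun g N => ∃ f : M → ℝ, B.NH a N f ∧ g = inC A j f)
      (by rintro g N ⟨f, hf, -⟩; exact hf.nonneg) hloc ha
    exact ⟨C, hC, fun f N hf => H _ N ⟨f, hf, rfl⟩⟩
  intro w0 hw0
  have hx0 : (A.e j).symm w0 ∈ (A.e j).source := (A.e j).map_target (hKj hw0)
  obtain ⟨k, hk, hkb⟩ := B.cover ((A.e j).symm w0)
  have hov : w0 ∈ A.ov j (B.i k) := ⟨hKj hw0, hk⟩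
  have hT : ContDiffAt ℝ 1 (Tm A j (B.i k)) w0 := by
    have := YauCh_635.anal_Tm (A := A) (i := j) (j := B.i k) ⟨hx0, hk⟩
    rw [(A.e j).right_inv (hKj hw0)] at this
    exact (this.contDiffAt.restrict_scalars ℝ)
  obtain ⟨Kl, t, ht, hL⟩ := hT.exists_lipschitzOnWith
  have hTb : ∀ᶠ w in 𝓝 w0, Tm A j (B.i k) w ∈ ball (B.z k) (B.r k / 2) :=
    hT.continuousAt.eventually_mem (isOpen_ball.mem_nhds hkb)
  refine ⟨1 + (Kl : ℝ) ^ a, t ∩ A.ov j (B.i k) ∩ {w | Tm A j (B.i k) w ∈ ball (B.z k) (B.r k / 2)},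
    inter_mem (inter_mem ht ((isOpen_ov j (B.i k)).mem_nhds hov)) hTb, ?_⟩
  rintro g N ⟨f, hf, rfl⟩
  have hN : 0 ≤ N := hf.nonneg
  have hKa : 0 ≤ (Kl : ℝ) ^ a := Real.rpow_nonneg Kl.coe_nonneg _
  have e : ∀ w ∈ A.ov j (B.i k), inC A j f w = inC A (B.i k) f (Tm A j (B.i k) w) := by
    intro w hw
    simp only [inC, Tm, (A.e (B.i k)).left_inv hw.2]
  refine ⟨fun w hw => ?_, fun w hw w' hw' => ?_⟩
  · rw [e w hw.1.2]
    refine ((hf k).bdd _ (ball_subset_closedBall hw.2)).trans ?_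
    nlinarith
  · rw [e w hw.1.2, e w' hw'.1.2]
    refine ((hf k).hol _ (ball_subset_closedBall hw.2) _ (ball_subset_closedBall hw'.2)).trans ?_
    have h1 : ‖Tm A j (B.i k) w - Tm A j (B.i k) w'‖ ≤ Kl * ‖w - w'‖ := by
      have := hL.dist_le_mul w hw.1.1 w' hw'.1.1
      rwa [dist_eq_norm, dist_eq_norm] at this
    have h2 : ‖Tm A j (B.i k) w - Tm A j (B.i k) w'‖ ^ a ≤ (Kl : ℝ) ^ a * ‖w - w'‖ ^ a := by
      rw [← Real.mul_rpow Kl.coe_nonneg (norm_nonneg _)]
      exact Real.rpow_le_rpow (norm_nonneg _) h1 ha.le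
    have hp : 0 ≤ ‖w - w'‖ ^ a := Real.rpow_nonneg (norm_nonneg _) _
    calc N * ‖Tm A j (B.i k) w - Tm A j (B.i k) w'‖ ^ a
        ≤ N * ((Kl : ℝ) ^ a * ‖w - w'‖ ^ a) := mul_le_mul_of_nonneg_left h2 hN
      _ ≤ (1 + (Kl : ℝ) ^ a) * N * ‖w - w'‖ ^ a := by nlinarith [mul_nonneg hN hp]

end Cb

end

end Crest.Agent.R273.SchF_152
end

-- ▼ part R273/SchG_152
section

/-!
Row 273 (S0416), leaf L1 (helper152): GLOBAL Schauder estimate on a compact complex manifold,
part G: the estimate with the sup norm on the right hand side.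
-/

set_option autoImplicit false
set_option linter.unusedSectionVars false

open Set Metric Filter
open scoped ContDiff Topology Matrix ComplexConjugate ComplexOrder

namespace Crest.Agent.R273.SchG_152

open Crest.Agent.R275.Geo Crest.Agent.R275.Core144
open Crest.Agent.R273.SchA_152 Crest.Agent.R273.SchD_152 Crest.Agent.R273.SchE_152
  Crest.Agent.R273.SchF_152
open Crest.Agent.R273.YauDefs_635 (cH inC)

noncomputable section

section ell

variable {n : ℕ}

/-- the Hermitian form of `G` at `ζ` -/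
def hf (G : Matrix (Fin n) (Fin n) ℂ) (ζ : Cn n) : ℝ := (star (⇑ζ) ⬝ᵥ (G *ᵥ (⇑ζ))).re

theorem hf_smul (G : Matrix (Fin n) (Fin n) ℂ) (c : ℝ) (ζ : Cn n) :
    hf G (c • ζ) = c ^ 2 * hf G ζ := by
  unfold hf
  have e : (⇑(c • ζ) : Fin n → ℂ) = (c : ℂ) • (⇑ζ) := by
    funext a
    simp
  rw [e, Matrix.mulVec_smul, dotProduct_smul, star_smul, smul_dotProduct]
  simp only [smul_eq_mul, Complex.star_def, Complex.conj_ofReal]
  rw [← mul_assoc, ← Complex.ofReal_mul, Complex.re_ofReal_mul]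
  ring

theorem hf_norm (G : Matrix (Fin n) (Fin n) ℂ) {ζ : Cn n} (hζ : ζ ≠ 0) :
    hf G ζ = ‖ζ‖ ^ 2 * hf G ((‖ζ‖⁻¹ : ℝ) • ζ) := by
  have h := norm_ne_zero_iff.2 hζ
  rw [hf_smul, inv_pow, ← mul_assoc, mul_inv_cancel₀ (pow_ne_zero 2 h), one_mul]

theorem continuousOn_hf {G : Cn n → Matrix (Fin n) (Fin n) ℂ} {K : Set (Cn n)}
    (hG : ∀ i j, ContinuousOn (fun z => G z i j) K) :
    ContinuousOn (fun p : Cn n × Cn n => hf (G p.1) p.2) (K ×ˢ univ) := by
  unfold hf
  refine Complex.continuous_re.comp_continuousOn ?_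
  simp only [Matrix.mulVec, dotProduct, Pi.star_apply]
  refine continuousOn_finsetSum _ fun a _ => ?_
  have h1 : ∀ a, ContinuousOn (fun p : Cn n × Cn n => p.2 a) (K ×ˢ univ) := fun a => by
    have : Continuous (fun p : Cn n × Cn n => p.2 a) :=
      (EuclideanSpace.proj (𝕜 := ℂ) a).continuous.comp continuous_snd
    exact this.continuousOn
  refine ((continuous_star.comp_continuousOn (h1 a))).mul
    (continuousOn_finsetSum _ fun b _ => ?_)
  exact ((hG a b).comp continuousOn_fst fun p hp => hp.1).mul (h1 b)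

/-- uniform ellipticity on compact sets -/
theorem exists_ell {G : Cn n → Matrix (Fin n) (Fin n) ℂ} {K : Set (Cn n)} (hK : IsCompact K)
    (hG : ∀ i j, ContinuousOn (fun z => G z i j) K) (hp : ∀ z ∈ K, (G z).PosDef) :
    ∃ lo hi : ℝ, 0 < lo ∧ lo ≤ hi ∧ ∀ z ∈ K, EllC lo hi (G z) := by
  have hc := (continuousOn_hf hG).mono (prod_mono_right (s := K) (subset_univ (sphere (0 : Cn n) 1)))
  have hKS := hK.prod (isCompact_sphere (0 : Cn n) 1)
  obtain ⟨B, hB⟩ := hKS.exists_bound_of_continuousOn hc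
  obtain ⟨c, hc0, hc1⟩ := hKS.exists_forall_le' hc (a := 0) (fun p hq => by
    have h1 : p.2 ≠ 0 := by
      intro h0
      have := hq.2
      rw [mem_sphere_zero_iff_norm, h0, norm_zero] at this
      exact zero_ne_one this
    have h2 : (⇑p.2 : Fin n → ℂ) ≠ 0 := fun h => h1 (by ext a; exact congrFun h a)
    have h3 := (hp p.1 hq.1).dotProduct_mulVec_pos h2
    exact (Complex.pos_iff.1 h3).1)
  refine ⟨c, max c B, hc0, le_max_left _ _, fun z hz => ⟨(hp z hz).1, fun ζ => ?_⟩⟩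
  have hnorm : ∑ a, ‖ζ a‖ ^ 2 = ‖(WithLp.toLp 2 ζ : Cn n)‖ ^ 2 := by
    rw [EuclideanSpace.norm_sq_eq]
  set w : Cn n := WithLp.toLp 2 ζ with hw
  have hform : (star ζ ⬝ᵥ (G z *ᵥ ζ)).re = hf (G z) w := rfl
  rw [hnorm, hform]
  rcases eq_or_ne w 0 with h0 | h0
  · have e : hf (G z) w = 0 := by
      have h1 := hf_smul (G z) 0 w
      simpa [h0] using h1
    rw [e, h0]
    simp
  · have hs : ((‖w‖⁻¹ : ℝ) • w) ∈ sphere (0 : Cn n) 1 := by
      rw [mem_sphere_zero_iff_norm, norm_smul, norm_inv, norm_norm,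
        inv_mul_cancel₀ (norm_ne_zero_iff.2 h0)]
    have h1 := hB (z, (‖w‖⁻¹ : ℝ) • w) ⟨hz, hs⟩
    have h2 := hc1 (z, (‖w‖⁻¹ : ℝ) • w) ⟨hz, hs⟩
    rw [Real.norm_eq_abs] at h1
    have h3 := (le_abs_self _).trans h1
    rw [hf_norm (G z) h0]
    have hn : 0 ≤ ‖w‖ ^ 2 := by positivity
    constructor
    · rw [mul_comm]
      exact mul_le_mul_of_nonneg_left h2 hn
    · rw [mul_comm _ (‖w‖ ^ 2)]
      exact mul_le_mul_of_nonneg_left (h3.trans (le_max_right _ _)) hn

theorem EllC.mono {lo hi lo' hi' : ℝ} {G : Matrix (Fin n) (Fin n) ℂ} (h : EllC lo hi G)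
    (hlo : lo' ≤ lo) (hhi : hi ≤ hi') : EllC lo' hi' G := by
  refine ⟨h.1, fun ζ => ?_⟩
  have h0 : 0 ≤ ∑ a, ‖ζ a‖ ^ 2 := Finset.sum_nonneg fun a _ => by positivity
  exact ⟨(mul_le_mul_of_nonneg_right hlo h0).trans (h.2 ζ).1,
    (h.2 ζ).2.trans (mul_le_mul_of_nonneg_right hhi h0)⟩

end ell

variable {n : ℕ} {M : Type} [TopologicalSpace M] {A : Atl n M}

/-- `G` is a smooth positive field in the charts -/
structure PG (A : Atl n M) (G : A.ι → Cn n → Matrix (Fin n) (Fin n) ℂ) : Prop where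
  sm : ∀ i a b, ContDiffOn ℝ 1 (fun z => G i z a b) (A.e i).target
  pos : ∀ i, ∀ z ∈ (A.e i).target, (G i z).PosDef

/-- `f = tr(G ∂∂̄v)` in all charts -/
def IsLap (G : A.ι → Cn n → Matrix (Fin n) (Fin n) ℂ) (v f : M → ℝ) : Prop :=
  ∀ i, ∀ z ∈ (A.e i).target, ((G i z * cH (inC A i v) z).trace).re = inC A i f z

/-- `v` is `C²` with locally Hölder second derivatives -/
structure Sm2 (A : Atl n M) (a : ℝ) (v : M → ℝ) : Prop where
  sm : ∀ i, ContDiffOn ℝ 2 (inC A i v) (A.e i).target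
  ho : ∀ i z r, 0 < r → closedBall z r ⊆ (A.e i).target →
    ∃ V, HO a V (closedBall z r) (fderiv ℝ (fderiv ℝ (inC A i v)))

theorem Sm2.of_sm {a : ℝ} (ha : 0 < a) (ha1 : a ≤ 1) {v : M → ℝ} (hv : A.Sm v) : Sm2 A a v := by
  refine ⟨fun i => (hv i).of_le YauCh_635.two_le_inf, fun i z r h hr => ?_⟩
  have h3 : ContDiffOn ℝ 1 (fderiv ℝ (fderiv ℝ (inC A i v))) (A.e i).target := by
    have h1 : ContDiffOn ℝ ∞ (fderiv ℝ (inC A i v)) (A.e i).target :=
      (hv i).fderiv_of_isOpen (A.e i).open_target (by simp)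
    have h2 : ContDiffOn ℝ ∞ (fderiv ℝ (fderiv ℝ (inC A i v))) (A.e i).target :=
      h1.fderiv_of_isOpen (A.e i).open_target (by simp)
    exact h2.of_le (WithTop.coe_le_coe.2 (le_top : (1 : ℕ∞) ≤ ⊤))
  obtain ⟨V, -, hV⟩ := ho_of_c1 ha ha1 h (A.e i).open_target hr h3
  exact ⟨V, hV⟩

/-- **Global Schauder estimate.** -/
theorem schauder [Nonempty M] (B : Cb A) {a : ℝ} (ha : 0 < a) (ha1 : a < 1)
    {G : A.ι → Cn n → Matrix (Fin n) (Fin n) ℂ} (hG : PG A G) :
    ∃ C : ℝ, 0 < C ∧ ∀ (v f : M → ℝ) (N S : ℝ), Sm2 A a v → IsLap G v f → B.NH a N f →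
      (∀ x, |v x| ≤ S) → B.N2 a (C * (N + S)) v := by
  have := B.fin
  -- one ball
  have one : ∀ k : B.κ, ∃ C : ℝ, 0 < C ∧ ∀ (v f : M → ℝ) (N S : ℝ), Sm2 A a v → IsLap G v f →
      B.NH a N f → (∀ x, |v x| ≤ S) →
      C2A a (C * (N + S)) (closedBall (B.z k) (B.r k / 2)) (inC A (B.i k) v) := by
    intro k
    have hcG : ∀ i j, ContinuousOn (fun z => G (B.i k) z i j) (closedBall (B.z k) (B.r k)) :=
      fun i j => (hG.sm _ i j).continuousOn.mono (B.sub k)
    obtain ⟨lo, hi, hlo, hlohi, hell⟩ := exists_ell (isCompact_closedBall _ _) hcG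
      (fun z hz => hG.pos _ z (B.sub k hz))
    have hGH : ∀ i j, ∃ M', 0 ≤ M' ∧
        HO a M' (closedBall (B.z k) (B.r k)) (fun z => G (B.i k) z i j) := fun i j =>
      ho_of_c1 ha ha1.le (B.r0 k) (A.e (B.i k)).open_target (B.sub k) (hG.sm _ i j)
    choose M' hM0 hM' using hGH
    obtain ⟨C1, hC1, H1⟩ := int_schauder_cx n ha ha1 hlo hlohi (∑ i, ∑ j, M' i j) (B.r0 k) (B.r1 k)
    obtain ⟨C2, hC2, H2⟩ := Cb.NH.compact B ha (B.i k) (isCompact_closedBall (B.z k) (B.r k))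
      (B.sub k)
    refine ⟨C1 * (C2 + 1), by positivity, fun v f N S hv hf hN hS => ?_⟩
    have hN0 : 0 ≤ N := hN.nonneg
    have hS0 : 0 ≤ S := (abs_nonneg _).trans (hS (Classical.arbitrary M))
    have h1 := H1 (B.z k) (G (B.i k)) hell
      (fun i j => (hM' i j).mono (by
        refine (Finset.single_le_sum (f := fun j => M' i j) (fun j _ => hM0 i j)
          (Finset.mem_univ j)).trans ?_
        exact Finset.single_le_sum (f := fun i => ∑ j, M' i j)
          (fun i _ => Finset.sum_nonneg fun j _ => hM0 i j) (Finset.mem_univ i)))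
      _ (A.e (B.i k)).open_target (B.sub k) (inC A (B.i k) v) (C2 * N) S (hv.sm _)
      (hv.ho _ _ _ (B.r0 k) (B.sub k))
      ((H2 f N hN).congr fun z hz => hf _ z (B.sub k hz))
      (fun z _ => hS _)
    refine h1.mono ?_
    have : C2 * N + S ≤ (C2 + 1) * (N + S) := by nlinarith [mul_nonneg hC2.le hS0]
    calc C1 * (C2 * N + S) ≤ C1 * ((C2 + 1) * (N + S)) := mul_le_mul_of_nonneg_left this hC1.le
      _ = C1 * (C2 + 1) * (N + S) := by ring
  choose C hC0 hC using one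
  cases nonempty_fintype B.κ
  refine ⟨∑ k, C k + 1, by
    have : 0 ≤ ∑ k, C k := Finset.sum_nonneg fun k _ => (hC0 k).le
    linarith, fun v f N S hv hf hN hS k => ?_⟩
  have hN0 : 0 ≤ N := hN.nonneg
  have hS0 : 0 ≤ S := (abs_nonneg _).trans (hS (Classical.arbitrary M))
  refine (hC k v f N S hv hf hN hS).mono (mul_le_mul_of_nonneg_right ?_ (by positivity))
  have := Finset.single_le_sum (f := C) (fun k _ => (hC0 k).le) (Finset.mem_univ k)
  linarith

end

end Crest.Agent.R273.SchG_152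
end

-- ▼ part R273/SchH_152
section

/-!
Row 273 (S0416), leaf L1 (helper152): the Laplacian `tr(g⁻¹ ∂∂̄u)` of a Kaehler metric as a
function on `M`, and its integral against the volume form.
-/

set_option autoImplicit false
set_option linter.unusedSectionVars false

open Set Metric Filter MeasureTheory
open scoped ContDiff Topology Matrix ComplexConjugate ComplexOrder

namespace Crest.Agent.R273.SchH_152

open Crest.Agent.R275 Crest.Agent.R275.Geo Crest.Agent.R275.Core144 Crest.Agent.R275.EDR890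
open Crest.Agent.R275.Pai323 Crest.Agent.R275.C1d194
open Crest.Agent.R273.Defs_333 Crest.Agent.R273.Hess_333 Crest.Agent.R273.HessB_333
open Crest.Agent.R273.HM_333 Crest.Agent.R273.Kah_333 Crest.Agent.R273.Vol_333
open Crest.Agent.R273.Vm_333
open Crest.Agent.R273.StV_37 Crest.Agent.R273.Green_5
open Crest.Agent.R273.SchA_152 Crest.Agent.R273.SchD_152 Crest.Agent.R273.SchE_152
  Crest.Agent.R273.SchF_152 Crest.Agent.R273.SchG_152
open Crest.Agent.R273.YauDefs_635 (cH inC)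

noncomputable section

variable {n : ℕ} {M : Type} [TopologicalSpace M] {A : Atl n M}

/-- the inverse metric in the chart `i` -/
def gi (K : Kah A) (i : A.ι) (z : Cn n) : Matrix (Fin n) (Fin n) ℂ := (K.g i ((A.e i).symm z))⁻¹

/-- the trace in the chart `i` -/
def tr1 (K : Kah A) (u : M → ℝ) (i : A.ι) (x : M) : ℂ := ((K.g i x)⁻¹ * hsf A u i x).trace

theorem det_Jm {i j : A.ι} {x : M} (hx : x ∈ (A.e i).source ∩ (A.e j).source) :
    (Jm A i j x).det ≠ 0 := by
  rw [← KB_g hx]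
  exact (KB A).ne_zero i j x

theorem tr1_eq (K : Kah A) {u : M → ℝ} (hu : A.Sm u) {i j : A.ι} {x : M}
    (hx : x ∈ (A.e i).source ∩ (A.e j).source) : tr1 K u i x = tr1 K u j x := by
  unfold tr1
  rw [K.tr i j x hx, hsf_tr hu hx]
  set J := Jm A i j x with hJ
  have hJd : J.det ≠ 0 := det_Jm hx
  have h1 : IsUnit (Jᵀ).det := by rw [Matrix.det_transpose]; exact isUnit_iff_ne_zero.2 hJd
  have h2 : IsUnit (J.map conj).det := by
    have : (J.map conj).det = conj J.det := by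
      have := (RingHom.map_det (starRingEnd ℂ) J)
      rw [this]
      rfl
    rw [this, isUnit_iff_ne_zero]
    exact (map_ne_zero _).2 hJd
  rw [Matrix.mul_inv_rev, Matrix.mul_inv_rev, Matrix.mul_assoc, Matrix.mul_assoc,
    ← Matrix.mul_assoc (Jᵀ)⁻¹, ← Matrix.mul_assoc (Jᵀ)⁻¹, Matrix.nonsing_inv_mul _ h1,
    Matrix.one_mul, Matrix.trace_mul_comm, Matrix.mul_assoc, Matrix.mul_assoc,
    Matrix.mul_nonsing_inv _ h2, Matrix.mul_one]

/-- the complex Laplacian as a function on `M` -/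
def LapC (K : Kah A) (u : M → ℝ) (x : M) : ℂ := tr1 K u (A.cover x).choose x

theorem LapC_eq (K : Kah A) {u : M → ℝ} (hu : A.Sm u) {i : A.ι} {x : M}
    (hx : x ∈ (A.e i).source) : LapC K u x = tr1 K u i x :=
  tr1_eq K hu ⟨(A.cover x).choose_spec, hx⟩

/-- the Laplacian `tr(g⁻¹ ∂∂̄u)` -/
def Lap (K : Kah A) (u : M → ℝ) (x : M) : ℝ := (LapC K u x).re

theorem contDiffOn_inv (K : Kah A) (i : A.ι) (a b : Fin n) :
    ContDiffOn ℝ ∞ (fun z => gi K i z a b) (A.e i).target := by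
  have h1 : ContDiffOn ℝ ∞ (fun z => (K.g i ((A.e i).symm z)).adjugate a b) (A.e i).target :=
    smAt_adj (kah_cf K) i b a
  have h2 : ContDiffOn ℝ ∞ (fun z => (K.g i ((A.e i).symm z)).det) (A.e i).target :=
    smAt_det (K.sm i)
  have h3 : ∀ z ∈ (A.e i).target, (K.g i ((A.e i).symm z)).det ≠ 0 := fun z hz =>
    (K.pos i _ ((A.e i).map_target hz)).det_pos.ne'
  refine ((h2.inv h3).mul h1).congr fun z hz => ?_
  simp only [gi, Matrix.inv_def, Matrix.smul_apply, smul_eq_mul, Ring.inverse_eq_inv', Pi.inv_apply]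

theorem contDiffOn_hsf {u : M → ℝ} (hu : A.Sm u) (i : A.ι) (a b : Fin n) :
    ContDiffOn ℝ ∞ (fun z => hsf A u i ((A.e i).symm z) a b) (A.e i).target :=
  (hsf_cf hu).sm i a b

theorem sm_LapC (K : Kah A) {u : M → ℝ} (hu : A.Sm u) : A.Sm (LapC K u) := by
  intro i
  have h1 : ContDiffOn ℝ ∞ (fun z => ∑ a, ∑ b, gi K i z a b * hsf A u i ((A.e i).symm z) b a)
      (A.e i).target :=
    ContDiffOn.sum fun a _ => ContDiffOn.sum fun b _ =>
      (contDiffOn_inv K i a b).mul (contDiffOn_hsf hu i b a)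
  refine h1.congr fun z hz => ?_
  rw [LapC_eq K hu ((A.e i).map_target hz)]
  simp only [tr1, Matrix.trace, Matrix.diag_apply, Matrix.mul_apply, gi]

theorem sm_Lap (K : Kah A) {u : M → ℝ} (hu : A.Sm u) : A.Sm (Lap K u) := fun i =>
  Complex.reCLM.contDiff.comp_contDiffOn (sm_LapC K hu i)

theorem isLap (K : Kah A) {u : M → ℝ} (hu : A.Sm u) : IsLap (gi K) u (Lap K u) := by
  intro i z hz
  show _ = Lap K u ((A.e i).symm z)
  rw [Lap, LapC_eq K hu ((A.e i).map_target hz), tr1, hsf_read u i hz,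
    YauMax_635.cH_eq_hess (YauMax_635.inC_contDiffAt hu i hz)]
  rfl

theorem lap_of_isLap (K : Kah A) {u f : M → ℝ} (hu : A.Sm u) (h : IsLap (gi K) u f) :
    Lap K u = f := by
  funext x
  obtain ⟨i, hi⟩ := A.cover x
  have h1 := h i _ ((A.e i).map_source hi)
  have h2 := isLap K hu i _ ((A.e i).map_source hi)
  rw [h2] at h1
  simpa only [inC, (A.e i).left_inv hi] using h1

theorem pg (K : Kah A) : PG A (gi K) where
  sm i a b := (contDiffOn_inv K i a b).of_le (WithTop.coe_le_coe.2 (le_top : (1 : ℕ∞) ≤ ⊤))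
  pos i _ hz := (K.pos i _ ((A.e i).map_target hz)).inv

section integral

variable [T2Space M] [CompactSpace M] [Finite A.ι] [MeasurableSpace M] [BorelSpace M]

theorem integrable_cont (h : HM (KB A)⁻¹) {f : M → ℂ} (hf : Continuous f) :
    Integrable f (vm h) := by
  have := isFinite_vm h
  obtain ⟨C, hC⟩ := isCompact_univ.exists_bound_of_continuousOn hf.continuousOn
  exact Integrable.of_bound hf.measurable.aestronglyMeasurable C
    (Eventually.of_forall fun x => hC x (mem_univ x))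

theorem int_LapC (P : Part A) (K : Kah A) {u : M → ℝ} (hu : A.Sm u) :
    ∫ x, LapC K u x ∂(vm (volK K)) = 0 := by
  cases nonempty_fintype A.ι
  rw [integral_vm_part (volK K) P (integrable_cont _ (sm_continuous (sm_LapC K hu)))]
  have h1 := green1 P (kah_cf K) (u := fun y => (u y : ℂ)) (fun i => smAt_ofReal (hu i))
    (isCompact_univ : IsCompact (univ : Set M)) (F := Finset.univ) (Finset.subset_univ _)
    (fun x hx => absurd (mem_univ x) hx)
  rw [← h1]
  unfold tot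
  refine Finset.sum_congr rfl fun i _ => Pai323.lint_congr fun x hx => ?_
  congr 1
  show _ = ((K.g i x).adjugate * hm A (fun y => (u y : ℂ)) i x).trace
  rw [volK_w K i hx, LapC_eq K hu hx, hm_ofReal u i hx]
  unfold tr1
  have hdet : (K.g i x).det ≠ 0 := (K.pos i x hx).det_pos.ne'
  rw [Matrix.inv_def, Ring.inverse_eq_inv', Matrix.smul_mul, Matrix.trace_smul, smul_eq_mul,
    ← mul_assoc, mul_inv_cancel₀ hdet, one_mul]

/-- the integral of the Laplacian vanishes -/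
theorem int_Lap (P : Part A) (K : Kah A) {u : M → ℝ} (hu : A.Sm u) :
    ∫ x, Lap K u x ∂(vm (volK K)) = 0 := by
  have h1 := int_LapC P K hu
  have h2 := integral_re (μ := vm (volK K)) (𝕜 := ℂ)
    (integrable_cont _ (sm_continuous (sm_LapC K hu)))
  rw [h1] at h2
  exact h2.trans (by simp)

end integral

end

end Crest.Agent.R273.SchH_152
end

-- ▼ part R273/SchI_152

/-!
Row 273 (S0416), leaf L1 (helper152): GLOBAL Schauder estimate without zero order term:
`|v|_{C^{2,a}} ≤ C |Lap v|_{C^a}` for smooth `v` vanishing at one point (energy identity +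
Hölder continuity of the gradient; no maximum principle).
-/

set_option autoImplicit false
set_option linter.unusedSectionVars false

open Set Metric Filter MeasureTheory
open scoped ContDiff Topology Matrix ComplexConjugate ComplexOrder

namespace Crest.Agent.R273.SchI_152

open Crest.Agent.R275 Crest.Agent.R275.Geo Crest.Agent.R275.Core144 Crest.Agent.R275.EDR890
open Crest.Agent.R273.Defs_333 Crest.Agent.R273.Hess_333 Crest.Agent.R273.HessB_333
open Crest.Agent.R273.HM_333 Crest.Agent.R273.Kah_333 Crest.Agent.R273.Vol_333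
open Crest.Agent.R273.Vm_333
open Crest.Agent.R273.SchA_152 Crest.Agent.R273.SchD_152 Crest.Agent.R273.SchE_152
  Crest.Agent.R273.SchF_152 Crest.Agent.R273.SchG_152 Crest.Agent.R273.SchH_152
open Crest.Agent.R273.YauDefs_635 (cH inC)
open Crest.Agent.R238.Sch (ee)

noncomputable section

section loc

variable {n : ℕ}

/-- the trace in real coordinates -/
theorem tr_cH (G : Matrix (Fin n) (Fin n) ℂ) (u : Cn n → ℝ) (z : Cn n) :
    ((G * cH u z).trace).re =
      ∑ p, ∑ p', tau G p p' * fderiv ℝ (fderiv ℝ u) z (Tl n (ee p)) (Tl n (ee p')) := by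
  rw [tau_sum]
  simp only [Matrix.trace, Matrix.diag_apply, Matrix.mul_apply]
  congr 1
  refine Finset.sum_congr rfl fun a _ => Finset.sum_congr rfl fun b _ => ?_
  congr 1
  simp only [cH, Matrix.of_apply, YauDefs_635.D2, Tl_ee, cs]
  norm_num

theorem fd2_sq {X : Type*} [NormedAddCommGroup X] [NormedSpace ℝ X] {h : X → ℝ} {z : X}
    (hh : ContDiffAt ℝ 2 h z) (v w : X) :
    fderiv ℝ (fderiv ℝ (fun x => h x ^ 2)) z v w =
      2 * (fderiv ℝ h z v * fderiv ℝ h z w) + 2 * h z * fderiv ℝ (fderiv ℝ h) z v w := by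
  have h1 : ∀ᶠ x in 𝓝 z, ContDiffAt ℝ 2 h x := hh.eventually (by simp)
  have h2 : fderiv ℝ (fun x => h x ^ 2) =ᶠ[𝓝 z] fun x => (2 * h x) • fderiv ℝ h x := by
    filter_upwards [h1] with x hx
    have hd : HasFDerivAt h (fderiv ℝ h x) x := (hx.differentiableAt (by norm_num)).hasFDerivAt
    have := hd.pow 2
    rw [this.fderiv]
    simp
  have h3 : DifferentiableAt ℝ (fderiv ℝ h) z :=
    (hh.fderiv_right (m := 1) (by norm_num)).differentiableAt (by norm_num)
  have h4 : HasFDerivAt (fun x => 2 * h x) (2 • fderiv ℝ h z) z := by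
    have := (hh.differentiableAt (by norm_num)).hasFDerivAt.const_mul (2 : ℝ)
    simpa [two_smul, two_mul] using this
  have h5 : HasFDerivAt (fun x => (2 * h x) • fderiv ℝ h x) _ z := h4.smul h3.hasFDerivAt
  rw [h2.fderiv_eq, h5.fderiv]
  simp [ContinuousLinearMap.smulRight_apply]
  ring

theorem lap_sq (G : Matrix (Fin n) (Fin n) ℂ) {u : Cn n → ℝ} {z : Cn n}
    (hu : ContDiffAt ℝ 2 u z) :
    ((G * cH (fun x => u x ^ 2) z).trace).re = 2 * u z * ((G * cH u z).trace).re +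
      2 * ∑ p, ∑ p', tau G p p' * fderiv ℝ u z (Tl n (ee p)) * fderiv ℝ u z (Tl n (ee p')) := by
  rw [tr_cH, tr_cH, Finset.mul_sum, Finset.mul_sum, ← Finset.sum_add_distrib]
  refine Finset.sum_congr rfl fun p _ => ?_
  rw [Finset.mul_sum, Finset.mul_sum, ← Finset.sum_add_distrib]
  refine Finset.sum_congr rfl fun p' _ => ?_
  rw [fd2_sq hu]
  ring

theorem norm_sq_le (L : Cn n →L[ℝ] ℝ) : ‖L‖ ^ 2 ≤ ∑ p, (L (Tl n (ee p))) ^ 2 := by
  set S := ∑ p, (L (Tl n (ee p))) ^ 2 with hS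
  have hS0 : 0 ≤ S := Finset.sum_nonneg fun p _ => sq_nonneg _
  have h1 : ‖L‖ ≤ Real.sqrt S := by
    refine ContinuousLinearMap.opNorm_le_bound _ (Real.sqrt_nonneg _) fun v => ?_
    obtain ⟨ξ, rfl⟩ := (Tl n).surjective v
    rw [(Tl n).norm_map]
    have e : L (Tl n ξ) = ∑ p, ξ p * L (Tl n (ee p)) := by
      conv_lhs => rw [Crest.Agent.R238.Sch.sum_ee ξ]
      rw [map_sum, map_sum]
      refine Finset.sum_congr rfl fun p _ => ?_
      rw [map_smul, map_smul, smul_eq_mul]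
    rw [e, Real.norm_eq_abs, ← Real.sqrt_sq_eq_abs, EuclideanSpace.norm_eq,
      ← Real.sqrt_mul hS0]
    refine Real.sqrt_le_sqrt ?_
    have := Finset.sum_mul_sq_le_sq_mul_sq Finset.univ (fun p => ξ p) (fun p => L (Tl n (ee p)))
    refine this.trans (le_of_eq ?_)
    rw [mul_comm]
    congr 1
    refine Finset.sum_congr rfl fun p _ => ?_
    rw [Real.norm_eq_abs, sq_abs]
  calc ‖L‖ ^ 2 ≤ Real.sqrt S ^ 2 := by gcongr
    _ = S := Real.sq_sqrt hS0

/-- lower bound of the gradient term -/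
theorem grad_lb {lo hi : ℝ} (hlo : 0 ≤ lo) {G : Matrix (Fin n) (Fin n) ℂ} (hG : EllC lo hi G)
    (L : Cn n →L[ℝ] ℝ) :
    lo / 4 * ‖L‖ ^ 2 ≤ ∑ p, ∑ p', tau G p p' * L (Tl n (ee p)) * L (Tl n (ee p')) := by
  have h1 := ((ell_tau hG).2 fun p => L (Tl n (ee p))).1
  refine le_trans ?_ h1
  exact mul_le_mul_of_nonneg_left (norm_sq_le L) (by positivity)

end loc

variable {n : ℕ} {M : Type} [TopologicalSpace M] {A : Atl n M}

/-- the square of the gradient -/
def Dg (K : Kah A) (v : M → ℝ) (x : M) : ℝ :=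
  (1 / 2) * Lap K (fun y => v y ^ 2) x - v x * Lap K v x

theorem sm_sq {v : M → ℝ} (hv : A.Sm v) : A.Sm (fun y => v y ^ 2) := fun i => (hv i).pow 2

theorem Dg_lb (K : Kah A) {v : M → ℝ} (hv : A.Sm v) {i : A.ι} {z : Cn n}
    (hz : z ∈ (A.e i).target) {lo hi : ℝ} (hlo : 0 ≤ lo) (hG : EllC lo hi (gi K i z)) :
    lo / 4 * ‖fderiv ℝ (inC A i v) z‖ ^ 2 ≤ Dg K v ((A.e i).symm z) := by
  have h1 := isLap K (sm_sq hv) i z hz
  have h2 := isLap K hv i z hz
  have h3 := lap_sq (gi K i z) (YauCh_635.inC_c2 hv i hz)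
  have h4 : inC A i (fun y => v y ^ 2) = fun x => inC A i v x ^ 2 := rfl
  rw [h4, h3, h2] at h1
  unfold Dg
  have h5 : Lap K (fun y => v y ^ 2) ((A.e i).symm z) = inC A i (Lap K fun y => v y ^ 2) z := rfl
  rw [h5, ← h1]
  have h6 := grad_lb hlo hG (fderiv ℝ (inC A i v) z)
  have h7 : inC A i v z = v ((A.e i).symm z) := rfl
  have h8 : inC A i (Lap K v) z = Lap K v ((A.e i).symm z) := rfl
  rw [h7, h8]
  linarith

theorem Dg_nonneg (K : Kah A) {v : M → ℝ} (hv : A.Sm v) (x : M) : 0 ≤ Dg K v x := by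
  obtain ⟨i, hi⟩ := A.cover x
  have hz := (A.e i).map_source hi
  obtain ⟨lo, hi', hlo, -, hell⟩ := exists_ell (K := {A.e i x}) isCompact_singleton
    (G := gi K i) (fun a b => continuousOn_singleton _ _)
    (fun z hz' => by rw [mem_singleton_iff.1 hz']; exact (pg K).pos i _ hz)
  have := Dg_lb K hv hz hlo.le (hell _ (mem_singleton _))
  rw [(A.e i).left_inv hi] at this
  exact le_trans (by positivity) this

theorem continuous_Dg (K : Kah A) {v : M → ℝ} (hv : A.Sm v) : Continuous (Dg K v) :=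
  (continuous_const.mul (YauMax_635.continuous_of_sm (sm_Lap K (sm_sq hv)))).sub
    ((YauMax_635.continuous_of_sm hv).mul (YauMax_635.continuous_of_sm (sm_Lap K hv)))

/-! ### oscillation -/

/-- the oscillation is bounded by the gradient -/
theorem osc [CompactSpace M] [ConnectedSpace M] (B : Cb A) :
    ∃ C : ℝ, 0 < C ∧ ∀ (v : M → ℝ) (G : ℝ), A.Sm v → 0 ≤ G →
      (∀ k, ∀ z ∈ closedBall (B.z k) (B.r k / 2), ‖fderiv ℝ (inC A (B.i k) v) z‖ ≤ G) →
      ∀ x y, |v x - v y| ≤ C * G := by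
  have hfin := B.fin
  cases nonempty_fintype B.κ
  set P : M → M → Prop := fun x y => ∃ C : ℝ, 0 ≤ C ∧ ∀ (v : M → ℝ) (G : ℝ), A.Sm v → 0 ≤ G →
      (∀ k, ∀ z ∈ closedBall (B.z k) (B.r k / 2), ‖fderiv ℝ (inC A (B.i k) v) z‖ ≤ G) →
      |v x - v y| ≤ C * G with hP
  -- inside one half ball
  have hin : ∀ k, ∀ x y : M, x ∈ (A.e (B.i k)).source → y ∈ (A.e (B.i k)).source →
      A.e (B.i k) x ∈ closedBall (B.z k) (B.r k / 2) →
      A.e (B.i k) y ∈ closedBall (B.z k) (B.r k / 2) →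
      ∀ (v : M → ℝ) (G : ℝ), A.Sm v → 0 ≤ G →
      (∀ k, ∀ z ∈ closedBall (B.z k) (B.r k / 2), ‖fderiv ℝ (inC A (B.i k) v) z‖ ≤ G) →
      |v x - v y| ≤ 1 * G := by
    intro k x y hx hy hbx hby v G hv hG0 hG
    have h1 := (convex_closedBall (B.z k) (B.r k / 2)).norm_image_sub_le_of_norm_fderiv_le
      (𝕜 := ℝ) (f := inC A (B.i k) v) (C := G)
      (fun w hw => (YauCh_635.inC_c2 hv (B.i k) (B.sub' k hw)).differentiableAt (by norm_num))
      (fun w hw => hG k w hw) hby hbx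
    simp only [inC, (A.e (B.i k)).left_inv hx, (A.e (B.i k)).left_inv hy] at h1
    rw [Real.norm_eq_abs] at h1
    have h2 : ‖A.e (B.i k) x - A.e (B.i k) y‖ ≤ 1 := by
      rw [mem_closedBall, dist_eq_norm] at hbx hby
      have e : A.e (B.i k) x - A.e (B.i k) y =
          (A.e (B.i k) x - B.z k) - (A.e (B.i k) y - B.z k) := by abel
      rw [e]
      refine (norm_sub_le _ _).trans ?_
      linarith [B.r1 k]
    nlinarith
  have hsymm : Std.Symm P := ⟨by
    rintro x y ⟨C, hC0, hC⟩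
    refine ⟨C, hC0, fun v G hv hG0 hG => ?_⟩
    rw [abs_sub_comm]
    exact hC v G hv hG0 hG⟩
  have htrans : IsTrans M P := ⟨by
    rintro x y z ⟨C, hC0, hC⟩ ⟨C', hC0', hC'⟩
    refine ⟨C + C', by positivity, fun v G hv hG0 hG => ?_⟩
    have h1 := hC v G hv hG0 hG
    have h2 := hC' v G hv hG0 hG
    have h3 := abs_sub_le (v x) (v y) (v z)
    rw [add_mul]
    linarith⟩
  have hall : ∀ x y, P x y := by
    refine PreconnectedSpace.induction₂ P ?_ htrans
    intro x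
    obtain ⟨k, hk, hkb⟩ := B.cover x
    have ho : IsOpen ((A.e (B.i k)).source ∩ (A.e (B.i k)) ⁻¹' ball (B.z k) (B.r k / 2)) :=
      (A.e (B.i k)).isOpen_inter_preimage isOpen_ball
    filter_upwards [ho.mem_nhds ⟨hk, hkb⟩] with y hy
    exact ⟨1, zero_le_one, hin k x y hk hy.1 (ball_subset_closedBall hkb)
      (ball_subset_closedBall hy.2)⟩
  -- centres
  set c : B.κ → M := fun k => (A.e (B.i k)).symm (B.z k) with hc
  have hct : ∀ k, B.z k ∈ (A.e (B.i k)).target := fun k =>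
    B.sub k (mem_closedBall_self (B.r0 k).le)
  obtain ⟨x0⟩ : Nonempty M := inferInstance
  have hx0 : ∀ k, P x0 (c k) := fun k => hall _ _
  choose C hC0 hC using hx0
  have hsum : 0 ≤ ∑ k, C k := Finset.sum_nonneg fun k _ => hC0 k
  refine ⟨2 * (∑ k, C k + 1), by positivity, fun v G hv hG0 hG => ?_⟩
  have key : ∀ y, |v x0 - v y| ≤ (∑ k, C k + 1) * G := by
    intro y
    obtain ⟨k, hk, hkb⟩ := B.cover y
    have h1 := hC k v G hv hG0 hG
    have h2 := hin k (c k) y ((A.e (B.i k)).map_target (hct k)) hk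
      (by
        rw [hc]
        simp only [(A.e (B.i k)).right_inv (hct k)]
        exact mem_closedBall_self (by linarith [B.r0 k]))
      (ball_subset_closedBall hkb) v G hv hG0 hG
    have h3 := abs_sub_le (v x0) (v (c k)) (v y)
    have h4 : C k * G ≤ (∑ k, C k) * G :=
      mul_le_mul_of_nonneg_right (Finset.single_le_sum (f := C) (fun k _ => hC0 k)
        (Finset.mem_univ k)) hG0
    rw [add_mul]
    linarith
  intro x y
  have h1 := key x
  have h2 := key y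
  have h3 := abs_sub_le (v x) (v x0) (v y)
  rw [abs_sub_comm (v x) (v x0)] at h3
  linarith

end

end Crest.Agent.R273.SchI_152
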